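import Crest.Agent.Lib_Snaky.Root

set_option autoImplicit false
set_option linter.all false
set_option maxRecDepth 1000000

namespace Crest.Agent.Snaky

theorem Cert_L0 : PW ⟨10, nat_lit 7410693711188236507108543040556026102609279018600996098525285376506440296955904, nat_lit 45508793871051234273943630296025922293417007005653716677668879083109602343703143792209435868718528303908378110755310175150100779291922835607851939960667697640065492080090153724, 13, nat_lit 45508793871051234273943630296025922293417007005653716677668879083109602343703143792209435868718528303908378110755310175150100779291922835607851939960667697640065492080090153724⟩ :=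
  sound2 baseTbl baseTbl_ok
    (.seq (.seq (.seq (.seq (.seq (.seq (.seq (.one (.play 4 (.both (.play 3 (.ref 2 0)) (.play 5 (.ref 2 1)))))
 (.seq (.one (.play 1 (.both (.play 0 (.ref 3 0)) (.play 2 (.ref 3 1)))))
 (.one (.both (.ref 9 0) (.ref 8 1)))))
 (.seq (.seq (.one (.both (.play 64 (.ref 2 0)) (.play 5 (.ref 2 1))))
 (.one (.play 65 (.both (.play 64 (.ref 1 0)) (.play 66 (.ref 1 1))))))
 (.seq (.one (.play 65 (.both (.ref 9 0) (.ref 12 64))))
 (.one (.play 197 (.both (.play 195 (.both (.play 259 (.ref 6 3)) (.play 194 (.both (.ref 13 128) (.both (.play 133 (.ref 11 129)) (.play 198 (.ref 10 129))))))) (.play 261 (.ref 4 4))))))))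
 (.seq (.seq (.seq (.one (.play 65 (.both (.play 1 (.ref 5 0)) (.play 129 (.ref 5 64)))))
 (.one (.play 321 (.both (.play 320 (.both (.ref 15 0) (.play 385 (.ref 4 128)))) (.play 257 (.ref 4 64))))))
 (.seq (.one (.play 320 (.both (.play 321 (.both (.ref 15 1) (.play 384 (.ref 6 128)))) (.play 256 (.ref 6 64)))))
 (.one (.both (.ref 17 3) (.both (.ref 16 4) (.ref 14 64))))))
 (.seq (.seq (.one (.play 257 (.both (.play 193 (.ref 4 0)) (.play 321 (.ref 4 64)))))
 (.one (.play 64 (.both (.play 0 (.ref 7 0)) (.play 128 (.ref 7 64))))))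
 (.seq (.one (.play 322 (.both (.play 321 (.both (.ref 20 0) (.play 386 (.ref 4 129)))) (.play 258 (.ref 4 65)))))
 (.one (.play 65 (.both (.play 0 (.ref 7 0)) (.play 256 (.ref 6 64)))))))))
 (.seq (.seq (.seq (.one (.both (.play 64 (.both (.play 320 (.both (.ref 22 0) (.play 384 (.ref 6 128)))) (.play 128 (.ref 7 64)))) (.both (.ref 21 64) (.play 384 (.both (.play 320 (.ref 6 128)) (.play 385 (.both (.ref 19 129) (.play 448 (.ref 6 192)))))))))
 (.seq (.one (.play 256 (.both (.play 192 (.ref 6 0)) (.play 320 (.ref 6 64)))))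
 (.one (.play 64 (.both (.play 1 (.ref 5 0)) (.play 257 (.ref 4 64)))))))
 (.seq (.seq (.one (.play 321 (.both (.play 66 (.both (.play 322 (.both (.ref 25 1) (.play 386 (.ref 4 129)))) (.play 130 (.ref 5 65)))) (.both (.ref 17 64) (.play 386 (.both (.play 385 (.both (.ref 24 128) (.play 450 (.ref 4 193)))) (.play 322 (.ref 4 129))))))))
 (.one (.both (.play 64 (.ref 1 0)) (.play 5 (.ref 1 1)))))
 (.seq (.one (.play 68 (.both (.play 67 (.ref 0 0)) (.play 69 (.ref 0 1)))))
 (.one (.both (.ref 12 0) (.ref 28 1))))))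
 (.seq (.seq (.seq (.one (.both (.ref 8 0) (.ref 28 64)))
 (.one (.play 66 (.both (.play 68 (.both (.play 69 (.both (.play 70 (.ref 30 2)) (.both (.play 65 (.ref 29 64)) (.play 130 (.ref 27 65))))) (.play 4 (.ref 5 3)))) (.play 2 (.ref 7 2))))))
 (.seq (.one (.play 66 (.both (.play 65 (.both (.play 2 (.ref 5 1)) (.ref 24 64))) (.play 130 (.ref 5 65)))))
 (.one (.play 64 (.both (.play 65 (.both (.play 0 (.ref 7 0)) (.ref 24 64))) (.play 128 (.ref 7 64)))))))
 (.seq (.seq (.one (.play 64 (.both (.play 65 (.both (.play 0 (.ref 7 0)) (.ref 15 1))) (.play 128 (.ref 7 64)))))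
 (.one (.both (.ref 34 2) (.both (.ref 33 2) (.both (.ref 32 2) (.ref 31 64))))))
 (.seq (.one (.both (.play 65 (.ref 7 0)) (.play 321 (.ref 7 64))))
 (.one (.both (.play 0 (.ref 4 0)) (.play 321 (.ref 36 64)))))))))
 (.seq (.seq (.seq (.seq (.one (.play 1 (.both (.play 0 (.ref 0 0)) (.play 66 (.ref 3 1)))))
 (.seq (.one (.both (.ref 38 0) (.play 70 (.ref 3 2))))
 (.one (.both (.play 0 (.ref 0 0)) (.play 4 (.ref 0 1))))))
 (.seq (.seq (.one (.both (.play 1 (.ref 40 0)) (.play 70 (.ref 3 2))))
 (.one (.play 5 (.both (.play 69 (.both (.ref 9 0) (.play 6 (.ref 2 2)))) (.play 4 (.ref 2 1))))))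
 (.seq (.one (.play 193 (.both (.play 257 (.ref 5 1)) (.play 192 (.ref 1 128)))))
 (.one (.both (.play 1 (.ref 6 0)) (.play 257 (.ref 6 64)))))))
 (.seq (.seq (.seq (.one (.both (.play 1 (.ref 5 0)) (.play 320 (.ref 5 64))))
 (.one (.play 193 (.both (.play 257 (.ref 45 1)) (.play 192 (.ref 1 128))))))
 (.seq (.one (.both (.play 1 (.ref 6 0)) (.play 320 (.ref 5 64))))
 (.one (.play 4 (.both (.play 3 (.ref 1 0)) (.play 5 (.ref 2 1)))))))
 (.seq (.seq (.one (.play 65 (.both (.play 64 (.ref 2 0)) (.ref 12 64))))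
 (.one (.both (.play 0 (.ref 0 0)) (.play 69 (.ref 0 1)))))
 (.seq (.one (.play 65 (.both (.play 64 (.both (.play 1 (.ref 5 0)) (.ref 19 64))) (.play 129 (.ref 5 64)))))
 (.one (.play 64 (.both (.play 65 (.both (.play 0 (.ref 7 0)) (.ref 19 65))) (.play 128 (.ref 7 64)))))))))
 (.seq (.seq (.seq (.seq (.one (.play 66 (.both (.play 65 (.both (.ref 20 0) (.play 2 (.ref 5 1)))) (.play 130 (.ref 5 65)))))
 (.one (.both (.ref 53 3) (.both (.ref 52 3) (.both (.ref 51 4) (.play 133 (.both (.play 131 (.both (.play 130 (.both (.ref 13 64) (.both (.play 197 (.ref 50 129)) (.play 134 (.ref 29 129))))) (.play 67 (.ref 7 67)))) (.play 69 (.ref 5 68)))))))))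
 (.seq (.one (.play 257 (.both (.play 64 (.ref 7 0)) (.play 322 (.ref 4 65)))))
 (.one (.both (.play 0 (.ref 7 0)) (.play 322 (.both (.ref 55 64) (.play 258 (.ref 4 65))))))))
 (.seq (.seq (.one (.play 257 (.both (.play 64 (.ref 7 0)) (.play 320 (.ref 6 64)))))
 (.one (.play 64 (.both (.play 0 (.ref 7 0)) (.play 320 (.both (.play 256 (.ref 6 64)) (.ref 57 64)))))))
 (.seq (.one (.both (.play 64 (.ref 5 0)) (.play 320 (.ref 5 64))))
 (.one (.play 256 (.both (.play 193 (.ref 6 0)) (.play 128 (.ref 59 0))))))))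
 (.seq (.seq (.seq (.one (.both (.play 1 (.ref 6 0)) (.play 320 (.ref 59 64))))
 (.one (.play 256 (.both (.play 65 (.ref 5 0)) (.play 321 (.ref 4 64))))))
 (.seq (.one (.play 65 (.both (.play 1 (.ref 5 0)) (.play 321 (.both (.play 257 (.ref 4 64)) (.ref 62 64))))))
 (.one (.play 320 (.both (.play 321 (.both (.ref 51 1) (.play 384 (.ref 6 128)))) (.both (.play 65 (.both (.ref 63 1) (.play 256 (.ref 6 64)))) (.both (.play 256 (.ref 61 64)) (.ref 60 128))))))))
 (.seq (.seq (.one (.play 68 (.both (.play 1 (.ref 3 0)) (.play 5 (.ref 2 1)))))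
 (.one (.play 5 (.both (.play 1 (.both (.play 0 (.ref 3 0)) (.ref 65 1))) (.play 4 (.ref 2 1))))))
 (.seq (.one (.play 129 (.both (.play 65 (.both (.ref 9 0) (.play 128 (.ref 1 64)))) (.play 130 (.ref 1 65)))))
 (.one (.play 195 (.both (.play 197 (.both (.play 261 (.ref 4 4)) (.play 194 (.both (.ref 67 128) (.both (.play 133 (.ref 11 129)) (.ref 66 129)))))) (.play 259 (.ref 6 3)))))))))))
 (.seq (.seq (.seq (.seq (.seq (.one (.play 320 (.both (.play 66 (.both (.play 65 (.both (.play 2 (.ref 5 1)) (.play 256 (.ref 6 64)))) (.play 130 (.ref 5 65)))) (.play 384 (.ref 6 128)))))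
 (.seq (.one (.both (.ref 69 3) (.both (.play 325 (.both (.play 67 (.both (.play 68 (.both (.play 3 (.ref 7 3)) (.play 261 (.ref 4 68)))) (.play 131 (.ref 7 67)))) (.play 389 (.ref 4 132)))) (.ref 68 128))))
 (.one (.play 321 (.both (.play 65 (.both (.ref 25 0) (.play 129 (.ref 5 64)))) (.play 385 (.ref 4 128)))))))
 (.seq (.seq (.one (.both (.play 0 (.ref 4 0)) (.play 256 (.ref 4 64))))
 (.one (.play 64 (.both (.play 192 (.ref 72 0)) (.play 129 (.ref 7 64))))))
 (.seq (.one (.both (.play 64 (.ref 72 0)) (.play 385 (.ref 7 128))))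
 (.one (.play 128 (.both (.play 192 (.ref 74 0)) (.both (.ref 73 0) (.both (.play 129 (.both (.play 64 (.ref 7 64)) (.ref 16 65))) (.play 385 (.both (.ref 71 65) (.play 192 (.ref 7 128))))))))))))
 (.seq (.seq (.seq (.one (.both (.play 132 (.ref 35 1)) (.both (.ref 75 3) (.both (.play 388 (.ref 70 64)) (.both (.ref 64 67) (.play 388 (.both (.ref 58 131) (.both (.play 195 (.ref 56 131)) (.ref 14 192)))))))))
 (.one (.play 257 (.both (.play 192 (.ref 4 0)) (.play 129 (.ref 36 0))))))
 (.seq (.one (.play 321 (.both (.ref 33 0) (.play 386 (.ref 4 129)))))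
 (.one (.play 322 (.both (.ref 78 0) (.both (.play 65 (.both (.ref 58 0) (.play 258 (.ref 4 65)))) (.both (.play 258 (.ref 37 65)) (.ref 77 129))))))))
 (.seq (.seq (.one (.play 320 (.both (.play 321 (.both (.ref 20 0) (.play 384 (.ref 6 128)))) (.play 256 (.ref 6 64)))))
 (.one (.play 65 (.both (.play 193 (.ref 44 0)) (.play 128 (.ref 5 64))))))
 (.seq (.one (.both (.play 65 (.ref 44 0)) (.play 384 (.ref 5 128))))
 (.one (.play 130 (.both (.play 194 (.ref 82 1)) (.both (.ref 81 1) (.both (.play 129 (.both (.ref 80 64) (.play 66 (.ref 5 65)))) (.play 385 (.both (.play 384 (.both (.play 128 (.both (.ref 22 64) (.play 192 (.ref 7 128)))) (.play 448 (.ref 6 192)))) (.play 194 (.ref 5 129)))))))))))))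
 (.seq (.seq (.seq (.one (.play 256 (.both (.play 192 (.ref 6 0)) (.play 257 (.both (.play 66 (.ref 5 1)) (.play 320 (.ref 6 64)))))))
 (.seq (.one (.play 66 (.both (.play 2 (.ref 5 1)) (.ref 84 64))))
 (.one (.play 1 (.both (.play 64 (.ref 1 0)) (.play 68 (.ref 0 1)))))))
 (.seq (.seq (.one (.play 4 (.both (.play 3 (.ref 2 0)) (.play 68 (.both (.play 5 (.ref 2 1)) (.ref 28 64))))))
 (.one (.play 68 (.both (.play 66 (.both (.play 69 (.both (.ref 87 2) (.both (.play 129 (.both (.play 133 (.both (.ref 86 64) (.play 134 (.ref 0 66)))) (.play 130 (.ref 1 65)))) (.play 130 (.ref 27 65))))) (.play 2 (.ref 7 2)))) (.play 4 (.ref 5 3))))))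
 (.seq (.one (.play 259 (.both (.ref 88 0) (.both (.ref 85 2) (.play 66 (.ref 56 2))))))
 (.one (.play 321 (.both (.play 65 (.both (.play 1 (.ref 5 0)) (.ref 62 64))) (.play 257 (.ref 4 64))))))))
 (.seq (.seq (.seq (.one (.both (.play 192 (.ref 4 0)) (.play 321 (.ref 7 64))))
 (.one (.play 68 (.both (.play 65 (.ref 3 0)) (.play 69 (.ref 3 1))))))
 (.seq (.one (.both (.play 0 (.ref 0 0)) (.ref 92 1)))
 (.one (.play 1 (.both (.play 256 (.ref 6 0)) (.play 194 (.ref 4 1)))))))
 (.seq (.seq (.one (.play 260 (.both (.play 194 (.both (.play 193 (.both (.play 196 (.both (.play 3 (.ref 4 3)) (.play 261 (.ref 0 193)))) (.play 192 (.ref 0 192)))) (.both (.ref 94 2) (.play 193 (.ref 93 192))))) (.play 324 (.ref 4 67)))))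
 (.one (.both (.play 1 (.ref 6 0)) (.play 128 (.ref 5 64)))))
 (.seq (.one (.play 320 (.both (.play 192 (.ref 96 0)) (.play 257 (.ref 6 64)))))
 (.one (.both (.play 0 (.ref 4 0)) (.play 321 (.ref 4 64)))))))))
 (.seq (.seq (.seq (.seq (.one (.play 257 (.both (.ref 24 0) (.play 66 (.ref 5 1)))))
 (.seq (.one (.both (.play 0 (.ref 4 0)) (.play 321 (.ref 91 64))))
 (.one (.play 257 (.both (.ref 58 0) (.play 322 (.ref 4 65)))))))
 (.seq (.seq (.one (.play 129 (.both (.ref 33 0) (.play 322 (.ref 4 129)))))
 (.one (.play 386 (.both (.ref 102 0) (.both (.ref 101 128) (.play 322 (.ref 100 129)))))))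
 (.seq (.one (.play 320 (.both (.play 65 (.both (.ref 20 0) (.play 256 (.ref 6 64)))) (.play 384 (.ref 6 128)))))
 (.one (.play 130 (.both (.play 129 (.both (.ref 104 0) (.play 66 (.ref 5 65)))) (.both (.play 194 (.ref 82 1)) (.play 385 (.both (.ref 104 64) (.play 194 (.ref 5 129)))))))))))
 (.seq (.seq (.seq (.one (.play 321 (.both (.play 64 (.both (.ref 15 0) (.play 257 (.ref 4 64)))) (.play 385 (.ref 4 128)))))
 (.one (.play 322 (.both (.play 64 (.both (.play 0 (.ref 7 0)) (.ref 55 64))) (.play 258 (.ref 4 65))))))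
 (.seq (.one (.play 257 (.both (.play 64 (.ref 7 0)) (.play 66 (.ref 5 1)))))
 (.one (.play 258 (.both (.play 1 (.both (.ref 24 0) (.play 194 (.ref 4 1)))) (.play 322 (.ref 4 65)))))))
 (.seq (.seq (.one (.play 129 (.both (.ref 53 0) (.both (.ref 52 0) (.ref 90 65)))))
 (.one (.both (.play 65 (.ref 96 0)) (.play 384 (.ref 5 128)))))
 (.seq (.one (.play 257 (.both (.ref 63 1) (.play 320 (.ref 6 64)))))
 (.one (.play 129 (.both (.ref 34 0) (.both (.play 64 (.both (.play 65 (.both (.play 0 (.ref 7 0)) (.play 258 (.both (.play 194 (.both (.play 1 (.ref 4 1)) (.play 449 (.ref 5 193)))) (.play 322 (.ref 4 65)))))) (.play 128 (.ref 7 64)))) (.ref 15 65)))))))))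
 (.seq (.seq (.seq (.seq (.one (.play 256 (.both (.play 65 (.ref 5 0)) (.ref 19 0))))
 (.one (.play 65 (.both (.play 1 (.ref 5 0)) (.ref 114 64)))))
 (.seq (.one (.both (.play 0 (.ref 4 0)) (.play 129 (.ref 7 64))))
 (.one (.both (.play 64 (.ref 116 0)) (.play 385 (.ref 7 128))))))
 (.seq (.seq (.one (.both (.ref 34 0) (.both (.ref 32 0) (.play 384 (.both (.play 128 (.both (.play 64 (.ref 7 64)) (.ref 57 128))) (.play 320 (.ref 6 128)))))))
 (.one (.play 4 (.both (.play 65 (.ref 1 0)) (.play 69 (.ref 0 1))))))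
 (.seq (.one (.play 69 (.both (.play 65 (.both (.play 64 (.ref 1 0)) (.ref 119 1))) (.play 68 (.ref 0 1)))))
 (.one (.play 1 (.both (.play 65 (.both (.play 0 (.ref 3 0)) (.ref 28 65))) (.play 2 (.ref 3 1))))))))
 (.seq (.seq (.seq (.one (.play 65 (.both (.play 64 (.ref 2 0)) (.play 2 (.ref 1 1)))))
 (.one (.both (.ref 122 0) (.play 6 (.ref 1 2)))))
 (.seq (.one (.play 65 (.both (.play 64 (.ref 2 0)) (.play 68 (.ref 2 1)))))
 (.one (.both (.ref 124 0) (.play 6 (.ref 1 2))))))
 (.seq (.seq (.one (.both (.play 1 (.ref 1 0)) (.play 5 (.ref 1 1))))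
 (.one (.play 195 (.both (.play 259 (.ref 47 3)) (.play 128 (.ref 0 128))))))
 (.seq (.one (.both (.play 196 (.both (.ref 127 0) (.play 197 (.ref 0 129)))) (.play 69 (.ref 2 65))))
 (.one (.play 132 (.both (.ref 69 3) (.both (.ref 71 4) (.ref 14 128))))))))))))
 (.seq (.seq (.seq (.seq (.seq (.seq (.one (.play 256 (.both (.play 192 (.both (.play 1 (.ref 6 0)) (.play 449 (.ref 7 192)))) (.play 320 (.ref 6 64)))))
 (.seq (.one (.play 129 (.both (.ref 53 0) (.both (.play 66 (.both (.play 65 (.both (.ref 130 0) (.play 2 (.ref 5 1)))) (.play 130 (.ref 5 65)))) (.ref 20 64)))))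
 (.one (.play 1 (.both (.play 65 (.both (.play 0 (.ref 3 0)) (.ref 12 64))) (.play 2 (.ref 3 1)))))))
 (.seq (.seq (.one (.play 260 (.both (.ref 58 3) (.both (.ref 107 3) (.ref 14 64)))))
 (.one (.play 129 (.both (.ref 34 0) (.play 322 (.ref 4 129))))))
 (.seq (.one (.play 129 (.both (.ref 53 0) (.play 320 (.ref 6 128)))))
 (.one (.both (.play 0 (.ref 3 0)) (.play 69 (.ref 3 1)))))))
 (.seq (.seq (.seq (.one (.both (.play 1 (.ref 6 0)) (.play 320 (.ref 6 64))))
 (.one (.both (.play 1 (.ref 6 0)) (.play 320 (.both (.play 257 (.ref 6 64)) (.play 384 (.ref 5 128)))))))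
 (.seq (.one (.play 68 (.both (.play 3 (.ref 0 0)) (.play 69 (.ref 3 1)))))
 (.one (.play 68 (.both (.play 0 (.ref 0 0)) (.ref 139 1))))))
 (.seq (.seq (.one (.play 67 (.both (.play 3 (.ref 6 2)) (.play 68 (.ref 2 64)))))
 (.one (.play 132 (.both (.ref 141 1) (.play 193 (.both (.play 65 (.both (.play 64 (.ref 3 64)) (.play 133 (.both (.play 66 (.ref 3 65)) (.play 194 (.ref 2 129)))))) (.play 192 (.ref 1 128))))))))
 (.seq (.one (.play 5 (.both (.play 69 (.both (.play 6 (.ref 2 2)) (.ref 12 64))) (.play 4 (.ref 2 1)))))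
 (.one (.both (.play 0 (.ref 4 0)) (.play 321 (.ref 7 64))))))))
 (.seq (.seq (.seq (.one (.play 65 (.both (.ref 86 0) (.play 66 (.ref 1 1)))))
 (.seq (.one (.play 68 (.both (.play 1 (.ref 3 0)) (.play 129 (.ref 1 64)))))
 (.one (.play 129 (.both (.play 1 (.both (.play 0 (.ref 3 0)) (.ref 146 1))) (.play 128 (.ref 1 64)))))))
 (.seq (.seq (.one (.play 65 (.both (.play 0 (.ref 3 0)) (.play 132 (.ref 0 65)))))
 (.one (.play 1 (.both (.ref 148 0) (.play 2 (.ref 3 1))))))
 (.seq (.one (.play 66 (.both (.ref 149 0) (.both (.ref 147 1) (.ref 145 64)))))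
 (.one (.play 68 (.both (.ref 8 0) (.play 69 (.ref 1 65))))))))
 (.seq (.seq (.seq (.one (.play 69 (.both (.ref 151 2) (.ref 12 64))))
 (.one (.play 192 (.both (.play 257 (.ref 4 0)) (.play 256 (.ref 5 0))))))
 (.seq (.one (.play 193 (.both (.play 257 (.ref 6 1)) (.play 132 (.both (.play 192 (.ref 2 128)) (.play 133 (.ref 1 129)))))))
 (.one (.play 3 (.both (.play 68 (.ref 0 0)) (.play 4 (.ref 1 0)))))))
 (.seq (.seq (.one (.play 133 (.both (.play 68 (.both (.play 4 (.ref 5 3)) (.ref 155 66))) (.both (.play 260 (.both (.play 324 (.ref 4 67)) (.play 193 (.both (.play 132 (.ref 1 129)) (.play 192 (.ref 0 192)))))) (.play 132 (.both (.play 134 (.ref 3 66)) (.play 193 (.ref 1 129))))))))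
 (.one (.both (.ref 156 0) (.play 323 (.ref 7 66)))))
 (.seq (.one (.play 67 (.both (.play 68 (.ref 3 0)) (.play 4 (.ref 2 0)))))
 (.one (.play 65 (.both (.play 64 (.ref 2 0)) (.play 128 (.ref 1 64))))))))))
 (.seq (.seq (.seq (.seq (.one (.play 193 (.both (.play 257 (.ref 7 0)) (.play 258 (.ref 4 1)))))
 (.seq (.one (.both (.play 64 (.ref 2 0)) (.play 5 (.both (.play 68 (.ref 2 1)) (.play 6 (.ref 1 2))))))
 (.one (.play 257 (.both (.ref 19 1) (.play 321 (.ref 7 64)))))))
 (.seq (.seq (.one (.play 67 (.both (.play 258 (.ref 47 2)) (.play 68 (.ref 2 64)))))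
 (.one (.play 68 (.both (.play 67 (.ref 3 0)) (.ref 155 1)))))
 (.seq (.one (.play 65 (.both (.play 256 (.ref 6 0)) (.play 258 (.ref 4 1)))))
 (.one (.play 65 (.both (.play 0 (.ref 7 0)) (.play 1 (.ref 6 0))))))))
 (.seq (.seq (.seq (.one (.play 69 (.both (.ref 8 1) (.ref 12 64))))
 (.one (.play 68 (.both (.play 64 (.ref 30 0)) (.both (.ref 167 0) (.play 69 (.ref 29 64)))))))
 (.seq (.one (.both (.play 4 (.ref 2 0)) (.play 132 (.ref 0 64))))
 (.one (.play 65 (.both (.play 1 (.both (.play 64 (.ref 1 0)) (.ref 28 1))) (.play 66 (.ref 1 1)))))))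
 (.seq (.seq (.one (.play 65 (.both (.ref 20 0) (.play 1 (.ref 4 1)))))
 (.one (.play 68 (.both (.play 1 (.ref 3 0)) (.ref 8 0)))))
 (.seq (.one (.play 65 (.both (.play 4 (.ref 2 1)) (.play 128 (.ref 1 64)))))
 (.one (.play 129 (.both (.play 5 (.both (.ref 173 0) (.play 6 (.ref 2 2)))) (.play 130 (.ref 1 65)))))))))
 (.seq (.seq (.seq (.seq (.one (.play 69 (.both (.ref 174 0) (.both (.play 130 (.both (.ref 146 2) (.play 129 (.ref 1 65)))) (.ref 172 2)))))
 (.one (.play 68 (.both (.play 1 (.ref 3 0)) (.play 133 (.ref 0 65))))))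
 (.seq (.one (.play 132 (.both (.ref 176 0) (.play 131 (.ref 0 64)))))
 (.one (.play 70 (.both (.ref 8 2) (.play 131 (.both (.play 132 (.both (.play 64 (.ref 0 64)) (.play 71 (.ref 1 67)))) (.play 130 (.ref 1 66)))))))))
 (.seq (.seq (.one (.play 68 (.both (.play 1 (.ref 3 0)) (.ref 28 64))))
 (.one (.play 132 (.both (.play 68 (.ref 128 0)) (.both (.ref 179 65) (.ref 172 65))))))
 (.seq (.one (.play 68 (.both (.play 5 (.ref 2 1)) (.play 129 (.ref 1 64)))))
 (.one (.play 5 (.both (.play 129 (.both (.ref 181 1) (.play 128 (.ref 1 64)))) (.play 4 (.ref 2 1))))))))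
 (.seq (.seq (.seq (.one (.play 129 (.both (.ref 173 0) (.play 130 (.ref 1 65)))))
 (.one (.both (.ref 20 0) (.ref 24 64))))
 (.seq (.one (.play 65 (.both (.ref 20 0) (.ref 15 1))))
 (.one (.play 129 (.both (.ref 185 0) (.both (.play 320 (.ref 137 64)) (.play 385 (.ref 184 64))))))))
 (.seq (.seq (.one (.play 323 (.both (.play 195 (.both (.ref 186 2) (.play 196 (.ref 2 192)))) (.play 324 (.ref 0 256)))))
 (.one (.play 129 (.both (.play 65 (.both (.ref 48 1) (.play 128 (.ref 1 64)))) (.play 130 (.ref 1 65))))))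
 (.seq (.one (.play 321 (.both (.play 196 (.both (.play 129 (.both (.play 65 (.ref 98 1)) (.play 128 (.both (.play 64 (.ref 7 64)) (.play 195 (.ref 3 128)))))) (.play 197 (.ref 2 193)))) (.play 320 (.ref 1 256)))))
 (.one (.play 68 (.both (.play 0 (.ref 3 0)) (.ref 179 1))))))))))
 (.seq (.seq (.seq (.seq (.seq (.one (.play 66 (.both (.play 2 (.ref 4 2)) (.ref 43 64))))
 (.seq (.one (.play 132 (.both (.ref 141 1) (.play 192 (.ref 1 128)))))
 (.one (.both (.ref 192 0) (.both (.play 194 (.both (.ref 191 0) (.play 260 (.ref 50 192)))) (.play 194 (.both (.ref 191 0) (.play 132 (.both (.ref 141 1) (.play 133 (.ref 2 129)))))))))))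
 (.seq (.seq (.one (.play 132 (.both (.play 196 (.both (.play 260 (.ref 7 3)) (.play 197 (.ref 0 129)))) (.play 64 (.ref 3 64)))))
 (.one (.play 130 (.both (.ref 194 0) (.play 128 (.ref 2 64))))))
 (.seq (.one (.play 192 (.both (.play 256 (.ref 138 0)) (.play 194 (.ref 2 128)))))
 (.one (.both (.ref 24 0) (.ref 19 1))))))
 (.seq (.seq (.seq (.one (.both (.ref 20 0) (.ref 19 65)))
 (.one (.play 257 (.both (.play 321 (.both (.play 65 (.ref 184 0)) (.both (.play 385 (.ref 198 64)) (.play 385 (.ref 197 128))))) (.both (.play 321 (.both (.play 65 (.ref 198 0)) (.both (.play 385 (.ref 184 64)) (.play 385 (.ref 197 128))))) (.both (.ref 196 64) (.ref 195 128)))))))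
 (.seq (.one (.both (.ref 15 1) (.ref 24 64)))
 (.one (.play 129 (.both (.play 65 (.ref 184 0)) (.both (.ref 185 0) (.play 385 (.ref 200 64))))))))
 (.seq (.seq (.one (.play 321 (.both (.ref 201 0) (.both (.ref 196 128) (.both (.play 322 (.both (.play 386 (.ref 100 129)) (.ref 194 192))) (.ref 195 192))))))
 (.one (.play 64 (.both (.play 2 (.ref 1 0)) (.play 66 (.ref 2 0))))))
 (.seq (.one (.play 193 (.both (.play 192 (.both (.play 256 (.ref 61 0)) (.play 194 (.ref 2 128)))) (.both (.play 194 (.both (.play 258 (.both (.play 1 (.ref 4 1)) (.play 322 (.both (.play 257 (.ref 4 65)) (.play 130 (.ref 7 65)))))) (.ref 194 64))) (.both (.ref 203 128) (.play 130 (.both (.play 196 (.ref 50 128)) (.play 192 (.ref 1 128)))))))))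
 (.one (.both (.play 0 (.ref 3 0)) (.play 128 (.ref 1 64))))))))
 (.seq (.seq (.seq (.one (.both (.ref 15 0) (.ref 19 64)))
 (.seq (.one (.both (.play 0 (.ref 7 0)) (.play 66 (.ref 45 1))))
 (.one (.play 67 (.both (.play 134 (.both (.play 66 (.both (.play 65 (.ref 11 0)) (.play 133 (.ref 0 66)))) (.play 135 (.ref 0 67)))) (.play 131 (.both (.ref 153 3) (.play 130 (.ref 1 66)))))))))
 (.seq (.seq (.one (.play 193 (.both (.play 0 (.ref 7 0)) (.play 321 (.both (.play 128 (.ref 7 64)) (.play 66 (.ref 5 65)))))))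
 (.one (.play 65 (.both (.play 0 (.ref 7 0)) (.play 1 (.ref 4 1))))))
 (.seq (.one (.play 131 (.both (.play 259 (.both (.play 66 (.both (.ref 210 2) (.play 323 (.both (.play 130 (.ref 7 66)) (.play 322 (.ref 1 258)))))) (.both (.play 67 (.both (.play 3 (.ref 4 3)) (.play 322 (.both (.play 258 (.ref 6 66)) (.play 323 (.ref 1 258)))))) (.play 258 (.both (.play 257 (.ref 11 192)) (.ref 28 258)))))) (.play 324 (.ref 7 131)))))
 (.one (.play 1 (.both (.ref 12 0) (.play 68 (.ref 0 1))))))))
 (.seq (.seq (.seq (.one (.play 4 (.both (.play 3 (.ref 2 0)) (.ref 181 0))))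
 (.one (.play 321 (.both (.play 65 (.ref 206 1)) (.both (.play 130 (.ref 45 65)) (.play 385 (.ref 197 128)))))))
 (.seq (.one (.play 195 (.both (.play 259 (.both (.play 323 (.both (.play 132 (.ref 82 3)) (.both (.play 132 (.ref 111 3)) (.play 322 (.both (.play 386 (.ref 61 130)) (.play 260 (.ref 125 256))))))) (.both (.play 131 (.both (.ref 214 2) (.both (.play 130 (.ref 41 128)) (.play 198 (.both (.play 130 (.ref 3 130)) (.ref 213 131)))))) (.both (.play 198 (.both (.ref 42 130) (.play 258 (.ref 1 194)))) (.play 258 (.ref 125 192)))))) (.both (.play 194 (.both (.play 193 (.both (.ref 9 128) (.play 260 (.ref 0 193)))) (.play 262 (.ref 0 194)))) (.both (.ref 150 128) (.both (.play 194 (.both (.play 130 (.both (.play 129 (.ref 3 129)) (.play 198 (.both (.play 131 (.ref 3 130)) (.ref 12 193))))) (.play 262 (.ref 0 194)))) (.play 194 (.both (.ref 212 192) (.play 262 (.ref 0 194))))))))))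
 (.one (.both (.play 64 (.ref 2 0)) (.play 5 (.ref 126 1))))))
 (.seq (.seq (.one (.play 195 (.both (.play 196 (.both (.play 132 (.ref 82 3)) (.play 258 (.ref 216 192)))) (.both (.play 386 (.ref 138 130)) (.play 386 (.ref 61 130))))))
 (.one (.play 4 (.both (.play 3 (.ref 2 0)) (.ref 65 0)))))
 (.seq (.one (.play 64 (.both (.play 3 (.ref 2 0)) (.play 131 (.ref 0 64)))))
 (.one (.both (.ref 219 0) (.play 133 (.ref 0 65)))))))))
 (.seq (.seq (.seq (.seq (.one (.play 326 (.both (.play 327 (.both (.play 263 (.both (.ref 217 4) (.both (.play 391 (.both (.ref 186 70) (.both (.play 324 (.both (.ref 183 258) (.play 392 (.ref 0 324)))) (.both (.play 324 (.ref 220 259)) (.play 392 (.ref 93 324)))))) (.both (.play 324 (.both (.play 264 (.ref 2 260)) (.ref 170 322))) (.play 264 (.ref 216 260)))))) (.both (.ref 190 260) (.both (.play 328 (.both (.play 260 (.ref 3 260)) (.ref 172 261))) (.both (.play 328 (.both (.play 260 (.ref 3 260)) (.play 392 (.both (.play 324 (.both (.ref 8 260) (.play 391 (.ref 0 324)))) (.play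 393 (.ref 0 325)))))) (.play 328 (.both (.play 264 (.both (.play 392 (.ref 220 260)) (.play 265 (.ref 2 261)))) (.both (.ref 218 261) (.ref 177 261))))))))) (.both (.play 327 (.both (.play 263 (.both (.ref 217 4) (.both (.play 260 (.both (.play 389 (.both (.play 262 (.both (.play 196 (.both (.play 132 (.ref 72 68)) (.play 195 (.ref 3 195)))) (.ref 163 132))) (.both (.play 196 (.ref 74 68)) (.play 262 (.both (.ref 163 132) (.play 453 (.ref 45 197))))))) (.both (.play 259 (.ref 40 258)) (.ref 38 258)))) (.both (.play 391 (.both (.ref 201 70) (.both (.play 324 (.ref 169 260)) (.play 392 (.ref 93 324))))) (.play 264 (.ref 216 260)))))) (.both (.play 260 (.ref 39 258)) (.both (.ref 190 260) (.play 328 (.both (.play 324 (.ref 30 260)) (.both (.ref 179 261) (.ref 172 261)))))))) (.both (.play 260 (.both (.ref 215 64) (.both (.play 453 (.both (.play 327 (.both (.ref 211 65) (.play 328 (.ref 3 260)))) (.both (.ref 209 196) (.both (.play 389 (.ref 207 196)) (.both (.play 389 (.ref 56 196)) (.play 327 (.both (.ref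 208 257) (.play 328 (.ref 3 260))))))))) (.both (.play 327 (.ref 41 258)) (.play 327 (.ref 39 258)))))) (.both (.play 260 (.both (.ref 215 64) (.both (.play 327 (.both (.play 324 (.both (.play 388 (.both (.play 196 (.both (.ref 171 67) (.both (.play 132 (.ref 98 68)) (.play 452 (.both (.play 453 (.both (.play 389 (.ref 7 196)) (.play 517 (.ref 4 260)))) (.play 516 (.ref 5 260))))))) (.play 387 (.ref 1 323)))) (.both (.play 391 (.both (.play 263 (.both (.play 262 (.both (.play 198 (.ref 144 134)) (.play 323 (.ref 2 259)))) (.play 264 (.ref 2 260)))) (.play 392 (.ref 0 324)))) (.ref 188 258)))) (.play 328 (.ref 3 260)))) (.both (.play 327 (.ref 41 258)) (.play 327 (.ref 39 258)))))) (.both (.play 327 (.both (.play 260 (.both (.play 453 (.both (.ref 211 65) (.both (.ref 209 196) (.both (.play 389 (.ref 207 196)) (.both (.play 389 (.ref 56 196)) (.ref 208 257)))))) (.both (.play 259 (.ref 40 258)) (.ref 38 258)))) (.both (.ref 180 196) (.both (.play 260 (.ref 41 258)) (.play 260 (.ref 39 258)))))) (.both (.play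 389 (.both (.play 260 (.both (.play 196 (.ref 74 68)) (.both (.play 259 (.both (.ref 142 130) (.play 258 (.ref 0 258)))) (.both (.play 259 (.both (.play 262 (.both (.ref 152 194) (.play 453 (.ref 45 197)))) (.play 258 (.ref 0 258)))) (.play 453 (.ref 207 196)))))) (.both (.play 259 (.both (.play 323 (.both (.ref 202 66) (.both (.play 262 (.both (.play 198 (.both (.play 134 (.ref 6 133)) (.play 260 (.both (.play 199 (.ref 2 195)) (.play 322 (.ref 1 258)))))) (.both (.play 260 (.both (.ref 141 131) (.play 263 (.both (.ref 9 194) (.play 324 (.ref 2 259)))))) (.both (.ref 203 258) (.play 324 (.ref 11 258)))))) (.both (.play 260 (.ref 193 130)) (.both (.play 387 (.both (.play 451 (.both (.play 195 (.ref 206 131)) (.both (.play 515 (.ref 200 194)) (.play 515 (.ref 197 258))))) (.both (.play 386 (.both (.play 450 (.ref 138 194)) (.play 324 (.ref 1 322)))) (.both (.ref 196 194) (.ref 203 322))))) (.ref 204 194)))))) (.both (.play 323 (.both (.play 387 (.both (.play 258 (.both (.play 194 (.ref 117 66)) (.play 324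 (.ref 3 258)))) (.both (.ref 196 194) (.play 324 (.ref 205 258))))) (.both (.ref 199 130) (.both (.ref 204 194) (.play 324 (.both (.play 258 (.ref 3 258)) (.play 390 (.ref 50 322)))))))) (.both (.play 260 (.both (.play 262 (.both (.play 195 (.both (.play 196 (.both (.play 132 (.ref 72 68)) (.play 263 (.ref 3 195)))) (.play 194 (.ref 3 194)))) (.ref 141 131))) (.play 258 (.ref 0 258)))) (.both (.play 323 (.both (.ref 202 66) (.both (.play 387 (.both (.play 258 (.both (.play 194 (.ref 117 66)) (.play 260 (.ref 0 258)))) (.both (.play 260 (.both (.play 195 (.both (.play 194 (.both (.play 130 (.ref 7 130)) (.play 262 (.ref 3 194)))) (.play 388 (.both (.play 452 (.ref 4 195)) (.play 386 (.ref 2 322)))))) (.play 258 (.ref 0 258)))) (.both (.ref 196 194) (.play 388 (.both (.play 451 (.both (.play 260 (.both (.play 196 (.ref 5 195)) (.play 258 (.ref 0 258)))) (.play 450 (.both (.play 514 (.ref 6 258)) (.play 390 (.ref 1 386)))))) (.play 386 (.ref 2 322)))))))) (.both (.play 260 (.both (.ref 192 130) (.play 258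 (.ref 0 258)))) (.ref 199 130))))) (.play 260 (.both (.play 323 (.ref 193 130)) (.play 258 (.ref 0 258))))))))) (.both (.ref 133 193) (.play 453 (.ref 18 193)))))) (.both (.play 327 (.both (.play 260 (.both (.play 324 (.both (.play 263 (.both (.play 262 (.both (.play 196 (.both (.play 132 (.ref 98 68)) (.play 195 (.ref 3 195)))) (.play 323 (.ref 2 259)))) (.play 264 (.ref 2 260)))) (.both (.ref 189 67) (.both (.play 387 (.both (.play 389 (.both (.play 196 (.ref 144 132)) (.play 323 (.both (.play 322 (.both (.play 321 (.ref 2 257)) (.play 390 (.ref 0 322)))) (.play 386 (.ref 1 322)))))) (.play 388 (.ref 1 323)))) (.ref 188 258))))) (.both (.play 259 (.ref 40 258)) (.ref 38 258)))) (.both (.play 328 (.both (.play 324 (.both (.play 323 (.both (.play 258 (.both (.play 322 (.both (.play 257 (.ref 3 257)) (.play 262 (.ref 2 258)))) (.play 259 (.ref 3 258)))) (.ref 12 322))) (.ref 8 260))) (.both (.ref 179 261) (.play 265 (.both (.play 264 (.ref 2 261)) (.play 393 (.both (.play 329 (.ref 169 262)) (.play 392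 (.ref 0 325))))))))) (.both (.play 260 (.ref 39 258)) (.ref 190 260))))) (.both (.play 327 (.both (.play 260 (.both (.play 324 (.both (.ref 189 67) (.both (.play 387 (.both (.play 323 (.both (.play 390 (.both (.play 322 (.both (.play 321 (.ref 2 257)) (.play 389 (.ref 0 322)))) (.play 391 (.ref 0 323)))) (.play 386 (.ref 1 322)))) (.play 388 (.ref 1 323)))) (.both (.play 263 (.both (.play 323 (.both (.play 322 (.both (.play 321 (.ref 2 257)) (.ref 28 322))) (.play 262 (.ref 2 259)))) (.play 264 (.ref 2 260)))) (.ref 188 258))))) (.both (.play 259 (.ref 40 258)) (.ref 38 258)))) (.both (.play 260 (.ref 41 258)) (.both (.play 260 (.ref 39 258)) (.ref 175 259))))) (.both (.play 327 (.both (.play 324 (.both (.ref 187 68) (.both (.play 263 (.both (.ref 183 258) (.play 264 (.ref 2 260)))) (.play 391 (.both (.ref 145 322) (.play 392 (.ref 0 324))))))) (.both (.play 328 (.both (.play 264 (.both (.play 200 (.both (.play 262 (.both (.play 392 (.both (.play 201 (.both (.play 137 (.ref 5 136)) (.play 263 (.ref 2 197))))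 (.play 393 (.ref 0 325)))) (.ref 46 196))) (.both (.play 392 (.both (.play 391 (.ref 137 135)) (.play 393 (.ref 0 325)))) (.play 391 (.ref 61 135))))) (.play 265 (.ref 2 261)))) (.both (.ref 182 260) (.ref 179 261)))) (.both (.ref 180 196) (.both (.play 328 (.both (.play 392 (.both (.play 324 (.both (.play 323 (.both (.play 262 (.ref 11 258)) (.ref 12 322))) (.play 391 (.ref 0 324)))) (.play 393 (.ref 0 325)))) (.both (.play 329 (.both (.ref 178 260) (.both (.ref 87 262) (.ref 28 325)))) (.both (.play 329 (.both (.ref 178 260) (.play 262 (.ref 3 261)))) (.both (.ref 177 261) (.play 329 (.both (.play 262 (.ref 3 261)) (.play 394 (.both (.play 330 (.both (.ref 8 262) (.play 395 (.ref 0 327)))) (.play 393 (.ref 0 326))))))))))) (.both (.ref 175 259) (.ref 168 260))))))) (.both (.play 327 (.both (.play 324 (.both (.play 260 (.both (.play 388 (.both (.play 196 (.both (.ref 171 67) (.both (.play 132 (.ref 98 68)) (.play 452 (.both (.ref 19 196) (.play 516 (.ref 5 260))))))) (.play 387 (.ref 1 323)))) (.play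 259 (.ref 3 259)))) (.both (.play 259 (.both (.play 391 (.both (.ref 148 258) (.play 392 (.ref 0 324)))) (.play 260 (.ref 3 259)))) (.ref 170 322)))) (.both (.play 260 (.ref 39 258)) (.both (.play 328 (.both (.play 260 (.ref 3 260)) (.play 393 (.both (.play 265 (.both (.play 264 (.ref 2 261)) (.play 329 (.ref 169 262)))) (.play 392 (.ref 0 325)))))) (.ref 168 260))))) (.play 262 (.both (.play 260 (.both (.play 259 (.both (.play 195 (.both (.play 323 (.both (.play 196 (.both (.play 132 (.both (.play 68 (.ref 4 68)) (.play 387 (.ref 5 131)))) (.play 263 (.ref 3 195)))) (.play 322 (.ref 1 258)))) (.play 194 (.ref 3 194)))) (.play 258 (.ref 0 258)))) (.both (.play 263 (.both (.play 199 (.both (.play 135 (.both (.play 71 (.ref 6 70)) (.play 327 (.both (.play 390 (.ref 6 134)) (.play 328 (.ref 0 260)))))) (.play 200 (.ref 2 196)))) (.both (.ref 151 196) (.ref 164 260)))) (.play 259 (.ref 50 258))))) (.both (.play 260 (.both (.play 263 (.both (.play 327 (.both (.play 199 (.both (.play 134 (.both (.play 198 (.ref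 98 70)) (.both (.ref 166 70) (.ref 165 133)))) (.play 200 (.ref 2 196)))) (.play 328 (.ref 3 260)))) (.both (.play 200 (.both (.play 199 (.ref 2 196)) (.play 264 (.both (.play 201 (.ref 2 197)) (.play 265 (.ref 1 261)))))) (.ref 164 260)))) (.both (.play 259 (.both (.ref 163 131) (.play 258 (.ref 0 258)))) (.play 259 (.ref 50 258))))) (.both (.play 198 (.both (.play 134 (.ref 137 69)) (.play 199 (.both (.play 390 (.both (.play 135 (.ref 5 134)) (.play 454 (.both (.play 263 (.ref 5 198)) (.play 518 (.ref 7 261)))))) (.both (.play 390 (.both (.play 135 (.ref 5 134)) (.ref 162 197))) (.play 260 (.ref 161 195))))))) (.both (.play 198 (.both (.play 134 (.both (.play 70 (.ref 6 69)) (.play 327 (.both (.play 391 (.ref 4 134)) (.play 328 (.ref 136 260)))))) (.both (.play 389 (.ref 47 133)) (.play 390 (.both (.play 389 (.both (.play 391 (.both (.play 455 (.ref 4 198)) (.play 328 (.both (.play 327 (.ref 136 260)) (.both (.play 327 (.both (.play 260 (.ref 3 260)) (.play 388 (.ref 2 324)))) (.ref 158 325)))))) (.play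 453 (.ref 6 197)))) (.both (.play 455 (.both (.play 391 (.ref 4 198)) (.ref 160 261))) (.play 453 (.both (.play 389 (.ref 5 197)) (.play 454 (.both (.play 517 (.ref 6 261)) (.play 518 (.ref 7 261)))))))))))) (.play 389 (.both (.play 390 (.both (.play 388 (.both (.play 198 (.both (.play 134 (.ref 6 133)) (.play 451 (.both (.play 391 (.both (.play 455 (.ref 4 198)) (.play 452 (.ref 1 387)))) (.ref 159 322))))) (.both (.play 328 (.both (.play 391 (.both (.play 198 (.both (.play 134 (.ref 6 133)) (.play 455 (.ref 4 198)))) (.ref 158 325))) (.play 327 (.ref 1 324)))) (.play 387 (.ref 11 322))))) (.both (.play 454 (.both (.play 455 (.both (.play 198 (.both (.play 134 (.ref 6 133)) (.play 391 (.ref 4 198)))) (.play 519 (.ref 4 262)))) (.play 518 (.ref 7 261)))) (.both (.play 454 (.both (.play 198 (.both (.play 134 (.ref 6 133)) (.ref 15 134))) (.play 518 (.ref 7 261)))) (.play 454 (.ref 157 195)))))) (.both (.play 454 (.both (.play 390 (.ref 157 195)) (.both (.play 390 (.both (.ref 156 195) (.play 453 (.both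 (.ref 154 259) (.play 517 (.ref 5 261)))))) (.ref 153 261)))) (.play 453 (.ref 45 197))))))))))))))))))))))
 (.seq (.one (.play 131 (.both (.play 323 (.both (.play 66 (.both (.ref 166 2) (.play 130 (.ref 7 66)))) (.both (.play 130 (.ref 144 66)) (.ref 162 130)))) (.play 132 (.ref 2 128)))))
 (.one (.play 1 (.both (.play 65 (.both (.play 0 (.ref 3 0)) (.play 64 (.ref 2 0)))) (.play 2 (.ref 0 1)))))))
 (.seq (.seq (.one (.both (.play 0 (.ref 0 0)) (.play 69 (.ref 3 1))))
 (.one (.play 196 (.both (.play 68 (.both (.play 195 (.both (.play 259 (.both (.play 4 (.ref 6 3)) (.play 323 (.ref 7 66)))) (.play 128 (.ref 0 128)))) (.play 69 (.ref 2 65)))) (.play 197 (.ref 0 129))))))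
 (.seq (.one (.play 64 (.both (.ref 210 0) (.play 128 (.ref 7 64)))))
 (.one (.play 65 (.both (.play 64 (.both (.play 0 (.ref 4 0)) (.play 1 (.ref 5 0)))) (.play 129 (.ref 6 64))))))))
 (.seq (.seq (.seq (.one (.play 323 (.both (.play 322 (.both (.play 131 (.both (.play 67 (.both (.play 3 (.ref 4 3)) (.play 258 (.ref 6 66)))) (.play 386 (.ref 6 130)))) (.both (.play 131 (.both (.ref 171 2) (.play 386 (.ref 6 130)))) (.play 261 (.ref 123 256))))) (.play 387 (.ref 45 131)))))
 (.one (.play 1 (.both (.play 0 (.ref 3 0)) (.ref 218 1)))))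
 (.seq (.one (.play 260 (.both (.play 3 (.both (.play 4 (.ref 2 0)) (.play 196 (.ref 4 3)))) (.ref 160 66))))
 (.one (.play 129 (.both (.play 256 (.ref 137 0)) (.play 322 (.ref 4 65)))))))
 (.seq (.seq (.one (.play 129 (.both (.ref 94 0) (.play 322 (.ref 4 65)))))
 (.one (.play 131 (.both (.ref 166 2) (.play 132 (.ref 2 128))))))
 (.seq (.one (.play 193 (.both (.play 65 (.both (.ref 20 0) (.play 258 (.ref 4 65)))) (.play 386 (.ref 4 129)))))
 (.one (.play 1 (.both (.play 129 (.ref 6 0)) (.play 128 (.ref 5 0)))))))))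
 (.seq (.seq (.seq (.seq (.one (.play 195 (.both (.play 259 (.ref 4 2)) (.play 196 (.ref 3 128)))))
 (.one (.both (.play 1 (.ref 7 1)) (.ref 236 64))))
 (.seq (.one (.play 130 (.both (.play 258 (.ref 237 0)) (.play 2 (.ref 6 1)))))
 (.one (.play 0 (.both (.play 129 (.ref 7 0)) (.play 128 (.ref 4 0)))))))
 (.seq (.seq (.one (.play 258 (.both (.play 3 (.ref 5 2)) (.play 257 (.both (.play 321 (.ref 6 65)) (.play 256 (.ref 2 192)))))))
 (.one (.play 130 (.both (.ref 240 0) (.play 2 (.ref 4 2))))))
 (.seq (.one (.play 131 (.both (.play 68 (.both (.play 65 (.both (.play 129 (.both (.play 1 (.ref 4 1)) (.play 128 (.ref 1 64)))) (.play 132 (.ref 50 64)))) (.play 259 (.both (.play 4 (.ref 5 3)) (.ref 236 65))))) (.play 3 (.ref 6 2)))))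
 (.one (.both (.ref 9 0) (.ref 28 65))))))
 (.seq (.seq (.seq (.one (.play 3 (.both (.play 2 (.ref 39 0)) (.play 131 (.ref 4 3)))))
 (.one (.play 133 (.both (.play 1 (.both (.play 0 (.ref 3 0)) (.ref 176 1))) (.play 132 (.ref 0 65))))))
 (.seq (.one (.play 321 (.both (.play 193 (.both (.play 129 (.both (.ref 185 0) (.both (.play 322 (.ref 98 65)) (.play 385 (.ref 206 65))))) (.play 192 (.ref 3 192)))) (.play 320 (.ref 1 256)))))
 (.one (.play 258 (.both (.ref 246 1) (.both (.play 321 (.both (.play 193 (.both (.play 257 (.ref 205 192)) (.play 194 (.ref 3 193)))) (.play 322 (.ref 1 257)))) (.both (.play 197 (.both (.play 193 (.both (.play 257 (.both (.play 192 (.ref 3 192)) (.play 196 (.ref 2 193)))) (.play 194 (.ref 3 193)))) (.play 198 (.ref 2 194)))) (.ref 174 192))))))))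
 (.seq (.seq (.one (.play 129 (.both (.play 257 (.both (.ref 214 0) (.play 256 (.ref 1 192)))) (.play 128 (.ref 3 128)))))
 (.one (.play 129 (.both (.play 65 (.both (.play 4 (.both (.play 3 (.both (.play 64 (.ref 2 0)) (.play 71 (.ref 3 3)))) (.play 5 (.ref 2 1)))) (.play 128 (.ref 1 64)))) (.play 130 (.ref 1 65))))))
 (.seq (.one (.play 261 (.both (.play 260 (.both (.ref 247 1) (.both (.play 263 (.both (.ref 248 67) (.both (.ref 229 195) (.play 324 (.both (.ref 213 196) (.play 323 (.ref 1 259))))))) (.both (.play 259 (.both (.play 323 (.both (.play 195 (.both (.play 196 (.both (.play 387 (.ref 45 131)) (.play 263 (.ref 3 195)))) (.play 194 (.ref 3 194)))) (.play 322 (.ref 1 258)))) (.both (.ref 149 193) (.ref 145 257)))) (.both (.play 259 (.both (.play 258 (.both (.ref 132 192) (.play 325 (.ref 0 258)))) (.both (.play 258 (.both (.ref 249 192) (.play 325 (.ref 0 258)))) (.both (.play 258 (.both (.ref 67 192) (.both (.ref 249 192) (.ref 9 193)))) (.both (.ref 149 193) (.play 195 (.both (.play 194 (.ref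 3 194)) (.play 263 (.both (.play 196 (.ref 3 195)) (.play 200 (.both (.play 199 (.ref 2 196)) (.play 264 (.both (.play 201 (.ref 2 197)) (.play 325 (.ref 27 260))))))))))))))) (.play 259 (.both (.ref 182 194) (.both (.play 198 (.both (.ref 219 194) (.play 199 (.ref 2 195)))) (.ref 212 257))))))))) (.both (.play 260 (.both (.play 263 (.both (.ref 246 3) (.both (.ref 147 195) (.both (.play 196 (.both (.play 195 (.ref 3 195)) (.ref 177 196))) (.play 324 (.both (.play 323 (.ref 1 259)) (.play 328 (.both (.play 327 (.ref 0 260)) (.ref 119 260))))))))) (.both (.play 259 (.both (.ref 248 66) (.both (.ref 149 193) (.ref 212 257)))) (.both (.play 327 (.ref 93 259)) (.ref 140 259))))) (.both (.play 260 (.both (.ref 247 1) (.both (.play 327 (.both (.play 324 (.both (.play 196 (.both (.play 388 (.both (.play 132 (.ref 200 67)) (.both (.play 452 (.ref 206 132)) (.play 452 (.ref 197 195))))) (.both (.play 195 (.ref 41 193)) (.play 263 (.ref 205 195))))) (.both (.play 388 (.both (.play 196 (.both (.play 132 (.ref 198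 67)) (.both (.play 132 (.ref 206 68)) (.play 197 (.both (.play 195 (.both (.play 131 (.ref 7 131)) (.play 194 (.ref 0 194)))) (.play 133 (.ref 5 132))))))) (.both (.play 197 (.ref 82 68)) (.both (.play 197 (.ref 111 68)) (.play 452 (.both (.play 196 (.ref 197 195)) (.both (.ref 99 259) (.ref 114 260)))))))) (.play 323 (.ref 125 257))))) (.both (.ref 139 260) (.ref 92 260)))) (.play 327 (.ref 93 259))))) (.both (.play 260 (.both (.play 327 (.both (.play 134 (.both (.ref 234 5) (.both (.play 263 (.both (.ref 233 68) (.play 196 (.both (.play 195 (.ref 3 195)) (.play 264 (.both (.play 197 (.ref 3 196)) (.play 265 (.ref 27 261)))))))) (.both (.ref 232 69) (.both (.ref 231 69) (.play 391 (.both (.play 198 (.ref 4 134)) (.play 263 (.both (.play 264 (.both (.ref 9 195) (.play 265 (.ref 27 261)))) (.both (.ref 230 196) (.play 455 (.both (.play 200 (.both (.play 199 (.ref 2 196)) (.play 264 (.ref 5 199)))) (.play 519 (.ref 7 262)))))))))))))) (.both (.ref 139 260) (.ref 92 260)))) (.both (.play 259 (.both (.ref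 132 193) (.both (.play 322 (.both (.play 258 (.both (.ref 8 194) (.play 321 (.ref 1 257)))) (.play 323 (.ref 1 258)))) (.ref 66 194)))) (.play 327 (.ref 93 259))))) (.both (.play 260 (.both (.ref 247 1) (.both (.play 263 (.both (.play 327 (.both (.ref 222 68) (.play 328 (.ref 0 260)))) (.both (.ref 229 195) (.ref 245 195)))) (.ref 140 259)))) (.both (.play 263 (.both (.play 264 (.both (.ref 187 5) (.both (.ref 143 196) (.play 329 (.both (.play 265 (.both (.ref 12 260) (.play 330 (.ref 0 262)))) (.play 328 (.ref 0 261))))))) (.both (.play 264 (.both (.ref 187 5) (.both (.ref 229 196) (.ref 245 196)))) (.both (.play 325 (.both (.ref 228 66) (.both (.play 389 (.both (.play 197 (.both (.ref 171 68) (.both (.ref 227 69) (.play 196 (.both (.play 198 (.both (.play 134 (.ref 5 133)) (.play 263 (.ref 224 195)))) (.play 132 (.ref 7 132))))))) (.both (.play 197 (.both (.ref 171 68) (.play 453 (.both (.ref 24 196) (.play 517 (.ref 5 261)))))) (.play 198 (.ref 47 133))))) (.play 264 (.ref 27 260))))) (.both (.play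 134 (.both (.play 135 (.both (.play 133 (.both (.ref 244 66) (.both (.play 69 (.both (.play 68 (.ref 39 66)) (.play 198 (.ref 7 69)))) (.both (.play 136 (.both (.ref 167 68) (.both (.play 137 (.ref 30 69)) (.play 132 (.ref 29 131))))) (.ref 239 69))))) (.both (.play 133 (.both (.ref 244 66) (.both (.play 71 (.both (.play 72 (.ref 161 68)) (.play 198 (.ref 5 70)))) (.ref 239 69)))) (.both (.ref 242 68) (.ref 235 70))))) (.both (.play 135 (.both (.play 133 (.both (.ref 244 66) (.both (.play 197 (.both (.ref 240 67) (.play 196 (.both (.play 195 (.both (.play 132 (.ref 1 131)) (.play 194 (.ref 0 194)))) (.play 136 (.ref 1 132)))))) (.both (.play 136 (.both (.play 132 (.ref 243 67)) (.both (.play 137 (.ref 10 68)) (.play 137 (.ref 30 69))))) (.ref 241 67))))) (.both (.play 133 (.both (.play 132 (.both (.ref 13 66) (.both (.play 131 (.ref 10 66)) (.ref 167 67)))) (.both (.ref 244 66) (.both (.play 136 (.both (.play 132 (.ref 10 67)) (.both (.play 137 (.ref 243 68)) (.play 137 (.ref 30 69))))) (.ref 241 67)))))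 (.both (.ref 242 68) (.ref 238 69))))) (.both (.play 133 (.both (.ref 241 67) (.both (.play 325 (.both (.play 324 (.both (.play 197 (.both (.play 70 (.ref 5 69)) (.play 388 (.ref 6 132)))) (.play 323 (.ref 2 259)))) (.both (.play 389 (.both (.play 197 (.ref 184 68)) (.play 198 (.ref 6 133)))) (.both (.ref 235 69) (.play 198 (.ref 137 69)))))) (.both (.ref 239 69) (.play 198 (.both (.play 69 (.ref 7 69)) (.play 325 (.ref 137 69)))))))) (.play 135 (.both (.ref 238 69) (.both (.play 327 (.both (.play 199 (.ref 237 69)) (.both (.play 198 (.ref 98 70)) (.play 325 (.both (.ref 165 133) (.play 328 (.both (.play 392 (.both (.play 199 (.ref 4 135)) (.play 393 (.ref 0 325)))) (.play 329 (.ref 3 261))))))))) (.both (.ref 235 70) (.play 198 (.both (.play 71 (.ref 5 70)) (.play 327 (.ref 98 70)))))))))))) (.play 264 (.both (.play 197 (.both (.play 325 (.both (.play 389 (.both (.ref 227 69) (.both (.play 198 (.ref 45 133)) (.play 452 (.both (.play 388 (.ref 6 196)) (.play 453 (.both (.play 516 (.ref 6 260)) (.play 517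 (.ref 5 261))))))))) (.play 324 (.ref 1 260)))) (.play 196 (.ref 3 196)))) (.both (.ref 229 196) (.play 325 (.ref 27 260)))))))))) (.both (.play 327 (.both (.play 134 (.both (.ref 234 5) (.both (.play 260 (.both (.play 263 (.both (.ref 233 68) (.play 196 (.both (.play 195 (.ref 3 195)) (.play 264 (.both (.play 197 (.ref 3 196)) (.play 325 (.ref 27 260)))))))) (.play 259 (.ref 0 259)))) (.both (.ref 232 69) (.both (.ref 231 69) (.play 260 (.both (.play 263 (.both (.play 198 (.both (.ref 154 132) (.play 391 (.ref 4 134)))) (.both (.play 391 (.both (.play 198 (.ref 4 134)) (.ref 230 196))) (.ref 229 195)))) (.play 259 (.ref 0 259))))))))) (.both (.play 328 (.both (.play 325 (.both (.play 389 (.both (.play 198 (.ref 47 133)) (.play 388 (.ref 1 324)))) (.ref 225 196))) (.play 329 (.ref 3 261)))) (.play 328 (.ref 41 259))))) (.both (.play 325 (.both (.ref 228 66) (.both (.play 389 (.both (.play 197 (.both (.ref 226 68) (.both (.ref 227 69) (.play 198 (.both (.play 196 (.both (.play 132 (.ref 7 132)) (.play 259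 (.both (.play 195 (.both (.play 194 (.ref 0 194)) (.play 258 (.ref 1 194)))) (.play 260 (.ref 169 195)))))) (.play 134 (.ref 5 133))))))) (.both (.play 453 (.both (.play 260 (.both (.play 196 (.ref 7 196)) (.play 259 (.ref 50 258)))) (.play 517 (.ref 5 261)))) (.play 453 (.ref 45 197))))) (.both (.play 198 (.both (.play 197 (.both (.play 133 (.both (.play 132 (.both (.play 68 (.ref 7 68)) (.play 199 (.ref 39 130)))) (.play 69 (.ref 4 69)))) (.both (.play 389 (.both (.ref 226 68) (.play 453 (.ref 5 197)))) (.both (.play 389 (.both (.play 133 (.both (.play 69 (.ref 4 69)) (.ref 24 132))) (.play 453 (.ref 5 197)))) (.play 196 (.both (.play 199 (.both (.ref 151 132) (.both (.play 195 (.both (.play 194 (.ref 0 194)) (.ref 12 194))) (.play 260 (.ref 27 195))))) (.play 389 (.both (.play 132 (.ref 7 132)) (.play 453 (.ref 5 197)))))))))) (.both (.play 134 (.both (.play 135 (.both (.play 133 (.both (.play 132 (.both (.play 68 (.both (.play 67 (.ref 3 67)) (.play 197 (.ref 7 68)))) (.play 199 (.ref 50 131)))) (.play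 69 (.ref 7 69)))) (.play 71 (.ref 5 70)))) (.play 70 (.ref 6 69)))) (.play 389 (.ref 47 133))))) (.both (.play 327 (.both (.play 324 (.both (.play 388 (.both (.play 452 (.both (.play 260 (.both (.play 197 (.ref 5 196)) (.play 259 (.ref 3 259)))) (.play 516 (.ref 5 260)))) (.play 387 (.ref 1 323)))) (.both (.ref 49 258) (.ref 223 258)))) (.both (.play 328 (.both (.ref 225 196) (.play 329 (.ref 3 261)))) (.play 260 (.ref 224 259))))) (.play 327 (.both (.play 324 (.both (.play 388 (.both (.play 260 (.both (.play 453 (.both (.play 389 (.both (.play 196 (.ref 4 196)) (.play 198 (.ref 5 197)))) (.ref 153 260))) (.play 259 (.ref 0 259)))) (.play 387 (.ref 1 323)))) (.both (.play 387 (.both (.ref 159 258) (.play 388 (.ref 1 323)))) (.ref 223 258)))) (.both (.play 328 (.both (.ref 46 196) (.play 329 (.ref 3 261)))) (.play 328 (.ref 136 260)))))))))) (.play 327 (.both (.play 260 (.both (.play 263 (.both (.ref 222 68) (.both (.play 324 (.both (.play 325 (.both (.play 391 (.both (.play 198 (.ref 144 134)) (.play 392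 (.ref 0 324)))) (.play 264 (.ref 1 260)))) (.play 323 (.ref 1 259)))) (.play 324 (.both (.play 200 (.both (.play 199 (.ref 2 196)) (.play 264 (.both (.play 201 (.ref 2 197)) (.play 325 (.ref 2 260)))))) (.play 323 (.ref 1 259))))))) (.play 259 (.ref 0 259)))) (.both (.play 328 (.both (.play 325 (.both (.ref 46 196) (.play 392 (.both (.play 264 (.both (.ref 127 196) (.play 265 (.ref 2 261)))) (.play 393 (.ref 0 325)))))) (.play 329 (.ref 3 261)))) (.play 328 (.ref 41 259)))))))))))))))
 (.one (.play 326 (.both (.ref 250 0) (.both (.ref 221 1) (.both (.play 198 (.both (.play 197 (.both (.play 133 (.ref 74 5)) (.both (.play 196 (.both (.play 263 (.both (.play 199 (.both (.play 135 (.ref 47 70)) (.ref 152 131))) (.both (.ref 139 196) (.ref 92 196)))) (.both (.ref 150 129) (.both (.play 263 (.ref 93 195)) (.ref 140 195))))) (.both (.play 196 (.both (.play 131 (.both (.play 195 (.both (.play 259 (.both (.play 260 (.both (.play 324 (.ref 144 67)) (.play 199 (.ref 1 195)))) (.play 258 (.ref 1 194)))) (.play 130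 (.ref 3 130)))) (.both (.play 130 (.both (.play 132 (.ref 40 129)) (.play 195 (.ref 3 130)))) (.play 199 (.both (.play 132 (.ref 3 131)) (.ref 143 131)))))) (.both (.play 263 (.both (.ref 142 67) (.both (.ref 139 196) (.ref 92 196)))) (.both (.play 263 (.ref 93 195)) (.ref 140 195))))) (.play 390 (.both (.play 133 (.ref 7 133)) (.ref 14 194))))))) (.both (.play 134 (.ref 35 3)) (.both (.ref 110 5) (.both (.play 134 (.ref 118 5)) (.both (.play 134 (.ref 23 5)) (.play 134 (.ref 18 66)))))))) (.both (.play 390 (.both (.play 453 (.both (.play 198 (.both (.play 391 (.both (.play 134 (.both (.play 70 (.both (.ref 130 5) (.ref 15 6))) (.play 327 (.ref 4 134)))) (.play 455 (.ref 4 198)))) (.play 389 (.ref 6 197)))) (.both (.play 389 (.ref 61 197)) (.both (.play 389 (.ref 138 197)) (.play 454 (.both (.play 261 (.ref 56 197)) (.play 517 (.ref 6 261)))))))) (.both (.play 198 (.both (.ref 32 69) (.both (.ref 51 70) (.ref 14 194)))) (.both (.play 455 (.both (.play 198 (.both (.play 199 (.both (.play 454 (.both (.play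 261 (.both (.play 325 (.both (.play 134 (.ref 137 69)) (.play 518 (.ref 7 261)))) (.play 197 (.ref 7 197)))) (.play 263 (.ref 5 198)))) (.play 135 (.ref 5 134)))) (.play 391 (.ref 4 198)))) (.both (.play 454 (.both (.play 263 (.both (.play 518 (.both (.ref 20 197) (.play 327 (.ref 5 262)))) (.play 199 (.ref 5 198)))) (.play 519 (.ref 4 262)))) (.both (.play 519 (.both (.play 391 (.ref 116 198)) (.play 454 (.ref 4 262)))) (.play 391 (.ref 37 198)))))) (.both (.ref 26 133) (.both (.ref 64 133) (.play 454 (.both (.ref 31 195) (.both (.ref 80 197) (.ref 17 197)))))))))) (.both (.play 198 (.both (.ref 129 2) (.both (.play 391 (.both (.ref 102 5) (.both (.play 390 (.both (.play 389 (.both (.play 325 (.both (.play 134 (.ref 6 133)) (.play 392 (.ref 136 324)))) (.play 453 (.ref 6 197)))) (.play 455 (.ref 4 198)))) (.both (.play 327 (.ref 37 134)) (.ref 77 198))))) (.both (.ref 110 5) (.both (.play 389 (.both (.ref 135 5) (.both (.play 390 (.both (.ref 113 5) (.play 453 (.ref 6 197)))) (.both (.play 325 (.ref 61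 133)) (.ref 60 197))))) (.both (.play 389 (.both (.ref 135 5) (.both (.play 325 (.ref 61 133)) (.ref 112 133)))) (.both (.ref 64 69) (.play 390 (.ref 18 130))))))))) (.both (.play 198 (.both (.ref 129 2) (.both (.play 134 (.ref 118 5)) (.both (.play 391 (.both (.play 390 (.both (.ref 131 5) (.play 455 (.ref 4 198)))) (.both (.ref 134 5) (.both (.play 327 (.ref 37 134)) (.ref 77 198))))) (.both (.play 391 (.both (.ref 134 5) (.both (.ref 78 69) (.both (.play 327 (.ref 37 134)) (.ref 77 198))))) (.both (.play 391 (.both (.ref 134 5) (.both (.ref 101 133) (.play 327 (.ref 37 134))))) (.ref 133 130))))))) (.both (.play 198 (.both (.play 134 (.ref 54 2)) (.both (.ref 83 5) (.both (.play 134 (.both (.play 133 (.both (.play 135 (.both (.play 132 (.both (.ref 132 66) (.both (.play 199 (.ref 50 131)) (.ref 120 131)))) (.play 71 (.ref 5 70)))) (.play 69 (.ref 7 69)))) (.both (.ref 85 69) (.play 133 (.ref 56 69))))) (.both (.ref 79 69) (.play 390 (.ref 18 130))))))) (.both (.play 198 (.ref 76 2)) (.both (.play 390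 (.both (.play 455 (.both (.play 198 (.both (.ref 131 5) (.play 391 (.ref 4 198)))) (.both (.ref 101 197) (.play 391 (.ref 37 198))))) (.both (.play 198 (.ref 54 66)) (.both (.play 197 (.both (.play 261 (.ref 74 69)) (.both (.ref 73 69) (.both (.play 198 (.both (.play 199 (.both (.play 135 (.ref 5 134)) (.play 263 (.both (.play 196 (.ref 50 195)) (.play 454 (.ref 5 198)))))) (.play 133 (.ref 7 133)))) (.play 454 (.both (.play 261 (.ref 7 197)) (.ref 17 197))))))) (.both (.ref 75 69) (.both (.ref 26 133) (.ref 89 195))))))) (.both (.play 198 (.both (.ref 129 2) (.both (.play 134 (.ref 54 2)) (.both (.play 199 (.both (.play 135 (.ref 82 6)) (.both (.play 200 (.both (.play 261 (.both (.play 197 (.both (.play 133 (.both (.play 69 (.ref 4 69)) (.play 132 (.ref 3 132)))) (.play 136 (.both (.play 196 (.both (.play 135 (.ref 2 132)) (.ref 28 196))) (.play 137 (.ref 2 133)))))) (.both (.ref 122 195) (.ref 124 195)))) (.both (.play 137 (.both (.play 201 (.ref 128 69)) (.both (.play 197 (.both (.ref 121 131) (.play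 136 (.ref 2 133)))) (.both (.play 138 (.both (.play 136 (.both (.play 197 (.ref 2 133)) (.play 139 (.ref 1 135)))) (.play 201 (.ref 2 134)))) (.play 138 (.both (.play 201 (.ref 2 134)) (.play 136 (.ref 126 134)))))))) (.both (.play 261 (.ref 125 195)) (.play 261 (.ref 123 195)))))) (.both (.play 390 (.both (.play 197 (.both (.play 196 (.both (.ref 67 130) (.both (.ref 121 130) (.ref 120 195)))) (.play 133 (.ref 7 133)))) (.both (.play 197 (.both (.play 133 (.ref 7 133)) (.ref 108 197))) (.both (.ref 58 133) (.ref 84 197))))) (.play 390 (.both (.ref 58 133) (.play 135 (.ref 5 134)))))))) (.both (.play 133 (.both (.play 197 (.ref 74 5)) (.both (.play 134 (.both (.play 69 (.ref 7 69)) (.play 325 (.both (.play 70 (.both (.play 261 (.ref 6 69)) (.ref 19 70))) (.play 389 (.ref 6 133)))))) (.play 390 (.both (.play 389 (.both (.play 134 (.both (.play 327 (.both (.play 263 (.both (.play 70 (.ref 4 70)) (.play 454 (.ref 45 198)))) (.play 391 (.ref 4 134)))) (.play 325 (.ref 6 133)))) (.play 453 (.ref 6 197)))) (.play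 197 (.ref 7 133))))))) (.play 390 (.ref 118 69))))))) (.both (.play 198 (.both (.play 134 (.both (.ref 33 5) (.both (.play 325 (.both (.play 70 (.both (.ref 15 6) (.play 261 (.ref 6 69)))) (.play 389 (.ref 6 133)))) (.ref 88 67)))) (.both (.ref 105 5) (.both (.ref 103 5) (.both (.play 133 (.both (.play 197 (.ref 117 5)) (.both (.play 134 (.both (.ref 71 6) (.play 69 (.ref 7 69)))) (.play 390 (.both (.play 197 (.ref 7 133)) (.ref 16 134)))))) (.both (.play 389 (.both (.play 134 (.both (.ref 115 70) (.play 325 (.ref 6 133)))) (.both (.ref 97 133) (.both (.play 325 (.ref 61 133)) (.play 390 (.both (.ref 115 134) (.play 453 (.ref 6 197)))))))) (.ref 89 131))))))) (.both (.play 390 (.both (.play 453 (.both (.play 198 (.both (.ref 113 5) (.play 389 (.ref 6 197)))) (.both (.play 389 (.ref 61 197)) (.ref 112 197)))) (.both (.play 198 (.ref 35 67)) (.both (.play 199 (.both (.play 263 (.ref 111 70)) (.both (.ref 81 70) (.both (.play 198 (.both (.play 197 (.both (.play 133 (.ref 7 133)) (.play 261 (.both (.play 200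 (.ref 27 196)) (.play 454 (.ref 7 197)))))) (.play 135 (.ref 5 134)))) (.play 454 (.both (.ref 21 197) (.play 263 (.ref 5 198)))))))) (.both (.ref 83 69) (.both (.play 454 (.ref 23 133)) (.ref 89 195))))))) (.both (.play 198 (.both (.play 134 (.ref 35 3)) (.both (.play 133 (.both (.play 197 (.ref 74 5)) (.both (.play 134 (.both (.play 69 (.ref 7 69)) (.ref 109 69))) (.play 390 (.both (.ref 95 131) (.play 197 (.ref 7 133))))))) (.both (.ref 110 5) (.both (.play 135 (.both (.play 199 (.ref 82 6)) (.both (.play 134 (.both (.ref 109 69) (.play 71 (.ref 5 70)))) (.play 390 (.both (.play 391 (.both (.play 134 (.both (.play 325 (.both (.play 261 (.both (.play 70 (.ref 6 69)) (.play 454 (.both (.play 197 (.ref 7 197)) (.play 518 (.ref 7 261)))))) (.play 389 (.ref 6 133)))) (.play 327 (.ref 4 134)))) (.play 455 (.ref 4 198)))) (.play 199 (.ref 5 134))))))) (.play 390 (.both (.ref 31 131) (.both (.play 197 (.both (.play 133 (.ref 7 133)) (.play 199 (.both (.play 135 (.ref 5 134)) (.ref 108 197))))) (.both (.ref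 107 133) (.ref 90 134)))))))))) (.both (.play 390 (.both (.play 198 (.ref 70 66)) (.both (.play 197 (.both (.play 261 (.ref 74 69)) (.both (.play 198 (.both (.ref 106 70) (.play 133 (.ref 7 133)))) (.play 454 (.both (.ref 106 134) (.play 261 (.ref 7 197))))))) (.both (.ref 105 69) (.both (.ref 103 69) (.play 454 (.both (.play 263 (.both (.play 199 (.ref 5 198)) (.ref 99 261))) (.both (.ref 16 198) (.ref 68 258))))))))) (.both (.play 390 (.both (.play 198 (.both (.ref 52 69) (.both (.ref 33 69) (.ref 14 194)))) (.both (.play 453 (.both (.play 198 (.both (.play 197 (.both (.play 454 (.both (.play 263 (.both (.play 327 (.both (.play 134 (.ref 98 70)) (.play 518 (.ref 5 262)))) (.play 199 (.ref 5 198)))) (.play 261 (.ref 7 197)))) (.play 133 (.ref 7 133)))) (.play 389 (.ref 6 197)))) (.both (.ref 97 197) (.both (.play 389 (.ref 61 197)) (.play 454 (.both (.play 261 (.both (.play 197 (.ref 7 197)) (.play 518 (.both (.ref 15 198) (.play 325 (.ref 7 261)))))) (.play 517 (.ref 6 261)))))))) (.both (.play 197 (.both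 (.play 198 (.both (.ref 95 131) (.play 133 (.ref 7 133)))) (.both (.play 133 (.both (.play 198 (.ref 7 133)) (.play 261 (.ref 91 133)))) (.play 454 (.both (.play 261 (.ref 7 197)) (.ref 90 198)))))) (.both (.play 454 (.ref 23 133)) (.both (.play 454 (.ref 18 194)) (.ref 89 195))))))) (.both (.play 390 (.both (.play 198 (.ref 54 66)) (.both (.ref 83 69) (.both (.play 454 (.ref 70 130)) (.both (.ref 79 133) (.play 454 (.ref 18 194))))))) (.both (.play 390 (.ref 76 66)) (.play 390 (.both (.play 454 (.ref 54 130)) (.both (.play 391 (.both (.play 198 (.both (.ref 31 131) (.play 455 (.ref 4 198)))) (.both (.play 325 (.both (.play 392 (.both (.play 389 (.both (.play 453 (.ref 47 197)) (.play 388 (.both (.ref 49 322) (.ref 48 324))))) (.play 393 (.ref 3 325)))) (.both (.play 324 (.both (.play 389 (.both (.play 453 (.ref 47 197)) (.play 388 (.both (.ref 46 259) (.play 327 (.ref 27 323)))))) (.play 323 (.ref 0 323)))) (.both (.play 392 (.ref 41 323)) (.play 392 (.ref 39 323)))))) (.both (.play 325 (.both (.play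 392 (.both (.play 455 (.both (.play 328 (.both (.play 519 (.both (.play 264 (.ref 44 199)) (.play 583 (.ref 7 326)))) (.play 389 (.both (.ref 43 260) (.play 329 (.ref 2 325)))))) (.both (.play 389 (.both (.ref 43 260) (.play 328 (.both (.play 388 (.both (.play 327 (.ref 2 324)) (.play 456 (.ref 0 388)))) (.play 329 (.ref 2 325)))))) (.play 519 (.ref 36 262))))) (.play 393 (.ref 3 325)))) (.both (.play 324 (.both (.play 327 (.both (.ref 42 259) (.both (.play 455 (.both (.play 519 (.ref 7 262)) (.play 388 (.both (.play 387 (.ref 1 323)) (.play 389 (.both (.play 328 (.ref 1 324)) (.play 456 (.ref 0 388)))))))) (.play 455 (.both (.play 456 (.both (.play 263 (.both (.play 264 (.ref 2 260)) (.play 520 (.ref 4 263)))) (.play 388 (.both (.play 387 (.ref 1 323)) (.play 389 (.ref 0 388)))))) (.play 519 (.ref 7 262))))))) (.play 323 (.ref 0 323)))) (.both (.play 392 (.ref 41 323)) (.play 392 (.ref 39 323)))))) (.play 455 (.ref 37 198)))))) (.both (.play 454 (.ref 35 131)) (.both (.ref 26 133) (.both (.play 454 (.ref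 23 133)) (.play 454 (.ref 18 194)))))))))))))))))))))))))))))))))))
    (by decide +kernel)

theorem Cert_L1 : PW ⟨10, nat_lit 136703170298938245273281389194851335334573089430825777276610662900622062449960995201469573563940864, nat_lit 145998099763910247248794500884975947165728258696656605280837967301123562268285742242606200545631091679060482825158693724520372280052750877216369601917669588993070982936313368144041338245132321008, 11, nat_lit 145998099763910247248794500884975947165728258696656605280837967301123562268285742242606200545631091679060482825158693724520372280052750877216369601917669588993070982936313368144041338245132321008⟩ :=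
  sound2 baseTbl baseTbl_ok
    (.seq (.seq (.seq (.seq (.seq (.seq (.seq (.one (.both (.play 65 (.both (.play 64 (.ref 2 0)) (.play 2 (.ref 1 1)))) (.play 6 (.ref 1 2))))
 (.one (.play 1 (.both (.play 0 (.ref 3 0)) (.play 2 (.ref 3 1))))))
 (.seq (.one (.play 5 (.both (.play 69 (.both (.ref 9 0) (.play 6 (.ref 2 2)))) (.play 4 (.ref 2 1)))))
 (.seq (.one (.play 65 (.both (.play 0 (.ref 3 0)) (.play 4 (.ref 2 1)))))
 (.one (.play 130 (.both (.play 66 (.both (.play 5 (.both (.play 1 (.both (.ref 11 0) (.play 2 (.ref 3 1)))) (.play 6 (.ref 2 2)))) (.play 129 (.ref 1 65)))) (.both (.play 70 (.both (.ref 10 2) (.play 131 (.ref 1 66)))) (.play 131 (.ref 8 64)))))))))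
 (.seq (.seq (.one (.play 133 (.both (.play 69 (.both (.ref 9 0) (.play 134 (.ref 0 66)))) (.play 132 (.ref 0 65)))))
 (.one (.play 257 (.both (.play 193 (.ref 4 0)) (.play 321 (.ref 4 64))))))
 (.seq (.one (.play 256 (.both (.play 192 (.ref 6 0)) (.play 320 (.ref 6 64)))))
 (.seq (.one (.play 257 (.both (.ref 15 0) (.ref 14 1))))
 (.one (.both (.play 0 (.ref 7 0)) (.play 321 (.ref 7 64))))))))
 (.seq (.seq (.seq (.one (.play 64 (.both (.play 0 (.ref 7 0)) (.play 128 (.ref 7 64)))))
 (.one (.both (.ref 18 0) (.ref 15 64))))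
 (.seq (.one (.play 131 (.both (.play 259 (.both (.play 323 (.both (.play 67 (.ref 19 2)) (.both (.play 130 (.ref 17 66)) (.ref 16 130)))) (.play 260 (.ref 0 192)))) (.play 132 (.ref 2 128)))))
 (.seq (.one (.play 196 (.both (.ref 20 1) (.both (.ref 10 128) (.ref 13 128)))))
 (.one (.play 65 (.both (.play 64 (.ref 1 0)) (.play 66 (.ref 1 1))))))))
 (.seq (.seq (.one (.play 69 (.both (.play 5 (.both (.ref 22 0) (.play 70 (.ref 0 2)))) (.play 68 (.ref 0 1)))))
 (.seq (.one (.play 68 (.both (.play 1 (.ref 3 0)) (.play 129 (.ref 1 64)))))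
 (.one (.both (.play 1 (.ref 5 0)) (.play 320 (.ref 5 64))))))
 (.seq (.one (.play 65 (.both (.play 1 (.ref 5 0)) (.play 129 (.ref 5 64)))))
 (.seq (.one (.both (.ref 26 0) (.ref 14 64)))
 (.one (.play 129 (.both (.play 257 (.both (.play 321 (.both (.play 65 (.ref 27 1)) (.both (.play 130 (.ref 25 65)) (.ref 16 128)))) (.play 256 (.ref 1 192)))) (.play 128 (.ref 3 128))))))))))
 (.seq (.seq (.seq (.seq (.one (.both (.ref 28 0) (.both (.play 257 (.both (.play 129 (.both (.play 128 (.ref 3 128)) (.ref 24 129))) (.play 256 (.ref 1 192)))) (.both (.ref 13 128) (.ref 23 192)))))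
 (.one (.play 68 (.both (.play 67 (.ref 0 0)) (.play 69 (.ref 0 1))))))
 (.seq (.one (.play 65 (.both (.play 1 (.both (.play 64 (.ref 1 0)) (.ref 30 1))) (.play 66 (.ref 1 1)))))
 (.seq (.one (.play 4 (.both (.play 3 (.ref 2 0)) (.play 5 (.ref 2 1)))))
 (.one (.play 129 (.both (.play 65 (.both (.ref 32 1) (.play 128 (.ref 1 64)))) (.play 130 (.ref 1 65))))))))
 (.seq (.seq (.one (.both (.ref 20 2) (.both (.ref 33 128) (.ref 31 192))))
 (.one (.play 1 (.both (.play 65 (.both (.play 0 (.ref 3 0)) (.ref 32 1))) (.play 2 (.ref 3 1))))))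
 (.seq (.one (.play 1 (.both (.play 65 (.both (.play 0 (.ref 3 0)) (.ref 22 64))) (.play 2 (.ref 3 1)))))
 (.seq (.one (.play 194 (.both (.ref 28 1) (.both (.ref 36 128) (.both (.ref 33 128) (.ref 35 128))))))
 (.one (.both (.ref 37 0) (.both (.play 198 (.ref 34 1)) (.both (.play 194 (.ref 29 1)) (.both (.ref 21 2) (.ref 12 128))))))))))
 (.seq (.seq (.seq (.one (.play 4 (.both (.play 65 (.ref 1 0)) (.play 69 (.ref 0 1)))))
 (.one (.play 68 (.both (.play 5 (.ref 2 1)) (.play 129 (.both (.play 128 (.ref 1 64)) (.play 133 (.both (.play 132 (.ref 0 65)) (.ref 39 65)))))))))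
 (.seq (.one (.both (.play 64 (.ref 2 0)) (.play 5 (.both (.play 68 (.ref 2 1)) (.play 6 (.ref 1 2))))))
 (.seq (.one (.play 66 (.both (.play 5 (.ref 2 2)) (.ref 31 64))))
 (.one (.play 6 (.both (.ref 42 0) (.both (.play 5 (.ref 41 2)) (.ref 40 2))))))))
 (.seq (.seq (.one (.both (.play 64 (.ref 2 0)) (.play 68 (.ref 2 1))))
 (.seq (.one (.both (.play 65 (.ref 44 0)) (.play 6 (.ref 1 2))))
 (.one (.play 5 (.both (.play 65 (.both (.ref 9 0) (.play 4 (.ref 2 1)))) (.play 6 (.ref 2 2)))))))
 (.seq (.one (.play 69 (.both (.play 1 (.both (.ref 22 0) (.play 68 (.ref 0 1)))) (.play 70 (.ref 0 2)))))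
 (.seq (.one (.play 3 (.both (.play 1 (.both (.play 0 (.ref 0 0)) (.play 4 (.ref 0 1)))) (.play 70 (.ref 3 2)))))
 (.one (.play 2 (.both (.ref 48 0) (.both (.play 66 (.both (.play 1 (.ref 3 1)) (.ref 47 64))) (.play 70 (.both (.play 3 (.ref 3 2)) (.ref 47 65)))))))))))))
 (.seq (.seq (.seq (.seq (.seq (.one (.play 65 (.both (.play 0 (.ref 7 0)) (.play 256 (.ref 6 64)))))
 (.one (.play 259 (.both (.play 131 (.both (.play 323 (.both (.play 66 (.both (.play 322 (.both (.ref 50 2) (.play 386 (.ref 6 130)))) (.play 130 (.ref 7 66)))) (.both (.play 130 (.ref 17 66)) (.play 388 (.both (.play 387 (.both (.ref 15 130) (.play 452 (.ref 4 195)))) (.play 324 (.ref 4 131))))))) (.play 132 (.ref 2 128)))) (.play 260 (.ref 0 192))))))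
 (.seq (.one (.play 1 (.both (.play 65 (.both (.play 0 (.ref 3 0)) (.play 132 (.ref 0 65)))) (.play 2 (.ref 3 1)))))
 (.seq (.one (.play 69 (.both (.play 1 (.both (.play 5 (.both (.ref 11 0) (.play 6 (.ref 2 2)))) (.play 2 (.ref 3 1)))) (.both (.ref 13 1) (.play 6 (.both (.play 5 (.ref 2 2)) (.play 70 (.both (.play 7 (.ref 2 3)) (.ref 30 66)))))))))
 (.one (.both (.play 0 (.ref 4 0)) (.play 321 (.ref 4 64)))))))
 (.seq (.seq (.one (.play 321 (.both (.play 65 (.both (.play 1 (.ref 5 0)) (.play 320 (.both (.play 129 (.ref 5 64)) (.play 385 (.ref 4 128)))))) (.play 257 (.ref 4 64)))))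
 (.one (.play 64 (.both (.play 65 (.both (.play 0 (.ref 7 0)) (.ref 26 1))) (.play 128 (.ref 7 64))))))
 (.seq (.one (.play 193 (.both (.play 321 (.both (.play 129 (.both (.ref 56 0) (.both (.ref 55 65) (.play 322 (.ref 54 65))))) (.play 320 (.ref 1 256)))) (.play 192 (.ref 3 192)))))
 (.seq (.one (.play 260 (.both (.ref 57 0) (.ref 20 65))))
 (.one (.play 65 (.both (.ref 18 0) (.ref 26 1))))))))
 (.seq (.seq (.seq (.one (.play 321 (.both (.play 193 (.both (.play 129 (.both (.ref 59 0) (.both (.play 322 (.ref 54 65)) (.play 385 (.ref 27 65))))) (.play 192 (.ref 3 192)))) (.play 320 (.ref 1 256)))))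
 (.one (.play 5 (.both (.play 69 (.both (.play 6 (.ref 2 2)) (.ref 22 64))) (.play 4 (.ref 2 1))))))
 (.seq (.one (.both (.ref 60 0) (.both (.play 193 (.both (.play 192 (.ref 3 192)) (.play 321 (.both (.ref 24 193) (.play 320 (.ref 1 256)))))) (.both (.ref 10 192) (.ref 61 192)))))
 (.seq (.one (.both (.play 1 (.ref 6 0)) (.play 320 (.ref 6 64))))
 (.one (.play 323 (.both (.play 195 (.both (.play 131 (.both (.ref 59 2) (.both (.play 322 (.ref 63 66)) (.play 387 (.ref 19 66))))) (.play 196 (.ref 2 192)))) (.play 324 (.ref 0 256))))))))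
 (.seq (.seq (.one (.play 260 (.both (.ref 64 1) (.both (.ref 61 192) (.ref 23 256)))))
 (.seq (.one (.play 1 (.both (.play 65 (.both (.play 0 (.ref 3 0)) (.ref 30 65))) (.play 2 (.ref 3 1)))))
 (.one (.both (.ref 64 2) (.both (.ref 35 192) (.ref 66 192))))))
 (.seq (.one (.play 1 (.both (.play 64 (.ref 1 0)) (.play 68 (.ref 0 1)))))
 (.seq (.one (.play 65 (.both (.ref 68 0) (.play 66 (.ref 1 1)))))
 (.one (.both (.play 1 (.both (.play 0 (.ref 0 0)) (.play 66 (.ref 3 1)))) (.play 70 (.ref 3 2)))))))))
 (.seq (.seq (.seq (.seq (.one (.play 129 (.both (.play 65 (.both (.ref 9 0) (.play 128 (.ref 1 64)))) (.play 130 (.ref 1 65)))))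
 (.one (.play 258 (.both (.ref 60 1) (.both (.ref 71 192) (.both (.ref 66 192) (.ref 31 256)))))))
 (.seq (.one (.play 68 (.both (.play 1 (.ref 3 0)) (.play 5 (.ref 2 1)))))
 (.seq (.one (.play 66 (.both (.ref 36 0) (.both (.ref 33 0) (.play 6 (.both (.play 2 (.both (.play 1 (.ref 3 1)) (.ref 73 2))) (.play 5 (.ref 2 2))))))))
 (.one (.both (.play 1 (.ref 1 0)) (.play 5 (.ref 1 1)))))))
 (.seq (.seq (.one (.both (.play 64 (.ref 2 0)) (.play 5 (.ref 75 1))))
 (.seq (.one (.play 7 (.both (.play 67 (.both (.play 66 (.both (.ref 36 0) (.both (.play 1 (.both (.play 65 (.both (.play 0 (.ref 3 0)) (.play 132 (.both (.play 131 (.both (.play 64 (.ref 0 64)) (.play 71 (.ref 1 67)))) (.play 133 (.ref 0 65)))))) (.play 2 (.ref 3 1)))) (.ref 22 65)))) (.play 6 (.ref 2 3)))) (.both (.play 6 (.ref 41 3)) (.both (.play 6 (.ref 76 3)) (.ref 40 3))))))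
 (.one (.both (.play 65 (.ref 3 0)) (.play 69 (.ref 3 1))))))
 (.seq (.one (.both (.play 0 (.ref 0 0)) (.play 69 (.ref 78 1))))
 (.seq (.one (.both (.play 0 (.ref 0 0)) (.play 69 (.both (.play 4 (.ref 0 1)) (.play 70 (.ref 3 2))))))
 (.one (.play 135 (.both (.play 67 (.both (.play 66 (.both (.ref 71 0) (.both (.play 129 (.both (.play 65 (.both (.play 4 (.both (.play 3 (.both (.play 64 (.ref 2 0)) (.play 71 (.ref 3 3)))) (.play 5 (.ref 2 1)))) (.play 128 (.ref 1 64)))) (.play 130 (.ref 1 65)))) (.ref 9 1)))) (.play 134 (.ref 0 67)))) (.both (.play 71 (.both (.play 4 (.both (.play 3 (.ref 3 3)) (.play 8 (.both (.play 7 (.ref 2 4)) (.ref 73 4))))) (.play 136 (.ref 0 68)))) (.both (.play 134 (.ref 80 67)) (.play 134 (.ref 79 67)))))))))))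
 (.seq (.seq (.seq (.one (.both (.ref 9 0) (.ref 32 1)))
 (.one (.play 321 (.both (.play 64 (.both (.play 0 (.ref 4 0)) (.play 129 (.ref 7 64)))) (.play 385 (.ref 7 128))))))
 (.seq (.one (.both (.play 0 (.ref 4 0)) (.play 321 (.ref 7 64))))
 (.seq (.one (.play 131 (.both (.play 67 (.ref 84 3)) (.play 192 (.ref 2 128)))))
 (.one (.play 69 (.both (.ref 61 1) (.both (.play 134 (.both (.play 70 (.both (.ref 32 2) (.play 135 (.ref 0 67)))) (.play 133 (.ref 0 66)))) (.play 129 (.both (.play 133 (.both (.ref 68 64) (.play 134 (.ref 0 66)))) (.play 130 (.ref 1 65)))))))))))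
 (.seq (.seq (.one (.both (.ref 22 0) (.ref 30 1)))
 (.seq (.one (.both (.play 1 (.ref 6 0)) (.play 320 (.ref 5 64))))
 (.one (.play 71 (.both (.play 135 (.both (.play 199 (.both (.play 198 (.both (.play 262 (.ref 88 6)) (.play 131 (.ref 0 131)))) (.play 200 (.ref 0 132)))) (.play 72 (.ref 2 68)))) (.both (.play 131 (.both (.play 198 (.both (.play 130 (.both (.ref 36 64) (.play 197 (.ref 0 130)))) (.play 199 (.ref 0 131)))) (.play 70 (.ref 2 67)))) (.both (.play 70 (.ref 41 67)) (.play 72 (.both (.play 135 (.ref 2 68)) (.play 70 (.ref 75 68)))))))))))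
 (.seq (.one (.both (.play 65 (.both (.ref 9 0) (.play 132 (.ref 0 65)))) (.play 134 (.ref 0 66))))
 (.seq (.one (.play 320 (.both (.play 65 (.both (.play 1 (.ref 6 0)) (.play 128 (.ref 5 64)))) (.play 384 (.ref 5 128)))))
 (.one (.play 1 (.both (.play 0 (.ref 3 0)) (.play 69 (.both (.play 2 (.ref 3 1)) (.ref 32 1)))))))))))))
 (.seq (.seq (.seq (.seq (.seq (.seq (.one (.play 257 (.both (.play 64 (.ref 7 0)) (.play 320 (.ref 6 64)))))
 (.one (.play 320 (.both (.play 64 (.both (.play 0 (.ref 7 0)) (.ref 93 64))) (.play 256 (.ref 6 64))))))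
 (.seq (.one (.play 66 (.both (.play 65 (.both (.ref 18 0) (.play 2 (.ref 5 1)))) (.play 130 (.ref 5 65)))))
 (.seq (.one (.play 257 (.both (.play 192 (.ref 4 0)) (.play 321 (.ref 7 64)))))
 (.one (.both (.play 0 (.ref 4 0)) (.ref 96 64))))))
 (.seq (.seq (.one (.both (.play 0 (.ref 0 0)) (.play 69 (.ref 0 1))))
 (.one (.both (.play 64 (.ref 1 0)) (.play 5 (.ref 1 1)))))
 (.seq (.one (.play 67 (.both (.play 3 (.ref 5 2)) (.play 68 (.ref 99 64)))))
 (.seq (.one (.play 66 (.both (.play 2 (.ref 5 1)) (.play 320 (.both (.play 256 (.ref 6 64)) (.play 321 (.both (.play 130 (.ref 6 65)) (.play 384 (.ref 6 128)))))))))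
 (.one (.both (.play 0 (.ref 3 0)) (.play 69 (.ref 3 1))))))))
 (.seq (.seq (.seq (.one (.play 256 (.both (.play 64 (.ref 5 0)) (.play 320 (.ref 5 64)))))
 (.one (.both (.play 1 (.ref 6 0)) (.ref 103 64))))
 (.seq (.one (.play 259 (.both (.play 2 (.ref 4 2)) (.play 260 (.ref 0 192)))))
 (.seq (.one (.both (.ref 9 0) (.ref 22 64)))
 (.one (.play 257 (.both (.play 65 (.ref 7 0)) (.play 321 (.ref 7 64))))))))
 (.seq (.seq (.one (.both (.play 0 (.ref 4 0)) (.ref 107 64)))
 (.seq (.one (.play 257 (.both (.play 0 (.ref 4 0)) (.play 321 (.both (.play 256 (.ref 4 64)) (.play 129 (.ref 7 64)))))))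
 (.one (.play 320 (.both (.play 321 (.both (.ref 18 0) (.play 384 (.ref 6 128)))) (.play 256 (.ref 6 64)))))))
 (.seq (.one (.play 69 (.both (.play 67 (.both (.play 66 (.both (.play 65 (.ref 106 0)) (.both (.play 133 (.ref 98 65)) (.play 70 (.ref 87 65))))) (.play 3 (.ref 7 3)))) (.play 5 (.ref 5 4)))))
 (.seq (.one (.both (.ref 111 0) (.both (.ref 110 3) (.play 323 (.both (.play 324 (.both (.ref 26 4) (.play 387 (.ref 6 131)))) (.play 259 (.ref 6 67)))))))
 (.one (.both (.play 64 (.ref 2 0)) (.play 5 (.ref 1 1)))))))))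
 (.seq (.seq (.seq (.seq (.one (.play 65 (.both (.play 0 (.ref 7 0)) (.play 1 (.ref 6 0)))))
 (.one (.play 64 (.both (.ref 114 0) (.play 128 (.ref 4 64))))))
 (.seq (.one (.play 66 (.both (.play 65 (.both (.play 1 (.ref 6 0)) (.play 2 (.ref 5 1)))) (.play 130 (.ref 5 65)))))
 (.seq (.one (.play 3 (.both (.play 68 (.ref 0 0)) (.play 4 (.ref 1 0)))))
 (.one (.both (.play 64 (.ref 2 0)) (.play 5 (.ref 2 1)))))))
 (.seq (.seq (.one (.play 4 (.both (.play 3 (.ref 2 0)) (.play 68 (.both (.play 5 (.ref 2 1)) (.play 69 (.ref 1 65)))))))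
 (.one (.play 65 (.both (.ref 119 1) (.play 64 (.ref 0 64))))))
 (.seq (.one (.play 193 (.both (.play 256 (.ref 6 0)) (.play 257 (.ref 5 1)))))
 (.seq (.one (.play 64 (.both (.play 0 (.ref 4 0)) (.play 1 (.ref 5 0)))))
 (.one (.play 1 (.both (.play 0 (.ref 0 0)) (.play 64 (.ref 1 0)))))))))
 (.seq (.seq (.seq (.one (.play 1 (.both (.play 65 (.both (.play 0 (.ref 3 0)) (.play 64 (.ref 0 64)))) (.play 2 (.ref 3 1)))))
 (.one (.both (.play 256 (.ref 6 0)) (.play 258 (.ref 4 1)))))
 (.seq (.one (.play 194 (.both (.play 258 (.ref 6 2)) (.play 197 (.both (.play 129 (.both (.play 193 (.both (.play 128 (.ref 3 128)) (.play 192 (.ref 2 128)))) (.play 130 (.ref 0 129)))) (.both (.play 130 (.ref 102 129)) (.play 262 (.both (.play 198 (.both (.play 199 (.ref 3 131)) (.play 263 (.ref 0 195)))) (.play 261 (.ref 0 194))))))))))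
 (.seq (.one (.both (.play 0 (.ref 0 0)) (.play 69 (.ref 3 1))))
 (.one (.play 257 (.both (.play 129 (.ref 7 0)) (.play 128 (.ref 4 0))))))))
 (.seq (.seq (.one (.play 68 (.both (.ref 32 0) (.ref 30 64))))
 (.seq (.one (.both (.ref 9 0) (.ref 30 65)))
 (.one (.play 69 (.both (.play 65 (.ref 82 0)) (.both (.play 70 (.ref 130 1)) (.ref 129 2)))))))
 (.seq (.one (.play 256 (.both (.play 129 (.ref 6 0)) (.play 128 (.ref 5 0)))))
 (.seq (.one (.play 131 (.both (.play 259 (.ref 5 3)) (.play 130 (.ref 70 128)))))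
 (.one (.play 259 (.both (.play 132 (.ref 6 3)) (.play 258 (.ref 8 192)))))))))))
 (.seq (.seq (.seq (.seq (.seq (.one (.play 259 (.both (.play 130 (.ref 4 2)) (.play 260 (.ref 80 192)))))
 (.one (.play 67 (.both (.play 3 (.ref 5 2)) (.play 68 (.ref 1 64))))))
 (.seq (.one (.play 195 (.both (.play 260 (.both (.play 67 (.both (.ref 136 1) (.play 324 (.ref 4 67)))) (.play 257 (.both (.play 193 (.both (.play 321 (.ref 5 65)) (.play 192 (.ref 3 192)))) (.play 196 (.ref 118 192)))))) (.play 323 (.ref 7 66)))))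
 (.seq (.one (.both (.ref 136 0) (.play 321 (.ref 6 65))))
 (.one (.play 194 (.both (.play 66 (.ref 138 0)) (.play 322 (.ref 7 65))))))))
 (.seq (.seq (.one (.play 195 (.both (.play 67 (.ref 138 1)) (.play 196 (.ref 41 192)))))
 (.one (.play 65 (.both (.play 1 (.ref 7 1)) (.play 64 (.ref 0 64))))))
 (.seq (.one (.both (.ref 141 0) (.play 323 (.ref 4 66))))
 (.seq (.one (.play 194 (.both (.play 66 (.ref 142 0)) (.play 322 (.ref 5 66)))))
 (.one (.play 64 (.both (.play 0 (.ref 7 0)) (.play 320 (.both (.play 256 (.ref 6 64)) (.ref 93 64))))))))))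
 (.seq (.seq (.seq (.one (.play 1 (.both (.play 192 (.ref 6 0)) (.play 194 (.ref 4 1)))))
 (.one (.play 256 (.both (.ref 145 0) (.play 320 (.ref 6 64))))))
 (.seq (.one (.play 129 (.both (.play 64 (.both (.play 65 (.both (.play 0 (.ref 7 0)) (.play 258 (.ref 4 65)))) (.play 128 (.ref 7 64)))) (.both (.ref 110 64) (.ref 146 64)))))
 (.seq (.one (.play 65 (.both (.play 64 (.both (.play 1 (.ref 5 0)) (.play 257 (.ref 4 64)))) (.play 129 (.ref 5 64)))))
 (.one (.play 66 (.both (.play 68 (.both (.play 69 (.both (.ref 129 2) (.both (.play 65 (.ref 87 64)) (.play 130 (.ref 99 65))))) (.play 4 (.ref 5 3)))) (.play 2 (.ref 7 2))))))))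
 (.seq (.seq (.one (.play 131 (.both (.play 67 (.both (.ref 18 2) (.play 260 (.ref 4 67)))) (.both (.ref 148 3) (.ref 149 64)))))
 (.seq (.one (.play 1 (.both (.play 0 (.ref 3 0)) (.play 258 (.ref 7 1)))))
 (.one (.play 65 (.both (.play 1 (.ref 6 0)) (.play 257 (.ref 6 64)))))))
 (.seq (.one (.both (.ref 152 0) (.play 384 (.ref 5 128))))
 (.seq (.one (.play 257 (.both (.play 0 (.ref 7 0)) (.play 2 (.ref 5 1)))))
 (.one (.play 64 (.both (.play 0 (.ref 4 0)) (.play 256 (.ref 4 64))))))))))
 (.seq (.seq (.seq (.seq (.one (.play 260 (.both (.play 196 (.both (.play 389 (.both (.play 197 (.both (.play 195 (.both (.play 131 (.both (.ref 155 3) (.play 130 (.ref 70 128)))) (.both (.play 133 (.both (.play 134 (.ref 41 130)) (.play 388 (.ref 5 132)))) (.ref 154 131)))) (.both (.play 133 (.ref 153 4)) (.both (.play 198 (.both (.play 261 (.both (.play 134 (.ref 5 133)) (.play 259 (.ref 113 194)))) (.both (.play 134 (.both (.play 135 (.ref 76 131)) (.play 261 (.ref 5 133)))) (.play 259 (.ref 8 193))))) (.play 198 (.both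 (.play 195 (.both (.ref 151 130) (.play 194 (.ref 87 193)))) (.both (.play 195 (.both (.ref 151 130) (.ref 129 131))) (.play 259 (.ref 45 193))))))))) (.both (.ref 107 196) (.ref 96 196)))) (.both (.ref 150 1) (.play 389 (.ref 97 132))))) (.both (.play 196 (.both (.ref 150 1) (.both (.ref 147 3) (.both (.play 132 (.both (.ref 148 4) (.both (.ref 146 67) (.play 133 (.both (.play 69 (.ref 5 68)) (.play 388 (.both (.ref 15 131) (.play 197 (.ref 5 132))))))))) (.both (.play 132 (.ref 112 64)) (.play 388 (.ref 112 128))))))) (.both (.play 196 (.both (.ref 147 3) (.both (.play 389 (.both (.play 388 (.both (.ref 144 131) (.both (.play 195 (.both (.play 131 (.ref 7 131)) (.play 452 (.both (.play 259 (.ref 7 195)) (.play 261 (.ref 25 196)))))) (.ref 126 193)))) (.both (.ref 107 196) (.ref 96 196)))) (.both (.ref 109 132) (.both (.play 389 (.ref 97 132)) (.play 389 (.ref 108 132))))))) (.both (.play 196 (.both (.play 132 (.both (.ref 56 3) (.play 389 (.ref 4 132)))) (.both (.play 132 (.both (.ref 56 3) (.both (.play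 69 (.both (.play 68 (.both (.play 5 (.ref 5 4)) (.ref 15 67))) (.play 133 (.ref 5 68)))) (.ref 94 67)))) (.both (.play 388 (.both (.ref 144 131) (.both (.play 195 (.both (.play 131 (.ref 7 131)) (.play 453 (.both (.play 452 (.both (.play 259 (.ref 7 195)) (.play 517 (.ref 4 260)))) (.play 389 (.ref 4 196)))))) (.play 389 (.both (.ref 126 193) (.play 453 (.ref 4 196))))))) (.play 389 (.ref 97 132)))))) (.both (.play 323 (.both (.ref 72 64) (.both (.play 322 (.both (.play 389 (.both (.play 261 (.both (.play 197 (.both (.ref 116 68) (.both (.play 388 (.ref 88 132)) (.play 453 (.both (.play 452 (.both (.play 388 (.ref 5 196)) (.play 516 (.ref 6 260)))) (.play 517 (.ref 7 260))))))) (.play 262 (.ref 2 258)))) (.play 390 (.ref 0 322)))) (.both (.play 261 (.ref 118 257)) (.ref 47 320)))) (.both (.play 322 (.both (.ref 60 65) (.play 261 (.ref 118 257)))) (.both (.play 452 (.both (.play 451 (.both (.play 259 (.both (.play 195 (.both (.play 387 (.ref 19 130)) (.play 388 (.ref 7 195)))) (.both (.play 387 (.ref 142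 193)) (.play 388 (.ref 17 195))))) (.both (.ref 143 193) (.both (.play 388 (.both (.play 259 (.ref 17 195)) (.play 515 (.ref 6 259)))) (.ref 132 259))))) (.both (.play 453 (.both (.play 451 (.both (.play 387 (.both (.play 259 (.ref 142 193)) (.play 386 (.ref 70 384)))) (.both (.ref 143 193) (.both (.ref 133 256) (.play 450 (.both (.play 449 (.ref 130 384)) (.both (.play 449 (.ref 106 384)) (.play 454 (.ref 87 449))))))))) (.both (.play 451 (.both (.ref 143 193) (.both (.ref 140 194) (.ref 133 256)))) (.both (.ref 137 194) (.ref 139 195))))) (.both (.play 453 (.both (.ref 137 194) (.both (.play 451 (.both (.ref 133 256) (.both (.ref 135 258) (.ref 132 259)))) (.both (.play 451 (.both (.ref 134 256) (.both (.ref 133 256) (.both (.ref 132 259) (.ref 131 385))))) (.ref 128 260))))) (.play 388 (.both (.play 259 (.ref 17 195)) (.both (.play 261 (.both (.play 262 (.both (.play 198 (.both (.play 259 (.both (.play 195 (.ref 7 195)) (.play 199 (.ref 2 195)))) (.play 453 (.both (.play 389 (.ref 5 197)) (.play 517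 (.ref 4 260)))))) (.play 263 (.ref 1 259)))) (.play 197 (.ref 5 196)))) (.play 261 (.ref 25 196))))))))) (.play 322 (.both (.play 258 (.both (.play 261 (.both (.play 389 (.both (.play 197 (.both (.play 198 (.both (.play 134 (.ref 5 133)) (.play 259 (.ref 2 194)))) (.play 388 (.ref 63 132)))) (.play 390 (.ref 0 322)))) (.play 262 (.ref 2 258)))) (.play 257 (.ref 3 257)))) (.both (.ref 66 256) (.play 261 (.ref 118 257)))))))))) (.both (.play 196 (.both (.play 132 (.ref 112 64)) (.both (.play 389 (.both (.play 388 (.both (.play 197 (.both (.play 195 (.both (.play 131 (.ref 7 131)) (.play 261 (.both (.play 262 (.ref 127 194)) (.play 452 (.ref 6 196)))))) (.play 133 (.ref 5 132)))) (.both (.ref 101 131) (.ref 126 193)))) (.both (.ref 107 196) (.ref 96 196)))) (.both (.ref 109 132) (.play 389 (.ref 108 132)))))) (.both (.play 261 (.both (.play 262 (.both (.play 323 (.both (.play 198 (.both (.play 134 (.ref 104 69)) (.play 259 (.both (.play 258 (.both (.ref 9 193) (.play 257 (.ref 0 257)))) (.play 199 (.ref 2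 195)))))) (.play 322 (.ref 2 258)))) (.both (.play 263 (.both (.play 199 (.both (.play 327 (.both (.ref 85 67) (.play 328 (.ref 0 260)))) (.play 200 (.ref 2 196)))) (.play 264 (.ref 1 260)))) (.play 323 (.ref 113 258))))) (.both (.play 262 (.both (.play 259 (.both (.play 195 (.both (.play 323 (.both (.play 132 (.both (.ref 122 67) (.play 196 (.ref 125 131)))) (.play 322 (.ref 1 258)))) (.play 194 (.ref 3 194)))) (.both (.ref 124 193) (.play 322 (.both (.ref 123 257) (.play 323 (.ref 2 258))))))) (.both (.play 263 (.both (.play 196 (.both (.play 132 (.ref 54 68)) (.play 195 (.ref 3 195)))) (.play 264 (.ref 1 260)))) (.play 263 (.ref 99 259))))) (.both (.play 323 (.both (.play 259 (.both (.play 258 (.both (.play 194 (.both (.ref 83 66) (.play 193 (.ref 3 193)))) (.play 257 (.ref 0 257)))) (.both (.play 387 (.both (.play 132 (.both (.play 195 (.both (.ref 122 67) (.play 194 (.both (.play 130 (.ref 7 130)) (.play 262 (.ref 3 194)))))) (.play 196 (.ref 6 131)))) (.both (.play 262 (.both (.play 450 (.both (.play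 195 (.both (.play 386 (.ref 6 194)) (.play 194 (.ref 3 194)))) (.ref 121 258))) (.play 263 (.ref 1 259)))) (.play 451 (.ref 25 195))))) (.ref 120 193)))) (.both (.play 322 (.both (.play 386 (.both (.play 258 (.both (.play 194 (.both (.play 193 (.both (.play 129 (.ref 7 129)) (.play 259 (.ref 3 193)))) (.play 387 (.ref 54 130)))) (.play 257 (.ref 3 257)))) (.play 385 (.ref 1 321)))) (.play 321 (.ref 2 257)))) (.play 322 (.ref 118 257))))) (.both (.play 389 (.both (.play 197 (.both (.ref 116 68) (.both (.ref 115 68) (.play 198 (.both (.play 196 (.both (.play 132 (.ref 4 132)) (.play 263 (.both (.play 262 (.ref 102 195)) (.both (.play 262 (.both (.play 195 (.ref 3 195)) (.play 323 (.ref 1 259)))) (.ref 117 196)))))) (.play 134 (.ref 5 133))))))) (.both (.play 196 (.ref 84 132)) (.play 453 (.both (.ref 100 195) (.play 517 (.ref 7 260))))))) (.play 389 (.both (.play 197 (.both (.ref 116 68) (.both (.ref 115 68) (.play 196 (.both (.ref 100 131) (.play 132 (.ref 4 132))))))) (.both (.play 453 (.both (.play 452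 (.both (.play 454 (.both (.play 390 (.both (.play 197 (.ref 4 197)) (.play 391 (.ref 113 387)))) (.play 518 (.ref 4 261)))) (.play 516 (.ref 6 260)))) (.play 517 (.ref 7 260)))) (.play 453 (.ref 17 196)))))))))) (.both (.play 196 (.both (.play 388 (.ref 112 128)) (.both (.ref 109 132) (.both (.play 389 (.ref 97 132)) (.play 389 (.ref 108 132)))))) (.play 389 (.both (.play 453 (.both (.play 452 (.both (.play 261 (.both (.play 198 (.both (.play 197 (.both (.play 134 (.ref 5 133)) (.ref 14 197))) (.play 262 (.ref 5 197)))) (.play 516 (.ref 6 260)))) (.both (.play 451 (.both (.play 515 (.both (.play 388 (.ref 6 259)) (.play 514 (.ref 45 448)))) (.both (.play 450 (.both (.play 388 (.both (.play 515 (.ref 6 259)) (.play 449 (.ref 2 385)))) (.play 390 (.ref 2 386)))) (.play 390 (.ref 41 386))))) (.both (.play 451 (.both (.play 454 (.both (.ref 105 259) (.play 450 (.ref 106 385)))) (.both (.play 454 (.both (.ref 105 259) (.play 455 (.ref 82 386)))) (.play 390 (.ref 76 386))))) (.play 516 (.ref 104 260)))))) (.play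 517 (.ref 7 260)))) (.both (.play 196 (.both (.play 388 (.both (.play 197 (.both (.play 133 (.ref 5 132)) (.play 387 (.both (.play 390 (.both (.play 454 (.both (.play 261 (.ref 4 197)) (.play 455 (.ref 0 387)))) (.play 323 (.ref 102 322)))) (.play 451 (.ref 6 195)))))) (.both (.ref 101 131) (.both (.play 197 (.both (.play 261 (.both (.ref 100 131) (.play 452 (.ref 5 196)))) (.play 133 (.ref 5 132)))) (.play 451 (.both (.play 387 (.ref 6 195)) (.play 323 (.both (.play 452 (.both (.play 515 (.ref 6 259)) (.play 516 (.both (.play 259 (.ref 7 259)) (.play 580 (.ref 5 324)))))) (.play 322 (.ref 98 321)))))))))) (.play 132 (.ref 4 132)))) (.both (.ref 83 132) (.play 196 (.ref 97 132))))))))))))))))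
 (.one (.play 256 (.both (.play 193 (.ref 6 0)) (.play 320 (.ref 5 64))))))
 (.seq (.one (.play 256 (.both (.play 1 (.ref 6 0)) (.ref 157 64))))
 (.seq (.one (.play 321 (.both (.play 320 (.both (.ref 26 0) (.play 385 (.ref 4 128)))) (.play 257 (.ref 4 64)))))
 (.one (.both (.ref 149 0) (.both (.play 324 (.both (.play 323 (.both (.ref 18 2) (.play 388 (.ref 4 131)))) (.play 260 (.ref 4 67)))) (.ref 159 3)))))))
 (.seq (.seq (.one (.play 64 (.both (.play 65 (.both (.play 0 (.ref 7 0)) (.play 1 (.ref 4 1)))) (.play 128 (.ref 7 64)))))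
 (.seq (.one (.play 66 (.both (.play 2 (.ref 7 2)) (.play 65 (.ref 98 64)))))
 (.one (.play 65 (.both (.ref 122 0) (.play 129 (.ref 6 64)))))))
 (.seq (.one (.play 131 (.both (.play 259 (.ref 7 2)) (.play 132 (.ref 41 128)))))
 (.seq (.one (.play 194 (.both (.play 257 (.both (.play 66 (.both (.ref 141 0) (.play 321 (.ref 6 65)))) (.play 260 (.both (.play 196 (.both (.play 324 (.ref 7 67)) (.play 197 (.ref 2 193)))) (.play 193 (.ref 102 192)))))) (.play 322 (.ref 5 66)))))
 (.one (.both (.ref 32 1) (.ref 22 64)))))))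
 (.seq (.seq (.seq (.one (.play 256 (.both (.play 192 (.ref 6 0)) (.ref 121 64))))
 (.one (.play 258 (.both (.ref 145 0) (.play 322 (.ref 4 65))))))
 (.seq (.one (.play 64 (.both (.ref 50 0) (.play 128 (.ref 7 64)))))
 (.seq (.one (.play 129 (.both (.play 66 (.both (.play 65 (.both (.play 2 (.ref 5 1)) (.play 256 (.ref 6 64)))) (.play 130 (.ref 5 65)))) (.both (.ref 168 64) (.ref 159 65)))))
 (.one (.play 65 (.both (.ref 26 1) (.play 256 (.ref 6 64))))))))
 (.seq (.seq (.one (.play 132 (.both (.ref 169 3) (.both (.ref 171 3) (.ref 111 64)))))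
 (.seq (.one (.play 66 (.both (.play 65 (.ref 118 0)) (.both (.play 65 (.both (.play 64 (.ref 2 0)) (.ref 22 64))) (.play 70 (.both (.play 6 (.both (.play 5 (.ref 1 2)) (.play 7 (.ref 2 3)))) (.play 71 (.ref 3 3))))))))
 (.one (.play 197 (.both (.play 261 (.ref 4 4)) (.ref 173 128))))))
 (.seq (.one (.play 3 (.both (.play 4 (.ref 2 0)) (.play 258 (.ref 5 2)))))
 (.seq (.one (.play 261 (.both (.play 197 (.both (.play 196 (.both (.play 195 (.both (.play 198 (.both (.play 134 (.both (.ref 152 5) (.play 135 (.ref 2 131)))) (.play 199 (.ref 106 130)))) (.both (.play 194 (.ref 90 128)) (.both (.play 194 (.both (.ref 52 128) (.both (.play 198 (.ref 106 129)) (.ref 69 192)))) (.play 262 (.ref 80 194)))))) (.both (.play 198 (.both (.play 134 (.both (.ref 152 5) (.play 135 (.ref 41 131)))) (.both (.play 132 (.both (.play 131 (.ref 70 129)) (.play 389 (.ref 7 132)))) (.ref 154 132)))) (.both (.play 132 (.both (.ref 155 4) (.play 389 (.ref 7 132)))) (.play 195 (.both (.play 198 (.both (.play 194 (.ref 106 129)) (.ref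 175 131))) (.both (.play 198 (.both (.ref 175 131) (.play 199 (.ref 87 194)))) (.play 262 (.ref 79 194))))))))) (.both (.play 133 (.both (.ref 171 4) (.play 388 (.ref 6 132)))) (.both (.play 133 (.both (.ref 169 4) (.play 388 (.ref 6 132)))) (.play 133 (.both (.play 132 (.both (.play 68 (.ref 7 68)) (.play 389 (.both (.ref 26 69) (.play 196 (.ref 7 132)))))) (.play 388 (.ref 6 132)))))))) (.both (.play 197 (.both (.ref 170 4) (.both (.play 388 (.both (.play 389 (.both (.play 198 (.both (.play 134 (.ref 5 133)) (.play 453 (.both (.play 260 (.ref 84 196)) (.play 262 (.ref 5 197)))))) (.ref 174 193))) (.both (.ref 103 196) (.ref 157 196)))) (.both (.ref 158 132) (.play 388 (.ref 104 132)))))) (.both (.play 197 (.both (.play 133 (.both (.ref 95 4) (.both (.play 68 (.both (.play 69 (.both (.play 4 (.ref 7 4)) (.ref 14 69))) (.play 132 (.ref 7 68)))) (.ref 55 69)))) (.both (.play 133 (.both (.ref 95 4) (.play 388 (.ref 6 132)))) (.both (.play 389 (.both (.play 198 (.both (.play 134 (.ref 5 133)) (.play 452 (.both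 (.play 388 (.ref 6 196)) (.play 453 (.both (.play 262 (.ref 5 197)) (.play 516 (.ref 6 260)))))))) (.both (.ref 55 133) (.play 390 (.both (.play 388 (.both (.play 452 (.ref 6 196)) (.ref 173 321))) (.play 454 (.ref 4 197))))))) (.ref 158 132))))) (.both (.play 197 (.both (.ref 172 1) (.both (.play 388 (.both (.play 389 (.both (.play 196 (.both (.play 260 (.both (.ref 100 131) (.play 453 (.ref 4 196)))) (.play 132 (.ref 7 132)))) (.both (.play 454 (.both (.play 196 (.both (.play 132 (.ref 7 132)) (.play 453 (.both (.play 260 (.ref 4 196)) (.play 518 (.ref 4 261)))))) (.play 390 (.ref 4 197)))) (.ref 174 193)))) (.both (.ref 103 196) (.ref 157 196)))) (.ref 158 132)))) (.both (.play 197 (.both (.ref 172 1) (.both (.ref 170 4) (.both (.play 133 (.both (.ref 169 4) (.both (.ref 168 68) (.play 132 (.both (.play 68 (.ref 7 68)) (.play 389 (.both (.play 196 (.ref 7 132)) (.ref 14 133)))))))) (.both (.play 133 (.ref 160 66)) (.play 389 (.ref 160 130))))))) (.both (.play 326 (.both (.play 260 (.both (.play 196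 (.both (.play 388 (.both (.play 132 (.both (.ref 18 67) (.play 68 (.ref 4 68)))) (.ref 167 195))) (.both (.play 389 (.ref 84 132)) (.play 388 (.both (.play 389 (.both (.play 387 (.both (.play 451 (.ref 6 195)) (.play 386 (.ref 118 321)))) (.play 453 (.ref 4 196)))) (.both (.ref 167 195) (.play 453 (.both (.play 389 (.ref 7 196)) (.play 452 (.both (.play 517 (.ref 4 260)) (.play 516 (.ref 5 260)))))))))))) (.play 259 (.ref 127 258)))) (.both (.ref 65 67) (.both (.play 327 (.both (.ref 64 68) (.play 260 (.ref 102 259)))) (.play 453 (.both (.play 454 (.both (.play 262 (.both (.play 198 (.both (.play 390 (.ref 27 134)) (.play 389 (.ref 5 197)))) (.both (.play 390 (.ref 138 196)) (.play 389 (.ref 25 197))))) (.both (.ref 139 196) (.both (.play 389 (.both (.play 262 (.ref 25 197)) (.play 518 (.ref 4 261)))) (.ref 128 261))))) (.both (.play 452 (.both (.play 454 (.both (.ref 140 195) (.both (.ref 139 196) (.both (.ref 164 259) (.play 451 (.both (.play 450 (.ref 106 385)) (.both (.play 455 (.ref 130 386)) (.play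 450 (.ref 87 449))))))))) (.both (.ref 143 194) (.both (.play 454 (.both (.ref 139 196) (.both (.ref 164 259) (.both (.play 455 (.both (.play 456 (.ref 166 387)) (.both (.ref 129 388) (.play 451 (.ref 87 450))))) (.play 455 (.both (.play 451 (.ref 166 386)) (.both (.ref 129 388) (.play 456 (.ref 87 451))))))))) (.ref 165 194))))) (.both (.play 452 (.both (.ref 165 194) (.both (.play 454 (.both (.ref 134 257) (.both (.ref 164 259) (.play 389 (.ref 125 260))))) (.both (.play 454 (.both (.ref 135 259) (.both (.ref 164 259) (.both (.ref 128 261) (.ref 131 386))))) (.ref 132 260))))) (.play 389 (.both (.play 260 (.both (.play 259 (.both (.play 195 (.both (.play 262 (.both (.play 194 (.ref 3 194)) (.play 198 (.ref 5 197)))) (.play 452 (.both (.play 388 (.ref 7 195)) (.play 516 (.ref 6 260)))))) (.play 258 (.ref 0 258)))) (.play 196 (.ref 7 196)))) (.both (.play 260 (.ref 17 196)) (.play 262 (.ref 25 197))))))))))))) (.both (.play 388 (.both (.play 452 (.both (.play 260 (.both (.play 451 (.both (.play 196 (.both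 (.play 132 (.ref 54 68)) (.play 387 (.ref 6 195)))) (.play 515 (.ref 6 259)))) (.play 259 (.both (.play 195 (.ref 7 195)) (.play 326 (.ref 127 258)))))) (.play 516 (.ref 5 260)))) (.both (.play 197 (.both (.play 389 (.both (.play 196 (.both (.play 260 (.both (.ref 162 129) (.play 453 (.ref 4 196)))) (.play 132 (.ref 7 132)))) (.both (.play 196 (.both (.play 132 (.ref 7 132)) (.play 390 (.both (.play 387 (.both (.play 451 (.both (.play 260 (.ref 6 195)) (.play 450 (.ref 1 386)))) (.play 386 (.ref 118 321)))) (.play 454 (.ref 4 197)))))) (.both (.play 196 (.both (.play 132 (.ref 7 132)) (.play 453 (.both (.play 260 (.ref 4 196)) (.ref 14 197))))) (.play 454 (.both (.play 390 (.ref 4 197)) (.play 453 (.both (.play 326 (.both (.play 517 (.both (.play 262 (.ref 5 261)) (.play 581 (.ref 7 324)))) (.play 387 (.both (.play 327 (.ref 1 323)) (.play 386 (.ref 0 386)))))) (.play 518 (.ref 4 261)))))))))) (.play 133 (.ref 6 132)))) (.both (.ref 91 132) (.play 452 (.ref 153 132)))))) (.both (.play 260 (.both (.play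 388 (.both (.play 196 (.both (.ref 161 67) (.both (.ref 163 68) (.play 197 (.both (.play 195 (.both (.play 131 (.ref 7 131)) (.play 258 (.both (.ref 123 193) (.play 259 (.both (.play 198 (.ref 2 194)) (.play 326 (.ref 0 258)))))))) (.play 133 (.ref 5 132))))))) (.both (.play 452 (.both (.ref 162 193) (.play 516 (.ref 5 260)))) (.play 452 (.ref 25 196))))) (.both (.play 259 (.both (.play 258 (.both (.play 194 (.both (.play 322 (.both (.play 195 (.both (.play 131 (.ref 88 66)) (.play 262 (.ref 3 194)))) (.play 321 (.ref 1 257)))) (.play 193 (.ref 3 193)))) (.play 257 (.ref 0 257)))) (.both (.play 326 (.both (.play 195 (.both (.play 131 (.ref 108 67)) (.play 262 (.both (.play 194 (.ref 3 194)) (.play 263 (.both (.ref 32 195) (.play 264 (.ref 1 260)))))))) (.play 327 (.ref 3 259)))) (.play 326 (.ref 127 258))))) (.both (.play 388 (.both (.play 196 (.both (.ref 161 67) (.both (.ref 163 68) (.play 197 (.both (.ref 162 129) (.play 133 (.ref 5 132))))))) (.both (.play 196 (.both (.ref 161 67) (.play 452 (.both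 (.ref 15 195) (.play 516 (.ref 5 260)))))) (.play 197 (.ref 88 132))))) (.both (.play 259 (.both (.play 133 (.both (.play 262 (.both (.play 326 (.both (.play 198 (.both (.ref 114 69) (.play 199 (.ref 2 195)))) (.play 327 (.ref 0 259)))) (.both (.ref 119 195) (.play 327 (.both (.play 326 (.ref 3 259)) (.ref 117 260)))))) (.both (.play 197 (.ref 63 68)) (.play 326 (.both (.play 197 (.ref 125 132)) (.play 327 (.ref 3 259))))))) (.both (.play 258 (.both (.play 197 (.both (.play 388 (.ref 88 132)) (.play 198 (.ref 2 194)))) (.play 257 (.ref 0 257)))) (.play 258 (.ref 98 257))))) (.play 326 (.both (.play 262 (.both (.play 390 (.both (.play 133 (.both (.play 198 (.both (.ref 114 69) (.play 259 (.both (.play 199 (.ref 2 195)) (.play 258 (.ref 0 258)))))) (.play 197 (.ref 4 133)))) (.both (.play 197 (.ref 84 133)) (.play 259 (.both (.play 455 (.both (.play 198 (.both (.play 199 (.ref 2 195)) (.play 391 (.ref 4 198)))) (.play 454 (.both (.play 518 (.ref 7 261)) (.play 519 (.ref 4 262)))))) (.play 258 (.ref 0 258)))))))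 (.both (.play 263 (.both (.play 199 (.both (.ref 91 70) (.play 200 (.ref 2 196)))) (.play 264 (.ref 1 260)))) (.both (.ref 120 194) (.play 263 (.both (.ref 124 194) (.play 264 (.ref 1 260)))))))) (.both (.play 327 (.both (.play 391 (.both (.play 263 (.both (.play 199 (.both (.play 200 (.both (.play 136 (.ref 5 135)) (.play 262 (.ref 2 196)))) (.play 390 (.ref 63 134)))) (.play 264 (.ref 2 260)))) (.play 392 (.ref 0 324)))) (.play 328 (.ref 3 260)))) (.play 327 (.ref 102 259)))))))))) (.play 197 (.both (.play 389 (.ref 160 130)) (.both (.ref 158 132) (.play 388 (.ref 104 132)))))))))))))))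
 (.one (.play 325 (.both (.ref 176 1) (.both (.ref 156 1) (.both (.play 324 (.both (.play 323 (.both (.play 262 (.both (.play 390 (.both (.play 198 (.both (.ref 95 69) (.both (.play 389 (.ref 63 133)) (.ref 94 133)))) (.play 391 (.ref 0 323)))) (.play 263 (.ref 2 259)))) (.ref 28 130))) (.both (.ref 58 67) (.both (.ref 89 192) (.both (.play 323 (.both (.ref 71 257) (.both (.ref 66 257) (.play 391 (.both (.play 387 (.both (.play 386 (.ref 1 322)) (.ref 39 323))) (.play 390 (.ref 0 323))))))) (.ref 74 257)))))) (.both (.play 324 (.both (.play 323 (.both (.ref 57 66) (.both (.play 390 (.ref 90 257)) (.ref 31 321)))) (.both (.play 327 (.both (.ref 57 67) (.both (.play 388 (.both (.play 264 (.both (.play 263 (.ref 2 260)) (.play 328 (.both (.play 265 (.ref 2 261)) (.play 389 (.ref 1 324)))))) (.play 387 (.ref 1 323)))) (.play 260 (.both (.play 259 (.ref 3 259)) (.play 392 (.both (.play 328 (.both (.play 261 (.ref 3 260)) (.play 393 (.ref 0 325)))) (.play 391 (.ref 0 324))))))))) (.both (.ref 49 257) (.both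 (.ref 43 257) (.both (.ref 12 257) (.play 391 (.both (.play 323 (.both (.ref 92 258) (.play 390 (.ref 0 323)))) (.both (.play 327 (.both (.ref 92 259) (.play 392 (.ref 0 324)))) (.play 390 (.ref 79 323))))))))))) (.both (.play 327 (.both (.ref 65 68) (.both (.play 264 (.both (.play 328 (.both (.play 389 (.both (.play 262 (.both (.ref 91 133) (.both (.play 390 (.both (.play 453 (.ref 88 197)) (.play 329 (.ref 1 325)))) (.play 329 (.both (.play 261 (.ref 3 261)) (.play 390 (.ref 1 325))))))) (.play 388 (.ref 1 324)))) (.play 265 (.ref 2 261)))) (.both (.play 324 (.both (.play 387 (.both (.play 323 (.both (.play 390 (.ref 90 257)) (.play 386 (.ref 1 322)))) (.play 388 (.ref 1 323)))) (.play 263 (.ref 2 260)))) (.play 263 (.ref 41 260))))) (.both (.play 324 (.ref 34 130)) (.both (.play 328 (.ref 34 131)) (.both (.ref 89 193) (.both (.ref 77 257) (.both (.play 388 (.both (.play 324 (.both (.play 391 (.both (.play 323 (.both (.ref 35 257) (.play 390 (.ref 0 323)))) (.play 392 (.ref 0 324)))) (.play 387 (.ref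 1 323)))) (.both (.play 387 (.both (.play 389 (.ref 44 322)) (.play 324 (.ref 1 323)))) (.both (.play 389 (.ref 45 322)) (.both (.play 387 (.both (.play 389 (.both (.play 386 (.ref 2 322)) (.play 328 (.ref 1 324)))) (.play 324 (.ref 1 323)))) (.play 392 (.both (.play 391 (.both (.play 389 (.both (.play 328 (.ref 1 324)) (.play 390 (.ref 87 387)))) (.play 324 (.ref 0 324)))) (.both (.ref 39 324) (.play 391 (.ref 79 324)))))))))) (.ref 86 259))))))))) (.both (.play 324 (.both (.ref 72 65) (.both (.play 327 (.ref 67 66)) (.both (.play 323 (.ref 62 66)) (.both (.ref 65 67) (.ref 43 257)))))) (.both (.play 327 (.both (.ref 72 66) (.both (.play 328 (.ref 62 68)) (.both (.play 324 (.ref 29 131)) (.both (.ref 81 257) (.ref 86 259)))))) (.both (.play 324 (.both (.ref 72 65) (.both (.play 323 (.ref 67 65)) (.both (.ref 37 129) (.both (.play 323 (.ref 34 129)) (.play 327 (.ref 29 131))))))) (.both (.play 324 (.both (.ref 72 65) (.both (.play 323 (.ref 67 65)) (.both (.play 327 (.ref 62 67)) (.both (.ref 37 129) (.play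 323 (.ref 34 129))))))) (.both (.play 327 (.both (.play 324 (.ref 67 66)) (.both (.play 328 (.ref 67 67)) (.both (.play 392 (.both (.play 328 (.both (.play 264 (.both (.ref 85 132) (.play 265 (.ref 2 261)))) (.play 393 (.ref 0 325)))) (.both (.play 324 (.both (.play 263 (.both (.play 323 (.both (.ref 71 257) (.play 262 (.ref 2 259)))) (.play 264 (.ref 2 260)))) (.play 391 (.ref 0 324)))) (.both (.play 391 (.ref 80 324)) (.play 393 (.both (.play 328 (.ref 0 325)) (.play 391 (.ref 78 325)))))))) (.both (.play 392 (.both (.play 328 (.both (.play 261 (.both (.play 390 (.both (.play 389 (.both (.play 197 (.ref 54 133)) (.play 329 (.ref 1 325)))) (.both (.ref 83 133) (.play 329 (.both (.play 262 (.ref 3 261)) (.play 389 (.ref 1 325))))))) (.play 260 (.ref 3 260)))) (.play 393 (.ref 0 325)))) (.both (.play 324 (.both (.play 259 (.both (.play 323 (.both (.ref 33 257) (.play 258 (.ref 3 258)))) (.play 260 (.ref 3 259)))) (.play 391 (.ref 0 324)))) (.play 391 (.ref 80 324))))) (.both (.ref 21 132) (.both (.play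 260 (.both (.play 264 (.both (.play 263 (.both (.play 261 (.both (.play 262 (.ref 82 195)) (.play 328 (.ref 3 260)))) (.play 324 (.ref 2 260)))) (.both (.ref 73 260) (.play 263 (.ref 76 260))))) (.both (.play 324 (.both (.play 263 (.both (.ref 42 257) (.play 264 (.ref 2 260)))) (.play 259 (.ref 3 259)))) (.both (.play 259 (.both (.play 261 (.both (.play 258 (.ref 0 258)) (.play 328 (.ref 3 260)))) (.play 324 (.ref 3 259)))) (.ref 48 258))))) (.both (.ref 81 257) (.ref 53 259))))))))) (.both (.play 327 (.both (.play 324 (.ref 62 67)) (.both (.ref 37 130) (.both (.play 328 (.ref 29 132)) (.both (.ref 77 257) (.both (.ref 74 258) (.ref 53 259))))))) (.both (.play 327 (.both (.ref 65 68) (.both (.play 328 (.ref 62 68)) (.both (.play 324 (.ref 34 130)) (.both (.ref 21 132) (.play 328 (.ref 29 132))))))) (.both (.play 327 (.both (.ref 72 66) (.both (.play 328 (.ref 67 67)) (.both (.play 324 (.ref 62 67)) (.both (.ref 65 68) (.play 260 (.both (.play 261 (.ref 70 258)) (.both (.play 324 (.both (.play 259 (.ref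 3 259)) (.play 391 (.both (.ref 69 322) (.play 392 (.ref 0 324)))))) (.play 328 (.both (.play 261 (.ref 3 260)) (.ref 23 324))))))))))) (.both (.play 327 (.both (.play 324 (.ref 67 66)) (.both (.ref 65 68) (.both (.play 328 (.ref 62 68)) (.both (.ref 21 132) (.play 328 (.ref 29 132))))))) (.both (.play 327 (.both (.play 324 (.ref 62 67)) (.both (.play 324 (.both (.ref 60 67) (.ref 51 132))) (.both (.ref 58 68) (.both (.play 328 (.ref 34 131)) (.both (.play 324 (.ref 29 131)) (.ref 53 259))))))) (.both (.play 324 (.ref 38 129)) (.both (.play 327 (.both (.play 324 (.both (.ref 51 132) (.both (.play 391 (.both (.ref 52 258) (.play 392 (.ref 0 324)))) (.play 263 (.both (.play 387 (.both (.play 323 (.both (.play 262 (.ref 2 259)) (.play 386 (.ref 1 322)))) (.play 388 (.ref 1 323)))) (.play 264 (.ref 2 260))))))) (.both (.play 328 (.both (.ref 51 133) (.both (.ref 10 260) (.play 261 (.both (.play 260 (.ref 3 260)) (.play 329 (.both (.play 262 (.ref 3 261)) (.ref 30 325)))))))) (.both (.ref 49 258) (.both (.play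 388 (.both (.play 324 (.both (.ref 46 258) (.play 387 (.ref 1 323)))) (.both (.play 328 (.both (.ref 46 259) (.play 389 (.ref 1 324)))) (.play 389 (.ref 45 322))))) (.ref 43 258)))))) (.play 327 (.ref 38 130)))))))))))))))))))))))))))))
    (by decide +kernel)

theorem Cert_L2 : PW ⟨11, nat_lit 136703170298938245273281389194851335334573089430825777276610662900622062449960995201469573563940864, nat_lit 49680578953622685988730596193628303620924478953531295253568362920608611731352838108017043796490938100006702247955711336117582008995259018460533276365449627250052851908658372651132791086830706312734268608949453126415886340968295694568, 12, nat_lit 49680578953622685988730596193628303620924478953531295253568362920608611731352838108017043796490938100006702247955711336117582008995259018460533276365449627250052851908658372651132791086830706312734268608949453126415886340968295694568⟩ :=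
  sound2 baseTbl baseTbl_ok
    (.seq (.seq (.seq (.seq (.seq (.seq (.seq (.seq (.one (.play 257 (.both (.play 66 (.ref 5 1)) (.play 320 (.ref 6 64)))))
 (.one (.play 257 (.both (.play 64 (.ref 7 0)) (.play 320 (.ref 6 64))))))
 (.seq (.one (.play 320 (.both (.play 64 (.both (.play 0 (.ref 7 0)) (.ref 9 64))) (.play 256 (.ref 6 64)))))
 (.seq (.one (.play 257 (.both (.play 64 (.ref 7 0)) (.play 66 (.ref 5 1)))))
 (.one (.play 68 (.both (.play 67 (.ref 0 0)) (.play 69 (.ref 0 1))))))))
 (.seq (.seq (.one (.play 65 (.both (.play 64 (.ref 1 0)) (.play 66 (.ref 1 1)))))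
 (.one (.both (.ref 13 0) (.ref 12 1))))
 (.seq (.one (.both (.play 0 (.ref 0 0)) (.play 69 (.ref 0 1))))
 (.seq (.one (.play 1 (.both (.play 0 (.ref 3 0)) (.play 2 (.ref 3 1)))))
 (.one (.both (.ref 16 0) (.ref 13 64)))))))
 (.seq (.seq (.seq (.one (.play 66 (.both (.play 65 (.ref 17 0)) (.both (.play 133 (.ref 15 65)) (.play 70 (.ref 14 65))))))
 (.one (.play 69 (.both (.play 67 (.both (.ref 18 0) (.play 3 (.ref 7 3)))) (.play 5 (.ref 5 4))))))
 (.seq (.one (.play 260 (.both (.ref 19 0) (.both (.play 69 (.both (.play 67 (.both (.play 3 (.ref 7 3)) (.ref 11 67))) (.play 5 (.ref 5 4)))) (.both (.ref 10 3) (.play 323 (.both (.play 69 (.both (.play 5 (.ref 5 4)) (.ref 8 67))) (.play 259 (.ref 6 67)))))))))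
 (.seq (.one (.play 256 (.both (.play 192 (.ref 6 0)) (.play 320 (.ref 6 64)))))
 (.one (.both (.play 0 (.ref 4 0)) (.play 448 (.ref 5 192)))))))
 (.seq (.seq (.one (.play 193 (.both (.play 257 (.ref 22 0)) (.play 129 (.ref 5 128)))))
 (.one (.play 385 (.both (.ref 23 1) (.ref 21 128)))))
 (.seq (.one (.play 65 (.both (.play 193 (.both (.play 1 (.ref 6 0)) (.play 384 (.ref 5 128)))) (.play 128 (.ref 5 64)))))
 (.seq (.one (.both (.play 1 (.ref 6 0)) (.play 257 (.ref 6 64))))
 (.one (.both (.play 65 (.ref 26 0)) (.play 384 (.ref 5 128)))))))))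
 (.seq (.seq (.seq (.seq (.one (.play 257 (.both (.play 193 (.ref 4 0)) (.play 321 (.ref 4 64)))))
 (.one (.play 64 (.both (.play 65 (.both (.play 0 (.ref 7 0)) (.ref 28 65))) (.play 128 (.ref 7 64))))))
 (.seq (.one (.play 129 (.both (.ref 29 0) (.play 66 (.ref 5 65)))))
 (.seq (.one (.both (.play 64 (.ref 5 0)) (.play 320 (.ref 5 64))))
 (.one (.play 256 (.both (.play 193 (.ref 6 0)) (.play 128 (.ref 31 0))))))))
 (.seq (.seq (.one (.both (.play 1 (.ref 6 0)) (.play 320 (.ref 31 64))))
 (.one (.play 64 (.both (.play 0 (.ref 7 0)) (.play 128 (.ref 7 64))))))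
 (.seq (.one (.play 66 (.both (.play 65 (.both (.ref 34 0) (.play 2 (.ref 5 1)))) (.play 130 (.ref 5 65)))))
 (.seq (.one (.play 129 (.both (.ref 35 0) (.play 320 (.ref 6 128)))))
 (.one (.play 65 (.both (.play 1 (.ref 5 0)) (.play 129 (.ref 5 64)))))))))
 (.seq (.seq (.seq (.one (.both (.ref 37 1) (.ref 21 64)))
 (.one (.both (.ref 34 0) (.ref 28 65))))
 (.seq (.one (.both (.play 65 (.ref 39 0)) (.play 385 (.ref 38 64))))
 (.seq (.one (.play 4 (.both (.play 3 (.ref 2 0)) (.play 5 (.ref 2 1)))))
 (.one (.both (.ref 41 0) (.ref 12 64))))))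
 (.seq (.seq (.one (.both (.play 0 (.ref 3 0)) (.play 69 (.ref 3 1))))
 (.seq (.one (.both (.ref 16 0) (.ref 41 1)))
 (.one (.play 194 (.both (.play 196 (.both (.play 260 (.ref 4 3)) (.play 197 (.both (.play 193 (.ref 44 128)) (.both (.play 130 (.ref 43 129)) (.play 198 (.ref 42 130))))))) (.play 258 (.ref 6 2)))))))
 (.seq (.one (.play 64 (.both (.play 1 (.ref 5 0)) (.play 257 (.ref 4 64)))))
 (.seq (.one (.play 65 (.both (.play 321 (.both (.ref 46 0) (.play 385 (.ref 4 128)))) (.play 129 (.ref 5 64)))))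
 (.one (.play 65 (.both (.play 2 (.ref 5 1)) (.play 256 (.ref 6 64)))))))))))
 (.seq (.seq (.seq (.seq (.seq (.one (.play 66 (.both (.play 320 (.both (.ref 48 0) (.play 384 (.ref 6 128)))) (.play 130 (.ref 5 65)))))
 (.one (.both (.ref 49 2) (.both (.ref 47 3) (.ref 45 128)))))
 (.seq (.one (.both (.play 64 (.ref 2 0)) (.play 5 (.ref 2 1))))
 (.seq (.one (.play 197 (.both (.play 195 (.both (.play 259 (.ref 6 3)) (.play 194 (.both (.play 193 (.ref 17 128)) (.both (.play 133 (.ref 51 129)) (.play 198 (.ref 44 129))))))) (.play 261 (.ref 4 4)))))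
 (.one (.play 65 (.both (.play 0 (.ref 7 0)) (.play 258 (.ref 4 65))))))))
 (.seq (.seq (.one (.play 65 (.both (.play 0 (.ref 7 0)) (.play 256 (.ref 6 64)))))
 (.one (.both (.play 67 (.both (.play 323 (.both (.ref 54 3) (.play 387 (.ref 6 131)))) (.play 131 (.ref 7 67)))) (.both (.play 67 (.both (.play 325 (.both (.ref 53 3) (.play 389 (.ref 4 132)))) (.play 131 (.ref 7 67)))) (.ref 52 128)))))
 (.seq (.one (.play 256 (.both (.play 65 (.ref 5 0)) (.ref 28 0))))
 (.seq (.one (.play 65 (.both (.play 1 (.ref 5 0)) (.ref 56 64))))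
 (.one (.play 259 (.both (.play 68 (.both (.play 4 (.ref 5 3)) (.play 323 (.both (.ref 21 66) (.play 132 (.ref 5 67)))))) (.both (.ref 57 3) (.ref 45 64)))))))))
 (.seq (.seq (.seq (.one (.both (.ref 37 0) (.ref 28 64)))
 (.one (.both (.play 65 (.ref 59 1)) (.play 384 (.ref 6 128)))))
 (.seq (.one (.play 320 (.both (.play 321 (.ref 60 0)) (.both (.play 65 (.both (.play 321 (.ref 59 1)) (.play 256 (.ref 6 64)))) (.both (.play 256 (.ref 33 64)) (.ref 32 128))))))
 (.seq (.one (.both (.ref 21 0) (.ref 28 1)))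
 (.one (.play 321 (.both (.play 65 (.ref 38 0)) (.both (.play 385 (.ref 59 65)) (.play 385 (.ref 62 128)))))))))
 (.seq (.seq (.one (.both (.play 256 (.ref 6 0)) (.play 258 (.ref 4 1))))
 (.one (.play 258 (.both (.play 256 (.both (.play 192 (.ref 6 0)) (.play 257 (.ref 64 64)))) (.play 194 (.ref 4 1))))))
 (.seq (.one (.both (.play 64 (.ref 2 0)) (.play 5 (.ref 1 1))))
 (.seq (.one (.both (.play 2 (.ref 4 2)) (.play 257 (.both (.play 321 (.ref 6 65)) (.play 196 (.ref 66 192))))))
 (.one (.both (.play 0 (.ref 4 0)) (.play 321 (.ref 4 64)))))))))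
 (.seq (.seq (.seq (.seq (.one (.play 193 (.both (.play 257 (.both (.play 64 (.ref 68 0)) (.play 448 (.ref 5 192)))) (.play 129 (.ref 5 128)))))
 (.one (.play 384 (.both (.ref 69 0) (.both (.ref 28 128) (.ref 57 128))))))
 (.seq (.one (.play 256 (.both (.play 192 (.ref 6 0)) (.play 257 (.both (.ref 28 1) (.play 320 (.ref 6 64)))))))
 (.seq (.one (.play 321 (.both (.play 64 (.both (.ref 37 0) (.play 257 (.ref 4 64)))) (.play 385 (.ref 4 128)))))
 (.one (.both (.play 1 (.ref 5 0)) (.play 320 (.ref 5 64)))))))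
 (.seq (.seq (.one (.play 257 (.both (.play 193 (.both (.play 0 (.ref 4 0)) (.play 384 (.ref 73 128)))) (.play 321 (.ref 4 64)))))
 (.one (.play 128 (.both (.ref 72 0) (.both (.ref 37 64) (.ref 74 64))))))
 (.seq (.one (.both (.ref 34 0) (.ref 21 64)))
 (.seq (.one (.both (.play 0 (.ref 7 0)) (.play 321 (.ref 7 64))))
 (.one (.both (.play 64 (.ref 2 0)) (.play 68 (.ref 2 1))))))))
 (.seq (.seq (.seq (.one (.both (.play 65 (.ref 78 0)) (.play 6 (.ref 1 2))))
 (.one (.both (.play 2 (.ref 6 1)) (.play 256 (.ref 1 192)))))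
 (.seq (.one (.both (.play 1 (.ref 6 0)) (.play 128 (.ref 5 64))))
 (.seq (.one (.both (.play 65 (.ref 81 0)) (.play 384 (.ref 5 128))))
 (.one (.both (.play 65 (.ref 7 0)) (.play 321 (.ref 7 64)))))))
 (.seq (.seq (.one (.play 257 (.both (.play 192 (.ref 4 0)) (.play 129 (.ref 83 0)))))
 (.seq (.one (.both (.play 0 (.ref 4 0)) (.play 321 (.ref 83 64))))
 (.one (.play 64 (.both (.play 65 (.both (.play 0 (.ref 7 0)) (.ref 37 1))) (.play 128 (.ref 7 64)))))))
 (.seq (.one (.play 129 (.both (.ref 86 0) (.play 322 (.ref 4 129)))))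
 (.seq (.one (.play 321 (.both (.ref 37 1) (.play 128 (.ref 7 64)))))
 (.one (.both (.play 0 (.ref 4 0)) (.play 129 (.ref 7 64)))))))))))
 (.seq (.seq (.seq (.seq (.seq (.seq (.one (.both (.play 64 (.ref 89 0)) (.play 385 (.ref 7 128))))
 (.one (.both (.play 3 (.ref 0 0)) (.play 69 (.ref 3 1)))))
 (.seq (.one (.both (.play 0 (.ref 0 0)) (.play 69 (.ref 91 1))))
 (.seq (.one (.both (.play 65 (.ref 3 0)) (.play 69 (.ref 3 1))))
 (.one (.both (.play 0 (.ref 0 0)) (.play 69 (.ref 93 1)))))))
 (.seq (.seq (.one (.play 65 (.both (.ref 16 0) (.play 4 (.ref 2 1)))))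
 (.one (.play 5 (.both (.ref 95 0) (.play 6 (.ref 2 2))))))
 (.seq (.one (.play 68 (.both (.play 1 (.ref 3 0)) (.play 129 (.ref 1 64)))))
 (.seq (.one (.play 1 (.both (.play 0 (.ref 3 0)) (.play 129 (.both (.ref 97 1) (.play 128 (.ref 1 64)))))))
 (.one (.both (.play 1 (.ref 6 0)) (.play 320 (.ref 6 64))))))))
 (.seq (.seq (.seq (.one (.play 196 (.both (.play 260 (.both (.play 132 (.both (.play 68 (.ref 99 3)) (.play 133 (.ref 2 129)))) (.play 261 (.ref 0 193)))) (.ref 98 128))))
 (.one (.play 1 (.both (.ref 13 0) (.play 68 (.ref 0 1))))))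
 (.seq (.one (.play 1 (.both (.play 65 (.both (.play 0 (.ref 3 0)) (.play 132 (.ref 0 65)))) (.play 2 (.ref 3 1)))))
 (.seq (.one (.play 66 (.both (.ref 102 0) (.both (.play 70 (.ref 17 1)) (.ref 101 64)))))
 (.one (.both (.play 3 (.ref 0 0)) (.play 65 (.ref 3 0)))))))
 (.seq (.seq (.one (.play 5 (.both (.ref 13 0) (.play 70 (.ref 0 2)))))
 (.one (.both (.play 4 (.ref 2 0)) (.play 132 (.ref 0 64)))))
 (.seq (.one (.play 4 (.both (.play 3 (.ref 2 0)) (.play 68 (.ref 106 1)))))
 (.seq (.one (.play 256 (.both (.play 65 (.ref 5 0)) (.play 321 (.ref 4 64)))))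
 (.one (.play 321 (.both (.play 65 (.both (.play 1 (.ref 5 0)) (.ref 108 64))) (.play 257 (.ref 4 64))))))))))
 (.seq (.seq (.seq (.seq (.one (.play 257 (.both (.play 64 (.ref 7 0)) (.play 322 (.ref 4 65)))))
 (.one (.play 258 (.both (.ref 110 0) (.play 194 (.ref 4 1))))))
 (.seq (.one (.both (.play 3 (.ref 6 2)) (.play 68 (.ref 2 64))))
 (.seq (.one (.both (.play 0 (.ref 4 0)) (.play 256 (.ref 4 64))))
 (.one (.both (.play 64 (.ref 113 0)) (.play 385 (.ref 7 128)))))))
 (.seq (.seq (.one (.play 196 (.both (.play 132 (.ref 114 4)) (.both (.play 195 (.both (.play 198 (.both (.play 262 (.both (.play 134 (.ref 112 67)) (.play 263 (.ref 0 195)))) (.both (.play 199 (.ref 44 130)) (.play 199 (.ref 14 194))))) (.both (.ref 103 128) (.both (.play 262 (.ref 94 194)) (.play 262 (.ref 92 194)))))) (.both (.play 389 (.both (.play 390 (.both (.play 198 (.both (.ref 18 129) (.play 134 (.ref 5 133)))) (.play 454 (.ref 4 197)))) (.both (.ref 88 132) (.both (.ref 109 133) (.ref 111 196))))) (.play 389 (.both (.play 132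 (.ref 7 132)) (.ref 109 133))))))))
 (.one (.both (.play 1 (.ref 1 0)) (.play 67 (.ref 2 0)))))
 (.seq (.one (.both (.play 64 (.ref 2 0)) (.play 5 (.ref 116 1))))
 (.seq (.one (.play 129 (.both (.play 65 (.both (.ref 16 0) (.play 128 (.ref 1 64)))) (.play 130 (.ref 1 65)))))
 (.one (.play 66 (.both (.ref 118 0) (.play 6 (.ref 2 2)))))))))
 (.seq (.seq (.seq (.one (.play 256 (.both (.play 192 (.ref 6 0)) (.ref 8 0))))
 (.one (.play 257 (.both (.play 1 (.ref 62 0)) (.both (.ref 120 64) (.ref 56 65))))))
 (.seq (.one (.both (.play 0 (.ref 3 0)) (.play 128 (.ref 1 64))))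
 (.seq (.one (.both (.play 0 (.ref 0 0)) (.play 4 (.ref 0 1))))
 (.one (.both (.play 1 (.ref 123 0)) (.play 70 (.ref 3 2)))))))
 (.seq (.seq (.one (.play 68 (.both (.play 1 (.ref 3 0)) (.play 133 (.ref 0 65)))))
 (.seq (.one (.play 133 (.both (.play 1 (.both (.play 0 (.ref 3 0)) (.ref 125 1))) (.play 132 (.ref 0 65)))))
 (.one (.play 64 (.both (.play 3 (.ref 2 0)) (.play 131 (.ref 0 64)))))))
 (.seq (.one (.play 66 (.both (.ref 95 0) (.both (.play 133 (.both (.ref 127 1) (.play 134 (.ref 0 66)))) (.ref 126 1)))))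
 (.seq (.one (.play 65 (.both (.ref 16 0) (.play 132 (.ref 0 65)))))
 (.one (.both (.ref 129 0) (.play 134 (.ref 0 66))))))))))
 (.seq (.seq (.seq (.seq (.seq (.one (.play 66 (.both (.play 133 (.ref 130 0)) (.play 6 (.ref 2 2)))))
 (.one (.both (.play 1 (.ref 6 0)) (.play 320 (.ref 5 64)))))
 (.seq (.one (.play 67 (.both (.play 258 (.ref 132 2)) (.play 68 (.ref 2 64)))))
 (.seq (.one (.both (.ref 133 0) (.play 196 (.ref 0 128))))
 (.one (.play 4 (.both (.play 65 (.ref 1 0)) (.ref 12 0)))))))
 (.seq (.seq (.one (.play 68 (.both (.play 5 (.ref 2 1)) (.play 129 (.ref 1 64)))))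
 (.one (.play 4 (.both (.play 3 (.ref 2 0)) (.ref 136 0)))))
 (.seq (.one (.play 259 (.both (.play 131 (.both (.play 67 (.ref 7 2)) (.play 132 (.ref 2 128)))) (.play 260 (.ref 0 192)))))
 (.seq (.one (.play 68 (.both (.play 1 (.ref 3 0)) (.ref 41 0))))
 (.one (.play 132 (.both (.ref 125 0) (.play 131 (.ref 0 64)))))))))
 (.seq (.seq (.seq (.one (.play 68 (.both (.play 64 (.ref 42 0)) (.both (.ref 140 1) (.ref 139 1)))))
 (.one (.both (.play 0 (.ref 0 0)) (.play 66 (.ref 3 1)))))
 (.seq (.one (.both (.play 1 (.ref 142 0)) (.play 70 (.ref 3 2))))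
 (.seq (.one (.both (.ref 16 0) (.ref 12 65)))
 (.one (.both (.play 0 (.ref 0 0)) (.play 69 (.ref 3 1)))))))
 (.seq (.seq (.one (.play 65 (.both (.play 1 (.ref 7 1)) (.play 132 (.ref 145 64)))))
 (.one (.both (.play 258 (.both (.play 194 (.both (.play 3 (.ref 6 2)) (.play 193 (.both (.play 192 (.ref 2 128)) (.play 261 (.ref 3 193)))))) (.play 322 (.ref 6 66)))) (.play 324 (.ref 4 67)))))
 (.seq (.one (.play 66 (.both (.play 2 (.ref 7 2)) (.play 65 (.ref 15 64)))))
 (.seq (.one (.both (.ref 41 1) (.ref 13 64)))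
 (.one (.play 69 (.both (.play 65 (.ref 149 0)) (.both (.play 70 (.ref 42 2)) (.play 65 (.ref 14 64)))))))))))
 (.seq (.seq (.seq (.seq (.one (.both (.play 65 (.both (.play 64 (.ref 2 0)) (.play 2 (.ref 1 1)))) (.play 6 (.ref 1 2))))
 (.one (.play 66 (.both (.play 65 (.ref 144 0)) (.both (.play 65 (.ref 17 0)) (.play 70 (.ref 14 65)))))))
 (.seq (.one (.play 129 (.both (.ref 137 1) (.play 128 (.ref 1 64)))))
 (.seq (.one (.both (.play 64 (.ref 1 0)) (.play 5 (.ref 1 1))))
 (.one (.play 67 (.both (.play 68 (.both (.play 1 (.ref 15 0)) (.play 7 (.ref 1 3)))) (.play 66 (.ref 1 2))))))))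
 (.seq (.seq (.one (.play 132 (.both (.ref 107 0) (.play 131 (.ref 0 64)))))
 (.one (.play 4 (.both (.play 65 (.ref 1 0)) (.play 69 (.ref 0 1))))))
 (.seq (.one (.play 69 (.both (.play 65 (.both (.play 64 (.ref 1 0)) (.ref 157 1))) (.play 68 (.ref 0 1)))))
 (.seq (.one (.play 1 (.both (.play 65 (.both (.play 0 (.ref 3 0)) (.ref 13 64))) (.play 2 (.ref 3 1)))))
 (.one (.both (.play 67 (.ref 2 0)) (.play 5 (.ref 1 1))))))))
 (.seq (.seq (.seq (.one (.both (.play 64 (.ref 2 0)) (.play 5 (.ref 160 1))))
 (.one (.play 66 (.both (.ref 118 0) (.play 5 (.ref 2 2))))))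
 (.seq (.one (.both (.play 2 (.ref 4 2)) (.play 260 (.ref 0 192))))
 (.seq (.one (.play 320 (.both (.play 64 (.both (.ref 54 0) (.play 128 (.ref 7 64)))) (.play 384 (.ref 6 128)))))
 (.one (.both (.play 129 (.ref 7 0)) (.play 128 (.ref 4 0)))))))
 (.seq (.seq (.one (.play 193 (.both (.play 257 (.both (.play 130 (.ref 6 1)) (.play 256 (.ref 1 192)))) (.play 132 (.ref 51 128)))))
 (.seq (.one (.play 1 (.both (.play 0 (.ref 3 0)) (.ref 140 1))))
 (.one (.play 68 (.both (.play 1 (.ref 3 0)) (.play 5 (.ref 2 1)))))))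
 (.seq (.one (.play 4 (.both (.play 3 (.ref 2 0)) (.ref 168 0))))
 (.seq (.one (.play 1 (.both (.play 0 (.ref 3 0)) (.ref 169 1))))
 (.one (.play 65 (.both (.play 256 (.ref 73 0)) (.play 132 (.ref 3 64)))))))))))))
 (.seq (.seq (.seq (.seq (.seq (.seq (.seq (.one (.both (.ref 171 1) (.play 192 (.ref 1 128))))
 (.one (.play 324 (.both (.play 132 (.both (.play 131 (.both (.play 130 (.both (.play 66 (.both (.play 194 (.ref 172 1)) (.play 65 (.ref 3 65)))) (.play 129 (.ref 0 129)))) (.both (.play 134 (.both (.play 198 (.ref 134 3)) (.both (.ref 170 66) (.ref 167 66)))) (.play 130 (.ref 15 129))))) (.both (.play 131 (.both (.play 67 (.both (.play 66 (.ref 124 64)) (.play 260 (.ref 7 67)))) (.play 130 (.ref 15 129)))) (.both (.play 325 (.both (.play 260 (.ref 147 65)) (.both (.play 261 (.both (.play 68 (.ref 7 68)) (.play 326 (.both (.ref 166 130) (.play 390 (.ref 4 133)))))) (.both (.play 261 (.ref 77 68)) (.play 389 (.ref 165 132)))))) (.play 260 (.both (.ref 148 65) (.play 325 (.both (.play 323 (.both (.play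 326 (.both (.play 390 (.both (.play 261 (.ref 4 133)) (.play 391 (.ref 0 323)))) (.play 259 (.ref 43 258)))) (.play 387 (.ref 6 131)))) (.play 389 (.ref 4 132)))))))))) (.both (.play 260 (.both (.play 132 (.both (.ref 164 3) (.both (.play 323 (.both (.play 259 (.both (.play 68 (.ref 6 67)) (.play 198 (.ref 79 193)))) (.play 387 (.ref 6 131)))) (.ref 146 66)))) (.play 388 (.ref 5 132)))) (.both (.play 325 (.both (.play 326 (.both (.play 263 (.both (.play 199 (.both (.play 132 (.both (.play 261 (.ref 77 68)) (.play 198 (.ref 43 131)))) (.both (.play 327 (.both (.play 392 (.both (.play 328 (.ref 163 133)) (.play 391 (.ref 0 324)))) (.play 264 (.ref 2 260)))) (.play 264 (.both (.play 198 (.ref 0 196)) (.play 327 (.ref 2 260))))))) (.both (.ref 162 257) (.play 262 (.ref 161 259))))) (.both (.play 261 (.both (.play 132 (.ref 77 68)) (.play 390 (.ref 4 133)))) (.both (.play 390 (.both (.play 262 (.both (.play 198 (.ref 7 133)) (.play 323 (.ref 106 259)))) (.play 261 (.ref 4 133)))) (.play 323 (.both (.play 322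 (.ref 144 257)) (.both (.play 322 (.ref 17 257)) (.play 327 (.ref 42 259))))))))) (.both (.play 261 (.both (.play 132 (.ref 77 68)) (.play 388 (.ref 6 132)))) (.both (.play 326 (.both (.play 323 (.both (.ref 138 131) (.ref 159 257))) (.both (.play 327 (.both (.play 391 (.both (.play 198 (.both (.play 199 (.both (.play 132 (.ref 43 131)) (.play 263 (.both (.play 134 (.ref 7 134)) (.play 264 (.ref 2 260)))))) (.both (.play 263 (.both (.play 262 (.both (.play 390 (.ref 7 133)) (.play 455 (.ref 7 198)))) (.play 264 (.ref 2 260)))) (.play 262 (.both (.play 390 (.ref 7 133)) (.play 134 (.ref 4 134))))))) (.play 392 (.ref 0 324)))) (.both (.ref 153 259) (.ref 158 323)))) (.both (.play 327 (.both (.play 391 (.both (.play 390 (.both (.ref 133 196) (.play 323 (.ref 0 323)))) (.play 392 (.ref 0 324)))) (.both (.play 328 (.both (.ref 41 260) (.ref 155 322))) (.both (.ref 156 260) (.both (.play 328 (.both (.ref 41 260) (.play 329 (.ref 14 324)))) (.play 328 (.both (.ref 155 322) (.both (.ref 12 324) (.play 389 (.both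 (.play 388 (.ref 1 324)) (.ref 135 325))))))))))) (.both (.play 323 (.both (.play 322 (.both (.ref 16 257) (.play 321 (.ref 14 320)))) (.both (.ref 118 257) (.both (.play 322 (.both (.ref 16 257) (.play 389 (.both (.play 388 (.both (.play 321 (.ref 0 321)) (.play 327 (.ref 154 323)))) (.play 390 (.ref 0 322)))))) (.ref 153 258))))) (.both (.ref 152 257) (.play 327 (.both (.play 323 (.ref 149 258)) (.both (.play 328 (.ref 42 260)) (.play 328 (.ref 14 323))))))))))) (.play 326 (.both (.play 388 (.both (.play 261 (.ref 6 132)) (.play 387 (.ref 151 321)))) (.both (.play 390 (.both (.play 261 (.ref 4 133)) (.play 391 (.ref 92 323)))) (.both (.play 261 (.ref 64 132)) (.ref 150 258))))))))) (.both (.play 260 (.both (.play 132 (.both (.play 325 (.both (.play 323 (.both (.play 261 (.both (.play 68 (.ref 7 68)) (.play 322 (.ref 51 257)))) (.play 387 (.ref 6 131)))) (.play 389 (.ref 4 132)))) (.ref 146 66))) (.play 388 (.ref 5 132)))) (.both (.play 260 (.both (.play 132 (.both (.ref 148 65) (.play 325 (.ref 147 65))))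 (.play 388 (.ref 5 132)))) (.both (.play 260 (.both (.play 132 (.both (.ref 146 66) (.play 325 (.both (.play 261 (.both (.play 68 (.ref 4 68)) (.play 326 (.both (.play 390 (.ref 4 133)) (.play 327 (.ref 43 259)))))) (.play 389 (.ref 4 132)))))) (.play 388 (.ref 5 132)))) (.both (.play 260 (.both (.play 325 (.both (.play 326 (.both (.play 323 (.both (.play 387 (.ref 80 130)) (.play 322 (.ref 44 257)))) (.both (.play 259 (.ref 124 257)) (.both (.play 259 (.ref 143 257)) (.ref 141 259))))) (.both (.play 323 (.both (.play 387 (.ref 33 131)) (.both (.play 132 (.ref 64 131)) (.play 326 (.both (.play 322 (.ref 144 257)) (.both (.play 327 (.ref 44 258)) (.play 327 (.ref 42 259)))))))) (.both (.play 389 (.ref 85 132)) (.play 326 (.both (.play 323 (.both (.play 259 (.both (.play 387 (.both (.play 451 (.ref 5 195)) (.play 386 (.ref 1 322)))) (.play 258 (.ref 3 258)))) (.both (.play 322 (.ref 44 257)) (.play 322 (.ref 14 321))))) (.both (.play 259 (.ref 124 257)) (.both (.play 259 (.ref 143 257)) (.ref 141 259)))))))))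 (.play 388 (.ref 5 132)))) (.play 388 (.both (.play 325 (.both (.play 326 (.both (.play 323 (.both (.ref 138 131) (.play 322 (.ref 17 257)))) (.both (.play 327 (.both (.play 323 (.ref 42 259)) (.both (.ref 137 260) (.ref 135 324)))) (.play 387 (.ref 79 321))))) (.play 261 (.ref 6 132)))) (.play 260 (.ref 5 132))))))))))))))
 (.seq (.one (.play 65 (.both (.play 4 (.ref 2 1)) (.ref 13 64))))
 (.seq (.one (.both (.play 321 (.both (.play 65 (.ref 59 1)) (.both (.play 130 (.ref 73 65)) (.play 385 (.ref 62 128))))) (.play 256 (.ref 1 192))))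
 (.one (.play 129 (.both (.play 257 (.ref 175 0)) (.play 128 (.ref 3 128))))))))
 (.seq (.seq (.one (.play 196 (.both (.ref 176 0) (.both (.ref 98 128) (.both (.ref 126 128) (.ref 158 192))))))
 (.one (.play 1 (.both (.play 3 (.ref 123 0)) (.play 66 (.ref 3 1))))))
 (.seq (.one (.play 257 (.both (.play 64 (.ref 68 0)) (.play 196 (.ref 1 192)))))
 (.seq (.one (.both (.play 257 (.both (.ref 179 1) (.play 256 (.ref 1 192)))) (.play 128 (.ref 3 128))))
 (.one (.play 130 (.both (.play 258 (.both (.play 194 (.ref 175 1)) (.both (.play 194 (.ref 172 65)) (.both (.ref 97 130) (.play 259 (.ref 151 192)))))) (.both (.play 194 (.ref 180 1)) (.both (.ref 178 128) (.play 131 (.ref 124 128)))))))))))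
 (.seq (.seq (.seq (.one (.both (.play 0 (.ref 4 0)) (.play 321 (.ref 7 64))))
 (.one (.both (.play 1 (.ref 1 0)) (.play 5 (.ref 1 1)))))
 (.seq (.one (.both (.play 64 (.ref 2 0)) (.play 5 (.ref 183 1))))
 (.seq (.one (.play 194 (.both (.play 258 (.ref 6 2)) (.play 193 (.ref 184 128)))))
 (.one (.play 64 (.both (.play 65 (.both (.play 0 (.ref 7 0)) (.play 1 (.ref 4 1)))) (.play 128 (.ref 7 64))))))))
 (.seq (.seq (.one (.play 67 (.both (.play 68 (.ref 3 0)) (.play 132 (.ref 0 64)))))
 (.one (.play 65 (.both (.play 0 (.ref 3 0)) (.play 64 (.ref 2 0))))))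
 (.seq (.one (.both (.play 1 (.ref 4 1)) (.play 320 (.ref 6 64))))
 (.seq (.one (.play 1 (.both (.play 0 (.ref 0 0)) (.play 64 (.ref 1 0)))))
 (.one (.play 65 (.both (.ref 190 0) (.play 66 (.ref 2 1))))))))))
 (.seq (.seq (.seq (.seq (.one (.both (.play 0 (.ref 4 0)) (.play 1 (.ref 5 0))))
 (.one (.play 192 (.both (.play 257 (.ref 4 0)) (.play 256 (.ref 5 0))))))
 (.seq (.one (.play 257 (.both (.ref 21 0) (.play 321 (.ref 5 65)))))
 (.seq (.one (.play 193 (.both (.play 257 (.ref 73 1)) (.play 192 (.ref 1 128)))))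
 (.one (.play 129 (.both (.play 65 (.ref 68 1)) (.play 128 (.ref 3 128))))))))
 (.seq (.seq (.one (.play 259 (.both (.play 66 (.ref 182 2)) (.play 260 (.ref 0 192)))))
 (.one (.play 66 (.both (.play 259 (.ref 77 2)) (.play 65 (.ref 145 64))))))
 (.seq (.one (.play 256 (.both (.play 192 (.ref 6 0)) (.play 258 (.both (.play 194 (.ref 4 1)) (.play 257 (.ref 64 64)))))))
 (.seq (.one (.play 1 (.both (.play 64 (.ref 1 0)) (.play 68 (.ref 0 1)))))
 (.one (.play 64 (.both (.play 4 (.ref 2 0)) (.play 131 (.ref 0 64)))))))))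
 (.seq (.seq (.seq (.one (.both (.play 260 (.ref 4 3)) (.play 128 (.ref 0 128))))
 (.one (.play 65 (.both (.play 64 (.ref 1 0)) (.play 69 (.both (.play 68 (.ref 0 1)) (.ref 157 1)))))))
 (.seq (.one (.play 68 (.both (.play 4 (.ref 5 3)) (.play 128 (.ref 2 64)))))
 (.seq (.one (.both (.play 0 (.ref 7 0)) (.play 321 (.ref 5 65))))
 (.one (.both (.play 129 (.ref 6 0)) (.play 128 (.ref 5 0)))))))
 (.seq (.seq (.one (.play 65 (.both (.play 5 (.ref 2 1)) (.play 128 (.ref 1 64)))))
 (.seq (.one (.play 256 (.both (.play 192 (.ref 5 0)) (.play 320 (.ref 6 64)))))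
 (.one (.play 65 (.both (.play 1 (.ref 6 0)) (.play 2 (.ref 5 1)))))))
 (.seq (.one (.play 66 (.both (.ref 209 0) (.play 130 (.ref 5 65)))))
 (.seq (.one (.both (.ref 179 1) (.play 128 (.ref 3 128))))
 (.one (.play 257 (.both (.play 129 (.ref 211 0)) (.play 256 (.ref 1 192)))))))))))
 (.seq (.seq (.seq (.seq (.seq (.one (.play 323 (.both (.play 195 (.both (.play 131 (.both (.ref 210 2) (.both (.play 322 (.ref 132 66)) (.play 387 (.both (.ref 21 130) (.play 451 (.ref 7 194))))))) (.play 196 (.ref 2 192)))) (.play 324 (.ref 0 256)))))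
 (.one (.both (.ref 213 1) (.both (.ref 212 64) (.ref 203 256)))))
 (.seq (.one (.play 68 (.both (.play 1 (.ref 3 0)) (.play 128 (.ref 1 64)))))
 (.seq (.one (.both (.play 192 (.ref 4 0)) (.play 321 (.ref 7 64))))
 (.one (.both (.play 65 (.ref 7 0)) (.play 128 (.ref 216 0)))))))
 (.seq (.seq (.one (.both (.play 0 (.ref 4 0)) (.play 321 (.ref 216 64))))
 (.one (.both (.play 193 (.ref 89 0)) (.play 256 (.ref 4 64)))))
 (.seq (.one (.both (.play 64 (.ref 219 0)) (.both (.play 193 (.ref 90 0)) (.both (.play 256 (.ref 218 64)) (.play 385 (.ref 217 128))))))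
 (.seq (.one (.play 129 (.both (.play 65 (.both (.play 4 (.ref 2 1)) (.play 128 (.ref 1 64)))) (.play 130 (.ref 1 65)))))
 (.one (.play 1 (.both (.play 65 (.both (.play 0 (.ref 3 0)) (.play 4 (.ref 2 1)))) (.play 2 (.ref 3 1)))))))))
 (.seq (.seq (.seq (.one (.play 129 (.both (.play 65 (.ref 132 0)) (.play 196 (.ref 3 128)))))
 (.one (.play 194 (.both (.play 130 (.both (.play 258 (.both (.ref 223 2) (.play 257 (.ref 1 193)))) (.play 129 (.ref 3 129)))) (.both (.ref 222 128) (.ref 221 128))))))
 (.seq (.one (.play 257 (.both (.play 129 (.both (.ref 223 1) (.play 128 (.ref 3 128)))) (.play 256 (.ref 1 192)))))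
 (.seq (.one (.play 258 (.both (.play 194 (.ref 4 1)) (.play 257 (.both (.play 321 (.ref 7 64)) (.play 322 (.ref 4 65)))))))
 (.one (.play 65 (.both (.play 1 (.both (.play 64 (.ref 1 0)) (.ref 12 1))) (.play 66 (.ref 1 1))))))))
 (.seq (.seq (.one (.play 66 (.both (.play 6 (.ref 2 2)) (.ref 227 64))))
 (.one (.play 65 (.both (.play 67 (.ref 78 0)) (.play 2 (.ref 1 1))))))
 (.seq (.one (.both (.play 65 (.both (.ref 171 1) (.play 64 (.ref 3 64)))) (.play 192 (.ref 1 128))))
 (.seq (.one (.both (.play 193 (.ref 6 0)) (.play 320 (.ref 5 64))))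
 (.one (.both (.play 1 (.ref 6 0)) (.play 320 (.ref 231 64)))))))))
 (.seq (.seq (.seq (.seq (.one (.both (.play 192 (.ref 81 0)) (.play 257 (.ref 6 64))))
 (.one (.play 258 (.both (.play 131 (.both (.play 322 (.both (.play 67 (.ref 233 2)) (.both (.play 194 (.ref 82 2)) (.both (.play 259 (.ref 232 66)) (.play 386 (.both (.play 194 (.ref 5 130)) (.play 259 (.ref 231 130)))))))) (.both (.play 259 (.both (.play 322 (.ref 33 66)) (.play 198 (.ref 1 194)))) (.both (.play 130 (.ref 143 128)) (.play 198 (.both (.play 130 (.ref 3 130)) (.play 259 (.ref 1 194)))))))) (.both (.play 194 (.ref 230 65)) (.both (.ref 229 192) (.play 259 (.ref 79 192))))))))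
 (.seq (.one (.play 323 (.both (.play 195 (.both (.play 131 (.both (.ref 210 2) (.both (.play 322 (.ref 132 66)) (.play 387 (.both (.ref 208 130) (.play 451 (.ref 7 194))))))) (.play 196 (.ref 2 192)))) (.play 324 (.ref 0 256)))))
 (.seq (.one (.play 65 (.both (.ref 34 0) (.ref 37 1))))
 (.one (.both (.play 129 (.both (.ref 236 0) (.both (.play 322 (.ref 68 65)) (.play 385 (.ref 59 65))))) (.play 192 (.ref 3 192)))))))
 (.seq (.seq (.one (.play 321 (.both (.play 193 (.ref 237 0)) (.play 320 (.ref 1 256)))))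
 (.one (.play 65 (.both (.ref 16 0) (.play 132 (.both (.play 131 (.both (.play 64 (.ref 0 64)) (.play 71 (.ref 1 67)))) (.play 133 (.ref 0 65))))))))
 (.seq (.one (.play 67 (.both (.ref 162 0) (.both (.play 66 (.both (.ref 159 0) (.both (.ref 239 0) (.ref 13 65)))) (.both (.play 66 (.both (.ref 239 0) (.play 5 (.ref 2 2)))) (.both (.ref 221 1) (.play 131 (.both (.play 71 (.both (.play 72 (.both (.play 5 (.ref 43 4)) (.ref 12 68))) (.play 132 (.ref 1 67)))) (.play 130 (.ref 1 66))))))))))
 (.seq (.one (.play 261 (.both (.play 260 (.both (.play 263 (.both (.ref 235 4) (.play 324 (.both (.play 264 (.both (.play 197 (.ref 43 196)) (.play 325 (.ref 1 260)))) (.play 323 (.ref 1 259)))))) (.both (.ref 240 192) (.both (.ref 228 193) (.play 199 (.ref 117 195)))))) (.both (.play 260 (.both (.play 263 (.both (.ref 238 3) (.both (.ref 98 195) (.both (.ref 126 195) (.ref 158 259))))) (.both (.ref 228 193) (.play 199 (.ref 117 195))))) (.both (.play 260 (.both (.play 263 (.both (.ref 235 4) (.both (.play 324 (.both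 (.play 199 (.both (.play 200 (.ref 2 196)) (.play 264 (.both (.play 265 (.ref 43 197)) (.play 325 (.ref 1 260)))))) (.play 323 (.ref 1 259)))) (.ref 203 259)))) (.both (.play 259 (.both (.play 195 (.ref 180 66)) (.both (.ref 222 193) (.ref 221 193)))) (.both (.ref 228 193) (.play 199 (.ref 117 195)))))) (.both (.play 260 (.both (.play 263 (.ref 214 3)) (.both (.ref 234 65) (.both (.ref 228 193) (.both (.ref 119 193) (.ref 131 193)))))) (.both (.play 260 (.both (.play 263 (.both (.play 199 (.both (.play 196 (.both (.play 197 (.both (.ref 196 3) (.play 264 (.ref 3 196)))) (.play 195 (.ref 3 195)))) (.play 200 (.ref 2 196)))) (.both (.ref 213 4) (.ref 126 195)))) (.both (.ref 224 65) (.both (.ref 228 193) (.play 199 (.ref 117 195)))))) (.both (.play 260 (.both (.play 263 (.both (.play 199 (.both (.play 135 (.both (.play 71 (.ref 99 6)) (.both (.play 327 (.both (.play 71 (.both (.play 7 (.ref 6 6)) (.ref 37 7))) (.ref 226 134))) (.play 327 (.both (.play 328 (.both (.play 261 (.both (.play 326 (.both (.play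 390 (.ref 6 134)) (.play 329 (.ref 3 261)))) (.play 260 (.ref 0 260)))) (.play 392 (.ref 4 135)))) (.both (.ref 226 134) (.play 390 (.both (.play 326 (.ref 5 134)) (.play 391 (.both (.play 454 (.ref 6 198)) (.play 455 (.ref 7 198)))))))))))) (.play 200 (.ref 2 196)))) (.both (.ref 225 67) (.ref 167 195)))) (.both (.ref 224 65) (.both (.ref 119 193) (.play 199 (.ref 117 195)))))) (.both (.play 263 (.both (.play 196 (.both (.play 325 (.both (.play 197 (.both (.play 132 (.ref 114 4)) (.play 264 (.ref 3 196)))) (.both (.play 132 (.ref 220 4)) (.both (.ref 215 196) (.play 324 (.ref 151 258)))))) (.both (.play 260 (.ref 180 67)) (.both (.ref 178 194) (.play 197 (.ref 124 194)))))) (.both (.play 260 (.ref 214 3)) (.both (.play 327 (.both (.play 391 (.both (.play 199 (.both (.play 135 (.both (.ref 210 6) (.ref 208 134))) (.both (.play 326 (.both (.play 390 (.both (.play 135 (.ref 5 134)) (.play 454 (.ref 6 198)))) (.play 324 (.both (.ref 207 195) (.play 392 (.both (.play 456 (.ref 4 199)) (.play 325 (.ref 0 324))))))))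 (.ref 204 132)))) (.play 455 (.ref 7 198)))) (.both (.play 391 (.both (.play 390 (.both (.play 199 (.ref 60 70)) (.both (.play 328 (.both (.play 389 (.both (.play 453 (.ref 206 197)) (.play 388 (.ref 2 324)))) (.both (.play 389 (.both (.play 329 (.both (.play 330 (.ref 3 262)) (.play 392 (.ref 2 325)))) (.play 388 (.ref 2 324)))) (.play 329 (.ref 93 261))))) (.play 454 (.both (.play 326 (.ref 205 197)) (.play 199 (.ref 6 198))))))) (.play 455 (.ref 7 198)))) (.both (.play 391 (.both (.play 199 (.both (.ref 72 71) (.both (.ref 204 132) (.play 328 (.both (.play 392 (.ref 68 135)) (.play 260 (.ref 0 260))))))) (.play 455 (.ref 7 198)))) (.play 328 (.ref 94 260)))))) (.both (.play 264 (.both (.play 197 (.both (.play 325 (.both (.play 133 (.both (.play 69 (.both (.ref 34 4) (.play 5 (.ref 4 5)))) (.both (.play 69 (.ref 68 5)) (.play 389 (.both (.ref 28 133) (.play 453 (.ref 5 197))))))) (.play 324 (.ref 1 260)))) (.play 196 (.ref 3 196)))) (.both (.play 197 (.ref 43 196)) (.ref 203 260)))) (.both (.play 264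 (.both (.play 328 (.both (.play 199 (.both (.play 135 (.both (.play 71 (.ref 4 71)) (.play 327 (.ref 202 132)))) (.both (.play 135 (.ref 85 71)) (.ref 201 196)))) (.play 329 (.ref 0 261)))) (.play 197 (.ref 43 196)))) (.play 264 (.both (.play 197 (.ref 43 196)) (.play 324 (.both (.play 328 (.both (.ref 200 259) (.play 329 (.ref 0 261)))) (.play 325 (.ref 1 260)))))))))))) (.both (.play 197 (.both (.play 133 (.both (.play 69 (.both (.play 132 (.both (.play 68 (.ref 77 4)) (.play 131 (.ref 94 130)))) (.play 5 (.ref 4 5)))) (.both (.play 69 (.ref 68 5)) (.play 325 (.both (.play 132 (.both (.play 68 (.ref 7 68)) (.play 199 (.ref 143 130)))) (.ref 199 132)))))) (.both (.play 259 (.both (.play 196 (.both (.play 133 (.both (.play 5 (.both (.play 69 (.ref 4 5)) (.ref 198 66))) (.both (.play 69 (.ref 68 5)) (.play 326 (.both (.ref 198 66) (.play 390 (.ref 7 133))))))) (.ref 190 194))) (.both (.play 260 (.both (.ref 197 67) (.play 258 (.ref 2 194)))) (.both (.play 260 (.both (.ref 197 67) (.play 199 (.ref 2 195))))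 (.play 260 (.ref 51 194)))))) (.both (.play 196 (.both (.play 195 (.both (.play 131 (.both (.play 259 (.both (.play 132 (.both (.play 68 (.both (.play 4 (.ref 4 4)) (.play 323 (.ref 5 67)))) (.play 199 (.ref 3 131)))) (.play 258 (.ref 1 194)))) (.play 130 (.ref 3 130)))) (.play 194 (.ref 0 194)))) (.both (.play 195 (.both (.play 131 (.ref 180 2)) (.play 194 (.ref 0 194)))) (.both (.play 260 (.both (.play 199 (.both (.ref 196 3) (.play 200 (.ref 1 196)))) (.both (.play 259 (.both (.play 323 (.both (.play 387 (.ref 27 67)) (.play 322 (.ref 1 258)))) (.play 258 (.ref 2 194)))) (.play 199 (.ref 154 195))))) (.both (.play 195 (.both (.play 131 (.both (.play 132 (.both (.play 325 (.ref 114 4)) (.play 199 (.ref 3 131)))) (.play 130 (.ref 3 130)))) (.play 194 (.ref 0 194)))) (.both (.play 195 (.both (.play 131 (.both (.play 259 (.both (.play 323 (.both (.play 132 (.ref 73 67)) (.play 322 (.both (.play 386 (.ref 6 130)) (.play 260 (.ref 1 258)))))) (.play 258 (.ref 1 194)))) (.play 130 (.ref 3 130)))) (.play 194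 (.ref 0 194)))) (.both (.play 195 (.both (.ref 98 130) (.play 194 (.ref 0 194)))) (.play 195 (.both (.play 259 (.both (.play 260 (.both (.ref 195 130) (.play 199 (.ref 1 195)))) (.play 258 (.ref 1 194)))) (.play 194 (.ref 0 194))))))))))) (.both (.play 133 (.both (.play 69 (.ref 67 3)) (.both (.play 69 (.ref 68 5)) (.play 325 (.both (.play 326 (.both (.play 324 (.both (.play 388 (.ref 6 132)) (.play 259 (.both (.play 260 (.both (.play 199 (.ref 2 195)) (.play 327 (.ref 3 259)))) (.ref 188 258))))) (.play 390 (.ref 7 133)))) (.both (.ref 194 132) (.play 390 (.both (.play 326 (.ref 7 133)) (.ref 193 197))))))))) (.both (.play 199 (.both (.play 69 (.both (.play 196 (.both (.play 260 (.both (.play 132 (.both (.play 68 (.ref 192 4)) (.play 131 (.ref 3 131)))) (.play 259 (.ref 2 195)))) (.both (.play 131 (.both (.play 195 (.both (.play 130 (.ref 3 130)) (.play 194 (.ref 0 194)))) (.play 132 (.ref 3 131)))) (.ref 191 194)))) (.both (.play 133 (.ref 68 5)) (.play 260 (.both (.play 133 (.ref 64 68)) (.play 259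 (.ref 2 195))))))) (.both (.play 133 (.both (.play 69 (.ref 68 5)) (.play 132 (.ref 143 130)))) (.play 260 (.ref 66 195))))) (.play 326 (.both (.play 325 (.both (.play 327 (.both (.play 259 (.both (.play 324 (.both (.play 133 (.ref 189 68)) (.ref 188 258))) (.play 260 (.ref 0 259)))) (.both (.play 133 (.both (.play 69 (.ref 4 69)) (.play 392 (.both (.play 324 (.both (.play 388 (.ref 6 132)) (.play 391 (.ref 0 324)))) (.ref 187 261))))) (.play 328 (.ref 43 260))))) (.both (.play 133 (.both (.play 69 (.ref 4 69)) (.play 388 (.both (.play 324 (.ref 6 132)) (.play 389 (.both (.play 452 (.ref 6 196)) (.play 453 (.ref 5 197)))))))) (.both (.play 389 (.both (.ref 186 68) (.play 453 (.ref 5 197)))) (.play 389 (.both (.ref 185 194) (.play 453 (.ref 5 197)))))))) (.both (.play 133 (.ref 182 69)) (.play 390 (.both (.play 391 (.both (.play 389 (.both (.ref 166 195) (.play 453 (.ref 6 197)))) (.play 455 (.ref 4 198)))) (.play 454 (.ref 7 197))))))))))))) (.both (.play 260 (.both (.ref 181 65) (.both (.play 259 (.both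 (.ref 176 66) (.both (.play 326 (.ref 130 193)) (.play 326 (.both (.ref 101 257) (.play 327 (.ref 0 259))))))) (.both (.ref 177 67) (.both (.play 259 (.both (.ref 174 193) (.both (.play 258 (.both (.play 197 (.ref 2 194)) (.ref 12 258))) (.play 327 (.both (.ref 105 258) (.play 326 (.ref 0 259))))))) (.ref 128 193)))))) (.both (.ref 173 65) (.both (.play 260 (.both (.play 263 (.both (.play 196 (.both (.play 199 (.both (.play 327 (.both (.play 135 (.both (.play 136 (.both (.play 72 (.ref 5 71)) (.play 197 (.ref 2 132)))) (.play 326 (.ref 99 70)))) (.play 328 (.ref 0 260)))) (.play 200 (.ref 2 196)))) (.play 195 (.ref 3 195)))) (.both (.play 196 (.both (.play 199 (.both (.play 197 (.ref 134 68)) (.play 200 (.ref 2 196)))) (.play 195 (.ref 3 195)))) (.both (.ref 126 195) (.play 328 (.both (.play 199 (.both (.play 200 (.ref 2 196)) (.play 264 (.both (.play 265 (.both (.play 266 (.ref 3 198)) (.ref 13 260))) (.play 329 (.ref 0 261)))))) (.play 327 (.ref 0 260)))))))) (.both (.ref 131 193) (.both (.ref 128 193)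 (.play 199 (.ref 117 195)))))) (.play 260 (.both (.play 324 (.both (.play 196 (.both (.ref 63 67) (.both (.play 195 (.ref 124 193)) (.play 263 (.ref 122 195))))) (.both (.play 388 (.both (.play 196 (.both (.play 132 (.ref 76 67)) (.both (.play 132 (.ref 59 68)) (.play 197 (.both (.play 195 (.both (.play 131 (.ref 7 131)) (.play 194 (.ref 0 194)))) (.play 133 (.ref 5 132))))))) (.both (.play 197 (.ref 27 68)) (.both (.play 197 (.ref 82 68)) (.ref 121 195))))) (.both (.play 388 (.both (.play 196 (.both (.play 132 (.ref 59 68)) (.play 195 (.both (.play 131 (.ref 7 131)) (.play 263 (.ref 3 195)))))) (.both (.play 197 (.ref 27 68)) (.both (.play 197 (.ref 82 68)) (.ref 121 195))))) (.play 323 (.ref 79 257)))))) (.both (.ref 119 193) (.play 199 (.ref 117 195))))))))))))))))))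
 (.one (.play 256 (.both (.play 192 (.ref 6 0)) (.ref 9 0))))))))
 (.seq (.seq (.seq (.one (.play 64 (.both (.play 0 (.ref 7 0)) (.ref 242 64))))
 (.one (.play 64 (.both (.play 0 (.ref 7 0)) (.play 321 (.both (.play 128 (.ref 7 64)) (.ref 21 64)))))))
 (.seq (.one (.play 386 (.both (.ref 87 0) (.both (.play 385 (.both (.ref 243 128) (.play 450 (.ref 4 193)))) (.play 322 (.ref 218 129))))))
 (.seq (.one (.play 320 (.both (.play 65 (.both (.ref 34 0) (.play 256 (.ref 6 64)))) (.play 384 (.ref 6 128)))))
 (.one (.play 257 (.both (.play 193 (.ref 4 0)) (.ref 108 0)))))))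
 (.seq (.seq (.one (.play 257 (.both (.play 66 (.both (.play 2 (.ref 5 1)) (.ref 247 65))) (.play 320 (.ref 6 64)))))
 (.seq (.one (.play 257 (.both (.play 66 (.ref 6 1)) (.play 256 (.ref 1 192)))))
 (.one (.play 320 (.both (.play 65 (.both (.ref 37 1) (.play 256 (.ref 6 64)))) (.play 384 (.ref 6 128)))))))
 (.seq (.one (.both (.play 1 (.ref 6 0)) (.play 449 (.ref 7 192))))
 (.seq (.one (.play 192 (.both (.play 256 (.ref 251 0)) (.play 128 (.ref 7 128)))))
 (.one (.play 66 (.both (.play 65 (.both (.play 2 (.ref 5 1)) (.ref 21 64))) (.play 130 (.ref 5 65))))))))))))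
 (.seq (.seq (.seq (.seq (.seq (.seq (.one (.both (.play 0 (.ref 4 0)) (.play 385 (.ref 7 128))))
 (.one (.play 257 (.both (.play 193 (.ref 22 0)) (.play 321 (.ref 4 64))))))
 (.seq (.one (.play 129 (.both (.ref 86 0) (.both (.play 64 (.both (.play 65 (.both (.play 0 (.ref 7 0)) (.ref 255 1))) (.play 128 (.ref 7 64)))) (.ref 37 65)))))
 (.seq (.one (.play 67 (.both (.play 68 (.ref 145 0)) (.play 258 (.ref 5 2)))))
 (.one (.play 64 (.both (.play 65 (.both (.play 0 (.ref 7 0)) (.ref 21 64))) (.play 128 (.ref 7 64))))))))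
 (.seq (.seq (.one (.play 67 (.both (.play 68 (.both (.play 4 (.ref 5 3)) (.play 132 (.both (.play 65 (.ref 15 64)) (.play 323 (.ref 5 67)))))) (.play 2 (.ref 7 2)))))
 (.one (.play 64 (.both (.play 192 (.ref 113 0)) (.play 129 (.ref 7 64))))))
 (.seq (.one (.play 130 (.both (.ref 260 2) (.both (.ref 259 64) (.play 387 (.both (.play 194 (.ref 7 130)) (.play 196 (.both (.play 132 (.ref 5 131)) (.play 451 (.both (.play 260 (.ref 5 195)) (.ref 65 258)))))))))))
 (.seq (.one (.play 65 (.both (.play 64 (.both (.play 1 (.ref 5 0)) (.ref 28 64))) (.play 129 (.ref 5 64)))))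
 (.one (.play 192 (.both (.play 193 (.both (.play 384 (.both (.play 129 (.both (.ref 262 1) (.play 320 (.ref 6 128)))) (.play 448 (.ref 6 192)))) (.play 128 (.ref 7 128)))) (.both (.play 128 (.ref 217 128)) (.play 449 (.both (.play 256 (.ref 7 192)) (.play 512 (.both (.play 448 (.ref 6 256)) (.ref 248 256)))))))))))))
 (.seq (.seq (.seq (.one (.play 257 (.both (.play 0 (.ref 7 0)) (.play 66 (.ref 5 1)))))
 (.one (.play 384 (.both (.play 385 (.both (.ref 23 1) (.play 448 (.ref 6 192)))) (.play 320 (.ref 6 128))))))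
 (.seq (.one (.play 128 (.both (.ref 260 0) (.both (.play 129 (.both (.play 64 (.ref 7 64)) (.play 385 (.both (.ref 265 64) (.both (.ref 28 129) (.ref 199 192)))))) (.play 385 (.both (.play 192 (.ref 7 128)) (.ref 65 192)))))))
 (.seq (.one (.play 129 (.both (.play 1 (.both (.play 65 (.ref 122 0)) (.play 2 (.ref 3 1)))) (.play 130 (.ref 1 65)))))
 (.one (.play 66 (.both (.ref 267 0) (.both (.play 70 (.both (.play 71 (.both (.ref 41 3) (.play 133 (.both (.play 134 (.ref 0 66)) (.play 72 (.ref 1 68)))))) (.ref 13 65))) (.play 133 (.ref 15 65)))))))))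
 (.seq (.seq (.one (.play 65 (.both (.ref 46 0) (.play 129 (.ref 5 64)))))
 (.one (.play 321 (.both (.ref 269 0) (.play 385 (.ref 4 128))))))
 (.seq (.one (.play 321 (.both (.play 193 (.ref 254 0)) (.play 256 (.ref 4 64)))))
 (.seq (.one (.play 257 (.both (.play 66 (.both (.play 2 (.ref 5 1)) (.ref 120 64))) (.play 322 (.ref 4 65)))))
 (.one (.both (.play 0 (.ref 7 0)) (.play 321 (.both (.play 128 (.ref 7 64)) (.ref 28 65))))))))))
 (.seq (.seq (.seq (.seq (.one (.play 260 (.both (.ref 244 3) (.both (.play 67 (.ref 273 3)) (.ref 52 64)))))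
 (.one (.play 64 (.both (.play 0 (.ref 7 0)) (.play 66 (.both (.play 2 (.ref 5 1)) (.ref 11 64)))))))
 (.seq (.one (.play 69 (.both (.play 70 (.ref 42 2)) (.both (.play 65 (.ref 14 64)) (.play 130 (.ref 154 65))))))
 (.seq (.one (.play 132 (.both (.ref 246 3) (.both (.ref 250 3) (.ref 19 64)))))
 (.one (.play 66 (.both (.play 321 (.both (.ref 34 0) (.play 130 (.ref 5 65)))) (.play 2 (.ref 5 1))))))))
 (.seq (.seq (.one (.play 1 (.both (.play 256 (.ref 6 0)) (.play 194 (.ref 4 1)))))
 (.one (.play 66 (.both (.play 67 (.both (.play 260 (.both (.play 194 (.both (.play 193 (.both (.play 196 (.ref 163 1)) (.play 192 (.ref 0 192)))) (.both (.ref 279 2) (.play 193 (.ref 94 192))))) (.play 324 (.ref 4 67)))) (.play 2 (.ref 7 2)))) (.both (.play 2 (.ref 217 2)) (.play 323 (.both (.play 130 (.ref 7 66)) (.play 388 (.both (.ref 272 130) (.play 324 (.ref 4 131)))))))))))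
 (.seq (.one (.play 321 (.both (.ref 265 0) (.both (.ref 28 65) (.ref 65 128)))))
 (.seq (.one (.both (.play 0 (.ref 7 0)) (.ref 111 64)))
 (.one (.play 65 (.both (.play 193 (.ref 26 0)) (.play 128 (.ref 5 64)))))))))
 (.seq (.seq (.seq (.one (.play 256 (.both (.play 192 (.both (.play 1 (.ref 6 0)) (.play 385 (.ref 77 128)))) (.play 320 (.ref 6 64)))))
 (.one (.play 320 (.both (.play 321 (.both (.ref 34 0) (.play 384 (.ref 6 128)))) (.play 256 (.ref 6 64))))))
 (.seq (.one (.play 321 (.both (.ref 236 0) (.play 385 (.ref 62 128)))))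
 (.seq (.one (.play 68 (.both (.play 0 (.ref 3 0)) (.ref 156 1))))
 (.one (.both (.play 0 (.ref 7 0)) (.play 2 (.ref 5 1)))))))
 (.seq (.seq (.one (.play 129 (.both (.play 64 (.both (.play 66 (.both (.play 65 (.ref 288 0)) (.play 130 (.ref 5 65)))) (.play 128 (.ref 7 64)))) (.play 386 (.ref 4 129)))))
 (.seq (.one (.play 389 (.both (.play 197 (.both (.play 133 (.both (.ref 236 4) (.ref 21 132))) (.both (.play 133 (.both (.ref 35 4) (.both (.play 69 (.both (.play 260 (.both (.play 196 (.ref 251 4)) (.play 324 (.ref 6 68)))) (.ref 37 5))) (.ref 34 68)))) (.both (.ref 164 68) (.both (.play 453 (.both (.play 260 (.both (.play 324 (.both (.play 133 (.ref 99 68)) (.play 517 (.ref 7 260)))) (.play 196 (.ref 7 196)))) (.both (.ref 21 196) (.ref 244 196)))) (.ref 244 132)))))) (.both (.play 390 (.both (.ref 289 68) (.both (.play 388 (.both (.play 452 (.both (.play 197 (.ref 6 196)) (.play 451 (.ref 151 385)))) (.both (.play 452 (.ref 33 196)) (.play 391 (.both (.play 387 (.both (.play 386 (.both (.ref 95 320) (.ref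 13 385))) (.both (.ref 118 321) (.both (.play 324 (.both (.play 386 (.both (.play 385 (.ref 2 321)) (.ref 13 385))) (.play 323 (.ref 3 323)))) (.ref 16 322))))) (.both (.play 324 (.ref 43 323)) (.play 328 (.both (.play 327 (.ref 2 324)) (.play 456 (.both (.play 392 (.ref 106 325)) (.play 455 (.ref 0 388)))))))))))) (.play 391 (.both (.play 456 (.both (.play 327 (.both (.play 520 (.ref 220 199)) (.both (.play 455 (.both (.play 520 (.ref 85 263)) (.play 388 (.ref 0 388)))) (.both (.ref 201 324) (.play 328 (.ref 161 324)))))) (.both (.play 392 (.both (.play 328 (.both (.play 327 (.both (.play 520 (.ref 77 263)) (.play 388 (.ref 2 324)))) (.play 329 (.ref 2 325)))) (.play 457 (.ref 0 389)))) (.both (.play 455 (.ref 94 388)) (.play 457 (.both (.play 392 (.ref 0 389)) (.play 455 (.ref 93 389)))))))) (.both (.play 388 (.both (.play 452 (.both (.play 516 (.ref 31 260)) (.play 451 (.ref 1 387)))) (.both (.play 323 (.both (.play 387 (.both (.play 322 (.ref 3 322)) (.ref 12 387))) (.play 324 (.ref 3 323)))) (.play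 455 (.both (.play 451 (.both (.ref 200 386) (.play 452 (.ref 1 387)))) (.play 456 (.ref 0 388))))))) (.both (.play 324 (.ref 143 322)) (.ref 287 324)))))))) (.both (.play 196 (.both (.play 260 (.ref 114 68)) (.both (.ref 260 68) (.both (.play 197 (.both (.play 132 (.ref 7 132)) (.play 453 (.ref 59 133)))) (.play 453 (.both (.play 197 (.ref 59 133)) (.play 260 (.ref 7 196)))))))) (.both (.ref 286 132) (.both (.ref 61 132) (.ref 274 193))))))))
 (.one (.play 68 (.both (.play 69 (.ref 3 1)) (.ref 12 64))))))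
 (.seq (.one (.play 66 (.both (.play 64 (.both (.play 65 (.ref 288 0)) (.play 128 (.ref 7 64)))) (.play 130 (.ref 5 65)))))
 (.seq (.one (.play 389 (.both (.play 197 (.both (.play 133 (.both (.ref 236 4) (.ref 28 133))) (.both (.play 133 (.both (.ref 86 4) (.both (.play 69 (.both (.ref 34 4) (.ref 255 5))) (.ref 37 69)))) (.both (.ref 70 69) (.both (.ref 270 69) (.ref 57 133)))))) (.both (.play 388 (.both (.play 197 (.both (.ref 292 68) (.play 452 (.ref 6 196)))) (.both (.play 387 (.both (.ref 234 192) (.both (.play 390 (.both (.play 454 (.both (.play 518 (.ref 83 261)) (.play 455 (.ref 0 387)))) (.both (.play 327 (.both (.play 391 (.both (.play 328 (.ref 2 324)) (.ref 13 386))) (.play 326 (.ref 2 323)))) (.ref 203 386)))) (.both (.play 386 (.both (.ref 267 320) (.play 326 (.ref 2 322)))) (.play 326 (.ref 161 322)))))) (.play 390 (.both (.play 454 (.both (.play 197 (.ref 4 197)) (.play 455 (.ref 92 387)))) (.both (.play 454 (.ref 85 197)) (.play 387 (.both (.play 322 (.both (.play 450 (.both (.play 386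 (.ref 122 321)) (.play 451 (.ref 1 386)))) (.play 323 (.ref 3 322)))) (.both (.play 326 (.ref 51 322)) (.play 391 (.both (.ref 41 323) (.both (.play 326 (.both (.play 327 (.ref 2 323)) (.ref 291 324))) (.both (.play 456 (.both (.play 392 (.both (.ref 41 324) (.play 457 (.ref 0 389)))) (.play 455 (.ref 0 388)))) (.play 392 (.both (.ref 139 325) (.ref 12 388)))))))))))))))) (.both (.play 198 (.both (.play 262 (.ref 82 69)) (.both (.play 262 (.ref 27 69)) (.both (.ref 283 69) (.both (.play 197 (.both (.play 453 (.ref 76 132)) (.play 134 (.ref 5 133)))) (.play 453 (.both (.play 197 (.ref 76 132)) (.play 262 (.ref 5 197))))))))) (.both (.ref 286 132) (.both (.play 454 (.both (.play 453 (.both (.play 197 (.ref 76 132)) (.play 518 (.ref 4 261)))) (.both (.play 197 (.both (.play 453 (.ref 76 132)) (.play 390 (.ref 4 197)))) (.both (.play 390 (.ref 85 197)) (.ref 84 261))))) (.ref 58 194))))))))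
 (.one (.play 66 (.both (.ref 95 0) (.both (.ref 221 0) (.play 70 (.ref 17 1))))))))))))
 (.seq (.seq (.seq (.seq (.seq (.one (.play 69 (.both (.ref 16 0) (.play 6 (.ref 2 2)))))
 (.one (.play 258 (.both (.play 257 (.both (.ref 21 0) (.play 322 (.ref 4 65)))) (.play 194 (.ref 4 1))))))
 (.seq (.one (.play 389 (.both (.ref 263 4) (.both (.play 260 (.both (.play 196 (.both (.play 132 (.ref 113 68)) (.both (.play 132 (.ref 89 68)) (.play 259 (.both (.play 194 (.both (.play 258 (.both (.play 257 (.both (.play 197 (.ref 2 193)) (.ref 13 256))) (.play 193 (.ref 3 193)))) (.both (.play 258 (.both (.play 321 (.both (.ref 207 192) (.play 322 (.ref 1 257)))) (.both (.play 195 (.both (.play 257 (.ref 51 192)) (.play 262 (.ref 3 194)))) (.play 262 (.both (.play 195 (.ref 3 194)) (.ref 13 257)))))) (.both (.play 193 (.both (.play 258 (.ref 3 193)) (.play 195 (.ref 0 193)))) (.play 195 (.ref 145 193)))))) (.both (.play 258 (.both (.ref 201 193) (.play 326 (.ref 0 258)))) (.both (.play 326 (.both (.play 323 (.both (.play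 262 (.both (.play 195 (.ref 43 194)) (.play 322 (.ref 1 258)))) (.play 387 (.both (.play 451 (.ref 5 195)) (.play 386 (.both (.play 324 (.ref 1 322)) (.play 388 (.ref 2 322)))))))) (.both (.play 327 (.ref 91 259)) (.play 327 (.ref 93 259))))) (.play 326 (.ref 92 258))))))))) (.both (.play 196 (.ref 90 68)) (.both (.play 453 (.both (.play 452 (.both (.play 454 (.both (.play 388 (.both (.play 197 (.ref 6 196)) (.play 387 (.ref 145 386)))) (.play 518 (.ref 4 261)))) (.play 516 (.ref 6 260)))) (.both (.ref 242 260) (.ref 111 260)))) (.play 453 (.ref 282 196)))))) (.both (.play 197 (.ref 55 65)) (.both (.play 196 (.both (.play 260 (.ref 114 68)) (.both (.ref 260 68) (.both (.play 197 (.both (.play 132 (.ref 7 132)) (.ref 296 196))) (.play 453 (.both (.play 260 (.ref 7 196)) (.ref 296 260))))))) (.both (.ref 266 68) (.both (.play 453 (.ref 55 129)) (.both (.ref 280 130) (.both (.play 388 (.both (.play 387 (.both (.play 327 (.both (.play 390 (.both (.play 454 (.both (.play 518 (.ref 114 197)) (.play 455 (.ref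 0 387)))) (.ref 295 322))) (.both (.play 326 (.ref 183 323)) (.both (.play 326 (.ref 160 323)) (.play 326 (.ref 116 323)))))) (.both (.ref 294 320) (.both (.play 326 (.ref 184 322)) (.play 326 (.ref 161 322)))))) (.both (.play 452 (.ref 232 196)) (.play 387 (.both (.play 390 (.both (.play 326 (.both (.play 454 (.both (.play 518 (.ref 7 261)) (.play 455 (.ref 0 387)))) (.play 327 (.ref 2 323)))) (.both (.play 391 (.ref 44 322)) (.play 391 (.ref 14 386))))) (.both (.ref 294 320) (.both (.play 326 (.ref 184 322)) (.play 326 (.ref 161 322))))))))) (.ref 274 193)))))))))))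
 (.seq (.one (.play 68 (.both (.play 0 (.ref 0 0)) (.play 69 (.ref 104 1)))))
 (.one (.both (.play 4 (.ref 2 0)) (.play 258 (.ref 5 2)))))))
 (.seq (.seq (.one (.play 193 (.both (.play 257 (.ref 182 0)) (.play 132 (.ref 1 128)))))
 (.one (.play 66 (.both (.ref 159 0) (.play 134 (.ref 0 66))))))
 (.seq (.one (.play 65 (.both (.play 4 (.both (.play 3 (.both (.play 64 (.ref 2 0)) (.play 71 (.ref 3 3)))) (.play 5 (.ref 2 1)))) (.ref 13 64))))
 (.seq (.one (.play 196 (.both (.ref 100 3) (.both (.play 195 (.both (.play 194 (.both (.ref 159 128) (.play 261 (.ref 0 194)))) (.both (.play 194 (.both (.ref 118 128) (.both (.ref 302 128) (.ref 16 129)))) (.both (.play 194 (.both (.ref 302 128) (.play 261 (.ref 0 194)))) (.both (.ref 102 129) (.play 131 (.both (.play 130 (.ref 3 130)) (.play 199 (.both (.play 132 (.ref 3 131)) (.play 200 (.both (.ref 41 132) (.play 261 (.ref 154 196))))))))))))) (.both (.ref 301 129) (.ref 298 195))))))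
 (.one (.play 129 (.both (.play 1 (.both (.play 0 (.ref 3 0)) (.ref 97 1))) (.play 128 (.ref 1 64)))))))))
 (.seq (.seq (.seq (.one (.play 132 (.both (.play 135 (.both (.play 71 (.both (.play 199 (.both (.play 263 (.ref 77 6)) (.play 200 (.ref 0 132)))) (.play 72 (.ref 2 68)))) (.ref 304 67))) (.both (.ref 240 64) (.both (.ref 119 65) (.play 71 (.ref 117 67)))))))
 (.one (.both (.ref 174 0) (.play 6 (.ref 2 2)))))
 (.seq (.one (.play 196 (.both (.play 260 (.both (.play 67 (.ref 68 3)) (.play 197 (.ref 2 193)))) (.play 256 (.ref 2 192)))))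
 (.seq (.one (.play 1 (.both (.ref 188 0) (.play 2 (.ref 0 1)))))
 (.one (.play 129 (.both (.play 65 (.both (.play 64 (.ref 2 0)) (.play 128 (.ref 1 64)))) (.play 130 (.ref 1 65))))))))
 (.seq (.seq (.one (.play 65 (.both (.play 64 (.ref 192 0)) (.play 129 (.ref 6 64)))))
 (.seq (.one (.play 323 (.both (.play 131 (.both (.ref 186 2) (.ref 185 128))) (.play 132 (.ref 132 67)))))
 (.one (.play 66 (.both (.play 65 (.both (.play 67 (.both (.play 68 (.both (.play 4 (.ref 206 3)) (.play 129 (.ref 154 64)))) (.play 3 (.ref 5 2)))) (.play 1 (.ref 7 1)))) (.play 2 (.ref 4 2)))))))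
 (.seq (.one (.play 65 (.both (.play 1 (.ref 7 1)) (.play 68 (.ref 1 64)))))
 (.seq (.one (.play 259 (.both (.play 66 (.ref 4 2)) (.play 260 (.ref 0 192)))))
 (.one (.play 65 (.both (.play 5 (.ref 1 1)) (.play 64 (.ref 0 64))))))))))
 (.seq (.seq (.seq (.seq (.one (.play 258 (.both (.play 1 (.ref 7 1)) (.play 259 (.both (.play 323 (.ref 4 66)) (.play 260 (.ref 3 192)))))))
 (.one (.play 257 (.both (.play 130 (.ref 189 1)) (.play 256 (.ref 2 192))))))
 (.seq (.one (.play 66 (.both (.play 65 (.ref 17 0)) (.both (.play 70 (.ref 144 1)) (.play 70 (.ref 14 65))))))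
 (.seq (.one (.play 67 (.both (.play 66 (.both (.play 65 (.ref 17 0)) (.both (.play 70 (.ref 149 1)) (.play 70 (.ref 44 1))))) (.both (.ref 318 0) (.both (.play 66 (.both (.play 65 (.ref 17 0)) (.play 5 (.both (.play 6 (.ref 2 2)) (.play 133 (.both (.play 197 (.ref 6 4)) (.play 134 (.ref 0 66)))))))) (.both (.play 70 (.both (.play 66 (.ref 144 1)) (.both (.play 66 (.ref 44 1)) (.play 71 (.ref 42 3))))) (.both (.ref 150 1) (.play 70 (.both (.play 131 (.both (.play 3 (.both (.play 2 (.ref 3 2)) (.play 195 (.ref 4 3)))) (.play 130 (.ref 1 66)))) (.play 71 (.ref 42 3)))))))))))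
 (.one (.play 66 (.both (.play 65 (.both (.play 67 (.both (.play 3 (.ref 5 2)) (.ref 257 64))) (.play 1 (.ref 7 1)))) (.play 2 (.ref 4 2))))))))
 (.seq (.seq (.one (.play 66 (.both (.ref 315 0) (.play 259 (.ref 7 2)))))
 (.one (.play 67 (.both (.play 66 (.both (.play 68 (.both (.play 4 (.ref 5 3)) (.ref 321 64))) (.play 2 (.ref 7 2)))) (.play 3 (.ref 4 3))))))
 (.seq (.one (.play 259 (.both (.play 131 (.both (.ref 322 0) (.both (.play 67 (.ref 67 1)) (.play 258 (.both (.play 322 (.both (.play 386 (.ref 231 130)) (.play 261 (.both (.play 326 (.both (.ref 187 195) (.play 325 (.ref 0 258)))) (.play 321 (.ref 1 257)))))) (.play 257 (.ref 51 192))))))) (.both (.ref 311 0) (.both (.play 323 (.both (.play 262 (.both (.play 131 (.both (.ref 186 2) (.both (.ref 310 3) (.play 130 (.both (.play 132 (.both (.play 68 (.ref 6 67)) (.play 129 (.ref 15 128)))) (.play 66 (.ref 7 66))))))) (.play 261 (.both (.play 263 (.ref 3 195)) (.play 322 (.ref 1 258)))))) (.both (.play 387 (.both (.play 388 (.ref 147 128)) (.play 451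 (.ref 5 195)))) (.play 387 (.ref 73 131))))) (.both (.play 197 (.both (.play 131 (.both (.ref 322 0) (.both (.play 67 (.both (.play 66 (.both (.play 2 (.ref 7 2)) (.play 130 (.both (.play 323 (.ref 7 66)) (.play 129 (.ref 123 128)))))) (.play 3 (.ref 4 3)))) (.both (.play 67 (.both (.play 68 (.both (.play 132 (.both (.play 69 (.both (.play 5 (.ref 5 4)) (.ref 315 65))) (.play 323 (.ref 5 67)))) (.play 4 (.ref 5 3)))) (.play 3 (.ref 4 3)))) (.both (.play 258 (.both (.play 132 (.both (.play 69 (.both (.play 70 (.both (.play 68 (.both (.play 4 (.ref 6 3)) (.play 71 (.ref 1 67)))) (.play 130 (.both (.play 133 (.ref 2 66)) (.play 129 (.ref 0 129)))))) (.both (.play 130 (.both (.play 133 (.ref 112 2)) (.play 129 (.ref 0 129)))) (.ref 209 3)))) (.both (.play 130 (.both (.play 323 (.ref 205 66)) (.play 129 (.ref 0 129)))) (.play 323 (.ref 73 67))))) (.play 257 (.ref 2 193)))) (.both (.ref 320 1) (.ref 312 1))))))) (.both (.play 131 (.both (.ref 320 1) (.both (.play 67 (.both (.play 130 (.both (.play 66 (.ref 77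 2)) (.play 198 (.ref 3 130)))) (.play 3 (.ref 4 3)))) (.play 130 (.ref 124 128))))) (.play 258 (.ref 66 193))))) (.both (.play 197 (.both (.play 68 (.both (.play 67 (.both (.play 69 (.both (.play 66 (.both (.play 65 (.ref 17 0)) (.play 70 (.ref 42 2)))) (.both (.play 3 (.both (.play 2 (.ref 143 0)) (.play 132 (.ref 7 3)))) (.play 132 (.ref 288 3))))) (.both (.ref 317 1) (.both (.play 3 (.ref 165 3)) (.play 258 (.both (.play 261 (.both (.ref 249 65) (.ref 314 66))) (.play 257 (.ref 2 193)))))))) (.both (.play 69 (.both (.ref 319 0) (.both (.play 133 (.both (.play 67 (.both (.ref 317 1) (.play 134 (.ref 92 66)))) (.ref 316 3))) (.both (.play 67 (.both (.play 70 (.both (.play 66 (.ref 44 1)) (.both (.play 71 (.ref 144 2)) (.play 71 (.ref 42 3))))) (.both (.play 258 (.both (.play 131 (.both (.play 4 (.ref 5 3)) (.play 322 (.ref 6 66)))) (.play 257 (.ref 2 193)))) (.both (.ref 317 1) (.play 131 (.ref 192 3)))))) (.play 133 (.both (.ref 316 3) (.play 5 (.ref 6 4)))))))) (.both (.play 258 (.both (.play 132 (.both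 (.play 67 (.both (.play 3 (.ref 7 3)) (.play 261 (.both (.ref 249 65) (.play 325 (.ref 4 68)))))) (.play 4 (.ref 6 3)))) (.play 257 (.ref 2 193)))) (.both (.play 132 (.both (.play 69 (.both (.play 67 (.both (.play 3 (.ref 7 3)) (.play 131 (.both (.play 258 (.both (.play 322 (.ref 6 66)) (.play 257 (.ref 2 193)))) (.ref 315 65))))) (.play 5 (.ref 5 4)))) (.play 4 (.ref 6 3)))) (.play 132 (.both (.play 4 (.ref 6 3)) (.play 69 (.both (.play 5 (.ref 5 4)) (.play 261 (.both (.play 262 (.both (.ref 314 67) (.play 263 (.ref 3 195)))) (.play 325 (.ref 4 68))))))))))))) (.both (.play 131 (.both (.play 130 (.both (.play 67 (.both (.play 129 (.both (.play 68 (.both (.ref 313 1) (.play 4 (.ref 5 3)))) (.play 128 (.ref 0 128)))) (.play 3 (.ref 4 3)))) (.play 198 (.ref 3 130)))) (.both (.ref 312 1) (.both (.play 67 (.both (.play 68 (.both (.play 69 (.both (.play 134 (.both (.play 66 (.both (.play 2 (.ref 7 2)) (.play 133 (.ref 0 66)))) (.play 135 (.both (.play 70 (.ref 0 67)) (.play 198 (.ref 2 131)))))) (.both (.play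 5 (.both (.play 66 (.both (.play 2 (.ref 7 2)) (.play 6 (.ref 2 2)))) (.play 132 (.ref 5 4)))) (.play 5 (.ref 206 4))))) (.play 4 (.ref 5 3)))) (.play 3 (.ref 4 3)))) (.play 130 (.ref 124 128)))))) (.play 258 (.ref 66 193))))) (.both (.play 258 (.both (.play 257 (.both (.ref 212 64) (.play 256 (.ref 2 192)))) (.both (.play 261 (.both (.play 325 (.both (.play 389 (.ref 90 68)) (.play 326 (.ref 0 258)))) (.play 322 (.both (.play 262 (.both (.play 263 (.ref 3 195)) (.play 323 (.ref 1 258)))) (.play 321 (.ref 1 257)))))) (.play 257 (.ref 51 192))))) (.play 258 (.both (.play 323 (.both (.play 322 (.both (.play 386 (.ref 132 130)) (.play 321 (.ref 66 256)))) (.play 387 (.ref 73 131)))) (.play 257 (.ref 51 192))))))))))))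
 (.seq (.one (.play 129 (.both (.ref 279 0) (.play 322 (.ref 4 65)))))
 (.one (.play 65 (.both (.play 0 (.ref 7 0)) (.play 1 (.ref 6 0)))))))))
 (.seq (.seq (.seq (.one (.both (.play 258 (.both (.play 3 (.ref 5 2)) (.play 257 (.both (.play 321 (.ref 6 65)) (.play 196 (.ref 51 192)))))) (.play 2 (.ref 4 2))))
 (.one (.play 66 (.both (.ref 129 0) (.both (.play 65 (.both (.ref 41 1) (.play 132 (.ref 0 65)))) (.play 6 (.both (.ref 295 1) (.play 5 (.ref 2 2)))))))))
 (.seq (.one (.play 5 (.both (.play 129 (.both (.ref 136 1) (.play 128 (.ref 1 64)))) (.play 4 (.ref 2 1)))))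
 (.seq (.one (.play 66 (.both (.ref 328 1) (.both (.play 5 (.both (.ref 127 1) (.play 6 (.ref 2 2)))) (.ref 101 64)))))
 (.one (.play 322 (.both (.play 194 (.both (.play 258 (.ref 237 1)) (.both (.play 258 (.ref 211 65)) (.both (.play 195 (.ref 143 192)) (.ref 97 194))))) (.both (.play 258 (.ref 230 129)) (.both (.ref 229 256) (.play 323 (.ref 79 256))))))))))
 (.seq (.seq (.one (.play 64 (.both (.ref 53 0) (.play 128 (.ref 7 64)))))
 (.seq (.one (.play 322 (.both (.ref 331 0) (.play 386 (.ref 4 129)))))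
 (.one (.play 323 (.both (.play 387 (.both (.play 195 (.both (.play 131 (.both (.play 66 (.both (.play 67 (.both (.play 2 (.ref 7 2)) (.play 322 (.ref 6 66)))) (.play 130 (.ref 7 66)))) (.ref 37 67))) (.both (.ref 72 67) (.play 451 (.both (.ref 28 195) (.ref 242 258)))))) (.both (.play 195 (.both (.ref 332 66) (.both (.ref 47 67) (.play 194 (.both (.play 196 (.both (.play 132 (.ref 5 131)) (.play 197 (.ref 154 193)))) (.play 130 (.ref 7 130))))))) (.both (.play 194 (.ref 114 66)) (.play 451 (.ref 273 194)))))) (.both (.play 387 (.both (.play 195 (.both (.ref 210 66) (.both (.play 130 (.both (.ref 325 66) (.play 194 (.ref 4 130)))) (.play 196 (.both (.play 257 (.both (.ref 313 129) (.play 256 (.ref 2 192)))) (.play 132 (.ref 5 131))))))) (.both (.play 195 (.both (.ref 210 66) (.play 451 (.both (.ref 28 195) (.play 515 (.ref 7 258)))))) (.play 194 (.ref 182 130))))) (.play 324 (.ref 145 256))))))))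
 (.seq (.one (.play 325 (.both (.play 324 (.both (.play 260 (.both (.play 196 (.both (.play 131 (.both (.play 197 (.both (.play 133 (.ref 82 4)) (.both (.play 195 (.both (.play 130 (.ref 124 128)) (.play 388 (.ref 7 131)))) (.both (.play 130 (.both (.play 195 (.ref 143 128)) (.both (.play 129 (.both (.play 195 (.ref 142 128)) (.play 132 (.ref 0 129)))) (.both (.play 132 (.ref 92 129)) (.play 198 (.both (.play 195 (.ref 3 130)) (.play 132 (.ref 91 130)))))))) (.play 388 (.both (.play 195 (.ref 7 131)) (.play 133 (.ref 5 132)))))))) (.both (.play 195 (.ref 114 3)) (.both (.ref 260 3) (.ref 259 65))))) (.both (.ref 289 3) (.both (.play 388 (.both (.ref 243 131) (.both (.play 453 (.both (.play 452 (.both (.ref 34 131) (.play 517 (.ref 4 260)))) (.play 389 (.ref 4 196)))) (.play 387 (.both (.play 451 (.ref 6 195)) (.play 386 (.ref 78 321))))))) (.play 389 (.ref 218 132)))))) (.both (.play 388 (.both (.play 196 (.both (.ref 292 67) (.both (.play 389 (.ref 68 132)) (.play 452 (.both (.play 389 (.both (.play 453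 (.ref 4 196)) (.ref 194 259))) (.both (.ref 28 196) (.both (.ref 71 259) (.play 516 (.both (.ref 21 259) (.ref 56 324)))))))))) (.both (.play 387 (.both (.play 451 (.ref 232 195)) (.play 327 (.ref 1 323)))) (.play 387 (.ref 79 321))))) (.ref 287 259)))) (.both (.ref 330 65) (.both (.play 391 (.ref 94 323)) (.play 391 (.ref 92 323)))))) (.both (.play 324 (.both (.play 260 (.both (.play 196 (.both (.play 197 (.both (.play 195 (.both (.play 131 (.ref 114 3)) (.both (.ref 276 129) (.play 388 (.both (.play 131 (.ref 7 131)) (.ref 247 196)))))) (.both (.play 198 (.both (.play 134 (.both (.play 261 (.ref 82 5)) (.both (.play 261 (.ref 27 5)) (.play 135 (.ref 184 131))))) (.both (.play 199 (.both (.play 261 (.both (.play 389 (.both (.play 134 (.ref 5 133)) (.play 453 (.ref 7 196)))) (.play 200 (.ref 1 196)))) (.play 259 (.ref 1 195)))) (.play 259 (.ref 151 193))))) (.both (.play 133 (.ref 27 4)) (.play 388 (.both (.play 195 (.ref 273 131)) (.play 133 (.ref 5 132)))))))) (.both (.play 132 (.both (.ref 331 3) (.both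 (.ref 269 4) (.play 133 (.both (.play 131 (.both (.play 67 (.ref 7 67)) (.play 195 (.both (.play 134 (.ref 154 130)) (.play 388 (.ref 7 131)))))) (.play 69 (.ref 5 68))))))) (.both (.play 132 (.both (.play 68 (.both (.ref 34 3) (.play 261 (.ref 4 68)))) (.play 389 (.ref 4 132)))) (.both (.play 389 (.both (.play 132 (.ref 4 132)) (.play 453 (.both (.play 388 (.ref 4 196)) (.play 261 (.ref 7 196)))))) (.play 389 (.ref 218 132))))))) (.both (.play 391 (.both (.play 389 (.both (.play 453 (.ref 90 132)) (.both (.play 196 (.ref 218 132)) (.play 327 (.both (.play 263 (.both (.play 455 (.both (.play 262 (.ref 182 198)) (.play 456 (.ref 202 260)))) (.play 264 (.ref 2 260)))) (.both (.ref 169 260) (.ref 215 260))))))) (.both (.play 392 (.ref 91 324)) (.play 392 (.ref 93 324))))) (.both (.play 259 (.ref 124 257)) (.ref 287 259))))) (.both (.ref 327 257) (.both (.play 391 (.ref 94 323)) (.play 391 (.ref 92 323)))))) (.both (.play 324 (.both (.play 327 (.both (.ref 333 68) (.both (.ref 153 259) (.ref 158 323)))) (.both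 (.ref 329 257) (.both (.play 391 (.ref 94 323)) (.play 391 (.ref 92 323)))))) (.both (.play 324 (.both (.play 327 (.both (.ref 333 68) (.both (.ref 170 259) (.ref 126 259)))) (.both (.ref 181 129) (.both (.ref 301 257) (.play 391 (.ref 92 323)))))) (.both (.play 324 (.both (.ref 330 65) (.both (.play 323 (.both (.ref 238 66) (.both (.ref 96 257) (.play 262 (.ref 306 257))))) (.both (.play 327 (.both (.ref 238 67) (.both (.ref 304 259) (.both (.play 264 (.both (.play 260 (.both (.play 259 (.ref 3 259)) (.ref 168 260))) (.play 263 (.ref 2 260)))) (.ref 328 259))))) (.both (.ref 329 257) (.ref 327 257)))))) (.both (.play 391 (.both (.play 198 (.both (.play 197 (.both (.play 262 (.both (.ref 269 70) (.both (.play 389 (.ref 99 133)) (.play 389 (.both (.play 388 (.both (.ref 249 195) (.play 387 (.ref 51 322)))) (.play 453 (.ref 6 197))))))) (.both (.play 261 (.ref 326 131)) (.both (.play 133 (.ref 165 133)) (.play 262 (.both (.play 133 (.ref 7 133)) (.ref 279 133))))))) (.both (.play 262 (.both (.ref 19 130)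 (.play 455 (.ref 4 198)))) (.both (.play 261 (.both (.play 197 (.both (.play 389 (.both (.play 260 (.both (.play 196 (.ref 77 132)) (.play 327 (.ref 143 258)))) (.both (.ref 10 132) (.play 388 (.both (.play 452 (.ref 6 196)) (.play 387 (.ref 51 322))))))) (.play 133 (.ref 4 133)))) (.both (.play 327 (.both (.play 328 (.both (.play 264 (.both (.play 455 (.ref 82 135)) (.play 265 (.ref 2 261)))) (.play 260 (.ref 3 260)))) (.both (.play 263 (.both (.ref 325 134) (.play 455 (.both (.ref 204 196) (.ref 226 262))))) (.play 260 (.ref 143 258))))) (.both (.play 197 (.both (.play 389 (.both (.play 196 (.both (.play 132 (.ref 7 132)) (.ref 321 194))) (.play 134 (.ref 5 133)))) (.play 133 (.ref 4 133)))) (.play 197 (.ref 326 131)))))) (.ref 324 133))))) (.both (.play 392 (.both (.play 327 (.both (.play 263 (.both (.play 455 (.both (.play 264 (.both (.play 200 (.ref 5 199)) (.play 265 (.ref 160 261)))) (.play 262 (.ref 77 198)))) (.both (.play 456 (.ref 218 199)) (.play 456 (.ref 85 199))))) (.play 324 (.ref 0 324))))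 (.play 393 (.ref 3 325)))) (.both (.play 392 (.both (.play 389 (.both (.ref 195 260) (.play 456 (.both (.play 388 (.both (.play 387 (.ref 51 322)) (.play 455 (.ref 0 388)))) (.play 457 (.ref 0 389)))))) (.play 393 (.ref 3 325)))) (.both (.play 392 (.both (.play 389 (.both (.ref 195 260) (.play 324 (.ref 3 324)))) (.play 393 (.ref 3 325)))) (.play 392 (.both (.play 324 (.ref 104 324)) (.play 393 (.ref 3 325))))))))) (.both (.play 324 (.both (.ref 177 131) (.both (.ref 103 257) (.both (.play 391 (.ref 94 323)) (.play 391 (.ref 92 323)))))) (.both (.play 324 (.both (.play 391 (.both (.play 198 (.both (.play 199 (.both (.ref 319 130) (.both (.play 197 (.both (.ref 152 130) (.both (.ref 318 130) (.play 262 (.both (.play 133 (.ref 7 133)) (.play 455 (.ref 4 198))))))) (.play 262 (.both (.play 135 (.ref 5 134)) (.play 455 (.ref 4 198))))))) (.both (.play 327 (.both (.play 260 (.both (.play 261 (.both (.play 389 (.both (.play 196 (.ref 182 132)) (.play 197 (.ref 192 133)))) (.play 328 (.ref 3 260)))) (.play 259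 (.ref 3 259)))) (.both (.play 263 (.both (.ref 325 134) (.play 264 (.ref 2 260)))) (.ref 170 259)))) (.both (.ref 324 133) (.play 262 (.both (.play 389 (.ref 99 133)) (.play 455 (.ref 4 198)))))))) (.both (.play 392 (.ref 91 324)) (.play 392 (.ref 93 324))))) (.both (.play 323 (.both (.play 322 (.ref 17 257)) (.both (.play 322 (.ref 149 257)) (.play 327 (.ref 44 258))))) (.play 391 (.ref 94 323))))) (.both (.ref 323 130) (.play 389 (.both (.ref 311 130) (.both (.play 453 (.both (.play 262 (.both (.play 261 (.both (.play 197 (.both (.play 133 (.ref 4 133)) (.ref 21 196))) (.play 263 (.both (.play 260 (.both (.play 196 (.ref 7 196)) (.ref 191 258))) (.both (.play 264 (.both (.play 260 (.both (.play 196 (.ref 7 196)) (.ref 41 196))) (.play 265 (.ref 1 261)))) (.play 264 (.ref 154 260))))))) (.play 198 (.ref 6 197)))) (.both (.play 517 (.both (.ref 258 196) (.play 581 (.ref 5 325)))) (.play 517 (.ref 73 261))))) (.both (.play 453 (.both (.play 323 (.both (.play 261 (.both (.ref 186 132) (.both (.ref 310 133)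 (.play 260 (.both (.play 262 (.both (.play 198 (.ref 6 197)) (.ref 190 258))) (.play 196 (.ref 7 196))))))) (.both (.play 262 (.both (.play 198 (.ref 6 197)) (.play 324 (.ref 106 259)))) (.play 324 (.ref 15 322))))) (.both (.play 517 (.both (.ref 148 258) (.play 581 (.ref 5 325)))) (.play 517 (.ref 73 261))))) (.both (.play 391 (.both (.play 388 (.both (.play 452 (.both (.play 261 (.both (.play 197 (.ref 6 196)) (.play 324 (.both (.play 516 (.ref 5 260)) (.play 323 (.ref 3 323)))))) (.play 451 (.ref 1 387)))) (.both (.ref 309 322) (.ref 308 322)))) (.both (.play 388 (.both (.ref 309 322) (.ref 291 324))) (.play 324 (.ref 145 323))))) (.both (.play 391 (.both (.play 388 (.both (.play 452 (.both (.play 324 (.both (.play 516 (.ref 73 260)) (.play 323 (.ref 0 323)))) (.play 451 (.ref 1 387)))) (.both (.ref 309 322) (.ref 308 322)))) (.both (.play 392 (.both (.play 393 (.ref 3 325)) (.ref 227 387))) (.play 392 (.ref 43 324))))) (.play 517 (.both (.play 453 (.both (.ref 148 258) (.play 262 (.ref 5 261)))) (.both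 (.play 453 (.ref 73 261)) (.play 391 (.both (.play 392 (.both (.play 456 (.both (.play 388 (.both (.ref 309 322) (.play 455 (.ref 0 388)))) (.play 457 (.ref 0 389)))) (.play 393 (.ref 3 325)))) (.both (.play 388 (.both (.ref 309 322) (.both (.ref 308 322) (.play 324 (.both (.play 323 (.ref 0 323)) (.play 452 (.both (.ref 193 324) (.play 451 (.ref 1 387))))))))) (.play 392 (.ref 43 324)))))))))))))))))))))))))
 (.seq (.one (.play 262 (.both (.play 453 (.both (.play 198 (.both (.play 135 (.both (.play 134 (.both (.ref 332 5) (.play 71 (.ref 5 70)))) (.play 199 (.ref 5 134)))) (.play 389 (.ref 6 197)))) (.both (.play 454 (.both (.play 263 (.both (.play 199 (.ref 5 198)) (.play 325 (.both (.play 324 (.ref 184 259)) (.both (.play 324 (.both (.play 323 (.ref 2 259)) (.play 327 (.ref 299 260)))) (.ref 264 261)))))) (.play 517 (.ref 6 261)))) (.play 517 (.ref 233 197))))) (.both (.play 198 (.both (.play 134 (.both (.play 70 (.ref 59 6)) (.ref 34 69))) (.both (.ref 75 6) (.both (.ref 292 69) (.both (.play 134 (.both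 (.ref 34 69) (.ref 74 70))) (.play 199 (.both (.play 263 (.both (.ref 146 132) (.play 454 (.ref 5 198)))) (.play 135 (.ref 5 134))))))))) (.both (.play 261 (.both (.ref 303 64) (.both (.play 197 (.ref 114 69)) (.both (.play 260 (.both (.play 263 (.both (.play 196 (.both (.play 324 (.both (.ref 300 132) (.play 323 (.ref 1 259)))) (.play 195 (.ref 3 195)))) (.play 199 (.ref 299 196)))) (.both (.play 259 (.ref 130 193)) (.both (.play 327 (.both (.play 263 (.both (.play 454 (.ref 73 198)) (.play 328 (.ref 0 260)))) (.play 259 (.ref 0 259)))) (.ref 298 259))))) (.play 454 (.both (.play 197 (.ref 7 197)) (.play 517 (.both (.play 518 (.both (.ref 37 198) (.play 581 (.ref 6 325)))) (.play 453 (.ref 6 261)))))))))) (.both (.ref 277 66) (.both (.play 454 (.both (.play 198 (.both (.ref 246 69) (.both (.ref 34 133) (.ref 284 133)))) (.both (.ref 246 133) (.both (.play 518 (.both (.ref 34 197) (.play 582 (.ref 62 325)))) (.play 518 (.both (.play 582 (.both (.ref 252 197) (.ref 28 326))) (.both (.ref 21 261) (.ref 296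 325)))))))) (.play 454 (.both (.play 453 (.both (.play 199 (.both (.ref 48 133) (.play 263 (.ref 5 198)))) (.play 517 (.ref 6 261)))) (.both (.ref 285 197) (.ref 278 197)))))))))))
 (.one (.play 390 (.both (.ref 335 0) (.both (.ref 334 0) (.both (.play 262 (.both (.play 389 (.both (.play 198 (.both (.ref 262 70) (.play 453 (.ref 6 197)))) (.both (.play 388 (.both (.ref 307 131) (.both (.play 391 (.both (.play 455 (.ref 163 196)) (.play 452 (.ref 230 259)))) (.both (.play 387 (.ref 306 321)) (.play 327 (.ref 117 323)))))) (.both (.play 453 (.ref 33 197)) (.ref 305 256))))) (.both (.play 389 (.both (.play 198 (.both (.ref 29 69) (.play 453 (.ref 6 197)))) (.both (.play 388 (.both (.ref 307 131) (.both (.play 391 (.both (.ref 225 195) (.play 455 (.ref 163 196)))) (.both (.play 387 (.ref 306 321)) (.play 327 (.ref 117 323)))))) (.both (.play 453 (.ref 33 197)) (.ref 305 256))))) (.both (.play 261 (.both (.ref 303 64) (.both (.play 197 (.ref 114 69)) (.both (.play 260 (.both (.play 327 (.both (.play 263 (.both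 (.play 199 (.ref 132 134)) (.play 328 (.ref 0 260)))) (.play 259 (.ref 0 259)))) (.both (.play 263 (.both (.play 324 (.both (.play 196 (.both (.ref 300 132) (.play 195 (.ref 3 195)))) (.play 323 (.ref 1 259)))) (.play 199 (.ref 299 196)))) (.both (.play 259 (.ref 130 193)) (.ref 298 259))))) (.play 454 (.both (.play 197 (.ref 7 197)) (.ref 45 259))))))) (.both (.play 198 (.both (.ref 236 69) (.both (.play 134 (.ref 39 69)) (.play 454 (.ref 59 134))))) (.play 198 (.both (.play 134 (.ref 76 69)) (.both (.ref 236 69) (.both (.play 134 (.ref 38 69)) (.play 454 (.ref 76 133))))))))))) (.both (.ref 297 65) (.both (.ref 293 65) (.both (.ref 290 65) (.both (.play 454 (.both (.play 519 (.both (.play 262 (.both (.play 199 (.both (.play 198 (.both (.ref 164 69) (.play 135 (.ref 5 134)))) (.play 263 (.ref 5 198)))) (.play 455 (.ref 4 262)))) (.both (.play 518 (.both (.play 327 (.both (.play 263 (.ref 5 262)) (.play 582 (.both (.ref 285 325) (.play 391 (.ref 5 326)))))) (.play 583 (.ref 4 326)))) (.play 583 (.ref 219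 262))))) (.both (.ref 115 129) (.both (.play 262 (.both (.ref 29 133) (.both (.ref 270 134) (.play 261 (.both (.play 263 (.both (.ref 268 194) (.play 199 (.ref 5 198)))) (.play 197 (.ref 7 197))))))) (.both (.play 519 (.both (.ref 87 133) (.both (.play 518 (.both (.play 325 (.both (.play 327 (.both (.play 263 (.ref 5 262)) (.play 389 (.both (.play 388 (.ref 66 323)) (.play 582 (.ref 7 325)))))) (.play 261 (.ref 7 261)))) (.play 583 (.ref 4 326)))) (.play 455 (.ref 218 262))))) (.both (.ref 261 131) (.both (.play 263 (.both (.play 262 (.both (.play 455 (.both (.play 198 (.both (.ref 284 133) (.play 391 (.ref 4 198)))) (.play 519 (.ref 4 262)))) (.play 199 (.ref 5 198)))) (.both (.ref 25 134) (.both (.ref 283 134) (.play 518 (.both (.play 325 (.ref 282 261)) (.play 327 (.ref 5 262)))))))) (.both (.play 263 (.both (.ref 30 133) (.both (.play 327 (.ref 27 134)) (.both (.ref 25 134) (.play 518 (.both (.ref 281 261) (.play 327 (.ref 5 262)))))))) (.both (.play 261 (.both (.play 325 (.ref 114 133)) (.both (.play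 262 (.both (.ref 262 134) (.play 197 (.ref 7 197)))) (.play 518 (.both (.play 325 (.ref 7 261)) (.ref 281 261)))))) (.both (.ref 280 195) (.play 519 (.both (.play 262 (.both (.ref 278 197) (.play 455 (.ref 4 262)))) (.both (.play 518 (.both (.ref 278 261) (.play 583 (.ref 4 326)))) (.both (.play 583 (.ref 219 262)) (.play 455 (.ref 85 262)))))))))))))))) (.both (.play 454 (.both (.play 519 (.both (.play 262 (.both (.play 197 (.both (.play 198 (.both (.play 134 (.both (.ref 255 70) (.ref 21 133))) (.play 133 (.ref 7 133)))) (.play 261 (.ref 7 197)))) (.play 455 (.ref 4 262)))) (.both (.play 518 (.both (.ref 275 261) (.play 583 (.ref 4 326)))) (.both (.play 455 (.ref 85 262)) (.ref 271 262))))) (.both (.play 262 (.ref 55 130)) (.both (.play 518 (.ref 40 197)) (.both (.ref 274 258) (.both (.ref 20 258) (.ref 58 259))))))) (.both (.play 262 (.both (.ref 277 66) (.both (.ref 245 69) (.both (.play 198 (.both (.play 197 (.both (.play 199 (.both (.ref 276 131) (.play 135 (.ref 5 134)))) (.play 133 (.ref 7 133))))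 (.both (.ref 275 133) (.both (.play 455 (.both (.play 197 (.both (.play 133 (.ref 7 133)) (.ref 110 197))) (.play 391 (.ref 4 198)))) (.ref 109 134))))) (.both (.play 454 (.ref 50 131)) (.ref 274 194)))))) (.both (.play 454 (.both (.play 519 (.both (.play 262 (.both (.ref 256 69) (.play 455 (.ref 4 262)))) (.both (.ref 272 261) (.both (.play 455 (.ref 85 262)) (.ref 271 262))))) (.both (.play 262 (.both (.ref 29 133) (.both (.ref 270 134) (.play 263 (.both (.play 261 (.both (.ref 268 194) (.play 197 (.ref 7 197)))) (.play 199 (.ref 5 198))))))) (.both (.ref 245 133) (.both (.ref 266 133) (.both (.play 518 (.ref 40 197)) (.ref 20 258))))))) (.both (.play 454 (.both (.play 517 (.both (.play 262 (.both (.play 199 (.both (.ref 30 69) (.play 263 (.ref 5 198)))) (.play 453 (.ref 6 261)))) (.both (.play 518 (.both (.play 327 (.both (.play 263 (.ref 5 262)) (.play 389 (.both (.play 388 (.ref 117 323)) (.both (.play 391 (.both (.play 388 (.ref 51 323)) (.play 582 (.ref 5 326)))) (.both (.play 388 (.both (.play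 387 (.ref 2 323)) (.play 325 (.both (.play 328 (.ref 1 324)) (.play 582 (.ref 7 325)))))) (.ref 264 325))))))) (.play 581 (.ref 6 325)))) (.play 453 (.ref 33 261))))) (.both (.ref 263 69) (.both (.ref 261 131) (.both (.play 262 (.both (.ref 35 133) (.both (.ref 258 133) (.both (.ref 253 133) (.play 261 (.both (.play 453 (.both (.play 263 (.both (.play 260 (.both (.play 325 (.both (.play 196 (.both (.play 195 (.ref 3 195)) (.play 389 (.ref 7 196)))) (.play 324 (.ref 66 259)))) (.play 327 (.ref 15 259)))) (.play 199 (.ref 5 198)))) (.play 517 (.ref 6 261)))) (.play 197 (.ref 7 197)))))))) (.both (.play 517 (.both (.ref 36 133) (.both (.play 518 (.both (.play 327 (.both (.play 325 (.both (.play 261 (.ref 7 261)) (.ref 257 324))) (.play 263 (.ref 5 262)))) (.play 581 (.ref 6 325)))) (.play 453 (.ref 232 261))))) (.both (.play 517 (.both (.ref 36 133) (.both (.play 518 (.both (.ref 256 133) (.play 581 (.ref 6 325)))) (.both (.play 453 (.ref 33 261)) (.ref 32 325))))) (.both (.play 261 (.both (.play 325 (.ref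 114 133)) (.both (.play 197 (.both (.play 325 (.ref 254 133)) (.play 262 (.ref 7 197)))) (.both (.play 262 (.both (.ref 253 133) (.play 197 (.ref 7 197)))) (.play 518 (.both (.play 325 (.ref 7 261)) (.play 582 (.both (.play 647 (.both (.play 646 (.both (.ref 252 261) (.play 711 (.ref 4 454)))) (.play 583 (.ref 4 390)))) (.both (.ref 21 325) (.ref 199 389)))))))))) (.ref 20 258))))))))) (.both (.play 262 (.both (.play 198 (.both (.ref 35 69) (.both (.ref 250 69) (.play 391 (.both (.play 389 (.both (.play 388 (.both (.play 197 (.both (.play 133 (.ref 7 133)) (.play 325 (.both (.ref 249 195) (.play 324 (.ref 43 323)))))) (.play 327 (.ref 51 323)))) (.play 453 (.ref 6 197)))) (.play 455 (.ref 4 198))))))) (.both (.play 453 (.both (.ref 36 69) (.both (.play 389 (.ref 232 197)) (.ref 248 197)))) (.both (.play 197 (.both (.play 261 (.ref 114 69)) (.both (.play 198 (.both (.ref 72 70) (.play 133 (.ref 7 133)))) (.play 454 (.both (.ref 72 134) (.play 261 (.ref 7 197))))))) (.both (.play 199 (.both (.play 198 (.both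 (.ref 246 69) (.play 135 (.ref 5 134)))) (.both (.play 263 (.ref 27 70)) (.play 454 (.both (.ref 246 133) (.play 263 (.ref 5 198))))))) (.both (.ref 245 69) (.both (.play 455 (.both (.play 198 (.both (.ref 244 133) (.play 391 (.ref 4 198)))) (.both (.play 454 (.both (.ref 244 197) (.play 519 (.ref 4 262)))) (.both (.play 519 (.ref 219 198)) (.play 391 (.ref 85 198)))))) (.both (.play 453 (.both (.play 198 (.both (.ref 57 134) (.play 389 (.ref 6 197)))) (.both (.play 517 (.ref 233 197)) (.both (.play 389 (.ref 33 197)) (.play 454 (.both (.ref 57 198) (.play 517 (.ref 6 261)))))))) (.play 454 (.both (.ref 243 197) (.both (.ref 109 198) (.play 453 (.both (.play 455 (.both (.play 519 (.ref 4 262)) (.play 456 (.both (.play 392 (.both (.ref 222 387) (.play 393 (.ref 2 389)))) (.both (.play 389 (.ref 43 388)) (.play 393 (.both (.play 392 (.ref 2 389)) (.play 457 (.both (.play 394 (.ref 2 390)) (.ref 12 453)))))))))) (.play 517 (.ref 6 261))))))))))))))) (.both (.ref 241 128) (.both (.play 454 (.both (.ref 115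 129) (.both (.play 325 (.both (.play 324 (.both (.play 392 (.both (.play 327 (.both (.play 263 (.both (.play 199 (.ref 33 134)) (.play 264 (.ref 2 260)))) (.both (.ref 107 260) (.ref 105 323)))) (.both (.play 391 (.ref 93 324)) (.both (.play 391 (.ref 91 324)) (.play 391 (.ref 104 324)))))) (.both (.ref 103 257) (.both (.play 391 (.ref 94 323)) (.play 391 (.ref 92 323)))))) (.both (.play 324 (.both (.ref 100 131) (.both (.play 387 (.both (.play 323 (.both (.ref 96 257) (.play 386 (.ref 1 322)))) (.both (.play 327 (.both (.ref 96 258) (.play 388 (.ref 1 323)))) (.play 388 (.ref 79 321))))) (.both (.play 391 (.ref 94 323)) (.play 391 (.ref 92 323)))))) (.both (.play 261 (.ref 90 133)) (.play 518 (.both (.play 261 (.ref 7 261)) (.ref 88 261))))))) (.both (.play 262 (.ref 55 130)) (.both (.play 262 (.ref 50 131)) (.both (.play 519 (.both (.ref 87 133) (.both (.play 518 (.both (.ref 86 197) (.play 583 (.ref 4 326)))) (.both (.play 455 (.ref 85 262)) (.ref 84 326))))) (.play 262 (.both (.play 198 (.ref 38 133))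 (.play 518 (.ref 39 197)))))))))) (.both (.play 454 (.both (.play 262 (.both (.ref 49 133) (.both (.ref 47 134) (.ref 52 258)))) (.both (.play 263 (.both (.play 327 (.ref 82 134)) (.both (.play 262 (.both (.play 453 (.both (.play 391 (.both (.play 392 (.both (.play 389 (.ref 80 196)) (.play 393 (.ref 1 389)))) (.both (.play 198 (.both (.play 389 (.ref 6 197)) (.play 455 (.ref 4 198)))) (.play 392 (.ref 79 387))))) (.play 517 (.ref 6 261)))) (.play 199 (.ref 5 198)))) (.play 518 (.both (.play 327 (.ref 5 262)) (.play 582 (.both (.ref 21 325) (.both (.play 517 (.both (.play 581 (.ref 6 325)) (.play 646 (.both (.play 453 (.ref 77 389)) (.ref 28 390))))) (.both (.ref 65 389) (.play 646 (.both (.play 710 (.ref 76 389)) (.ref 28 390)))))))))))) (.both (.play 518 (.both (.ref 75 134) (.both (.ref 72 198) (.both (.play 582 (.both (.ref 37 262) (.play 646 (.ref 62 389)))) (.play 582 (.both (.ref 24 261) (.both (.ref 28 326) (.ref 71 389)))))))) (.both (.play 518 (.both (.play 582 (.both (.ref 69 198) (.ref 21 325)))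 (.both (.ref 70 198) (.both (.play 519 (.both (.play 455 (.ref 67 260)) (.play 583 (.ref 4 326)))) (.both (.ref 65 325) (.play 582 (.both (.ref 21 325) (.play 646 (.ref 59 326))))))))) (.both (.ref 63 197) (.both (.ref 61 197) (.ref 58 259)))))))) (.play 454 (.both (.play 262 (.ref 55 130)) (.both (.play 262 (.ref 50 131)) (.both (.play 262 (.ref 40 133)) (.both (.play 517 (.both (.ref 36 133) (.both (.play 518 (.both (.ref 35 197) (.play 581 (.ref 6 325)))) (.both (.play 453 (.ref 33 261)) (.ref 32 325))))) (.both (.play 263 (.both (.ref 30 133) (.both (.play 327 (.ref 27 134)) (.both (.ref 25 134) (.play 518 (.both (.play 325 (.both (.play 261 (.ref 7 261)) (.play 582 (.both (.ref 24 261) (.play 389 (.ref 7 325)))))) (.play 327 (.ref 5 262)))))))) (.ref 20 258)))))))))))))))))))))))))))))))))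
    (by decide +kernel)

theorem Cert_L3 : PW ⟨10, nat_lit 93035356709837681990313447409664580397266094167976711716030745495121828878514934185752454491361736391777602765602070775492429008462675968, nat_lit 135243399970730303079029213894105033889100058772884154911590441206702258616438135398792419388014662616234969102741243740561254085751177835033466427658814670128965470548935653735579932343120628915447002691950467578444601315966797858882945223157359783251048844723616374325376, 14, nat_lit 135243399970730303079029213894105033889100058772884154911590441206702258616438135398792419388014662616234969102741243740561254085751177835033466427658814670128965470548935653735579932343120628915447002691950467578444601315966797858882945223157359783251048844723616374325376⟩ :=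
  sound2 baseTbl baseTbl_ok
    (.seq (.seq (.seq (.seq (.seq (.seq (.seq (.seq (.seq (.one (.play 65 (.both (.play 1 (.ref 5 0)) (.play 129 (.ref 5 64)))))
 (.one (.play 320 (.both (.ref 8 0) (.play 385 (.ref 4 128))))))
 (.seq (.one (.play 321 (.both (.ref 9 0) (.play 257 (.ref 4 64)))))
 (.seq (.one (.play 64 (.both (.play 1 (.ref 5 0)) (.play 257 (.ref 4 64)))))
 (.one (.play 65 (.both (.ref 11 0) (.play 129 (.ref 5 64))))))))
 (.seq (.seq (.one (.both (.play 322 (.both (.ref 12 1) (.play 386 (.ref 4 129)))) (.play 64 (.ref 7 64))))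
 (.one (.both (.play 0 (.ref 4 0)) (.play 129 (.ref 7 64)))))
 (.seq (.one (.both (.play 64 (.ref 14 0)) (.play 385 (.ref 7 128))))
 (.seq (.one (.both (.play 256 (.ref 6 0)) (.play 258 (.ref 4 1))))
 (.one (.play 258 (.both (.play 256 (.both (.play 192 (.ref 6 0)) (.play 257 (.ref 16 64)))) (.play 194 (.ref 4 1)))))))))
 (.seq (.seq (.seq (.one (.both (.play 0 (.ref 7 0)) (.ref 17 64)))
 (.one (.play 64 (.both (.ref 8 0) (.play 257 (.ref 4 64))))))
 (.seq (.one (.both (.ref 19 0) (.play 385 (.ref 4 128))))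
 (.seq (.one (.play 321 (.both (.play 322 (.ref 20 1)) (.play 128 (.ref 7 64)))))
 (.one (.both (.play 0 (.ref 4 0)) (.play 256 (.ref 4 64)))))))
 (.seq (.seq (.one (.play 64 (.both (.play 192 (.ref 22 0)) (.play 129 (.ref 7 64)))))
 (.seq (.one (.both (.play 64 (.ref 22 0)) (.play 385 (.ref 7 128))))
 (.one (.play 257 (.both (.play 64 (.ref 7 0)) (.ref 17 64))))))
 (.seq (.one (.play 256 (.both (.play 192 (.ref 6 0)) (.play 320 (.ref 6 64)))))
 (.seq (.one (.play 321 (.both (.play 66 (.both (.play 65 (.both (.play 2 (.ref 5 1)) (.ref 26 64))) (.play 130 (.ref 5 65)))) (.play 128 (.ref 7 64)))))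
 (.one (.play 256 (.both (.play 65 (.ref 5 0)) (.play 321 (.ref 4 64))))))))))
 (.seq (.seq (.seq (.seq (.one (.play 257 (.both (.play 193 (.ref 4 0)) (.ref 28 0))))
 (.one (.both (.play 1 (.ref 5 0)) (.ref 29 64))))
 (.seq (.one (.play 257 (.both (.play 66 (.ref 30 1)) (.play 320 (.ref 6 64)))))
 (.seq (.one (.both (.play 193 (.ref 6 0)) (.play 320 (.ref 5 64))))
 (.one (.both (.play 1 (.ref 6 0)) (.play 320 (.ref 32 64)))))))
 (.seq (.seq (.one (.play 257 (.both (.play 193 (.ref 4 0)) (.play 321 (.ref 4 64)))))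
 (.one (.play 65 (.both (.play 64 (.both (.play 1 (.ref 5 0)) (.ref 34 64))) (.play 129 (.ref 5 64))))))
 (.seq (.one (.play 129 (.both (.ref 35 1) (.play 320 (.ref 6 128)))))
 (.seq (.one (.play 384 (.both (.ref 36 0) (.both (.play 320 (.ref 33 128)) (.ref 31 128)))))
 (.one (.play 1 (.both (.play 192 (.ref 6 0)) (.play 194 (.ref 4 1)))))))))
 (.seq (.seq (.seq (.one (.both (.ref 38 0) (.play 320 (.ref 6 64))))
 (.one (.play 258 (.both (.play 256 (.ref 39 0)) (.play 322 (.ref 4 65))))))
 (.seq (.one (.both (.play 64 (.ref 1 0)) (.play 5 (.ref 1 1))))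
 (.seq (.one (.play 68 (.both (.play 67 (.ref 0 0)) (.play 69 (.ref 0 1)))))
 (.one (.play 65 (.both (.play 64 (.ref 1 0)) (.play 66 (.ref 1 1))))))))
 (.seq (.seq (.one (.both (.ref 43 0) (.ref 42 1)))
 (.seq (.one (.play 4 (.both (.play 3 (.ref 2 0)) (.play 5 (.ref 2 1)))))
 (.one (.both (.ref 45 0) (.ref 42 64)))))
 (.seq (.one (.play 68 (.both (.play 69 (.both (.play 70 (.ref 46 2)) (.both (.play 65 (.ref 44 64)) (.play 130 (.ref 41 65))))) (.play 4 (.ref 5 3)))))
 (.seq (.one (.play 65 (.both (.ref 8 1) (.play 256 (.ref 6 64)))))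
 (.one (.both (.ref 48 0) (.play 384 (.ref 6 128))))))))))
 (.seq (.seq (.seq (.seq (.seq (.one (.both (.play 192 (.ref 4 0)) (.play 321 (.ref 7 64))))
 (.one (.both (.play 0 (.ref 4 0)) (.play 321 (.ref 50 64)))))
 (.seq (.one (.both (.play 64 (.ref 2 0)) (.play 5 (.ref 1 1))))
 (.seq (.one (.play 193 (.both (.play 257 (.ref 6 1)) (.play 132 (.ref 52 128)))))
 (.one (.play 65 (.both (.play 5 (.ref 1 1)) (.play 64 (.ref 0 64))))))))
 (.seq (.seq (.one (.play 66 (.both (.play 68 (.both (.play 4 (.ref 5 3)) (.play 130 (.both (.ref 54 64) (.play 323 (.ref 7 66)))))) (.play 2 (.ref 7 2)))))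
 (.one (.both (.play 0 (.ref 3 0)) (.play 69 (.ref 46 1)))))
 (.seq (.one (.both (.play 0 (.ref 0 0)) (.play 66 (.ref 3 1))))
 (.seq (.one (.both (.play 1 (.ref 57 0)) (.play 70 (.ref 3 2))))
 (.one (.both (.play 67 (.ref 2 0)) (.play 5 (.ref 1 1))))))))
 (.seq (.seq (.seq (.one (.both (.play 64 (.ref 2 0)) (.play 5 (.ref 59 1))))
 (.one (.both (.play 1 (.ref 6 0)) (.play 257 (.ref 6 64)))))
 (.seq (.one (.both (.play 67 (.ref 61 2)) (.play 132 (.ref 60 128))))
 (.seq (.one (.both (.play 0 (.ref 0 0)) (.play 69 (.ref 0 1))))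
 (.one (.play 1 (.both (.play 0 (.ref 3 0)) (.play 2 (.ref 3 1))))))))
 (.seq (.seq (.one (.both (.ref 64 0) (.ref 43 64)))
 (.seq (.one (.both (.play 67 (.ref 61 2)) (.play 132 (.ref 2 128))))
 (.one (.both (.play 0 (.ref 3 0)) (.play 129 (.ref 41 64))))))
 (.seq (.one (.play 1 (.both (.play 64 (.ref 1 0)) (.play 68 (.ref 0 1)))))
 (.seq (.one (.play 65 (.both (.play 69 (.both (.ref 68 0) (.play 70 (.ref 0 2)))) (.play 66 (.ref 1 1)))))
 (.one (.play 132 (.both (.play 68 (.both (.ref 45 0) (.play 133 (.ref 0 65)))) (.play 131 (.ref 0 64))))))))))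
 (.seq (.seq (.seq (.seq (.one (.play 129 (.both (.play 65 (.both (.ref 64 0) (.play 128 (.ref 1 64)))) (.play 130 (.ref 1 65)))))
 (.one (.both (.play 193 (.ref 14 0)) (.play 256 (.ref 4 64)))))
 (.seq (.one (.both (.play 64 (.ref 72 0)) (.both (.play 193 (.ref 15 0)) (.both (.play 256 (.ref 51 64)) (.play 385 (.both (.play 193 (.ref 7 128)) (.play 256 (.ref 50 128))))))))
 (.seq (.one (.play 66 (.both (.play 65 (.ref 65 0)) (.both (.play 133 (.ref 63 65)) (.play 70 (.ref 44 65))))))
 (.one (.play 69 (.both (.play 67 (.both (.ref 74 0) (.play 3 (.ref 7 3)))) (.play 5 (.ref 5 4))))))))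
 (.seq (.seq (.one (.play 64 (.both (.play 65 (.both (.play 0 (.ref 7 0)) (.ref 34 65))) (.play 128 (.ref 7 64)))))
 (.one (.play 64 (.both (.play 0 (.ref 7 0)) (.play 128 (.ref 7 64))))))
 (.seq (.one (.play 66 (.both (.play 65 (.both (.ref 77 0) (.play 2 (.ref 5 1)))) (.play 130 (.ref 5 65)))))
 (.seq (.one (.play 69 (.both (.play 5 (.both (.ref 43 0) (.play 70 (.ref 0 2)))) (.play 68 (.ref 0 1)))))
 (.one (.play 65 (.both (.ref 68 0) (.play 66 (.ref 1 1)))))))))
 (.seq (.seq (.seq (.one (.both (.ref 80 0) (.play 70 (.ref 0 2))))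
 (.one (.both (.play 64 (.ref 2 0)) (.play 68 (.ref 2 1)))))
 (.seq (.one (.both (.play 65 (.ref 82 0)) (.play 6 (.ref 1 2))))
 (.seq (.one (.play 132 (.both (.play 64 (.both (.ref 45 0) (.play 131 (.ref 0 64)))) (.play 133 (.ref 0 65)))))
 (.one (.both (.play 0 (.ref 3 0)) (.ref 84 0))))))
 (.seq (.seq (.one (.both (.play 3 (.ref 0 0)) (.play 69 (.ref 3 1))))
 (.seq (.one (.both (.play 0 (.ref 0 0)) (.play 69 (.ref 86 1))))
 (.one (.both (.play 67 (.ref 58 0)) (.both (.play 1 (.both (.play 67 (.ref 57 0)) (.play 4 (.ref 0 1)))) (.both (.play 4 (.ref 87 1)) (.play 70 (.both (.play 67 (.ref 3 2)) (.play 4 (.ref 86 2))))))))))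
 (.seq (.one (.both (.play 64 (.ref 2 0)) (.play 2 (.ref 1 1))))
 (.seq (.one (.both (.play 65 (.ref 89 0)) (.play 6 (.ref 1 2))))
 (.one (.play 193 (.both (.play 256 (.ref 6 0)) (.play 257 (.ref 5 1))))))))))))
 (.seq (.seq (.seq (.seq (.seq (.seq (.one (.play 256 (.both (.play 192 (.ref 6 0)) (.ref 91 64))))
 (.one (.both (.play 1 (.ref 5 0)) (.play 320 (.ref 5 64)))))
 (.seq (.one (.play 64 (.both (.play 0 (.ref 4 0)) (.play 1 (.ref 5 0)))))
 (.seq (.one (.play 65 (.both (.ref 94 0) (.play 129 (.ref 6 64)))))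
 (.one (.both (.play 64 (.ref 5 0)) (.play 320 (.ref 5 64)))))))
 (.seq (.seq (.one (.play 65 (.both (.play 1 (.ref 4 1)) (.play 320 (.ref 6 64)))))
 (.one (.play 68 (.both (.play 1 (.ref 3 0)) (.play 128 (.ref 1 64))))))
 (.seq (.one (.both (.play 0 (.ref 0 0)) (.play 4 (.ref 0 1))))
 (.seq (.one (.both (.play 1 (.ref 99 0)) (.play 70 (.ref 3 2))))
 (.one (.both (.ref 77 0) (.ref 8 1)))))))
 (.seq (.seq (.seq (.one (.play 129 (.both (.play 65 (.ref 101 0)) (.play 384 (.ref 6 128)))))
 (.one (.play 193 (.both (.play 257 (.ref 5 1)) (.play 192 (.ref 1 128))))))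
 (.seq (.one (.play 65 (.both (.ref 103 0) (.play 64 (.ref 3 64)))))
 (.seq (.one (.both (.play 1 (.ref 1 0)) (.play 5 (.ref 1 1))))
 (.one (.both (.play 64 (.ref 2 0)) (.play 5 (.ref 105 1)))))))
 (.seq (.seq (.one (.play 64 (.both (.play 4 (.ref 2 0)) (.play 131 (.ref 0 64)))))
 (.seq (.one (.play 256 (.both (.play 129 (.ref 6 0)) (.play 128 (.ref 5 0)))))
 (.one (.both (.play 0 (.ref 4 0)) (.play 321 (.ref 4 64))))))
 (.seq (.one (.both (.play 258 (.ref 109 1)) (.play 320 (.ref 6 64))))
 (.seq (.one (.play 67 (.both (.play 3 (.ref 5 2)) (.play 68 (.ref 1 64)))))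
 (.one (.both (.play 0 (.ref 3 0)) (.play 69 (.ref 3 1)))))))))
 (.seq (.seq (.seq (.seq (.one (.play 67 (.both (.play 3 (.ref 6 2)) (.play 68 (.ref 2 64)))))
 (.one (.play 132 (.both (.ref 113 1) (.play 65 (.ref 112 64))))))
 (.seq (.one (.play 193 (.both (.play 257 (.ref 6 1)) (.play 192 (.ref 2 128)))))
 (.seq (.one (.both (.play 0 (.ref 7 0)) (.play 321 (.ref 7 64))))
 (.one (.play 194 (.both (.play 258 (.both (.play 65 (.ref 116 1)) (.ref 115 64))) (.play 193 (.ref 3 128))))))))
 (.seq (.seq (.one (.play 325 (.both (.play 262 (.both (.play 132 (.both (.play 197 (.both (.play 4 (.both (.play 68 (.ref 4 4)) (.play 195 (.both (.ref 114 66) (.play 194 (.ref 0 194)))))) (.both (.play 68 (.ref 14 4)) (.play 195 (.both (.play 133 (.both (.ref 111 67) (.play 326 (.ref 109 69)))) (.play 194 (.ref 0 194))))))) (.both (.play 68 (.ref 72 4)) (.both (.play 195 (.both (.play 194 (.both (.ref 117 66) (.both (.ref 107 129) (.play 133 (.ref 106 129))))) (.both (.play 194 (.both (.ref 117 66) (.play 197 (.ref 0 194))))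 (.both (.play 324 (.both (.play 197 (.both (.ref 114 66) (.both (.play 133 (.both (.ref 111 67) (.play 388 (.ref 6 132)))) (.play 133 (.ref 110 68))))) (.play 323 (.both (.ref 108 131) (.play 322 (.ref 2 258)))))) (.both (.play 194 (.both (.ref 107 129) (.play 197 (.ref 0 194)))) (.play 194 (.both (.play 133 (.ref 106 129)) (.play 197 (.ref 0 194))))))))) (.play 260 (.both (.play 68 (.ref 4 68)) (.play 259 (.both (.ref 104 130) (.play 326 (.ref 63 258)))))))))) (.both (.play 263 (.both (.play 324 (.both (.play 197 (.both (.ref 102 4) (.play 195 (.ref 99 194)))) (.play 323 (.ref 82 258)))) (.both (.play 197 (.ref 100 194)) (.both (.ref 98 196) (.play 324 (.ref 83 258)))))) (.both (.play 324 (.both (.play 323 (.both (.play 260 (.both (.play 133 (.both (.ref 94 68) (.play 326 (.both (.play 197 (.both (.play 388 (.ref 5 132)) (.play 390 (.ref 4 133)))) (.play 259 (.ref 63 258)))))) (.both (.ref 97 67) (.play 387 (.both (.play 451 (.ref 96 195)) (.play 386 (.ref 83 320))))))) (.play 322 (.ref 2 258)))) (.both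 (.play 263 (.both (.play 260 (.both (.play 388 (.both (.ref 95 68) (.both (.play 197 (.ref 93 132)) (.ref 92 195)))) (.ref 84 195))) (.play 264 (.ref 1 260)))) (.both (.play 263 (.ref 90 258)) (.play 263 (.ref 83 258)))))) (.both (.play 195 (.ref 88 193)) (.both (.play 263 (.both (.play 260 (.ref 67 195)) (.both (.play 260 (.ref 85 195)) (.play 324 (.ref 83 258))))) (.play 263 (.both (.play 197 (.ref 58 194)) (.both (.play 260 (.both (.play 195 (.ref 3 195)) (.play 327 (.ref 81 258)))) (.play 264 (.both (.play 197 (.ref 3 196)) (.ref 79 260)))))))))))) (.both (.play 197 (.both (.play 133 (.both (.ref 78 4) (.both (.ref 76 4) (.both (.ref 35 5) (.ref 75 65))))) (.both (.play 132 (.ref 15 4)) (.both (.ref 37 4) (.play 389 (.ref 18 132)))))) (.both (.play 132 (.ref 73 4)) (.both (.play 260 (.both (.play 389 (.both (.play 262 (.both (.play 259 (.both (.play 198 (.ref 66 67)) (.both (.ref 71 193) (.play 326 (.ref 63 258))))) (.both (.play 195 (.ref 58 193)) (.both (.play 259 (.both (.play 199 (.both (.play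 263 (.both (.play 200 (.ref 2 196)) (.ref 43 258))) (.play 198 (.ref 2 195)))) (.both (.ref 70 195) (.ref 69 257)))) (.play 263 (.ref 67 195)))))) (.play 453 (.ref 7 196)))) (.both (.play 389 (.both (.play 68 (.both (.play 262 (.both (.play 259 (.both (.play 198 (.ref 66 67)) (.both (.play 258 (.ref 65 193)) (.play 326 (.ref 63 258))))) (.both (.play 198 (.ref 62 67)) (.both (.play 195 (.ref 58 193)) (.play 263 (.ref 56 195)))))) (.play 132 (.ref 4 68)))) (.play 453 (.ref 7 196)))) (.both (.play 132 (.both (.play 324 (.both (.ref 55 65) (.ref 53 130))) (.play 68 (.ref 4 68)))) (.play 132 (.ref 51 68)))))) (.both (.play 389 (.both (.play 197 (.both (.play 388 (.ref 49 68)) (.both (.play 390 (.both (.ref 47 130) (.play 454 (.ref 4 197)))) (.ref 40 132)))) (.both (.ref 37 68) (.both (.ref 21 132) (.both (.ref 27 132) (.ref 25 196)))))) (.both (.play 389 (.both (.play 260 (.ref 24 68)) (.both (.ref 23 68) (.both (.ref 21 132) (.play 197 (.ref 18 132)))))) (.play 389 (.both (.play 260 (.ref 15 68)) (.both (.play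 197 (.ref 13 68)) (.play 453 (.both (.play 260 (.ref 7 196)) (.ref 10 197))))))))))))))
 (.one (.both (.ref 26 0) (.ref 34 1))))
 (.seq (.one (.play 321 (.both (.play 192 (.ref 24 0)) (.both (.ref 23 0) (.both (.play 129 (.both (.play 64 (.ref 7 64)) (.play 385 (.ref 119 128)))) (.play 385 (.both (.play 192 (.ref 7 128)) (.play 129 (.ref 119 128)))))))))
 (.seq (.one (.play 256 (.both (.play 65 (.ref 5 0)) (.ref 34 0))))
 (.one (.both (.play 1 (.ref 5 0)) (.ref 121 64)))))))
 (.seq (.seq (.seq (.one (.play 257 (.both (.ref 26 0) (.play 66 (.ref 5 1)))))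
 (.one (.both (.play 2 (.ref 5 1)) (.ref 123 64))))
 (.seq (.one (.both (.play 257 (.both (.play 193 (.both (.play 2 (.ref 6 1)) (.play 260 (.ref 112 192)))) (.play 321 (.ref 6 65)))) (.play 323 (.ref 4 66))))
 (.seq (.one (.play 258 (.both (.play 1 (.both (.ref 26 0) (.play 194 (.ref 4 1)))) (.play 322 (.ref 4 65)))))
 (.one (.both (.ref 64 0) (.ref 42 65))))))
 (.seq (.seq (.one (.play 65 (.both (.play 193 (.ref 61 0)) (.play 128 (.ref 5 64)))))
 (.seq (.one (.both (.ref 45 1) (.ref 43 64)))
 (.one (.both (.play 0 (.ref 3 0)) (.play 69 (.ref 129 0))))))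
 (.seq (.one (.play 66 (.both (.play 65 (.ref 65 0)) (.play 6 (.ref 2 2)))))
 (.seq (.one (.play 67 (.both (.play 2 (.ref 58 0)) (.both (.ref 131 0) (.both (.play 6 (.ref 60 2)) (.play 70 (.ref 130 2)))))))
 (.one (.both (.play 1 (.ref 6 0)) (.play 128 (.ref 5 64))))))))))
 (.seq (.seq (.seq (.seq (.seq (.one (.both (.play 65 (.ref 3 0)) (.play 69 (.ref 3 1))))
 (.one (.both (.play 0 (.ref 0 0)) (.play 69 (.ref 134 1)))))
 (.seq (.one (.play 1 (.both (.play 0 (.ref 3 0)) (.play 69 (.both (.play 2 (.ref 3 1)) (.play 70 (.ref 41 66)))))))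
 (.seq (.one (.both (.play 1 (.ref 6 0)) (.play 320 (.ref 5 64))))
 (.one (.both (.play 258 (.ref 137 2)) (.play 68 (.ref 2 64)))))))
 (.seq (.seq (.one (.play 65 (.both (.play 0 (.ref 3 0)) (.play 132 (.ref 0 65)))))
 (.one (.play 1 (.both (.ref 139 0) (.play 2 (.ref 3 1))))))
 (.seq (.one (.play 129 (.both (.play 65 (.ref 137 0)) (.play 196 (.ref 3 128)))))
 (.seq (.one (.play 65 (.both (.play 0 (.ref 3 0)) (.play 4 (.ref 2 1)))))
 (.one (.play 1 (.both (.ref 142 0) (.play 2 (.ref 3 1)))))))))
 (.seq (.seq (.seq (.one (.play 66 (.both (.ref 143 0) (.ref 43 65))))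
 (.one (.play 193 (.both (.play 257 (.ref 96 1)) (.play 192 (.ref 1 128))))))
 (.seq (.one (.both (.play 259 (.ref 96 3)) (.play 194 (.ref 90 128))))
 (.seq (.one (.play 196 (.both (.play 69 (.both (.play 5 (.ref 4 5)) (.play 260 (.ref 146 65)))) (.both (.play 69 (.both (.play 5 (.ref 4 5)) (.play 199 (.both (.ref 145 67) (.play 200 (.ref 46 132)))))) (.both (.play 195 (.both (.ref 144 128) (.play 263 (.ref 0 195)))) (.play 263 (.ref 87 195)))))))
 (.one (.play 197 (.both (.ref 147 0) (.both (.play 196 (.both (.play 195 (.both (.play 131 (.both (.play 259 (.both (.ref 141 3) (.play 258 (.ref 1 194)))) (.play 130 (.ref 3 130)))) (.both (.ref 140 129) (.ref 80 193)))) (.both (.play 263 (.both (.play 199 (.both (.play 135 (.ref 138 68)) (.ref 136 131))) (.both (.play 264 (.ref 86 196)) (.play 264 (.ref 134 196))))) (.both (.play 263 (.ref 135 195)) (.play 263 (.ref 87 195)))))) (.play 69 (.ref 51 5)))))))))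
 (.seq (.seq (.one (.both (.play 65 (.ref 7 0)) (.play 321 (.ref 7 64))))
 (.seq (.one (.play 257 (.both (.play 192 (.ref 4 0)) (.play 129 (.ref 149 0)))))
 (.one (.both (.play 0 (.ref 4 0)) (.play 321 (.ref 149 64))))))
 (.seq (.one (.both (.ref 8 1) (.ref 26 64)))
 (.seq (.one (.play 322 (.both (.play 65 (.both (.play 321 (.ref 152 0)) (.play 258 (.ref 4 65)))) (.both (.play 321 (.both (.play 65 (.ref 152 0)) (.play 386 (.ref 4 129)))) (.both (.play 386 (.ref 72 65)) (.both (.play 258 (.ref 151 65)) (.ref 150 129)))))))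
 (.one (.both (.play 64 (.ref 2 0)) (.play 5 (.ref 2 1)))))))))
 (.seq (.seq (.seq (.seq (.one (.play 68 (.both (.play 4 (.ref 5 3)) (.play 128 (.ref 2 64)))))
 (.one (.both (.play 131 (.both (.ref 78 2) (.both (.ref 76 2) (.both (.ref 35 3) (.play 322 (.both (.play 193 (.both (.ref 155 64) (.play 321 (.both (.play 257 (.both (.play 130 (.both (.play 66 (.ref 7 66)) (.play 385 (.ref 5 129)))) (.play 324 (.both (.play 388 (.ref 4 131)) (.play 256 (.ref 3 256)))))) (.both (.play 324 (.both (.play 388 (.ref 4 131)) (.play 260 (.ref 154 256)))) (.play 260 (.both (.play 261 (.both (.play 196 (.ref 0 193)) (.play 262 (.ref 1 258)))) (.play 320 (.ref 2 256))))))))) (.play 386 (.ref 6 130)))))))) (.both (.play 130 (.ref 15 2)) (.both (.ref 153 66) (.play 387 (.ref 18 130)))))))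
 (.seq (.one (.play 1 (.both (.play 3 (.ref 99 0)) (.play 66 (.ref 3 1)))))
 (.seq (.one (.play 69 (.both (.ref 157 0) (.both (.play 3 (.ref 100 0)) (.both (.play 66 (.ref 56 1)) (.play 70 (.both (.play 3 (.ref 3 2)) (.play 66 (.ref 46 2)))))))))
 (.one (.play 4 (.both (.play 65 (.ref 1 0)) (.play 69 (.ref 0 1))))))))
 (.seq (.seq (.one (.play 68 (.both (.play 67 (.ref 0 0)) (.ref 159 0))))
 (.one (.play 65 (.both (.play 64 (.ref 1 0)) (.ref 160 1)))))
 (.seq (.one (.play 68 (.both (.play 0 (.ref 3 0)) (.ref 161 64))))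
 (.seq (.one (.play 4 (.both (.play 65 (.ref 1 0)) (.ref 42 0))))
 (.one (.both (.play 64 (.ref 1 0)) (.ref 163 1)))))))
 (.seq (.seq (.seq (.one (.play 69 (.both (.play 65 (.both (.play 64 (.ref 1 0)) (.ref 159 1))) (.play 68 (.ref 0 1)))))
 (.one (.play 67 (.both (.play 68 (.both (.play 1 (.ref 63 0)) (.play 7 (.ref 1 3)))) (.play 66 (.ref 1 2))))))
 (.seq (.one (.play 6 (.both (.ref 166 0) (.both (.ref 42 2) (.ref 165 2)))))
 (.seq (.one (.both (.play 0 (.ref 0 0)) (.play 7 (.ref 1 3))))
 (.one (.play 1 (.both (.play 65 (.both (.play 0 (.ref 3 0)) (.ref 43 64))) (.play 2 (.ref 3 1))))))))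
 (.seq (.seq (.one (.play 66 (.both (.play 65 (.ref 65 0)) (.ref 42 66))))
 (.seq (.one (.play 67 (.both (.ref 170 0) (.both (.play 66 (.both (.ref 169 0) (.both (.play 65 (.both (.ref 64 0) (.play 132 (.both (.play 131 (.ref 168 64)) (.play 133 (.ref 0 65)))))) (.ref 43 65)))) (.both (.ref 69 65) (.both (.ref 167 65) (.play 131 (.ref 164 66))))))))
 (.one (.play 65 (.both (.play 67 (.ref 82 0)) (.play 2 (.ref 1 1)))))))
 (.seq (.one (.both (.play 258 (.ref 33 2)) (.play 193 (.ref 82 128))))
 (.seq (.one (.play 256 (.both (.play 64 (.ref 5 0)) (.play 129 (.ref 32 0)))))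
 (.one (.both (.play 65 (.ref 133 0)) (.play 384 (.ref 5 128))))))))))))
 (.seq (.seq (.seq (.seq (.seq (.seq (.seq (.one (.both (.play 192 (.ref 133 0)) (.play 257 (.ref 6 64))))
 (.one (.both (.play 65 (.ref 176 0)) (.both (.play 192 (.ref 175 0)) (.both (.play 257 (.ref 33 64)) (.ref 174 128))))))
 (.seq (.one (.both (.play 1 (.ref 6 0)) (.play 320 (.ref 96 64))))
 (.seq (.one (.both (.play 66 (.ref 178 1)) (.play 256 (.ref 1 192))))
 (.one (.both (.play 260 (.ref 4 3)) (.play 193 (.ref 154 128)))))))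
 (.seq (.seq (.one (.both (.play 0 (.ref 7 0)) (.play 2 (.ref 5 1))))
 (.one (.play 66 (.both (.play 64 (.both (.play 65 (.ref 181 0)) (.play 128 (.ref 7 64)))) (.play 130 (.ref 5 65))))))
 (.seq (.one (.play 129 (.both (.play 193 (.both (.play 192 (.both (.play 1 (.both (.play 256 (.ref 6 0)) (.play 0 (.ref 3 0)))) (.play 132 (.both (.play 133 (.ref 0 65)) (.play 130 (.ref 1 128)))))) (.play 257 (.ref 5 1)))) (.play 128 (.ref 1 64)))))
 (.seq (.one (.both (.play 0 (.ref 4 0)) (.play 321 (.ref 7 64))))
 (.one (.play 260 (.both (.play 132 (.both (.play 131 (.both (.play 67 (.ref 184 3)) (.play 192 (.ref 2 128)))) (.play 133 (.ref 2 129)))) (.play 261 (.ref 0 193)))))))))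
 (.seq (.seq (.seq (.one (.both (.play 65 (.ref 61 0)) (.play 384 (.ref 5 128))))
 (.one (.play 257 (.both (.play 321 (.ref 186 1)) (.play 256 (.ref 1 192))))))
 (.seq (.one (.play 193 (.both (.ref 187 0) (.ref 185 0))))
 (.seq (.one (.both (.play 257 (.ref 93 1)) (.play 192 (.ref 1 128))))
 (.one (.both (.play 193 (.ref 189 0)) (.play 64 (.ref 3 64)))))))
 (.seq (.seq (.one (.both (.play 258 (.ref 6 2)) (.play 193 (.ref 154 128))))
 (.seq (.one (.play 64 (.both (.play 0 (.ref 7 0)) (.play 321 (.both (.play 128 (.ref 7 64)) (.play 385 (.ref 93 129)))))))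
 (.one (.both (.play 0 (.ref 0 0)) (.play 69 (.ref 3 1))))))
 (.seq (.one (.play 65 (.both (.ref 64 0) (.play 4 (.ref 2 1)))))
 (.seq (.one (.both (.ref 194 0) (.play 6 (.ref 2 2))))
 (.one (.play 65 (.both (.play 4 (.ref 2 1)) (.ref 43 64)))))))))
 (.seq (.seq (.seq (.seq (.one (.both (.ref 196 0) (.play 6 (.ref 2 2))))
 (.one (.play 259 (.both (.play 132 (.ref 178 3)) (.play 258 (.ref 83 192))))))
 (.seq (.one (.play 195 (.both (.ref 198 0) (.both (.play 194 (.ref 197 128)) (.both (.play 194 (.ref 195 128)) (.play 194 (.both (.play 198 (.ref 65 129)) (.play 134 (.ref 2 130)))))))))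
 (.seq (.one (.play 68 (.both (.ref 45 0) (.play 129 (.ref 1 64)))))
 (.one (.play 68 (.both (.play 64 (.ref 46 0)) (.both (.ref 200 1) (.ref 163 65))))))))
 (.seq (.seq (.one (.play 1 (.both (.play 192 (.ref 6 0)) (.play 258 (.ref 4 1)))))
 (.one (.both (.ref 202 0) (.play 320 (.ref 6 64)))))
 (.seq (.one (.play 66 (.both (.play 65 (.ref 65 0)) (.play 134 (.ref 0 66)))))
 (.seq (.one (.play 326 (.both (.play 133 (.both (.play 198 (.ref 15 5)) (.both (.play 261 (.both (.play 69 (.ref 4 69)) (.play 260 (.both (.play 324 (.ref 146 129)) (.both (.play 263 (.both (.ref 145 131) (.both (.play 196 (.ref 112 195)) (.play 264 (.ref 46 196))))) (.both (.ref 204 193) (.play 327 (.ref 87 259)))))))) (.play 390 (.both (.play 198 (.ref 7 133)) (.ref 25 197)))))) (.both (.play 263 (.both (.play 325 (.both (.play 134 (.both (.play 198 (.ref 49 5)) (.both (.play 264 (.both (.play 261 (.both (.ref 94 69) (.play 260 (.ref 46 196)))) (.play 265 (.ref 1 261)))) (.both (.play 198 (.ref 203 69)) (.both (.play 198 (.ref 110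 69)) (.play 261 (.both (.play 389 (.both (.play 198 (.ref 5 133)) (.play 453 (.both (.ref 26 196) (.play 517 (.ref 5 261)))))) (.ref 201 196)))))))) (.both (.ref 199 129) (.both (.play 264 (.ref 90 259)) (.play 264 (.ref 83 259)))))) (.both (.play 261 (.both (.play 196 (.both (.play 132 (.both (.play 68 (.ref 51 4)) (.both (.play 133 (.both (.play 68 (.ref 184 4)) (.play 69 (.ref 4 69)))) (.play 198 (.both (.play 133 (.both (.play 69 (.ref 4 69)) (.play 131 (.ref 193 130)))) (.play 327 (.both (.play 134 (.ref 109 70)) (.play 260 (.ref 63 259))))))))) (.both (.play 195 (.ref 99 194)) (.play 195 (.ref 57 194))))) (.both (.play 133 (.both (.play 325 (.both (.ref 192 68) (.play 324 (.ref 191 130)))) (.play 69 (.ref 4 69)))) (.both (.play 260 (.both (.ref 185 67) (.play 196 (.ref 190 131)))) (.both (.ref 188 67) (.play 260 (.both (.ref 71 194) (.both (.ref 183 195) (.play 327 (.ref 63 259)))))))))) (.both (.play 264 (.both (.play 198 (.both (.play 134 (.both (.ref 182 5) (.both (.play 327 (.ref 109 70)) (.play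 325 (.both (.play 327 (.ref 180 131)) (.play 389 (.ref 6 133))))))) (.play 196 (.ref 99 195)))) (.both (.play 198 (.ref 100 195)) (.both (.ref 98 197) (.play 325 (.ref 83 259)))))) (.both (.play 261 (.both (.play 324 (.both (.play 260 (.ref 179 67)) (.both (.play 388 (.ref 177 68)) (.both (.play 325 (.ref 173 130)) (.ref 172 258))))) (.both (.ref 171 193) (.both (.play 196 (.ref 58 194)) (.ref 162 196))))) (.ref 158 195)))))) (.both (.play 198 (.ref 156 3)) (.both (.ref 148 64) (.both (.play 390 (.both (.play 199 (.both (.play 263 (.both (.play 135 (.ref 61 70)) (.ref 132 194))) (.both (.play 263 (.both (.play 135 (.ref 133 70)) (.ref 132 194))) (.both (.ref 128 70) (.both (.play 198 (.both (.play 196 (.both (.play 195 (.ref 127 130)) (.both (.play 195 (.ref 65 130)) (.play 200 (.ref 44 195))))) (.ref 126 133))) (.play 198 (.both (.ref 126 133) (.play 135 (.ref 5 134))))))))) (.both (.ref 21 133) (.both (.ref 27 133) (.both (.play 454 (.both (.play 455 (.ref 125 196)) (.both (.play 263 (.ref 124 197))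 (.play 263 (.ref 122 198))))) (.ref 25 197)))))) (.ref 120 69))))))))
 (.one (.play 257 (.both (.play 64 (.ref 7 0)) (.ref 26 0))))))))
 (.seq (.seq (.seq (.one (.play 66 (.both (.play 2 (.ref 5 1)) (.play 321 (.both (.play 128 (.ref 7 64)) (.play 130 (.ref 5 65)))))))
 (.one (.play 65 (.both (.play 2 (.ref 5 1)) (.play 256 (.ref 6 64))))))
 (.seq (.one (.play 66 (.both (.play 320 (.both (.ref 208 0) (.play 384 (.ref 6 128)))) (.play 130 (.ref 5 65)))))
 (.seq (.one (.play 321 (.both (.ref 209 0) (.both (.ref 207 64) (.ref 206 128)))))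
 (.one (.play 66 (.both (.ref 208 0) (.play 130 (.ref 5 65))))))))
 (.seq (.seq (.one (.play 320 (.both (.ref 211 0) (.play 384 (.ref 6 128)))))
 (.seq (.one (.play 65 (.both (.play 0 (.ref 7 0)) (.play 256 (.ref 6 64)))))
 (.one (.play 64 (.both (.play 320 (.both (.ref 213 0) (.play 384 (.ref 6 128)))) (.play 128 (.ref 7 64)))))))
 (.seq (.one (.play 130 (.both (.ref 214 1) (.both (.ref 212 1) (.play 131 (.both (.play 132 (.both (.play 129 (.both (.play 65 (.ref 7 65)) (.play 192 (.ref 1 128)))) (.play 133 (.ref 1 129)))) (.play 67 (.ref 5 66))))))))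
 (.seq (.one (.play 322 (.both (.ref 215 0) (.both (.play 129 (.ref 24 1)) (.both (.play 129 (.ref 15 1)) (.ref 210 65))))))
 (.one (.play 257 (.both (.play 64 (.ref 7 0)) (.play 322 (.ref 4 65)))))))))))
 (.seq (.seq (.seq (.seq (.seq (.one (.play 258 (.both (.ref 217 0) (.play 194 (.ref 4 1)))))
 (.one (.both (.play 3 (.ref 5 2)) (.play 68 (.ref 41 64)))))
 (.seq (.one (.play 65 (.both (.play 67 (.ref 219 0)) (.play 1 (.ref 7 1)))))
 (.seq (.one (.play 130 (.both (.ref 76 1) (.both (.ref 35 2) (.ref 220 64)))))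
 (.one (.play 322 (.both (.ref 221 0) (.both (.play 129 (.ref 24 1)) (.play 386 (.both (.play 387 (.ref 20 66)) (.both (.ref 207 129) (.ref 218 193)))))))))))
 (.seq (.seq (.one (.play 256 (.both (.play 192 (.ref 6 0)) (.play 258 (.both (.play 194 (.ref 4 1)) (.play 257 (.ref 16 64)))))))
 (.one (.play 257 (.both (.play 0 (.ref 7 0)) (.ref 26 0)))))
 (.seq (.one (.play 257 (.both (.play 0 (.ref 7 0)) (.play 66 (.ref 5 1)))))
 (.seq (.one (.both (.play 259 (.both (.play 195 (.both (.play 2 (.ref 4 2)) (.play 196 (.ref 52 192)))) (.play 323 (.ref 4 66)))) (.play 321 (.ref 6 65))))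
 (.one (.play 386 (.both (.ref 36 2) (.both (.play 387 (.ref 226 129)) (.both (.play 322 (.ref 33 130)) (.play 387 (.both (.play 451 (.both (.ref 34 195) (.both (.play 324 (.both (.play 515 (.both (.play 260 (.ref 5 259)) (.ref 225 322))) (.both (.play 325 (.ref 90 320)) (.play 325 (.ref 83 320))))) (.play 515 (.both (.ref 34 259) (.ref 224 322)))))) (.play 450 (.ref 6 194)))))))))))))
 (.seq (.seq (.seq (.one (.both (.ref 227 0) (.both (.ref 221 1) (.both (.play 130 (.ref 15 2)) (.play 387 (.both (.play 130 (.ref 7 130)) (.ref 223 194)))))))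
 (.one (.both (.play 3 (.ref 0 0)) (.play 65 (.ref 3 0)))))
 (.seq (.one (.play 68 (.both (.play 0 (.ref 229 0)) (.play 69 (.ref 3 1)))))
 (.seq (.one (.play 1 (.both (.ref 43 0) (.play 68 (.ref 0 1)))))
 (.one (.both (.ref 231 0) (.play 70 (.ref 0 2)))))))
 (.seq (.seq (.one (.both (.play 1 (.ref 3 1)) (.play 133 (.ref 232 64))))
 (.seq (.one (.play 3 (.both (.play 68 (.ref 0 0)) (.play 4 (.ref 1 0)))))
 (.one (.play 131 (.both (.play 322 (.ref 175 2)) (.play 132 (.ref 2 128)))))))
 (.seq (.one (.both (.play 0 (.ref 7 0)) (.play 66 (.ref 93 1))))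
 (.seq (.one (.play 258 (.both (.play 259 (.both (.play 67 (.both (.play 68 (.both (.play 4 (.both (.play 5 (.ref 2 1)) (.play 195 (.ref 5 3)))) (.play 129 (.ref 41 64)))) (.play 3 (.ref 5 2)))) (.play 323 (.ref 4 66)))) (.both (.play 67 (.ref 93 2)) (.ref 218 65)))))
 (.one (.play 1 (.both (.play 68 (.ref 63 0)) (.play 64 (.ref 1 0))))))))))
 (.seq (.seq (.seq (.seq (.one (.play 257 (.both (.play 0 (.ref 7 0)) (.play 256 (.ref 1 192)))))
 (.one (.play 64 (.both (.ref 239 0) (.play 132 (.both (.play 131 (.ref 3 64)) (.play 133 (.ref 2 129))))))))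
 (.seq (.one (.play 68 (.both (.play 67 (.both (.play 0 (.ref 3 0)) (.play 128 (.ref 2 64)))) (.play 69 (.ref 2 65)))))
 (.seq (.one (.play 67 (.both (.play 4 (.ref 2 0)) (.play 68 (.ref 1 64)))))
 (.one (.play 4 (.both (.play 3 (.ref 2 0)) (.ref 242 1)))))))
 (.seq (.seq (.one (.play 65 (.both (.play 193 (.both (.play 1 (.ref 4 1)) (.play 192 (.ref 1 128)))) (.play 64 (.ref 3 64)))))
 (.one (.play 257 (.both (.play 0 (.ref 7 0)) (.play 321 (.ref 5 65))))))
 (.seq (.one (.play 65 (.both (.play 64 (.ref 2 0)) (.play 128 (.ref 1 64)))))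
 (.seq (.one (.play 65 (.both (.play 64 (.ref 2 0)) (.play 133 (.ref 0 65)))))
 (.one (.play 131 (.both (.play 67 (.ref 22 3)) (.play 130 (.ref 58 128)))))))))
 (.seq (.seq (.seq (.one (.play 257 (.both (.play 64 (.ref 7 0)) (.play 320 (.ref 6 64)))))
 (.one (.play 256 (.both (.play 192 (.ref 6 0)) (.ref 249 0)))))
 (.seq (.one (.both (.ref 38 0) (.play 322 (.ref 4 65))))
 (.seq (.one (.both (.ref 64 0) (.ref 45 1)))
 (.one (.play 197 (.both (.play 195 (.both (.play 259 (.ref 6 3)) (.play 194 (.both (.play 193 (.ref 65 128)) (.both (.play 133 (.ref 154 129)) (.play 198 (.ref 252 129))))))) (.play 261 (.ref 4 4))))))))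
 (.seq (.seq (.one (.play 65 (.both (.play 0 (.ref 7 0)) (.play 258 (.ref 4 65)))))
 (.seq (.one (.play 132 (.both (.play 129 (.ref 190 0)) (.play 133 (.ref 3 65)))))
 (.one (.play 196 (.both (.play 193 (.both (.play 257 (.both (.play 66 (.ref 137 1)) (.play 256 (.ref 1 192)))) (.play 132 (.both (.play 131 (.both (.play 68 (.ref 138 1)) (.play 192 (.ref 2 128)))) (.play 133 (.ref 2 129)))))) (.play 197 (.ref 3 129)))))))
 (.seq (.one (.play 321 (.both (.ref 8 1) (.ref 218 128))))
 (.seq (.one (.both (.play 1 (.ref 6 0)) (.play 320 (.ref 6 64))))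
 (.one (.play 1 (.both (.play 256 (.ref 6 0)) (.play 194 (.ref 4 1))))))))))))
 (.seq (.seq (.seq (.seq (.seq (.seq (.one (.both (.ref 259 0) (.play 322 (.ref 4 65))))
 (.one (.play 257 (.both (.play 2 (.ref 5 1)) (.play 321 (.ref 7 64))))))
 (.seq (.one (.both (.play 1 (.ref 1 0)) (.play 67 (.ref 2 0))))
 (.seq (.one (.play 4 (.both (.play 64 (.ref 262 0)) (.play 5 (.ref 1 1)))))
 (.one (.play 195 (.both (.play 131 (.ref 186 2)) (.both (.play 193 (.both (.ref 261 129) (.play 196 (.ref 41 192)))) (.ref 263 192))))))))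
 (.seq (.seq (.one (.play 323 (.both (.play 259 (.both (.play 195 (.both (.ref 264 1) (.play 386 (.ref 137 130)))) (.play 324 (.ref 193 256)))) (.both (.play 194 (.both (.play 195 (.both (.play 131 (.ref 186 2)) (.both (.play 196 (.both (.play 259 (.both (.ref 261 130) (.play 256 (.ref 2 192)))) (.play 197 (.ref 1 193)))) (.play 386 (.both (.play 131 (.ref 5 130)) (.ref 17 193)))))) (.both (.play 130 (.ref 260 65)) (.both (.play 130 (.both (.play 321 (.ref 258 65)) (.play 387 (.ref 4 130)))) (.play 386 (.both (.play 385 (.ref 49 65)) (.both (.play 195 (.ref 124 129)) (.both (.ref 257 129) (.play 450 (.both (.ref 26 193) (.ref 218 257))))))))))) (.both (.ref 256 128) (.both (.ref 255 192) (.ref 230 256)))))))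
 (.one (.both (.play 0 (.ref 7 0)) (.ref 206 64))))
 (.seq (.one (.play 256 (.both (.play 192 (.ref 6 0)) (.play 257 (.both (.ref 34 1) (.play 320 (.ref 6 64)))))))
 (.seq (.one (.play 64 (.both (.play 65 (.both (.play 0 (.ref 7 0)) (.play 320 (.ref 6 64)))) (.play 128 (.ref 7 64)))))
 (.one (.play 129 (.both (.ref 268 0) (.ref 8 65))))))))
 (.seq (.seq (.seq (.one (.play 386 (.both (.play 194 (.both (.ref 269 1) (.both (.ref 209 65) (.ref 267 193)))) (.both (.ref 215 64) (.both (.play 193 (.ref 15 65)) (.play 450 (.ref 266 193)))))))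
 (.one (.play 68 (.both (.play 69 (.ref 252 0)) (.ref 42 64)))))
 (.seq (.one (.both (.play 4 (.ref 2 0)) (.play 132 (.ref 0 64))))
 (.seq (.one (.play 132 (.both (.play 4 (.both (.play 3 (.ref 2 0)) (.play 68 (.ref 272 1)))) (.play 131 (.ref 0 64)))))
 (.one (.play 65 (.both (.play 4 (.ref 2 1)) (.play 128 (.ref 1 64))))))))
 (.seq (.seq (.one (.play 129 (.both (.play 5 (.both (.ref 274 0) (.play 6 (.ref 2 2)))) (.play 130 (.ref 1 65)))))
 (.seq (.one (.play 68 (.both (.play 1 (.ref 3 0)) (.ref 45 0))))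
 (.one (.both (.play 0 (.ref 3 0)) (.ref 276 1)))))
 (.seq (.one (.play 131 (.both (.play 67 (.ref 178 2)) (.play 132 (.ref 2 128)))))
 (.seq (.one (.play 196 (.both (.play 130 (.both (.play 323 (.ref 15 2)) (.play 129 (.ref 112 128)))) (.both (.ref 278 1) (.play 129 (.ref 277 128))))))
 (.one (.play 259 (.both (.play 66 (.ref 184 2)) (.play 260 (.ref 0 192))))))))))
 (.seq (.seq (.seq (.seq (.one (.play 193 (.both (.ref 280 1) (.play 192 (.ref 2 128)))))
 (.one (.both (.play 65 (.both (.play 66 (.both (.play 257 (.ref 93 1)) (.play 133 (.ref 3 65)))) (.play 64 (.ref 3 64)))) (.play 192 (.ref 1 128)))))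
 (.seq (.one (.play 68 (.both (.play 0 (.ref 3 0)) (.play 129 (.ref 1 64)))))
 (.seq (.one (.both (.play 256 (.ref 33 0)) (.play 132 (.ref 1 128))))
 (.one (.play 258 (.both (.play 131 (.both (.play 322 (.ref 177 2)) (.both (.play 130 (.both (.play 194 (.both (.play 322 (.ref 93 66)) (.play 129 (.ref 3 129)))) (.play 198 (.ref 3 130)))) (.both (.play 259 (.ref 284 66)) (.ref 283 130))))) (.both (.play 194 (.ref 282 65)) (.both (.ref 172 192) (.play 259 (.ref 83 192))))))))))
 (.seq (.seq (.one (.play 65 (.both (.play 1 (.ref 6 0)) (.play 322 (.ref 4 65)))))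
 (.one (.play 259 (.both (.play 195 (.both (.ref 264 1) (.ref 286 66))) (.play 256 (.ref 0 256))))))
 (.seq (.one (.play 260 (.both (.play 325 (.both (.play 326 (.both (.ref 287 2) (.play 327 (.ref 3 259)))) (.both (.play 326 (.both (.ref 287 2) (.both (.play 323 (.both (.play 387 (.ref 179 130)) (.play 262 (.both (.play 322 (.both (.play 261 (.ref 2 258)) (.ref 42 322))) (.play 263 (.ref 2 259)))))) (.both (.play 323 (.ref 190 194)) (.play 258 (.ref 229 258)))))) (.both (.play 261 (.both (.ref 285 64) (.both (.play 323 (.both (.play 197 (.both (.play 133 (.both (.play 134 (.both (.play 70 (.ref 5 69)) (.play 198 (.both (.play 389 (.ref 5 133)) (.play 258 (.ref 2 194)))))) (.play 69 (.ref 6 68)))) (.both (.play 133 (.both (.play 132 (.both (.play 68 (.ref 7 68)) (.play 196 (.ref 16 131)))) (.play 69 (.ref 6 68)))) (.play 198 (.ref 106 194))))) (.both (.ref 281 129) (.play 322 (.both (.play 386 (.both (.play 450 (.ref 175 130)) (.play 385 (.ref 1 321)))) (.play 321 (.ref 2 257))))))) (.both (.ref 279 66)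 (.play 262 (.both (.ref 275 193) (.both (.play 263 (.both (.play 264 (.ref 46 196)) (.ref 43 258))) (.both (.play 263 (.both (.ref 271 196) (.ref 43 258))) (.play 263 (.both (.ref 45 195) (.both (.play 198 (.both (.play 199 (.ref 2 195)) (.play 264 (.both (.play 197 (.ref 112 196)) (.ref 42 260))))) (.both (.ref 273 196) (.ref 271 196))))))))))))) (.both (.ref 256 130) (.both (.ref 255 194) (.ref 230 258))))))) (.both (.ref 270 2) (.both (.ref 265 2) (.both (.play 388 (.both (.play 196 (.both (.ref 214 67) (.both (.play 131 (.both (.play 389 (.both (.ref 254 67) (.play 453 (.ref 4 196)))) (.play 195 (.ref 7 131)))) (.ref 253 192)))) (.both (.play 195 (.ref 24 67)) (.both (.play 195 (.ref 15 67)) (.play 452 (.both (.play 451 (.both (.play 453 (.ref 251 195)) (.play 515 (.ref 6 259)))) (.both (.ref 250 259) (.ref 218 259)))))))) (.both (.play 325 (.both (.play 388 (.both (.play 261 (.both (.play 197 (.both (.ref 248 64) (.play 133 (.ref 6 132)))) (.both (.play 323 (.both (.play 197 (.both (.play 389 (.both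 (.ref 155 130) (.ref 247 257))) (.play 133 (.ref 6 132)))) (.both (.play 386 (.both (.play 450 (.both (.play 195 (.both (.play 131 (.ref 4 131)) (.play 387 (.ref 6 194)))) (.play 322 (.both (.play 321 (.ref 2 257)) (.play 514 (.ref 5 258)))))) (.both (.play 387 (.both (.ref 97 130) (.play 385 (.ref 2 321)))) (.ref 246 257)))) (.play 387 (.both (.play 195 (.both (.play 131 (.ref 4 131)) (.ref 115 193))) (.play 258 (.both (.ref 113 130) (.ref 245 194)))))))) (.both (.play 197 (.both (.play 133 (.ref 6 132)) (.play 198 (.ref 60 194)))) (.play 262 (.both (.ref 244 130) (.both (.ref 243 195) (.play 323 (.ref 41 258))))))))) (.both (.play 195 (.ref 24 67)) (.both (.ref 237 194) (.play 452 (.ref 236 195)))))) (.both (.play 388 (.both (.play 195 (.ref 24 67)) (.both (.play 326 (.both (.play 323 (.both (.play 195 (.both (.play 131 (.ref 4 131)) (.ref 241 194))) (.both (.play 195 (.both (.ref 240 130) (.play 131 (.ref 4 131)))) (.play 386 (.both (.ref 238 321) (.play 387 (.ref 1 322))))))) (.play 327 (.ref 3 259))))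 (.both (.ref 237 194) (.play 452 (.ref 236 195)))))) (.both (.play 261 (.both (.play 327 (.both (.play 262 (.both (.ref 235 67) (.ref 234 260))) (.play 326 (.ref 3 259)))) (.both (.play 197 (.both (.play 388 (.ref 137 132)) (.play 198 (.ref 60 194)))) (.play 326 (.ref 193 258))))) (.both (.play 326 (.both (.play 323 (.ref 233 257)) (.play 327 (.ref 3 259)))) (.ref 230 258)))))) (.both (.play 388 (.ref 228 65)) (.both (.ref 222 66) (.ref 216 66))))))))))
 (.seq (.one (.play 258 (.both (.play 194 (.both (.play 3 (.ref 6 2)) (.ref 53 64))) (.play 322 (.ref 6 66)))))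
 (.one (.play 68 (.both (.play 4 (.ref 5 3)) (.play 129 (.ref 52 64)))))))))
 (.seq (.seq (.seq (.one (.play 259 (.both (.play 67 (.both (.ref 290 0) (.ref 289 0))) (.play 323 (.ref 7 66)))))
 (.one (.play 65 (.both (.ref 64 0) (.play 132 (.ref 0 65))))))
 (.seq (.one (.both (.ref 292 0) (.play 134 (.ref 0 66))))
 (.seq (.one (.play 193 (.both (.play 257 (.ref 32 1)) (.play 132 (.both (.play 133 (.ref 46 65)) (.play 192 (.ref 1 128)))))))
 (.one (.play 195 (.both (.play 259 (.ref 32 3)) (.play 194 (.ref 90 128))))))))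
 (.seq (.seq (.one (.play 261 (.both (.play 68 (.both (.play 4 (.ref 4 4)) (.play 195 (.both (.ref 295 64) (.both (.ref 294 66) (.both (.play 194 (.ref 293 128)) (.play 262 (.ref 87 194)))))))) (.both (.play 325 (.ref 15 4)) (.ref 291 66)))))
 (.seq (.one (.play 67 (.both (.play 68 (.ref 3 0)) (.play 4 (.ref 2 0)))))
 (.one (.play 4 (.both (.play 3 (.ref 1 0)) (.ref 297 1))))))
 (.seq (.one (.play 132 (.both (.play 68 (.both (.play 69 (.ref 3 1)) (.play 133 (.ref 0 65)))) (.play 131 (.ref 0 64)))))
 (.seq (.one (.play 195 (.both (.play 259 (.ref 116 2)) (.play 196 (.ref 0 128)))))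
 (.one (.both (.play 193 (.both (.play 194 (.both (.play 258 (.ref 184 1)) (.play 133 (.ref 1 129)))) (.play 192 (.ref 1 128)))) (.play 64 (.ref 3 64))))))))))
 (.seq (.seq (.seq (.seq (.seq (.one (.play 193 (.both (.play 256 (.ref 6 0)) (.play 257 (.ref 7 0)))))
 (.one (.both (.play 67 (.ref 219 0)) (.play 322 (.ref 7 65)))))
 (.seq (.one (.both (.play 0 (.ref 3 0)) (.play 128 (.ref 1 64))))
 (.seq (.one (.play 65 (.both (.play 0 (.ref 7 0)) (.play 1 (.ref 6 0)))))
 (.one (.play 64 (.both (.ref 305 0) (.play 128 (.ref 4 64))))))))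
 (.seq (.seq (.one (.play 65 (.both (.play 1 (.ref 6 0)) (.play 2 (.ref 5 1)))))
 (.one (.play 66 (.both (.ref 307 0) (.play 130 (.ref 5 65))))))
 (.seq (.one (.play 322 (.both (.play 130 (.both (.ref 308 1) (.both (.ref 306 1) (.play 131 (.both (.play 129 (.both (.play 65 (.ref 4 65)) (.play 196 (.both (.play 195 (.ref 112 128)) (.both (.play 195 (.ref 304 128)) (.ref 234 129)))))) (.play 67 (.ref 5 66))))))) (.both (.play 129 (.ref 184 65)) (.play 386 (.ref 303 128))))))
 (.seq (.one (.play 3 (.both (.play 4 (.ref 2 0)) (.play 130 (.ref 5 2)))))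
 (.one (.play 65 (.both (.play 67 (.both (.play 68 (.both (.ref 310 1) (.play 129 (.ref 41 64)))) (.play 3 (.ref 5 2)))) (.play 1 (.ref 7 1)))))))))
 (.seq (.seq (.seq (.one (.play 65 (.both (.play 0 (.ref 3 0)) (.play 64 (.ref 0 64)))))
 (.one (.play 1 (.both (.ref 312 0) (.play 2 (.ref 3 1))))))
 (.seq (.one (.both (.play 65 (.both (.play 1 (.ref 6 0)) (.play 258 (.ref 4 65)))) (.play 386 (.ref 4 129))))
 (.seq (.one (.both (.play 4 (.ref 5 3)) (.play 69 (.ref 83 64))))
 (.one (.play 68 (.both (.play 1 (.ref 3 0)) (.play 5 (.ref 2 1))))))))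
 (.seq (.seq (.one (.play 4 (.both (.play 3 (.ref 2 0)) (.ref 316 0))))
 (.seq (.one (.play 69 (.both (.play 2 (.ref 3 1)) (.ref 43 64))))
 (.one (.play 68 (.both (.play 3 (.ref 0 0)) (.play 66 (.ref 134 0)))))))
 (.seq (.one (.play 133 (.both (.play 65 (.both (.play 69 (.ref 129 0)) (.play 132 (.ref 0 65)))) (.both (.play 69 (.both (.play 65 (.ref 129 0)) (.play 134 (.ref 0 66)))) (.both (.play 132 (.ref 135 65)) (.ref 319 66))))))
 (.seq (.one (.play 65 (.both (.play 1 (.both (.play 64 (.ref 1 0)) (.ref 42 1))) (.play 66 (.ref 1 1)))))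
 (.one (.play 68 (.both (.play 1 (.ref 3 0)) (.ref 42 64)))))))))
 (.seq (.seq (.seq (.seq (.one (.both (.play 193 (.ref 189 0)) (.play 133 (.ref 3 65))))
 (.one (.play 133 (.both (.play 67 (.ref 323 1)) (.both (.ref 322 66) (.ref 321 128))))))
 (.seq (.one (.play 68 (.both (.play 5 (.ref 2 1)) (.play 129 (.ref 1 64)))))
 (.seq (.one (.play 5 (.both (.play 129 (.both (.ref 325 1) (.play 128 (.ref 1 64)))) (.play 4 (.ref 2 1)))))
 (.one (.play 259 (.both (.play 258 (.ref 258 2)) (.play 260 (.ref 0 192))))))))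
 (.seq (.seq (.one (.play 68 (.both (.play 4 (.ref 5 3)) (.play 130 (.ref 2 64)))))
 (.one (.play 68 (.both (.play 1 (.ref 3 0)) (.play 133 (.ref 0 65))))))
 (.seq (.one (.play 132 (.both (.ref 329 0) (.play 131 (.ref 0 64)))))
 (.seq (.one (.play 64 (.both (.play 3 (.ref 2 0)) (.play 131 (.ref 0 64)))))
 (.one (.play 4 (.both (.ref 331 0) (.play 5 (.ref 2 1)))))))))
 (.seq (.seq (.seq (.one (.play 132 (.both (.ref 332 0) (.play 133 (.ref 0 65)))))
 (.one (.both (.play 67 (.ref 258 2)) (.play 132 (.ref 2 128)))))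
 (.seq (.one (.play 260 (.both (.play 196 (.both (.play 194 (.both (.play 195 (.both (.play 132 (.ref 334 1)) (.play 256 (.ref 1 192)))) (.play 261 (.ref 3 193)))) (.play 197 (.ref 2 193)))) (.both (.ref 333 192) (.ref 330 193)))))
 (.seq (.one (.play 129 (.both (.ref 274 0) (.play 130 (.ref 1 65)))))
 (.one (.play 5 (.both (.ref 336 0) (.play 6 (.ref 2 2))))))))
 (.seq (.seq (.one (.both (.ref 77 0) (.ref 26 64)))
 (.seq (.one (.play 323 (.both (.play 195 (.both (.play 131 (.both (.play 67 (.ref 101 2)) (.both (.play 322 (.ref 258 66)) (.play 387 (.ref 338 66))))) (.play 196 (.ref 2 192)))) (.play 324 (.ref 0 256)))))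
 (.one (.play 258 (.both (.ref 339 2) (.both (.ref 337 192) (.ref 69 256)))))))
 (.seq (.one (.both (.play 192 (.ref 4 0)) (.play 65 (.ref 7 0))))
 (.seq (.one (.both (.play 0 (.ref 4 0)) (.play 321 (.ref 341 64))))
 (.one (.both (.play 1 (.ref 5 0)) (.ref 28 64))))))))))))
 (.seq (.seq (.seq (.seq (.seq (.seq (.seq (.seq (.one (.play 321 (.both (.play 65 (.ref 343 0)) (.play 257 (.ref 4 64)))))
 (.one (.play 257 (.both (.play 320 (.both (.play 194 (.both (.play 258 (.ref 4 1)) (.ref 91 128))) (.play 256 (.ref 6 64)))) (.both (.ref 34 1) (.both (.ref 223 64) (.play 321 (.both (.ref 26 64) (.ref 121 129)))))))))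
 (.seq (.one (.play 67 (.both (.play 68 (.ref 193 0)) (.play 258 (.ref 5 2)))))
 (.seq (.one (.play 67 (.both (.play 65 (.both (.play 1 (.ref 7 1)) (.ref 346 64))) (.play 3 (.ref 5 2)))))
 (.one (.play 195 (.both (.play 259 (.ref 4 2)) (.play 196 (.ref 112 128))))))))
 (.seq (.seq (.one (.play 66 (.both (.play 2 (.ref 7 2)) (.play 65 (.ref 63 64)))))
 (.one (.both (.play 65 (.both (.play 1 (.ref 7 1)) (.play 129 (.both (.play 68 (.ref 41 64)) (.play 322 (.ref 7 65)))))) (.play 3 (.ref 5 2)))))
 (.seq (.one (.both (.play 4 (.ref 60 0)) (.play 258 (.ref 5 2))))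
 (.seq (.one (.play 4 (.both (.play 1 (.ref 1 0)) (.play 66 (.ref 59 0)))))
 (.one (.play 65 (.both (.play 3 (.ref 89 0)) (.play 68 (.ref 2 1)))))))))
 (.seq (.seq (.seq (.one (.both (.ref 353 0) (.both (.play 3 (.ref 90 0)) (.both (.play 68 (.ref 60 1)) (.ref 352 2)))))
 (.one (.play 132 (.both (.play 196 (.ref 186 3)) (.both (.ref 128 3) (.both (.play 194 (.both (.play 130 (.both (.play 131 (.both (.play 66 (.ref 7 66)) (.play 133 (.ref 41 129)))) (.play 387 (.ref 7 130)))) (.both (.play 133 (.ref 354 128)) (.both (.play 196 (.ref 351 129)) (.ref 225 130))))) (.play 131 (.ref 350 65))))))))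
 (.seq (.one (.play 69 (.both (.play 65 (.ref 129 0)) (.both (.play 70 (.ref 46 2)) (.play 65 (.ref 44 64))))))
 (.seq (.one (.play 4 (.both (.play 3 (.ref 2 0)) (.play 68 (.both (.play 5 (.ref 2 1)) (.ref 42 64))))))
 (.one (.both (.play 260 (.both (.play 259 (.both (.play 68 (.ref 258 3)) (.play 192 (.ref 0 192)))) (.play 261 (.ref 0 193)))) (.play 133 (.ref 2 129)))))))
 (.seq (.seq (.one (.play 197 (.both (.play 133 (.ref 358 1)) (.both (.play 198 (.both (.ref 45 130) (.ref 166 192))) (.both (.ref 357 130) (.both (.play 198 (.both (.ref 45 130) (.play 199 (.ref 44 194)))) (.ref 167 192)))))))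
 (.seq (.one (.play 66 (.both (.play 5 (.ref 2 2)) (.ref 321 64))))
 (.one (.play 68 (.both (.play 0 (.ref 3 0)) (.ref 45 0))))))
 (.seq (.one (.play 68 (.both (.ref 283 1) (.play 128 (.ref 1 64)))))
 (.seq (.one (.play 134 (.both (.play 198 (.both (.play 199 (.both (.play 261 (.both (.play 325 (.ref 175 5)) (.both (.play 325 (.ref 186 5)) (.ref 362 132)))) (.both (.play 200 (.both (.ref 361 133) (.ref 42 196))) (.ref 42 195)))) (.play 135 (.ref 2 131)))) (.both (.play 198 (.both (.play 262 (.both (.play 261 (.both (.play 325 (.ref 137 69)) (.play 194 (.ref 0 194)))) (.play 263 (.ref 0 195)))) (.play 135 (.ref 2 131)))) (.both (.ref 360 128) (.play 133 (.ref 60 130)))))))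
 (.one (.play 259 (.both (.play 66 (.ref 51 2)) (.play 260 (.ref 63 192))))))))))
 (.seq (.seq (.seq (.seq (.one (.play 194 (.both (.ref 187 1) (.both (.ref 364 1) (.play 261 (.ref 232 192))))))
 (.one (.both (.play 256 (.ref 6 0)) (.play 132 (.ref 1 128)))))
 (.seq (.one (.play 64 (.both (.play 65 (.both (.play 0 (.ref 7 0)) (.ref 8 1))) (.play 128 (.ref 7 64)))))
 (.seq (.one (.play 129 (.both (.ref 367 0) (.play 386 (.ref 4 129)))))
 (.one (.play 194 (.both (.ref 368 1) (.both (.play 386 (.both (.ref 78 65) (.play 385 (.ref 366 193)))) (.both (.play 387 (.ref 51 130)) (.play 386 (.both (.play 387 (.both (.play 451 (.ref 4 194)) (.play 385 (.ref 52 320)))) (.both (.ref 345 193) (.play 385 (.ref 366 193)))))))))))))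
 (.seq (.seq (.one (.play 325 (.both (.ref 369 1) (.both (.ref 365 128) (.both (.ref 363 128) (.both (.ref 359 129) (.both (.ref 356 257) (.ref 320 257))))))))
 (.one (.play 257 (.both (.play 66 (.ref 5 1)) (.play 320 (.ref 6 64))))))
 (.seq (.one (.play 66 (.both (.play 2 (.ref 5 1)) (.play 320 (.both (.play 256 (.ref 6 64)) (.ref 371 64))))))
 (.seq (.one (.play 259 (.both (.ref 372 2) (.both (.ref 344 3) (.play 258 (.both (.play 257 (.both (.play 260 (.both (.play 324 (.ref 4 67)) (.play 197 (.ref 2 193)))) (.play 256 (.ref 2 192)))) (.play 322 (.ref 6 66))))))))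
 (.one (.both (.play 1 (.ref 5 0)) (.play 321 (.ref 4 64))))))))
 (.seq (.seq (.seq (.one (.play 257 (.both (.play 193 (.ref 4 0)) (.play 256 (.ref 374 0)))))
 (.one (.play 257 (.both (.ref 26 0) (.ref 375 65)))))
 (.seq (.one (.play 195 (.both (.play 131 (.ref 20 3)) (.both (.play 387 (.both (.ref 78 66) (.ref 376 194))) (.both (.ref 373 128) (.both (.play 388 (.ref 342 131)) (.play 388 (.ref 51 131))))))))
 (.seq (.one (.play 194 (.both (.play 258 (.ref 6 2)) (.play 193 (.ref 106 128)))))
 (.one (.both (.play 67 (.both (.play 3 (.ref 5 2)) (.ref 346 64))) (.play 1 (.ref 7 1)))))))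
 (.seq (.seq (.one (.play 130 (.both (.play 67 (.ref 219 0)) (.play 321 (.ref 6 65)))))
 (.seq (.one (.both (.play 0 (.ref 7 0)) (.ref 207 0)))
 (.one (.play 64 (.both (.ref 254 0) (.play 128 (.ref 7 64)))))))
 (.seq (.one (.play 65 (.both (.ref 77 0) (.play 258 (.ref 4 65)))))
 (.seq (.one (.both (.play 65 (.ref 101 0)) (.both (.play 385 (.ref 338 64)) (.play 385 (.ref 152 64)))))
 (.one (.play 320 (.both (.play 321 (.both (.ref 77 0) (.play 384 (.ref 6 128)))) (.play 256 (.ref 6 64)))))))))))
 (.seq (.seq (.seq (.seq (.seq (.one (.both (.play 3 (.ref 4 3)) (.play 258 (.ref 191 64))))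
 (.one (.play 1 (.both (.play 129 (.both (.play 65 (.ref 304 0)) (.play 130 (.ref 1 65)))) (.play 2 (.ref 3 1))))))
 (.seq (.one (.both (.play 4 (.ref 6 3)) (.play 258 (.ref 90 192))))
 (.seq (.one (.play 323 (.both (.play 132 (.both (.ref 12 4) (.play 387 (.ref 6 131)))) (.both (.play 387 (.ref 388 128)) (.play 322 (.both (.ref 387 256) (.both (.play 261 (.ref 154 257)) (.play 326 (.both (.ref 45 258) (.both (.play 261 (.both (.play 262 (.ref 2 258)) (.ref 299 259))) (.both (.ref 70 259) (.play 327 (.both (.ref 276 260) (.ref 42 323))))))))))))))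
 (.one (.both (.play 4 (.ref 154 0)) (.play 133 (.ref 0 65)))))))
 (.seq (.seq (.one (.play 66 (.both (.ref 326 1) (.both (.ref 332 1) (.ref 231 64)))))
 (.one (.play 196 (.both (.ref 389 0) (.both (.play 389 (.ref 342 132)) (.both (.play 389 (.ref 51 132)) (.play 389 (.both (.play 323 (.both (.ref 294 194) (.both (.ref 391 256) (.both (.play 322 (.ref 390 257)) (.play 390 (.ref 87 322)))))) (.both (.play 453 (.ref 149 196)) (.play 453 (.ref 50 196)))))))))))
 (.seq (.one (.play 324 (.both (.ref 392 0) (.both (.play 196 (.both (.ref 389 0) (.both (.play 132 (.both (.ref 383 3) (.both (.play 261 (.ref 386 65)) (.ref 385 67)))) (.both (.play 132 (.ref 384 3)) (.both (.play 132 (.both (.ref 383 3) (.both (.ref 19 4) (.play 388 (.ref 338 67))))) (.both (.play 132 (.both (.ref 382 3) (.both (.play 131 (.ref 381 67)) (.play 133 (.both (.play 261 (.both (.ref 380 67) (.play 68 (.ref 4 68)))) (.play 69 (.ref 5 68))))))) (.play 388 (.both (.play 195 (.ref 379 130)) (.ref 378 193))))))))) (.both (.ref 377 1) (.both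 (.ref 370 1) (.both (.play 196 (.both (.ref 355 1) (.both (.play 388 (.both (.play 389 (.both (.play 197 (.both (.play 261 (.both (.ref 349 129) (.ref 348 195))) (.play 133 (.ref 5 132)))) (.play 453 (.ref 4 196)))) (.both (.ref 347 130) (.both (.play 131 (.both (.play 195 (.ref 7 131)) (.ref 345 195))) (.ref 344 132))))) (.both (.play 389 (.ref 342 132)) (.both (.play 389 (.ref 51 132)) (.play 389 (.ref 151 132))))))) (.both (.play 326 (.both (.ref 340 65) (.both (.ref 335 67) (.both (.play 327 (.both (.play 263 (.both (.play 199 (.both (.play 261 (.both (.play 391 (.both (.ref 328 132) (.play 392 (.ref 0 324)))) (.play 388 (.ref 189 195)))) (.both (.ref 327 132) (.play 390 (.ref 178 134))))) (.play 264 (.ref 2 260)))) (.both (.ref 326 259) (.ref 322 260)))) (.both (.ref 324 194) (.both (.ref 320 258) (.play 327 (.both (.play 323 (.ref 129 258)) (.both (.ref 318 259) (.ref 317 260)))))))))) (.both (.play 261 (.both (.play 196 (.both (.play 197 (.both (.play 133 (.both (.play 134 (.ref 315 66)) (.play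 69 (.ref 6 68)))) (.both (.play 389 (.both (.play 390 (.ref 314 68)) (.play 453 (.ref 7 196)))) (.play 198 (.both (.play 195 (.both (.ref 313 129) (.both (.play 194 (.ref 63 193)) (.play 199 (.both (.play 263 (.both (.play 262 (.ref 3 195)) (.play 264 (.ref 0 196)))) (.play 200 (.ref 1 196))))))) (.ref 261 132)))))) (.both (.play 132 (.both (.ref 311 66) (.play 68 (.ref 4 68)))) (.play 132 (.ref 109 68))))) (.both (.play 389 (.both (.play 197 (.both (.ref 306 68) (.play 390 (.both (.play 454 (.ref 4 197)) (.play 323 (.ref 87 322)))))) (.both (.play 453 (.both (.play 390 (.both (.play 454 (.ref 109 197)) (.play 391 (.ref 100 322)))) (.play 517 (.ref 7 260)))) (.play 453 (.ref 116 196))))) (.both (.ref 309 67) (.both (.play 323 (.both (.ref 281 129) (.both (.play 453 (.both (.play 262 (.both (.play 389 (.ref 181 196)) (.play 263 (.ref 1 259)))) (.both (.play 389 (.ref 116 196)) (.play 326 (.both (.play 327 (.both (.play 328 (.ref 3 260)) (.ref 42 323))) (.both (.ref 298 259) (.play 390 (.both (.play 262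 (.both (.play 263 (.ref 2 259)) (.ref 302 261))) (.play 391 (.ref 0 323)))))))))) (.play 322 (.ref 154 257))))) (.play 323 (.both (.play 322 (.both (.play 258 (.ref 301 193)) (.play 321 (.ref 2 257)))) (.both (.play 326 (.both (.play 262 (.both (.ref 300 195) (.play 263 (.ref 1 259)))) (.both (.ref 299 259) (.ref 298 259)))) (.play 322 (.ref 154 257)))))))))) (.ref 296 128))))))))))
 (.seq (.one (.play 1 (.both (.play 65 (.both (.play 0 (.ref 3 0)) (.play 5 (.ref 2 1)))) (.play 2 (.ref 3 1)))))
 (.one (.play 66 (.both (.ref 394 0) (.ref 43 65))))))))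
 (.seq (.seq (.seq (.one (.play 1 (.both (.play 5 (.both (.ref 142 0) (.play 6 (.ref 2 2)))) (.play 2 (.ref 3 1)))))
 (.one (.play 193 (.both (.play 257 (.both (.play 65 (.both (.play 2 (.ref 5 1)) (.play 64 (.ref 3 64)))) (.play 321 (.ref 5 65)))) (.play 192 (.ref 1 128))))))
 (.seq (.one (.play 130 (.both (.ref 397 1) (.both (.ref 396 64) (.ref 337 64)))))
 (.seq (.one (.play 134 (.both (.ref 398 1) (.both (.play 131 (.both (.ref 395 64) (.both (.ref 275 65) (.ref 357 67)))) (.both (.play 67 (.ref 58 65)) (.play 135 (.ref 277 67)))))))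
 (.one (.both (.play 260 (.both (.play 196 (.both (.play 3 (.ref 4 3)) (.play 257 (.ref 154 192)))) (.play 324 (.ref 4 67)))) (.play 322 (.ref 6 66)))))))
 (.seq (.seq (.one (.play 259 (.both (.play 67 (.both (.play 258 (.ref 400 0)) (.ref 290 0))) (.play 323 (.ref 7 66)))))
 (.seq (.one (.play 66 (.both (.play 2 (.ref 5 1)) (.play 320 (.both (.play 256 (.ref 6 64)) (.play 321 (.both (.play 130 (.ref 6 65)) (.play 384 (.ref 6 128)))))))))
 (.one (.play 260 (.both (.play 67 (.both (.play 259 (.both (.ref 402 2) (.both (.play 68 (.both (.play 132 (.both (.play 69 (.ref 219 2)) (.ref 348 66))) (.play 4 (.ref 5 3)))) (.play 322 (.both (.play 258 (.ref 6 66)) (.play 194 (.both (.play 323 (.both (.play 386 (.ref 6 130)) (.ref 245 130))) (.play 193 (.ref 63 192))))))))) (.play 3 (.ref 4 3)))) (.both (.play 67 (.ref 51 3)) (.ref 401 65)))))))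
 (.seq (.one (.play 68 (.both (.play 0 (.ref 3 0)) (.ref 79 64))))
 (.seq (.one (.play 197 (.both (.ref 365 0) (.both (.play 130 (.ref 58 128)) (.ref 404 130)))))
 (.one (.play 1 (.both (.play 133 (.both (.ref 139 0) (.play 134 (.ref 0 66)))) (.play 2 (.ref 3 1))))))))))
 (.seq (.seq (.seq (.seq (.one (.play 261 (.both (.play 258 (.both (.ref 339 2) (.both (.ref 396 192) (.ref 406 192)))) (.both (.play 194 (.ref 100 192)) (.both (.play 194 (.ref 58 192)) (.play 262 (.both (.play 198 (.both (.play 326 (.both (.ref 331 194) (.play 327 (.ref 0 259)))) (.play 199 (.ref 2 195)))) (.both (.ref 317 195) (.ref 330 195)))))))))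
 (.one (.play 131 (.both (.ref 382 2) (.both (.ref 19 3) (.play 132 (.both (.play 196 (.both (.ref 349 64) (.play 387 (.ref 5 131)))) (.play 68 (.ref 5 67)))))))))
 (.seq (.one (.play 65 (.both (.play 321 (.both (.ref 11 0) (.play 385 (.ref 4 128)))) (.play 129 (.ref 5 64)))))
 (.seq (.one (.play 132 (.both (.ref 212 3) (.both (.ref 409 4) (.ref 253 128)))))
 (.one (.play 324 (.both (.ref 410 0) (.both (.play 131 (.ref 24 3)) (.play 131 (.ref 15 3)))))))))
 (.seq (.seq (.one (.play 195 (.both (.ref 279 2) (.both (.play 194 (.both (.play 129 (.both (.play 193 (.both (.play 128 (.ref 3 128)) (.ref 45 129))) (.play 130 (.ref 3 129)))) (.play 262 (.ref 0 194)))) (.play 262 (.ref 87 194))))))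
 (.one (.play 68 (.both (.play 1 (.ref 3 0)) (.play 129 (.ref 1 64))))))
 (.seq (.one (.play 133 (.both (.play 1 (.both (.play 0 (.ref 3 0)) (.ref 329 1))) (.play 132 (.ref 0 65)))))
 (.seq (.one (.both (.ref 8 0) (.ref 34 64)))
 (.one (.play 321 (.both (.play 65 (.ref 415 1)) (.both (.play 130 (.ref 93 65)) (.play 385 (.ref 119 128))))))))))
 (.seq (.seq (.seq (.one (.play 257 (.both (.ref 416 0) (.play 256 (.ref 1 192)))))
 (.one (.play 129 (.both (.ref 417 0) (.play 128 (.ref 3 128))))))
 (.seq (.one (.both (.play 64 (.ref 1 0)) (.play 69 (.ref 0 1))))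
 (.seq (.one (.play 68 (.both (.ref 45 0) (.play 133 (.both (.play 132 (.ref 0 65)) (.play 69 (.ref 419 65)))))))
 (.one (.play 196 (.both (.play 132 (.both (.play 68 (.both (.play 4 (.ref 6 3)) (.play 260 (.both (.play 323 (.ref 6 67)) (.play 261 (.ref 0 193)))))) (.play 133 (.ref 2 129)))) (.both (.play 257 (.both (.play 133 (.both (.play 132 (.ref 2 129)) (.ref 325 129))) (.play 256 (.ref 1 192)))) (.ref 165 192))))))))
 (.seq (.seq (.one (.play 195 (.both (.ref 421 2) (.both (.play 198 (.both (.ref 71 129) (.ref 420 131))) (.both (.play 194 (.ref 232 192)) (.play 262 (.ref 87 194)))))))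
 (.seq (.one (.play 257 (.both (.play 64 (.ref 7 0)) (.ref 34 1))))
 (.one (.play 66 (.both (.ref 292 0) (.both (.play 70 (.ref 65 1)) (.ref 231 64)))))))
 (.seq (.one (.play 195 (.both (.ref 113 0) (.play 196 (.ref 0 128)))))
 (.seq (.one (.both (.play 131 (.both (.play 134 (.both (.ref 425 3) (.both (.play 135 (.ref 129 66)) (.play 135 (.ref 44 130))))) (.both (.ref 424 64) (.both (.play 198 (.ref 135 130)) (.play 198 (.ref 87 130)))))) (.both (.play 325 (.ref 381 68)) (.both (.play 325 (.both (.play 68 (.ref 7 68)) (.play 134 (.ref 30 69)))) (.play 325 (.both (.play 68 (.ref 7 68)) (.ref 423 132)))))))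
 (.one (.play 131 (.both (.play 324 (.ref 20 3)) (.both (.play 132 (.ref 315 64)) (.play 260 (.both (.play 324 (.ref 109 67)) (.play 193 (.ref 87 192)))))))))))))))
 (.seq (.seq (.seq (.seq (.seq (.seq (.one (.play 257 (.both (.play 193 (.both (.play 0 (.ref 4 0)) (.play 384 (.ref 93 128)))) (.play 321 (.ref 4 64)))))
 (.one (.play 128 (.both (.ref 409 0) (.both (.ref 8 64) (.ref 428 64))))))
 (.seq (.one (.play 3 (.both (.play 4 (.ref 2 0)) (.play 258 (.ref 5 2)))))
 (.seq (.one (.play 66 (.both (.play 65 (.both (.play 256 (.ref 258 0)) (.play 2 (.ref 5 1)))) (.play 130 (.ref 5 65)))))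
 (.one (.play 386 (.both (.play 129 (.both (.play 65 (.ref 258 0)) (.play 322 (.ref 4 129)))) (.play 450 (.ref 4 193))))))))
 (.seq (.seq (.one (.play 68 (.both (.play 69 (.ref 3 1)) (.play 129 (.ref 1 64)))))
 (.one (.both (.play 65 (.ref 109 1)) (.play 196 (.both (.play 128 (.ref 3 128)) (.play 197 (.ref 1 193)))))))
 (.seq (.one (.play 132 (.both (.play 193 (.both (.play 257 (.ref 32 1)) (.play 192 (.ref 1 128)))) (.play 133 (.ref 46 65)))))
 (.seq (.one (.play 195 (.both (.play 3 (.ref 6 2)) (.play 196 (.ref 0 128)))))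
 (.one (.both (.ref 200 1) (.play 128 (.ref 1 64))))))))
 (.seq (.seq (.seq (.one (.play 195 (.both (.play 131 (.both (.play 258 (.ref 186 2)) (.play 132 (.ref 106 128)))) (.both (.play 196 (.ref 437 128)) (.both (.play 196 (.both (.play 192 (.ref 46 128)) (.play 256 (.ref 1 192)))) (.play 196 (.ref 164 192)))))))
 (.one (.play 68 (.both (.play 64 (.ref 46 0)) (.both (.ref 322 1) (.ref 276 1))))))
 (.seq (.one (.play 256 (.both (.play 193 (.ref 6 0)) (.play 128 (.ref 96 0)))))
 (.seq (.one (.both (.play 258 (.ref 6 2)) (.play 133 (.ref 83 128))))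
 (.one (.play 195 (.both (.play 259 (.both (.play 130 (.ref 109 2)) (.play 260 (.ref 193 192)))) (.play 196 (.ref 3 128))))))))
 (.seq (.seq (.one (.play 258 (.both (.play 3 (.ref 5 2)) (.ref 53 64))))
 (.seq (.one (.both (.ref 308 0) (.play 386 (.ref 4 129))))
 (.one (.play 390 (.both (.play 197 (.both (.play 198 (.both (.play 199 (.both (.play 196 (.both (.play 132 (.both (.play 68 (.both (.play 4 (.ref 4 4)) (.play 260 (.both (.play 325 (.ref 4 68)) (.play 259 (.ref 1 195)))))) (.play 131 (.ref 3 131)))) (.both (.play 263 (.both (.ref 140 130) (.play 264 (.ref 0 196)))) (.ref 69 194)))) (.both (.play 196 (.both (.play 195 (.both (.ref 64 130) (.play 258 (.both (.play 194 (.ref 419 193)) (.play 259 (.ref 1 194)))))) (.both (.ref 406 130) (.ref 70 132)))) (.both (.play 260 (.ref 90 194)) (.play 200 (.ref 164 196)))))) (.both (.play 325 (.both (.play 134 (.ref 186 5)) (.both (.play 391 (.both (.play 262 (.ref 314 69)) (.both (.play 262 (.ref 444 69)) (.play 392 (.ref 100 323))))) (.both (.ref 443 131)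 (.play 324 (.both (.ref 435 195) (.both (.play 323 (.both (.play 322 (.ref 65 257)) (.both (.play 322 (.ref 252 257)) (.play 327 (.ref 129 258))))) (.both (.play 323 (.ref 390 258)) (.play 391 (.ref 135 323)))))))))) (.both (.play 325 (.both (.play 196 (.both (.ref 248 1) (.both (.play 134 (.ref 351 131)) (.play 389 (.ref 181 132))))) (.both (.ref 443 131) (.play 260 (.both (.play 199 (.both (.play 259 (.both (.play 196 (.ref 1 195)) (.play 258 (.ref 0 258)))) (.play 200 (.ref 1 196)))) (.play 327 (.both (.play 324 (.both (.ref 103 195) (.play 391 (.ref 63 323)))) (.play 328 (.ref 3 260))))))))) (.both (.play 325 (.both (.play 134 (.ref 186 5)) (.both (.play 260 (.both (.ref 442 132) (.play 259 (.ref 106 194)))) (.play 388 (.both (.play 324 (.ref 146 193)) (.both (.play 389 (.ref 441 194)) (.both (.ref 440 196) (.play 387 (.ref 354 321))))))))) (.both (.play 325 (.both (.play 134 (.ref 186 5)) (.both (.play 389 (.both (.play 134 (.ref 5 133)) (.ref 378 194))) (.play 327 (.both (.play 324 (.both (.ref 104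 195) (.both (.play 323 (.ref 252 258)) (.play 323 (.ref 129 258))))) (.both (.play 260 (.ref 100 258)) (.both (.play 260 (.ref 58 258)) (.ref 439 260)))))))) (.ref 438 4))))))) (.both (.play 262 (.both (.play 263 (.both (.play 199 (.ref 62 68)) (.both (.play 260 (.both (.play 199 (.both (.ref 436 132) (.play 200 (.ref 2 196)))) (.both (.play 259 (.ref 65 194)) (.play 327 (.ref 63 259))))) (.both (.play 196 (.ref 58 194)) (.play 264 (.ref 56 196)))))) (.play 133 (.ref 14 69)))) (.both (.play 133 (.ref 72 69)) (.play 325 (.both (.play 133 (.ref 4 133)) (.play 324 (.both (.ref 295 193) (.both (.ref 435 195) (.both (.play 391 (.ref 135 323)) (.play 391 (.ref 87 323)))))))))))) (.both (.play 454 (.both (.play 262 (.both (.play 260 (.both (.play 325 (.both (.play 324 (.both (.play 196 (.ref 434 67)) (.both (.play 387 (.both (.ref 246 258) (.ref 433 259))) (.play 263 (.ref 41 259))))) (.both (.ref 432 69) (.play 391 (.both (.play 455 (.ref 51 198)) (.play 392 (.ref 100 323))))))) (.both (.ref 424 193) (.both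 (.play 327 (.ref 135 259)) (.play 327 (.ref 87 259)))))) (.both (.play 455 (.both (.play 198 (.both (.ref 431 69) (.play 391 (.ref 4 198)))) (.play 519 (.ref 4 262)))) (.both (.play 455 (.ref 20 134)) (.play 260 (.both (.ref 424 193) (.both (.play 263 (.both (.ref 430 196) (.play 264 (.ref 44 259)))) (.both (.play 327 (.ref 135 259)) (.play 327 (.ref 87 259)))))))))) (.both (.play 518 (.both (.ref 429 134) (.both (.play 519 (.ref 20 198)) (.both (.play 582 (.both (.ref 8 262) (.play 646 (.ref 119 389)))) (.play 582 (.both (.play 646 (.both (.play 455 (.both (.play 519 (.both (.play 262 (.ref 4 262)) (.play 710 (.ref 5 454)))) (.play 391 (.ref 5 390)))) (.ref 26 389))) (.both (.ref 34 326) (.ref 267 389)))))))) (.both (.ref 21 197) (.both (.ref 25 261) (.play 518 (.both (.play 325 (.ref 7 261)) (.ref 372 261)))))))) (.both (.play 262 (.both (.ref 427 67) (.both (.play 197 (.ref 15 69)) (.play 454 (.ref 379 196))))) (.both (.play 197 (.ref 73 69)) (.both (.play 325 (.both (.ref 147 128) (.both (.play 324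 (.both (.ref 421 131) (.both (.play 323 (.both (.play 322 (.both (.ref 143 256) (.play 389 (.ref 0 322)))) (.both (.play 327 (.both (.ref 361 260) (.ref 43 322))) (.ref 80 321)))) (.both (.play 391 (.ref 135 323)) (.play 391 (.ref 87 323)))))) (.play 197 (.ref 51 133))))) (.play 262 (.ref 426 129)))))))))))
 (.seq (.one (.play 70 (.both (.ref 45 2) (.play 131 (.both (.play 132 (.ref 168 64)) (.play 130 (.ref 1 66)))))))
 (.seq (.one (.play 65 (.both (.play 4 (.ref 154 0)) (.ref 43 64))))
 (.one (.play 130 (.both (.play 66 (.ref 190 1)) (.both (.play 65 (.both (.play 129 (.both (.play 64 (.ref 3 64)) (.ref 42 129))) (.play 66 (.ref 3 65)))) (.ref 321 128))))))))))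
 (.seq (.seq (.seq (.seq (.one (.both (.ref 413 1) (.play 128 (.ref 1 64))))
 (.one (.both (.play 0 (.ref 7 0)) (.ref 250 64))))
 (.seq (.one (.play 321 (.both (.play 65 (.ref 152 0)) (.both (.play 385 (.ref 338 64)) (.play 385 (.ref 101 64))))))
 (.seq (.one (.play 65 (.both (.ref 77 0) (.play 1 (.ref 4 1)))))
 (.one (.play 66 (.both (.ref 169 0) (.play 134 (.ref 0 66))))))))
 (.seq (.seq (.one (.play 129 (.both (.play 65 (.both (.play 1 (.ref 4 1)) (.play 320 (.ref 5 64)))) (.play 196 (.ref 3 128)))))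
 (.one (.play 129 (.both (.play 257 (.both (.ref 454 1) (.play 256 (.ref 1 192)))) (.play 128 (.ref 3 128))))))
 (.seq (.one (.both (.play 0 (.ref 3 0)) (.play 133 (.ref 0 65))))
 (.seq (.one (.both (.play 132 (.ref 334 1)) (.play 192 (.ref 0 192))))
 (.one (.both (.play 64 (.ref 2 0)) (.play 6 (.ref 1 2))))))))
 (.seq (.seq (.seq (.one (.play 257 (.both (.play 64 (.ref 7 0)) (.play 2 (.ref 5 1)))))
 (.one (.play 257 (.both (.play 0 (.ref 7 0)) (.ref 459 64)))))
 (.seq (.one (.play 65 (.both (.ref 460 0) (.play 132 (.ref 3 64)))))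
 (.seq (.one (.play 130 (.both (.play 259 (.both (.play 323 (.both (.ref 23 2) (.both (.play 131 (.ref 236 66)) (.ref 459 130)))) (.both (.ref 461 66) (.both (.ref 98 130) (.play 258 (.ref 90 192)))))) (.both (.play 194 (.ref 301 65)) (.both (.play 131 (.ref 58 128)) (.both (.ref 157 128) (.play 131 (.ref 100 128))))))))
 (.one (.play 257 (.both (.play 1 (.ref 119 0)) (.both (.ref 123 64) (.ref 121 65))))))))
 (.seq (.seq (.one (.both (.play 65 (.both (.play 1 (.ref 7 1)) (.play 64 (.ref 0 64)))) (.play 3 (.ref 5 2))))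
 (.seq (.one (.both (.ref 77 0) (.ref 34 65)))
 (.one (.both (.play 128 (.ref 15 0)) (.play 260 (.ref 3 192))))))
 (.seq (.one (.play 195 (.both (.play 194 (.both (.play 130 (.ref 15 2)) (.play 193 (.ref 99 192)))) (.both (.play 322 (.ref 284 130)) (.play 262 (.ref 304 194))))))
 (.seq (.one (.play 260 (.both (.play 259 (.both (.play 323 (.both (.ref 467 0) (.both (.play 195 (.both (.play 194 (.ref 466 2)) (.both (.ref 416 66) (.play 194 (.ref 100 192))))) (.both (.play 387 (.both (.play 195 (.both (.play 131 (.ref 152 66)) (.both (.play 131 (.ref 465 66)) (.play 196 (.ref 464 129))))) (.both (.play 196 (.ref 186 67)) (.both (.play 196 (.ref 175 67)) (.ref 463 194))))) (.play 322 (.ref 83 256)))))) (.play 258 (.ref 0 258)))) (.both (.play 327 (.both (.play 389 (.both (.play 388 (.both (.ref 102 68) (.play 387 (.ref 89 322)))) (.both (.play 196 (.ref 15 68)) (.both (.ref 210 132) (.ref 460 196))))) (.play 328 (.ref 3 260)))) (.both (.play 327 (.ref 100 258)) (.play 327 (.ref 58 258)))))))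
 (.one (.both (.play 65 (.ref 65 0)) (.both (.play 70 (.ref 129 1)) (.play 70 (.ref 252 1)))))))))))
 (.seq (.seq (.seq (.seq (.seq (.one (.play 325 (.both (.play 197 (.both (.play 454 (.both (.play 196 (.both (.play 195 (.both (.play 198 (.both (.play 134 (.ref 66 3)) (.play 199 (.ref 65 130)))) (.both (.play 194 (.ref 293 128)) (.both (.play 198 (.ref 469 129)) (.both (.play 194 (.both (.play 198 (.ref 65 129)) (.play 262 (.ref 0 194)))) (.play 194 (.ref 232 192))))))) (.both (.play 132 (.ref 24 4)) (.both (.play 198 (.both (.play 389 (.both (.play 134 (.ref 5 133)) (.ref 217 196))) (.both (.play 389 (.ref 343 133)) (.play 259 (.both (.ref 238 194) (.both (.play 258 (.both (.play 195 (.ref 1 194)) (.play 260 (.ref 0 258)))) (.play 260 (.both (.play 199 (.ref 1 195)) (.play 327 (.ref 229 259)))))))))) (.play 389 (.both (.play 132 (.ref 7 132)) (.ref 9 133))))))) (.both (.play 390 (.ref 50 197)) (.both (.play 390 (.ref 149 197)) (.play 390 (.ref 341 197)))))) (.both (.ref 355 2) (.both (.play 390 (.ref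 342 133)) (.both (.play 390 (.ref 51 133)) (.play 390 (.ref 151 133))))))) (.both (.ref 468 0) (.both (.ref 377 2) (.both (.play 260 (.both (.play 259 (.both (.ref 462 64) (.both (.play 322 (.both (.play 262 (.both (.play 198 (.both (.play 134 (.ref 33 69)) (.play 199 (.ref 2 195)))) (.play 323 (.ref 1 258)))) (.both (.play 321 (.both (.play 323 (.ref 458 256)) (.play 258 (.ref 1 257)))) (.play 258 (.ref 419 257))))) (.both (.play 194 (.both (.play 262 (.both (.play 326 (.ref 457 66)) (.play 195 (.ref 3 194)))) (.both (.play 195 (.ref 100 192)) (.play 258 (.ref 456 193))))) (.both (.play 262 (.both (.ref 455 66) (.play 198 (.both (.play 389 (.ref 186 69)) (.play 199 (.ref 2 195)))))) (.ref 453 192)))))) (.both (.play 327 (.both (.play 324 (.both (.play 388 (.both (.play 196 (.both (.ref 452 67) (.both (.play 132 (.ref 109 68)) (.play 452 (.both (.play 453 (.both (.play 389 (.ref 7 196)) (.play 517 (.ref 4 260)))) (.play 516 (.ref 5 260))))))) (.play 387 (.ref 1 323)))) (.play 391 (.both (.play 323 (.both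 (.play 322 (.ref 154 257)) (.play 390 (.ref 0 323)))) (.play 392 (.ref 0 324)))))) (.play 328 (.ref 3 260)))) (.both (.play 327 (.ref 100 258)) (.play 327 (.ref 58 258)))))) (.both (.play 197 (.both (.ref 451 68) (.both (.play 390 (.both (.play 389 (.both (.ref 311 131) (.both (.play 196 (.ref 450 132)) (.ref 402 132)))) (.both (.play 454 (.ref 149 197)) (.play 454 (.ref 50 197))))) (.both (.play 390 (.ref 342 133)) (.both (.play 390 (.ref 51 133)) (.play 390 (.ref 151 133))))))) (.both (.ref 405 130) (.both (.play 327 (.both (.ref 448 194) (.both (.play 260 (.ref 100 258)) (.play 328 (.both (.play 389 (.ref 449 260)) (.both (.ref 330 261) (.play 392 (.ref 232 323)))))))) (.play 327 (.both (.ref 448 194) (.both (.play 260 (.ref 100 258)) (.play 328 (.both (.play 392 (.both (.play 324 (.both (.ref 447 258) (.play 391 (.ref 0 324)))) (.play 393 (.ref 0 325)))) (.both (.play 329 (.both (.ref 446 260) (.both (.ref 357 262) (.ref 42 325)))) (.both (.play 329 (.both (.ref 446 260) (.play 262 (.ref 3 261))))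 (.both (.ref 322 261) (.play 329 (.both (.play 262 (.ref 3 261)) (.ref 70 262))))))))))))))))))))
 (.one (.both (.ref 107 0) (.play 133 (.ref 0 65)))))
 (.seq (.one (.play 196 (.both (.play 3 (.ref 4 3)) (.play 193 (.ref 471 128)))))
 (.seq (.one (.both (.play 258 (.both (.play 194 (.both (.play 3 (.ref 6 2)) (.play 193 (.ref 193 192)))) (.play 322 (.ref 6 66)))) (.play 324 (.ref 4 67))))
 (.one (.both (.play 64 (.ref 5 0)) (.play 129 (.ref 6 0)))))))
 (.seq (.seq (.one (.both (.play 2 (.ref 1 0)) (.play 66 (.ref 2 0))))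
 (.one (.play 129 (.both (.play 68 (.both (.play 1 (.ref 112 0)) (.play 128 (.ref 1 64)))) (.play 193 (.both (.play 257 (.ref 5 1)) (.play 192 (.ref 475 128))))))))
 (.seq (.one (.play 4 (.both (.play 3 (.ref 2 0)) (.play 132 (.both (.play 68 (.ref 272 1)) (.play 131 (.ref 0 64)))))))
 (.seq (.one (.play 68 (.both (.play 5 (.both (.play 131 (.both (.ref 242 2) (.play 132 (.ref 0 64)))) (.play 4 (.ref 2 1)))) (.both (.ref 477 1) (.both (.play 69 (.both (.ref 45 1) (.ref 163 66))) (.ref 42 64))))))
 (.one (.both (.play 450 (.both (.play 194 (.both (.ref 269 1) (.ref 34 194))) (.both (.ref 206 257) (.ref 17 257)))) (.both (.ref 221 64) (.both (.play 193 (.ref 24 65)) (.play 450 (.ref 450 193))))))))))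
 (.seq (.seq (.seq (.one (.both (.play 0 (.ref 3 0)) (.ref 317 1)))
 (.one (.both (.ref 348 0) (.play 257 (.ref 5 1)))))
 (.seq (.one (.play 257 (.both (.play 64 (.ref 116 0)) (.play 2 (.ref 5 1)))))
 (.seq (.one (.play 65 (.both (.play 64 (.ref 2 0)) (.play 5 (.ref 262 1)))))
 (.one (.play 68 (.both (.play 0 (.ref 3 0)) (.ref 98 1)))))))
 (.seq (.seq (.one (.play 65 (.both (.ref 484 0) (.play 258 (.ref 7 1)))))
 (.seq (.one (.play 130 (.both (.play 196 (.both (.play 132 (.ref 175 3)) (.both (.play 197 (.both (.ref 157 128) (.both (.play 194 (.ref 67 129)) (.ref 98 130)))) (.both (.ref 485 129) (.ref 459 130))))) (.both (.play 194 (.ref 24 2)) (.both (.ref 23 2) (.play 131 (.ref 379 65)))))))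
 (.one (.play 65 (.both (.play 0 (.ref 7 0)) (.play 322 (.ref 4 65)))))))
 (.seq (.one (.play 65 (.both (.play 193 (.both (.play 1 (.ref 6 0)) (.play 384 (.ref 5 128)))) (.play 128 (.ref 5 64)))))
 (.seq (.one (.play 195 (.both (.play 132 (.both (.ref 488 3) (.both (.play 131 (.ref 374 67)) (.play 387 (.both (.play 196 (.ref 5 131)) (.play 386 (.both (.play 450 (.ref 6 194)) (.play 385 (.ref 60 320))))))))) (.both (.play 130 (.both (.play 194 (.ref 24 2)) (.both (.ref 487 66) (.play 387 (.both (.play 388 (.ref 386 128)) (.play 194 (.ref 7 130))))))) (.both (.ref 486 0) (.both (.ref 368 2) (.play 387 (.both (.ref 55 128) (.both (.play 194 (.ref 450 130)) (.play 386 (.ref 441 192)))))))))))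
 (.one (.both (.play 0 (.ref 3 0)) (.play 64 (.ref 2 0)))))))))
 (.seq (.seq (.seq (.seq (.one (.play 194 (.both (.play 258 (.ref 6 2)) (.play 193 (.ref 490 128)))))
 (.one (.play 129 (.both (.play 65 (.ref 101 0)) (.play 385 (.ref 119 128))))))
 (.seq (.one (.play 4 (.both (.play 67 (.ref 2 0)) (.play 2 (.ref 105 0)))))
 (.seq (.one (.play 390 (.both (.play 325 (.both (.play 323 (.both (.play 259 (.both (.play 198 (.both (.play 197 (.both (.play 134 (.ref 175 5)) (.play 260 (.both (.play 199 (.ref 105 195)) (.play 258 (.ref 0 258)))))) (.both (.play 134 (.both (.play 70 (.ref 176 5)) (.both (.play 197 (.ref 175 5)) (.both (.play 262 (.ref 258 69)) (.play 389 (.ref 474 133)))))) (.both (.play 260 (.both (.play 262 (.ref 334 67)) (.play 258 (.ref 0 258)))) (.play 260 (.both (.ref 493 195) (.play 258 (.ref 0 258)))))))) (.both (.play 387 (.both (.ref 492 66) (.both (.play 195 (.both (.play 131 (.ref 101 66)) (.both (.play 131 (.ref 465 66)) (.play 451 (.ref 415 131))))) (.play 324 (.ref 419 322))))) (.play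 324 (.ref 456 258))))) (.both (.play 197 (.both (.play 389 (.both (.play 198 (.both (.play 196 (.both (.play 132 (.ref 7 132)) (.play 453 (.both (.play 260 (.ref 7 196)) (.play 262 (.ref 6 197)))))) (.play 134 (.ref 5 133)))) (.ref 491 194))) (.play 133 (.ref 4 133)))) (.both (.play 324 (.ref 293 257)) (.both (.play 324 (.both (.ref 394 257) (.play 391 (.ref 0 323)))) (.play 324 (.ref 471 258))))))) (.both (.ref 489 2) (.both (.play 197 (.both (.play 260 (.both (.play 198 (.both (.play 134 (.ref 186 5)) (.both (.ref 482 132) (.ref 483 194)))) (.both (.play 198 (.both (.play 134 (.ref 186 5)) (.both (.play 199 (.both (.play 196 (.both (.play 132 (.ref 184 68)) (.ref 310 132))) (.play 200 (.ref 1 196)))) (.both (.ref 482 132) (.ref 442 132))))) (.both (.play 327 (.ref 100 258)) (.play 327 (.ref 58 258)))))) (.play 133 (.ref 4 133)))) (.both (.play 324 (.both (.play 260 (.both (.play 323 (.both (.play 387 (.both (.play 196 (.ref 33 131)) (.both (.play 196 (.ref 178 131)) (.play 386 (.ref 83 320))))) (.play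 322 (.ref 154 257)))) (.both (.play 327 (.both (.play 387 (.both (.play 323 (.both (.play 322 (.ref 154 257)) (.play 386 (.ref 1 322)))) (.play 388 (.ref 1 323)))) (.play 328 (.ref 3 260)))) (.play 327 (.ref 112 259))))) (.both (.play 323 (.ref 471 258)) (.both (.play 327 (.both (.play 260 (.ref 112 259)) (.both (.ref 183 259) (.ref 161 323)))) (.play 391 (.ref 87 323)))))) (.both (.play 197 (.both (.play 389 (.both (.play 198 (.both (.play 134 (.ref 5 133)) (.play 262 (.ref 481 196)))) (.ref 53 195))) (.play 133 (.ref 4 133)))) (.play 327 (.both (.ref 448 194) (.both (.play 328 (.both (.play 324 (.both (.ref 395 257) (.ref 42 324))) (.both (.ref 273 261) (.both (.ref 330 261) (.ref 276 261))))) (.both (.play 260 (.ref 100 258)) (.play 328 (.ref 480 260)))))))))))) (.both (.play 262 (.ref 479 4)) (.both (.play 262 (.ref 228 67)) (.both (.play 197 (.ref 73 69)) (.both (.play 325 (.both (.play 197 (.ref 51 133)) (.both (.play 324 (.both (.play 388 (.both (.play 452 (.both (.play 260 (.ref 464 194)) (.play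 516 (.ref 5 260)))) (.play 387 (.ref 90 321)))) (.both (.play 327 (.both (.ref 397 195) (.both (.play 260 (.ref 112 259)) (.ref 478 260)))) (.both (.ref 453 257) (.play 391 (.ref 87 323)))))) (.play 454 (.both (.play 391 (.both (.play 392 (.both (.play 389 (.both (.ref 240 196) (.both (.ref 241 260) (.play 388 (.both (.ref 247 322) (.ref 43 387)))))) (.play 393 (.ref 3 325)))) (.both (.play 324 (.both (.ref 476 259) (.play 323 (.ref 0 323)))) (.both (.play 392 (.ref 100 323)) (.play 392 (.ref 58 323)))))) (.play 518 (.ref 7 261))))))) (.play 454 (.both (.play 453 (.both (.play 455 (.both (.play 262 (.ref 251 197)) (.both (.play 519 (.both (.play 262 (.ref 4 262)) (.ref 204 386))) (.play 452 (.both (.play 388 (.both (.play 516 (.both (.play 325 (.ref 474 260)) (.play 515 (.ref 1 451)))) (.play 387 (.ref 3 387)))) (.play 391 (.ref 154 387))))))) (.both (.play 262 (.ref 400 195)) (.both (.play 452 (.both (.play 391 (.both (.play 516 (.both (.play 325 (.both (.play 324 (.both (.play 388 (.ref 5 260)) (.play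 323 (.ref 0 323)))) (.play 389 (.ref 6 260)))) (.play 515 (.ref 83 449)))) (.both (.play 392 (.ref 59 388)) (.play 392 (.ref 105 388))))) (.both (.play 451 (.both (.ref 196 385) (.both (.ref 194 385) (.play 455 (.ref 65 386))))) (.both (.play 391 (.ref 106 387)) (.play 391 (.ref 60 387)))))) (.play 517 (.ref 178 261)))))) (.both (.play 519 (.both (.play 518 (.ref 473 259)) (.both (.play 453 (.both (.ref 472 259) (.both (.ref 259 261) (.both (.play 517 (.ref 33 261)) (.play 452 (.both (.ref 107 387) (.both (.play 455 (.ref 390 387)) (.ref 319 452)))))))) (.both (.play 455 (.ref 151 262)) (.ref 150 326))))) (.both (.play 518 (.both (.play 519 (.both (.play 453 (.both (.play 455 (.both (.play 262 (.ref 4 262)) (.play 452 (.ref 63 451)))) (.both (.ref 259 261) (.play 520 (.ref 58 451))))) (.play 583 (.ref 4 326)))) (.play 325 (.ref 7 261)))) (.both (.ref 25 261) (.both (.play 518 (.both (.play 325 (.ref 7 261)) (.play 583 (.both (.play 582 (.both (.ref 372 325) (.play 647 (.ref 4 390)))) (.play 519 (.ref 4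 326)))))) (.play 518 (.both (.play 325 (.ref 7 261)) (.play 581 (.both (.play 517 (.ref 6 325)) (.ref 31 325))))))))))))))))))
 (.one (.both (.play 0 (.ref 3 0)) (.ref 322 1))))))
 (.seq (.seq (.one (.play 65 (.both (.play 64 (.ref 2 0)) (.play 132 (.ref 0 65)))))
 (.one (.play 259 (.both (.play 66 (.ref 109 2)) (.play 260 (.ref 0 192))))))
 (.seq (.one (.play 192 (.both (.play 257 (.ref 4 0)) (.play 256 (.ref 5 0)))))
 (.seq (.one (.play 195 (.both (.play 259 (.ref 4 2)) (.play 192 (.ref 2 128)))))
 (.one (.play 257 (.both (.play 1 (.ref 119 0)) (.play 2 (.ref 5 1)))))))))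
 (.seq (.seq (.seq (.one (.both (.play 0 (.ref 7 0)) (.play 132 (.ref 3 64))))
 (.one (.play 321 (.both (.play 129 (.both (.play 65 (.ref 415 1)) (.play 128 (.ref 501 64)))) (.both (.play 130 (.ref 186 1)) (.both (.play 130 (.ref 175 1)) (.ref 463 128)))))))
 (.seq (.one (.both (.play 129 (.both (.ref 141 1) (.play 128 (.ref 3 128)))) (.play 256 (.ref 1 192))))
 (.seq (.one (.play 325 (.both (.ref 377 2) (.both (.play 260 (.both (.play 259 (.both (.play 323 (.both (.play 262 (.ref 503 66)) (.both (.ref 502 66) (.both (.play 387 (.both (.play 386 (.both (.play 450 (.ref 178 194)) (.play 324 (.ref 83 320)))) (.both (.play 451 (.ref 124 194)) (.both (.ref 500 194) (.play 451 (.ref 122 195)))))) (.play 322 (.ref 83 256)))))) (.play 258 (.ref 0 258)))) (.both (.play 324 (.both (.play 196 (.both (.play 388 (.both (.ref 452 67) (.ref 92 195))) (.both (.play 132 (.ref 109 68)) (.play 388 (.both (.play 387 (.both (.play 326 (.both (.ref 499 194) (.play 327 (.ref 1 323)))) (.play 451 (.ref 6 195)))) (.both (.ref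 92 195) (.play 453 (.both (.play 389 (.ref 7 196)) (.ref 498 260))))))))) (.both (.play 323 (.both (.play 387 (.both (.play 196 (.ref 33 131)) (.play 386 (.ref 1 322)))) (.play 322 (.ref 154 257)))) (.play 391 (.both (.play 262 (.both (.play 390 (.both (.play 198 (.ref 260 133)) (.play 323 (.ref 0 323)))) (.both (.play 455 (.ref 73 134)) (.both (.ref 107 259) (.play 263 (.ref 60 259)))))) (.both (.play 327 (.both (.play 263 (.both (.play 262 (.both (.play 455 (.ref 116 198)) (.play 323 (.ref 2 259)))) (.play 264 (.ref 2 260)))) (.play 392 (.ref 0 324)))) (.both (.play 390 (.ref 135 323)) (.ref 319 324)))))))) (.both (.play 327 (.ref 100 258)) (.play 327 (.ref 58 258)))))) (.both (.play 327 (.both (.play 260 (.both (.play 390 (.both (.play 324 (.both (.play 262 (.both (.play 196 (.both (.play 132 (.ref 109 68)) (.play 263 (.both (.play 195 (.ref 3 195)) (.play 264 (.ref 2 260)))))) (.ref 497 132))) (.both (.play 263 (.both (.play 323 (.both (.ref 496 257) (.play 262 (.ref 2 259)))) (.play 264 (.ref 2 260))))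 (.play 391 (.ref 63 323))))) (.both (.play 454 (.ref 15 133)) (.play 197 (.ref 51 133))))) (.both (.play 259 (.ref 99 258)) (.play 259 (.ref 57 258))))) (.both (.ref 335 68) (.both (.play 260 (.ref 58 258)) (.play 328 (.ref 495 260)))))) (.both (.play 197 (.both (.ref 451 68) (.both (.play 390 (.both (.play 389 (.both (.play 196 (.both (.play 262 (.both (.play 198 (.both (.play 134 (.ref 5 133)) (.play 263 (.ref 193 195)))) (.both (.play 391 (.both (.play 198 (.both (.play 134 (.ref 5 133)) (.play 455 (.ref 4 198)))) (.play 324 (.ref 193 323)))) (.play 195 (.ref 135 194))))) (.play 132 (.ref 7 132)))) (.both (.play 196 (.ref 450 132)) (.ref 402 132)))) (.both (.play 454 (.ref 149 197)) (.play 454 (.ref 50 197))))) (.both (.play 390 (.ref 342 133)) (.both (.play 390 (.ref 51 133)) (.play 390 (.ref 151 133))))))) (.both (.ref 405 130) (.ref 399 193))))))))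
 (.one (.play 259 (.both (.play 4 (.ref 5 3)) (.play 260 (.ref 0 192))))))))
 (.seq (.seq (.one (.play 322 (.both (.play 64 (.both (.play 0 (.ref 7 0)) (.ref 217 64))) (.play 258 (.ref 4 65)))))
 (.seq (.one (.both (.play 0 (.ref 0 0)) (.play 64 (.ref 1 0))))
 (.one (.play 0 (.both (.play 66 (.ref 3 0)) (.play 2 (.ref 0 0)))))))
 (.seq (.one (.both (.play 258 (.ref 6 2)) (.play 192 (.ref 2 128))))
 (.seq (.one (.play 129 (.both (.play 65 (.ref 101 0)) (.both (.play 65 (.ref 152 0)) (.play 385 (.ref 338 64))))))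
 (.one (.play 195 (.both (.ref 510 2) (.both (.play 387 (.both (.play 321 (.both (.play 385 (.both (.play 257 (.both (.play 449 (.both (.play 194 (.both (.play 130 (.ref 7 130)) (.play 258 (.ref 5 193)))) (.play 450 (.both (.play 386 (.ref 6 194)) (.play 514 (.ref 4 257)))))) (.both (.play 388 (.both (.play 452 (.ref 4 195)) (.play 322 (.ref 456 256)))) (.ref 508 256)))) (.both (.play 386 (.ref 509 192)) (.play 388 (.both (.play 452 (.ref 4 195)) (.play 322 (.ref 419 320))))))) (.both (.play 194 (.both (.play 130 (.ref 7 130)) (.play 260 (.both (.play 261 (.ref 58 192)) (.both (.play 261 (.both (.play 262 (.ref 3 194)) (.play 322 (.ref 2 257)))) (.play 257 (.both (.ref 508 256) (.both (.play 320 (.ref 475 256)) (.both (.play 258 (.ref 507 256)) (.play 322 (.ref 490 256))))))))))) (.both (.play 388 (.both (.ref 491 192) (.play 452 (.ref 4 195)))) (.play 388 (.both (.play 452 (.ref 4 195)) (.play 322 (.ref 63 320)))))))) (.both (.play 194 (.ref 450 130)) (.both (.ref 506 130) (.ref 17 194))))) (.both (.play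 388 (.ref 342 131)) (.play 388 (.ref 151 131)))))))))))))))
 (.seq (.seq (.seq (.seq (.seq (.seq (.seq (.one (.play 66 (.both (.play 65 (.ref 52 0)) (.play 259 (.ref 7 2)))))
 (.one (.play 131 (.both (.ref 382 2) (.both (.ref 12 3) (.play 130 (.both (.play 132 (.both (.play 68 (.ref 5 67)) (.ref 512 128))) (.play 66 (.ref 7 66)))))))))
 (.seq (.one (.play 69 (.both (.ref 322 2) (.both (.ref 276 2) (.play 65 (.ref 44 64))))))
 (.seq (.one (.play 66 (.both (.play 6 (.ref 2 2)) (.ref 321 64))))
 (.one (.play 67 (.both (.ref 328 0) (.play 258 (.ref 258 2))))))))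
 (.seq (.seq (.one (.play 259 (.both (.ref 516 0) (.play 260 (.ref 0 192)))))
 (.one (.play 194 (.both (.ref 517 2) (.both (.play 257 (.both (.play 193 (.both (.play 132 (.ref 1 129)) (.play 256 (.ref 1 192)))) (.play 258 (.ref 1 193)))) (.play 261 (.ref 232 192)))))))
 (.seq (.one (.play 131 (.both (.play 134 (.both (.play 198 (.both (.play 70 (.ref 137 5)) (.play 199 (.ref 0 131)))) (.both (.ref 478 67) (.ref 430 67)))) (.both (.ref 453 64) (.both (.play 134 (.both (.ref 71 65) (.ref 430 67))) (.play 198 (.ref 87 130)))))))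
 (.seq (.one (.play 5 (.both (.play 1 (.both (.play 0 (.ref 3 0)) (.ref 316 1))) (.play 4 (.ref 2 1)))))
 (.one (.play 257 (.both (.play 64 (.ref 109 0)) (.play 196 (.ref 1 192)))))))))
 (.seq (.seq (.seq (.one (.both (.play 257 (.both (.ref 521 1) (.play 256 (.ref 1 192)))) (.play 128 (.ref 3 128))))
 (.one (.play 132 (.both (.ref 476 0) (.both (.play 133 (.ref 86 65)) (.play 133 (.ref 134 65)))))))
 (.seq (.one (.play 256 (.both (.play 1 (.both (.play 193 (.ref 6 0)) (.play 64 (.ref 5 0)))) (.play 320 (.ref 5 64)))))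
 (.seq (.one (.play 68 (.both (.play 69 (.ref 3 1)) (.play 128 (.ref 1 64)))))
 (.one (.play 131 (.both (.play 198 (.both (.play 195 (.both (.play 67 (.both (.play 259 (.ref 93 3)) (.ref 525 66))) (.both (.ref 524 3) (.play 194 (.ref 83 128))))) (.both (.play 199 (.ref 86 131)) (.play 199 (.ref 134 131))))) (.both (.play 195 (.both (.ref 524 3) (.play 194 (.ref 90 128)))) (.both (.play 198 (.ref 135 130)) (.play 198 (.ref 87 130))))))))))
 (.seq (.seq (.one (.play 5 (.both (.play 69 (.both (.ref 64 0) (.play 6 (.ref 2 2)))) (.play 4 (.ref 2 1)))))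
 (.seq (.one (.both (.play 131 (.ref 334 0)) (.play 260 (.ref 0 192))))
 (.one (.play 196 (.both (.play 260 (.ref 528 1)) (.both (.ref 527 128) (.play 261 (.both (.play 197 (.both (.ref 64 128) (.play 262 (.ref 0 194)))) (.play 260 (.ref 0 193))))))))))
 (.seq (.one (.play 195 (.both (.ref 462 0) (.both (.ref 529 2) (.both (.play 194 (.both (.ref 387 128) (.play 262 (.ref 0 194)))) (.play 262 (.ref 87 194)))))))
 (.seq (.one (.play 195 (.both (.ref 529 2) (.both (.play 194 (.both (.ref 140 128) (.both (.play 130 (.ref 277 129)) (.ref 332 129)))) (.play 262 (.ref 135 194))))))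
 (.one (.play 3 (.both (.play 64 (.ref 2 0)) (.play 70 (.ref 112 2))))))))))
 (.seq (.seq (.seq (.seq (.one (.play 390 (.both (.play 262 (.both (.play 197 (.both (.play 198 (.both (.play 391 (.both (.play 134 (.both (.ref 308 5) (.play 327 (.ref 4 134)))) (.play 455 (.ref 4 198)))) (.play 133 (.ref 7 133)))) (.both (.ref 526 129) (.both (.play 133 (.ref 341 133)) (.play 260 (.both (.play 259 (.both (.ref 144 192) (.both (.play 258 (.both (.ref 194 192) (.both (.ref 64 193) (.ref 532 193)))) (.both (.ref 169 193) (.play 323 (.both (.play 263 (.both (.play 196 (.ref 112 195)) (.play 324 (.ref 1 259)))) (.play 322 (.ref 1 258)))))))) (.both (.play 259 (.ref 471 194)) (.both (.ref 523 195) (.play 327 (.ref 87 259)))))))))) (.both (.ref 531 65) (.both (.ref 530 65) (.both (.ref 410 66) (.both (.play 198 (.both (.ref 431 69) (.both (.play 391 (.ref 473 131)) (.ref 220 132)))) (.both (.play 197 (.both (.ref 526 129) (.both (.play 198 (.both (.play 391 (.both (.play 327 (.both (.play 134 (.ref 4 134)) (.play 389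 (.both (.play 453 (.ref 6 197)) (.play 328 (.both (.play 329 (.ref 3 261)) (.play 388 (.ref 2 324)))))))) (.play 455 (.ref 4 198)))) (.play 133 (.ref 7 133)))) (.both (.play 133 (.ref 341 133)) (.play 260 (.both (.play 259 (.ref 390 194)) (.both (.play 263 (.both (.play 199 (.ref 197 194)) (.both (.play 324 (.ref 437 195)) (.both (.play 264 (.both (.ref 330 197) (.ref 43 259))) (.play 264 (.both (.ref 45 196) (.ref 330 197))))))) (.ref 523 195)))))))) (.play 260 (.both (.play 263 (.both (.ref 425 132) (.play 264 (.ref 65 195)))) (.both (.play 263 (.ref 469 194)) (.both (.play 327 (.ref 135 259)) (.play 327 (.ref 87 259))))))))))))) (.both (.play 262 (.both (.play 260 (.both (.play 195 (.both (.play 324 (.both (.play 131 (.ref 73 3)) (.both (.ref 461 131) (.both (.ref 98 195) (.play 323 (.ref 90 257)))))) (.both (.play 259 (.ref 522 66)) (.both (.ref 157 193) (.play 196 (.ref 100 193)))))) (.both (.play 263 (.both (.ref 425 132) (.both (.ref 520 195) (.ref 414 195)))) (.both (.ref 453 193) (.play 327 (.ref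 87 259)))))) (.both (.ref 519 129) (.play 454 (.ref 18 197))))) (.both (.play 262 (.both (.ref 422 65) (.both (.ref 427 67) (.play 453 (.both (.play 391 (.both (.play 389 (.ref 388 194)) (.both (.play 455 (.both (.play 198 (.ref 4 198)) (.play 454 (.ref 180 259)))) (.both (.ref 202 197) (.play 452 (.ref 354 386)))))) (.both (.play 454 (.ref 400 195)) (.both (.play 517 (.ref 176 197)) (.both (.play 389 (.ref 178 197)) (.ref 440 261))))))))) (.both (.ref 148 128) (.ref 120 133)))))))
 (.one (.both (.ref 340 0) (.both (.play 194 (.ref 100 192)) (.play 194 (.ref 58 192))))))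
 (.seq (.one (.play 320 (.both (.play 66 (.both (.play 2 (.ref 5 1)) (.ref 371 64))) (.play 256 (.ref 6 64)))))
 (.seq (.one (.play 129 (.both (.ref 19 1) (.both (.play 320 (.ref 39 64)) (.ref 535 64)))))
 (.one (.play 197 (.both (.play 133 (.both (.ref 19 5) (.both (.play 262 (.both (.play 69 (.ref 4 69)) (.play 196 (.both (.ref 460 132) (.both (.play 195 (.ref 87 194)) (.play 195 (.ref 135 194))))))) (.play 134 (.both (.play 70 (.ref 5 69)) (.play 196 (.both (.ref 263 131) (.both (.play 198 (.both (.play 135 (.ref 52 131)) (.play 389 (.ref 5 133)))) (.both (.play 135 (.both (.play 132 (.both (.play 195 (.ref 1 131)) (.play 389 (.ref 7 132)))) (.play 136 (.ref 1 132)))) (.ref 225 132)))))))))) (.both (.play 196 (.ref 426 64)) (.both (.play 390 (.ref 51 133)) (.play 390 (.ref 151 133))))))))))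
 (.seq (.seq (.one (.both (.play 65 (.ref 109 1)) (.play 256 (.ref 1 192))))
 (.one (.play 65 (.both (.ref 245 1) (.play 132 (.ref 193 64))))))
 (.seq (.one (.play 67 (.both (.play 258 (.both (.ref 436 0) (.play 322 (.ref 5 66)))) (.play 68 (.ref 2 64)))))
 (.seq (.one (.play 196 (.both (.play 132 (.both (.play 68 (.ref 258 3)) (.play 133 (.both (.play 69 (.ref 5 68)) (.play 194 (.ref 60 129)))))) (.both (.play 194 (.both (.play 197 (.both (.ref 540 66) (.both (.ref 243 130) (.play 262 (.both (.play 261 (.ref 3 194)) (.ref 234 195)))))) (.both (.play 197 (.both (.play 193 (.both (.ref 64 128) (.play 192 (.ref 0 192)))) (.ref 243 130))) (.play 193 (.ref 63 192))))) (.play 389 (.both (.play 323 (.both (.ref 472 129) (.both (.ref 259 131) (.both (.play 387 (.ref 33 131)) (.play 390 (.ref 88 321)))))) (.both (.play 388 (.ref 125 130)) (.both (.play 453 (.ref 72 132)) (.both (.play 325 (.ref 151 132)) (.ref 150 196))))))))))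
 (.one (.both (.play 0 (.ref 3 0)) (.play 258 (.ref 7 1))))))))
 (.seq (.seq (.seq (.one (.play 69 (.both (.play 66 (.both (.play 2 (.ref 542 1)) (.play 65 (.ref 44 64)))) (.both (.ref 201 2) (.both (.play 130 (.ref 83 64)) (.play 130 (.ref 90 64)))))))
 (.one (.both (.play 66 (.both (.play 2 (.ref 7 2)) (.ref 512 64))) (.play 4 (.ref 5 3)))))
 (.seq (.one (.play 258 (.both (.play 257 (.both (.ref 26 0) (.play 322 (.ref 4 65)))) (.play 194 (.ref 4 1)))))
 (.seq (.one (.play 257 (.both (.ref 26 0) (.play 321 (.ref 415 1)))))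
 (.one (.play 257 (.both (.ref 26 0) (.play 66 (.ref 93 1))))))))
 (.seq (.seq (.one (.play 66 (.both (.play 2 (.ref 7 2)) (.play 65 (.ref 99 64)))))
 (.seq (.one (.play 129 (.both (.ref 35 1) (.play 384 (.ref 6 128)))))
 (.one (.play 5 (.both (.play 3 (.ref 458 0)) (.play 68 (.ref 2 1)))))))
 (.seq (.one (.play 64 (.both (.play 3 (.ref 2 0)) (.play 132 (.ref 0 64)))))
 (.seq (.one (.play 1 (.both (.play 0 (.ref 3 0)) (.play 129 (.ref 449 0)))))
 (.one (.play 129 (.both (.play 65 (.ref 101 0)) (.both (.play 322 (.ref 109 65)) (.play 385 (.ref 415 65))))))))))))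
 (.seq (.seq (.seq (.seq (.seq (.one (.play 195 (.both (.ref 115 0) (.play 259 (.ref 4 2)))))
 (.one (.play 129 (.both (.ref 383 0) (.both (.ref 19 1) (.play 385 (.ref 101 64)))))))
 (.seq (.one (.play 453 (.both (.play 325 (.both (.play 323 (.both (.play 259 (.both (.play 195 (.both (.ref 555 2) (.both (.play 387 (.both (.play 451 (.ref 152 130)) (.both (.play 451 (.ref 465 130)) (.ref 554 193)))) (.both (.play 388 (.ref 342 131)) (.both (.play 388 (.ref 51 131)) (.play 388 (.ref 151 131))))))) (.both (.play 387 (.both (.play 258 (.ref 466 66)) (.both (.play 386 (.ref 173 192)) (.play 326 (.ref 304 258))))) (.both (.play 387 (.both (.ref 553 66) (.both (.play 386 (.ref 284 194)) (.play 386 (.ref 83 320))))) (.play 258 (.ref 100 256)))))) (.both (.play 322 (.ref 293 256)) (.both (.play 322 (.both (.ref 552 257) (.play 390 (.ref 0 322)))) (.play 322 (.ref 232 320)))))) (.both (.play 262 (.both (.play 323 (.both (.play 326 (.ref 66 131)) (.both (.play 322 (.ref 293 256)) (.play 326 (.both (.ref 71 257) (.play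 263 (.ref 2 259))))))) (.both (.play 261 (.both (.play 454 (.both (.play 197 (.both (.play 388 (.ref 258 132)) (.play 390 (.ref 4 197)))) (.play 518 (.ref 4 261)))) (.play 198 (.ref 5 197)))) (.both (.ref 128 133) (.both (.play 323 (.both (.play 263 (.both (.play 261 (.both (.play 197 (.ref 119 196)) (.play 264 (.ref 1 260)))) (.play 326 (.ref 2 259)))) (.both (.play 322 (.ref 293 256)) (.both (.ref 551 258) (.ref 550 258))))) (.play 261 (.ref 315 194))))))) (.both (.play 260 (.both (.play 452 (.both (.ref 549 132) (.both (.play 326 (.both (.play 388 (.both (.ref 548 193) (.play 451 (.ref 191 257)))) (.both (.play 259 (.ref 100 257)) (.play 388 (.both (.play 451 (.ref 191 257)) (.play 327 (.ref 41 323))))))) (.both (.ref 199 256) (.play 516 (.ref 178 260)))))) (.both (.play 196 (.ref 22 132)) (.play 196 (.ref 14 132))))) (.both (.play 262 (.both (.play 326 (.ref 62 131)) (.both (.ref 128 133) (.both (.play 261 (.both (.play 198 (.ref 5 197)) (.play 323 (.ref 106 258)))) (.play 263 (.ref 354 258)))))) (.ref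 215 131)))))) (.both (.play 325 (.ref 228 130)) (.both (.play 388 (.both (.play 260 (.both (.play 517 (.both (.play 387 (.both (.play 390 (.both (.play 326 (.ref 66 195)) (.ref 104 258))) (.both (.play 451 (.ref 146 256)) (.both (.ref 204 320) (.play 454 (.ref 87 386)))))) (.play 581 (.ref 7 324)))) (.play 196 (.ref 4 196)))) (.both (.play 451 (.both (.play 387 (.both (.play 260 (.both (.play 196 (.ref 4 196)) (.play 515 (.ref 96 259)))) (.play 450 (.ref 90 384)))) (.both (.play 260 (.both (.play 196 (.ref 4 196)) (.play 452 (.ref 191 257)))) (.both (.play 260 (.both (.play 196 (.ref 4 196)) (.ref 440 259))) (.play 450 (.both (.ref 353 384) (.both (.play 387 (.ref 90 384)) (.both (.play 452 (.ref 154 385)) (.play 390 (.both (.play 387 (.ref 1 386)) (.play 452 (.ref 2 386)))))))))))) (.both (.play 260 (.ref 51 196)) (.play 517 (.both (.play 387 (.both (.play 451 (.both (.play 390 (.both (.ref 425 259) (.play 450 (.ref 1 386)))) (.both (.play 515 (.both (.play 579 (.ref 5 323)) (.play 452 (.both (.ref 247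 385) (.ref 525 386))))) (.both (.play 515 (.both (.play 579 (.ref 5 323)) (.play 454 (.both (.play 455 (.ref 86 387)) (.play 514 (.ref 475 450)))))) (.play 450 (.ref 83 384)))))) (.both (.ref 424 320) (.both (.play 454 (.ref 135 386)) (.play 454 (.ref 87 386)))))) (.play 581 (.ref 7 324)))))))) (.both (.play 517 (.both (.play 325 (.both (.ref 35 197) (.both (.play 326 (.both (.play 327 (.both (.play 323 (.both (.play 322 (.both (.ref 64 257) (.play 390 (.ref 0 322)))) (.ref 43 322))) (.both (.play 328 (.both (.ref 45 260) (.ref 160 325))) (.play 388 (.ref 41 323))))) (.play 262 (.ref 5 261)))) (.ref 40 260)))) (.both (.ref 21 260) (.both (.ref 27 260) (.both (.play 580 (.both (.play 516 (.both (.play 581 (.both (.play 390 (.both (.play 326 (.ref 5 325)) (.play 645 (.both (.play 454 (.ref 5 389)) (.play 709 (.ref 116 452)))))) (.play 582 (.both (.play 646 (.ref 4 389)) (.play 515 (.ref 193 514)))))) (.play 325 (.ref 6 324)))) (.both (.play 644 (.ref 176 324)) (.both (.play 516 (.ref 178 324)) (.play 581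 (.both (.ref 10 325) (.play 644 (.ref 6 388)))))))) (.ref 25 324)))))) (.both (.ref 120 196) (.both (.play 517 (.both (.play 325 (.both (.play 518 (.ref 20 197)) (.play 260 (.ref 7 260)))) (.both (.play 260 (.both (.play 388 (.both (.play 196 (.ref 4 196)) (.play 581 (.ref 7 324)))) (.play 325 (.ref 7 260)))) (.play 581 (.both (.play 388 (.ref 7 324)) (.play 645 (.both (.play 582 (.both (.play 646 (.ref 4 389)) (.ref 547 452))) (.both (.ref 34 389) (.both (.ref 546 452) (.ref 223 452)))))))))) (.play 517 (.both (.play 325 (.both (.ref 212 196) (.play 260 (.ref 7 260)))) (.both (.play 388 (.both (.play 260 (.ref 341 260)) (.play 581 (.ref 7 324)))) (.play 581 (.both (.play 388 (.ref 7 324)) (.ref 545 388))))))))))))))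
 (.seq (.one (.play 195 (.both (.ref 421 2) (.both (.ref 391 128) (.both (.play 262 (.ref 135 194)) (.play 262 (.ref 87 194)))))))
 (.one (.play 67 (.both (.play 258 (.both (.play 3 (.ref 5 2)) (.play 322 (.ref 119 65)))) (.play 68 (.ref 59 64))))))))
 (.seq (.seq (.one (.play 258 (.both (.play 194 (.ref 4 1)) (.play 257 (.both (.play 321 (.ref 7 64)) (.play 322 (.ref 4 65)))))))
 (.one (.play 64 (.both (.play 66 (.both (.play 65 (.ref 181 0)) (.play 130 (.ref 5 65)))) (.play 128 (.ref 7 64))))))
 (.seq (.one (.both (.play 132 (.ref 175 3)) (.play 256 (.ref 2 192))))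
 (.seq (.one (.play 197 (.both (.play 198 (.ref 561 2)) (.both (.play 133 (.both (.ref 560 4) (.both (.play 324 (.ref 258 68)) (.play 389 (.both (.ref 26 132) (.both (.play 324 (.both (.play 388 (.ref 6 132)) (.ref 559 196))) (.both (.ref 545 196) (.play 453 (.both (.ref 34 197) (.ref 206 260)))))))))) (.play 258 (.both (.play 198 (.ref 2 194)) (.ref 80 256)))))))
 (.one (.play 259 (.both (.ref 562 0) (.both (.play 326 (.both (.play 197 (.both (.ref 536 4) (.both (.play 133 (.ref 260 68)) (.both (.ref 558 131) (.play 390 (.ref 51 133)))))) (.both (.play 327 (.ref 86 259)) (.play 327 (.ref 134 259))))) (.play 326 (.ref 87 258))))))))))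
 (.seq (.seq (.seq (.one (.play 193 (.both (.play 66 (.both (.ref 524 1) (.both (.play 194 (.both (.play 257 (.ref 137 1)) (.play 133 (.ref 1 129)))) (.both (.play 257 (.both (.play 65 (.both (.play 2 (.ref 5 1)) (.play 133 (.ref 3 65)))) (.play 321 (.ref 5 65)))) (.ref 283 65))))) (.play 192 (.ref 1 128)))))
 (.one (.play 323 (.both (.play 259 (.both (.play 195 (.both (.ref 555 2) (.both (.play 387 (.both (.play 451 (.ref 152 130)) (.both (.play 451 (.ref 415 131)) (.ref 554 193)))) (.both (.play 388 (.ref 342 131)) (.both (.play 388 (.ref 51 131)) (.play 388 (.ref 151 131))))))) (.both (.play 326 (.ref 495 258)) (.ref 162 258)))) (.both (.play 322 (.both (.play 388 (.both (.play 259 (.both (.play 195 (.ref 51 131)) (.both (.play 195 (.ref 151 131)) (.ref 484 258)))) (.play 321 (.ref 0 321)))) (.both (.ref 564 193) (.ref 231 320)))) (.both (.play 390 (.ref 135 322)) (.play 390 (.ref 87 322))))))))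
 (.seq (.one (.play 1 (.both (.play 65 (.ref 490 0)) (.play 2 (.ref 0 1)))))
 (.seq (.one (.play 65 (.both (.play 64 (.ref 2 0)) (.ref 43 64))))
 (.one (.play 256 (.both (.play 192 (.ref 5 0)) (.ref 302 64)))))))
 (.seq (.seq (.one (.play 130 (.both (.play 66 (.both (.play 65 (.ref 379 0)) (.play 2 (.ref 6 1)))) (.both (.play 66 (.ref 258 1)) (.play 322 (.both (.play 321 (.ref 481 128)) (.both (.ref 559 129) (.ref 568 129))))))))
 (.seq (.one (.play 66 (.both (.play 2 (.ref 6 1)) (.ref 348 64))))
 (.one (.play 129 (.both (.play 65 (.both (.play 193 (.both (.play 257 (.both (.play 66 (.ref 93 1)) (.play 256 (.both (.play 320 (.ref 6 64)) (.play 194 (.ref 1 192)))))) (.play 192 (.ref 1 128)))) (.play 64 (.ref 3 64)))) (.play 128 (.ref 0 128)))))))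
 (.seq (.one (.play 193 (.both (.ref 187 0) (.play 192 (.ref 2 128)))))
 (.seq (.one (.play 129 (.both (.ref 452 0) (.both (.play 65 (.ref 109 1)) (.play 385 (.both (.ref 34 129) (.play 449 (.ref 5 193))))))))
 (.one (.play 193 (.both (.play 257 (.both (.play 64 (.ref 109 0)) (.play 448 (.ref 5 192)))) (.play 129 (.ref 5 128))))))))))
 (.seq (.seq (.seq (.seq (.one (.play 325 (.both (.ref 427 2) (.both (.ref 227 2) (.both (.ref 519 64) (.both (.play 389 (.both (.play 453 (.both (.ref 574 69) (.ref 26 196))) (.both (.play 453 (.both (.ref 574 69) (.both (.ref 34 197) (.ref 344 197)))) (.both (.play 388 (.ref 400 130)) (.both (.ref 267 196) (.ref 546 196)))))) (.both (.play 389 (.both (.play 133 (.ref 152 68)) (.both (.play 133 (.ref 415 69)) (.play 453 (.ref 119 196))))) (.ref 153 68))))))))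
 (.one (.both (.play 2 (.ref 5 1)) (.play 320 (.ref 6 64)))))
 (.seq (.one (.play 256 (.both (.play 192 (.ref 6 0)) (.play 257 (.ref 576 0)))))
 (.seq (.one (.play 193 (.both (.play 1 (.ref 4 1)) (.play 192 (.ref 2 128)))))
 (.one (.play 129 (.both (.ref 246 0) (.play 130 (.ref 1 65))))))))
 (.seq (.seq (.one (.play 129 (.both (.play 65 (.ref 109 1)) (.play 128 (.ref 3 128)))))
 (.one (.both (.ref 580 0) (.ref 280 65))))
 (.seq (.one (.both (.play 5 (.ref 2 1)) (.play 132 (.ref 63 64))))
 (.seq (.one (.both (.play 64 (.ref 7 0)) (.play 321 (.ref 5 65))))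
 (.one (.both (.ref 378 0) (.ref 459 2)))))))
 (.seq (.seq (.seq (.one (.play 68 (.both (.play 259 (.both (.play 4 (.ref 5 3)) (.play 323 (.ref 4 66)))) (.play 129 (.ref 52 64)))))
 (.one (.play 65 (.both (.ref 402 0) (.play 1 (.ref 4 1))))))
 (.seq (.one (.play 67 (.both (.play 3 (.ref 5 2)) (.play 68 (.ref 59 64)))))
 (.seq (.one (.play 65 (.both (.ref 77 0) (.play 256 (.ref 6 64)))))
 (.one (.both (.ref 588 0) (.play 384 (.ref 6 128)))))))
 (.seq (.seq (.one (.play 196 (.both (.play 132 (.ref 186 3)) (.play 258 (.ref 106 192)))))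
 (.seq (.one (.play 194 (.both (.play 258 (.ref 6 2)) (.play 193 (.ref 89 128)))))
 (.one (.play 132 (.both (.play 68 (.ref 456 0)) (.play 131 (.ref 0 64)))))))
 (.seq (.one (.both (.play 68 (.both (.play 4 (.ref 5 3)) (.play 132 (.both (.play 65 (.ref 63 64)) (.play 323 (.ref 5 67)))))) (.play 2 (.ref 7 2))))
 (.seq (.one (.play 129 (.both (.play 65 (.ref 415 1)) (.ref 77 64))))
 (.one (.play 325 (.both (.play 390 (.both (.play 261 (.both (.play 197 (.both (.ref 594 4) (.both (.ref 429 5) (.both (.ref 367 68) (.both (.play 133 (.both (.ref 77 68) (.ref 428 69))) (.play 196 (.ref 593 130))))))) (.both (.play 197 (.both (.play 134 (.both (.play 133 (.ref 576 68)) (.play 198 (.ref 5 133)))) (.both (.ref 268 68) (.ref 347 131)))) (.both (.play 388 (.both (.play 197 (.ref 39 132)) (.both (.play 452 (.ref 388 193)) (.play 387 (.both (.ref 144 320) (.both (.play 326 (.ref 154 322)) (.play 391 (.both (.ref 45 323) (.ref 592 324))))))))) (.play 391 (.both (.play 453 (.both (.ref 372 196) (.both (.ref 257 196)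 (.ref 591 258)))) (.play 392 (.ref 3 324)))))))) (.both (.play 391 (.both (.play 327 (.both (.play 263 (.both (.ref 590 68) (.both (.play 199 (.ref 49 70)) (.both (.play 199 (.ref 589 70)) (.play 199 (.both (.play 455 (.ref 101 134)) (.play 454 (.ref 6 198)))))))) (.both (.ref 518 194) (.both (.ref 515 322) (.play 328 (.ref 106 324)))))) (.play 392 (.ref 3 324)))) (.both (.play 261 (.both (.play 197 (.both (.ref 382 68) (.play 454 (.ref 4 197)))) (.both (.play 197 (.both (.ref 382 68) (.both (.ref 560 68) (.play 453 (.both (.ref 8 133) (.ref 376 260)))))) (.both (.ref 373 194) (.both (.play 454 (.ref 342 197)) (.play 454 (.ref 51 197))))))) (.both (.play 454 (.both (.play 453 (.both (.play 326 (.both (.play 387 (.both (.play 452 (.both (.ref 97 196) (.play 451 (.ref 490 386)))) (.play 388 (.ref 272 323)))) (.both (.play 261 (.both (.play 262 (.both (.ref 111 196) (.play 198 (.ref 6 197)))) (.play 197 (.ref 4 197)))) (.play 262 (.both (.ref 587 196) (.play 198 (.ref 6 197))))))) (.both (.ref 586 196) (.both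 (.play 261 (.both (.play 197 (.ref 4 197)) (.play 516 (.both (.play 452 (.ref 6 260)) (.play 517 (.both (.play 580 (.ref 6 324)) (.play 581 (.ref 583 324)))))))) (.both (.play 261 (.both (.play 262 (.both (.play 198 (.ref 5 197)) (.play 517 (.both (.play 326 (.ref 5 261)) (.play 581 (.ref 583 324)))))) (.play 197 (.ref 4 197)))) (.play 517 (.ref 584 322))))))) (.both (.play 518 (.ref 15 197)) (.both (.play 261 (.ref 51 197)) (.play 517 (.both (.play 453 (.both (.play 326 (.both (.ref 585 259) (.play 262 (.ref 6 261)))) (.ref 378 322))) (.both (.play 518 (.both (.play 326 (.both (.play 327 (.both (.play 263 (.ref 5 262)) (.play 388 (.ref 41 323)))) (.play 581 (.ref 6 325)))) (.play 582 (.ref 7 325)))) (.both (.play 453 (.ref 584 322)) (.both (.play 518 (.both (.play 453 (.both (.ref 53 323) (.play 581 (.ref 583 324)))) (.play 582 (.ref 7 325)))) (.both (.play 518 (.both (.play 581 (.both (.play 453 (.ref 583 324)) (.play 326 (.ref 6 325)))) (.play 582 (.ref 7 325)))) (.play 518 (.both (.play 582 (.ref 7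 325)) (.play 581 (.ref 178 325)))))))))))))) (.both (.play 391 (.both (.play 454 (.both (.play 261 (.both (.play 327 (.both (.play 263 (.both (.play 199 (.ref 6 198)) (.play 264 (.ref 475 260)))) (.play 388 (.ref 582 323)))) (.play 197 (.ref 4 197)))) (.both (.play 261 (.ref 51 197)) (.play 327 (.both (.ref 524 262) (.both (.play 388 (.ref 582 323)) (.play 328 (.ref 106 324)))))))) (.play 392 (.ref 3 324)))) (.play 452 (.both (.play 453 (.both (.play 516 (.ref 33 260)) (.play 391 (.both (.play 392 (.ref 3 324)) (.play 451 (.ref 82 386)))))) (.both (.play 391 (.both (.play 388 (.ref 189 259)) (.play 392 (.ref 3 324)))) (.both (.play 516 (.both (.play 453 (.ref 33 260)) (.both (.play 388 (.ref 93 260)) (.both (.play 261 (.both (.play 453 (.ref 6 260)) (.play 388 (.ref 5 260)))) (.ref 174 324))))) (.play 391 (.both (.play 392 (.ref 3 324)) (.ref 172 386))))))))))))) (.both (.ref 563 64) (.both (.play 323 (.both (.ref 562 64) (.both (.play 322 (.both (.play 388 (.ref 457 129)) (.both (.ref 292 256) (.ref 527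 257)))) (.both (.play 326 (.both (.ref 278 131) (.play 259 (.ref 301 194)))) (.both (.play 322 (.ref 469 256)) (.both (.play 322 (.both (.ref 292 256) (.both (.play 326 (.ref 252 257)) (.ref 231 320)))) (.play 322 (.both (.ref 140 256) (.both (.ref 552 257) (.play 386 (.both (.play 388 (.both (.play 387 (.both (.play 450 (.ref 189 257)) (.play 326 (.ref 2 322)))) (.play 321 (.ref 0 321)))) (.play 385 (.ref 1 321))))))))))))) (.both (.ref 265 67) (.both (.ref 422 128) (.both (.play 323 (.both (.ref 285 128) (.both (.play 326 (.both (.play 387 (.both (.play 259 (.both (.ref 521 131) (.play 258 (.ref 3 258)))) (.play 386 (.ref 1 322)))) (.both (.play 390 (.both (.play 387 (.both (.play 388 (.ref 581 130)) (.play 386 (.ref 1 322)))) (.play 391 (.ref 0 323)))) (.both (.play 258 (.both (.play 259 (.ref 3 258)) (.ref 478 259))) (.ref 165 322))))) (.both (.play 390 (.ref 135 322)) (.play 390 (.ref 87 322)))))) (.both (.play 323 (.both (.ref 285 128) (.both (.play 390 (.both (.play 387 (.both (.play 454 (.both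 (.play 388 (.both (.play 259 (.ref 434 130)) (.play 455 (.ref 0 387)))) (.both (.play 518 (.ref 15 197)) (.play 261 (.ref 51 197))))) (.both (.play 454 (.both (.play 261 (.ref 51 197)) (.play 388 (.both (.ref 579 321) (.play 455 (.ref 0 387)))))) (.both (.play 453 (.both (.play 452 (.both (.play 454 (.both (.play 261 (.ref 109 197)) (.play 451 (.ref 490 386)))) (.both (.play 451 (.both (.play 516 (.both (.play 259 (.ref 4 259)) (.play 261 (.ref 6 260)))) (.play 450 (.ref 2 386)))) (.both (.play 516 (.both (.ref 578 258) (.play 580 (.ref 32 324)))) (.play 516 (.ref 33 260)))))) (.both (.play 452 (.both (.play 261 (.ref 110 196)) (.both (.play 516 (.both (.ref 578 258) (.play 261 (.ref 6 260)))) (.play 386 (.both (.play 326 (.ref 1 322)) (.play 451 (.both (.play 450 (.ref 2 386)) (.play 454 (.ref 3 386))))))))) (.both (.play 326 (.both (.play 517 (.ref 93 261)) (.play 386 (.ref 1 322)))) (.play 517 (.both (.play 261 (.ref 119 260)) (.both (.ref 577 324) (.ref 375 325)))))))) (.play 386 (.ref 83 320))))))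 (.both (.play 391 (.ref 86 323)) (.play 391 (.ref 134 323))))) (.both (.play 390 (.ref 135 322)) (.play 390 (.ref 87 322)))))) (.both (.ref 575 128) (.play 388 (.both (.play 323 (.both (.play 387 (.both (.play 451 (.both (.ref 573 130) (.ref 525 322))) (.both (.ref 572 193) (.both (.play 390 (.both (.ref 567 321) (.play 391 (.ref 3 323)))) (.play 390 (.both (.play 386 (.both (.play 385 (.ref 2 321)) (.ref 42 386))) (.play 391 (.ref 3 323)))))))) (.both (.ref 571 193) (.play 322 (.ref 63 321))))) (.both (.play 261 (.both (.ref 570 131) (.both (.play 452 (.ref 137 196)) (.play 391 (.both (.play 323 (.both (.play 322 (.both (.play 262 (.ref 2 258)) (.play 321 (.ref 0 321)))) (.play 390 (.ref 3 323)))) (.both (.play 453 (.both (.ref 559 260) (.both (.ref 568 260) (.play 452 (.both (.play 516 (.ref 6 260)) (.play 454 (.both (.play 518 (.ref 4 261)) (.ref 297 388)))))))) (.play 390 (.ref 112 323)))))))) (.both (.ref 569 131) (.both (.play 390 (.both (.play 387 (.both (.play 454 (.both (.play 261 (.ref 51 197))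 (.play 455 (.ref 0 387)))) (.ref 566 321))) (.both (.play 391 (.both (.play 454 (.both (.play 518 (.ref 24 197)) (.play 455 (.ref 63 387)))) (.play 392 (.ref 3 324)))) (.play 391 (.ref 112 323))))) (.play 390 (.both (.play 387 (.both (.play 451 (.both (.play 323 (.both (.play 516 (.both (.play 452 (.both (.play 259 (.ref 4 259)) (.play 261 (.ref 5 260)))) (.ref 498 323))) (.play 322 (.ref 0 322)))) (.play 450 (.ref 1 386)))) (.both (.ref 567 321) (.ref 566 321)))) (.both (.play 391 (.ref 323 259)) (.play 391 (.ref 112 323)))))))))))))))))))))))))))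
 (.seq (.seq (.seq (.seq (.seq (.seq (.one (.play 64 (.both (.play 0 (.ref 7 0)) (.play 321 (.both (.play 128 (.ref 7 64)) (.play 130 (.ref 93 65)))))))
 (.one (.play 261 (.both (.play 194 (.both (.play 195 (.both (.play 130 (.both (.play 66 (.both (.play 258 (.both (.play 259 (.ref 109 2)) (.play 257 (.ref 1 193)))) (.both (.play 65 (.both (.ref 239 1) (.play 133 (.both (.play 131 (.ref 3 65)) (.play 134 (.ref 2 130)))))) (.play 259 (.ref 151 2))))) (.play 129 (.ref 3 129)))) (.play 262 (.ref 0 194)))) (.both (.play 68 (.both (.play 260 (.both (.ref 596 3) (.ref 491 65))) (.play 4 (.ref 4 4)))) (.both (.play 195 (.ref 293 128)) (.play 195 (.ref 471 129)))))) (.both (.play 68 (.ref 51 4)) (.ref 401 66))))))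
 (.seq (.one (.play 256 (.both (.play 192 (.both (.play 1 (.ref 6 0)) (.play 449 (.ref 7 192)))) (.play 320 (.ref 6 64)))))
 (.seq (.one (.play 66 (.both (.play 65 (.both (.ref 598 0) (.play 2 (.ref 5 1)))) (.play 130 (.ref 5 65)))))
 (.one (.play 129 (.both (.ref 367 0) (.play 322 (.ref 4 129))))))))
 (.seq (.seq (.one (.play 193 (.both (.play 129 (.both (.ref 78 0) (.both (.ref 599 0) (.ref 77 64)))) (.both (.ref 600 0) (.both (.play 129 (.both (.ref 599 0) (.play 322 (.ref 4 129)))) (.both (.ref 382 64) (.play 192 (.both (.play 128 (.ref 7 128)) (.play 449 (.both (.play 256 (.ref 7 192)) (.play 512 (.both (.play 448 (.ref 6 256)) (.play 513 (.both (.play 322 (.ref 93 257)) (.play 576 (.ref 6 320))))))))))))))))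
 (.one (.play 68 (.both (.play 1 (.ref 3 0)) (.ref 273 1)))))
 (.seq (.one (.both (.ref 363 0) (.both (.ref 448 64) (.both (.play 130 (.ref 58 128)) (.play 198 (.both (.play 130 (.ref 3 130)) (.ref 477 131)))))))
 (.seq (.one (.play 257 (.both (.play 196 (.both (.play 132 (.ref 175 3)) (.play 197 (.ref 105 193)))) (.play 256 (.ref 0 256)))))
 (.one (.play 64 (.both (.ref 213 0) (.play 128 (.ref 7 64)))))))))
 (.seq (.seq (.seq (.one (.play 259 (.both (.play 195 (.both (.play 131 (.both (.ref 605 2) (.ref 8 67))) (.play 452 (.ref 4 195)))) (.both (.ref 604 64) (.both (.play 321 (.both (.play 451 (.both (.play 260 (.both (.play 196 (.ref 5 195)) (.play 261 (.ref 105 257)))) (.play 515 (.ref 119 258)))) (.play 320 (.ref 0 320)))) (.play 452 (.ref 51 195)))))))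
 (.one (.play 321 (.both (.ref 8 1) (.ref 224 128)))))
 (.seq (.one (.play 129 (.both (.ref 605 0) (.play 322 (.ref 4 129)))))
 (.seq (.one (.both (.play 259 (.both (.play 195 (.both (.ref 608 2) (.both (.ref 12 67) (.ref 607 130)))) (.both (.ref 373 192) (.both (.play 452 (.ref 51 195)) (.play 452 (.ref 151 195)))))) (.both (.ref 606 0) (.play 321 (.ref 87 320)))))
 (.one (.both (.play 2 (.ref 6 1)) (.play 256 (.ref 1 192)))))))
 (.seq (.seq (.one (.play 257 (.both (.play 2 (.ref 5 1)) (.play 130 (.both (.play 321 (.ref 5 65)) (.play 192 (.ref 1 128)))))))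
 (.seq (.one (.play 390 (.both (.play 325 (.both (.ref 606 2) (.both (.play 323 (.both (.play 387 (.both (.ref 467 64) (.both (.play 451 (.both (.ref 500 258) (.both (.ref 611 258) (.both (.play 450 (.both (.play 452 (.both (.play 259 (.ref 16 258)) (.play 453 (.ref 2 386)))) (.play 388 (.ref 1 386)))) (.play 515 (.ref 30 259)))))) (.play 386 (.ref 83 320))))) (.play 322 (.ref 0 322)))) (.both (.play 261 (.both (.play 454 (.both (.ref 264 67) (.both (.play 518 (.ref 149 261)) (.play 518 (.ref 50 261))))) (.both (.play 262 (.both (.play 198 (.ref 175 69)) (.ref 263 259))) (.both (.play 454 (.ref 342 197)) (.both (.play 454 (.ref 51 197)) (.play 454 (.ref 151 197))))))) (.both (.play 323 (.both (.play 387 (.both (.play 451 (.both (.play 259 (.both (.play 195 (.ref 338 130)) (.both (.play 195 (.ref 465 130)) (.play 515 (.ref 119 258))))) (.both (.play 259 (.both (.ref 548 192) (.play 195 (.ref 119 194)))) (.both (.play 515 (.ref 124 258)) (.both (.ref 500 258) (.play 515 (.ref 122 259))))))) (.both (.play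 451 (.both (.play 450 (.both (.play 259 (.both (.play 258 (.ref 501 194)) (.play 514 (.ref 6 258)))) (.play 388 (.ref 1 386)))) (.both (.ref 500 258) (.both (.ref 611 258) (.play 515 (.ref 30 259)))))) (.both (.play 326 (.both (.play 259 (.ref 480 258)) (.play 386 (.ref 1 322)))) (.play 386 (.ref 83 320)))))) (.play 322 (.ref 0 322)))) (.both (.play 323 (.both (.play 326 (.both (.play 262 (.ref 334 131)) (.play 387 (.both (.play 388 (.both (.play 259 (.both (.play 452 (.ref 184 195)) (.play 258 (.ref 3 258)))) (.play 327 (.ref 1 323)))) (.play 386 (.ref 1 322)))))) (.play 322 (.ref 0 322)))) (.play 453 (.both (.play 452 (.both (.play 451 (.both (.play 454 (.both (.play 261 (.ref 109 197)) (.play 388 (.both (.play 515 (.ref 610 258)) (.play 387 (.ref 112 386)))))) (.play 450 (.ref 2 386)))) (.both (.play 261 (.ref 110 196)) (.both (.ref 199 256) (.play 516 (.ref 178 260)))))) (.both (.play 517 (.both (.ref 35 197) (.both (.play 388 (.ref 303 259)) (.ref 423 324)))) (.both (.ref 460 260) (.play 517 (.ref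 236 260)))))))))))) (.both (.play 325 (.ref 609 2)) (.both (.play 388 (.ref 603 193)) (.both (.play 391 (.both (.play 388 (.both (.play 455 (.both (.ref 417 195) (.play 456 (.ref 0 388)))) (.both (.play 327 (.ref 197 322)) (.ref 333 323)))) (.both (.play 328 (.both (.ref 360 322) (.both (.play 327 (.ref 60 324)) (.play 392 (.both (.play 329 (.ref 2 325)) (.ref 161 388)))))) (.both (.play 392 (.both (.play 325 (.ref 3 324)) (.play 456 (.ref 232 387)))) (.both (.play 392 (.both (.play 452 (.both (.play 388 (.both (.ref 45 324) (.play 451 (.ref 1 387)))) (.play 453 (.ref 1 388)))) (.play 325 (.ref 3 324)))) (.ref 602 324)))))) (.both (.play 391 (.both (.play 388 (.ref 233 322)) (.both (.play 388 (.ref 495 323)) (.both (.play 388 (.ref 277 323)) (.ref 602 324))))) (.ref 158 322))))))))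
 (.one (.play 257 (.both (.play 130 (.ref 6 1)) (.play 256 (.ref 1 192)))))))
 (.seq (.one (.play 66 (.both (.play 65 (.both (.play 2 (.ref 5 1)) (.play 320 (.both (.play 256 (.ref 5 64)) (.play 384 (.ref 6 128)))))) (.play 130 (.ref 5 65)))))
 (.seq (.one (.play 195 (.both (.ref 462 0) (.both (.play 198 (.both (.ref 455 2) (.ref 540 67))) (.both (.ref 453 128) (.play 262 (.ref 87 194)))))))
 (.one (.play 194 (.both (.play 258 (.ref 6 2)) (.play 193 (.ref 82 128))))))))))
 (.seq (.seq (.seq (.seq (.one (.both (.ref 383 0) (.play 386 (.ref 4 129))))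
 (.one (.both (.play 2 (.ref 58 0)) (.play 260 (.ref 7 3)))))
 (.seq (.one (.play 196 (.both (.play 198 (.both (.play 134 (.ref 62 3)) (.both (.play 132 (.ref 618 129)) (.play 389 (.ref 181 132))))) (.both (.play 198 (.both (.play 134 (.ref 186 5)) (.both (.ref 74 129) (.play 134 (.ref 351 131))))) (.both (.play 132 (.ref 24 4)) (.play 195 (.both (.play 198 (.both (.ref 425 67) (.both (.play 199 (.ref 129 130)) (.play 199 (.ref 127 130))))) (.both (.ref 424 128) (.both (.play 262 (.ref 135 194)) (.play 262 (.ref 87 194)))))))))))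
 (.seq (.one (.play 197 (.both (.ref 619 0) (.both (.play 133 (.ref 617 4)) (.both (.play 133 (.ref 20 5)) (.play 133 (.both (.play 132 (.ref 381 68)) (.play 390 (.ref 4 133)))))))))
 (.one (.play 326 (.both (.play 261 (.both (.ref 620 0) (.both (.play 328 (.both (.play 454 (.both (.play 260 (.both (.play 262 (.both (.play 198 (.both (.play 134 (.ref 258 69)) (.ref 34 198))) (.both (.play 195 (.both (.ref 312 194) (.play 263 (.both (.play 196 (.ref 3 195)) (.play 199 (.ref 5 198)))))) (.play 259 (.both (.play 199 (.both (.play 198 (.ref 2 195)) (.play 263 (.ref 5 198)))) (.play 258 (.ref 0 258))))))) (.play 327 (.ref 3 260)))) (.play 518 (.ref 7 261)))) (.both (.play 454 (.both (.play 262 (.both (.ref 432 69) (.play 263 (.both (.play 199 (.ref 5 198)) (.ref 234 261))))) (.play 518 (.ref 7 261)))) (.both (.play 327 (.ref 67 260)) (.play 327 (.ref 495 260)))))) (.both (.play 454 (.ref 15 133)) (.play 197 (.ref 51 133)))))) (.both (.play 324 (.both (.play 260 (.both (.play 196 (.both (.play 132 (.ref 617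 3)) (.both (.play 132 (.ref 20 4)) (.both (.play 388 (.ref 384 67)) (.both (.play 132 (.both (.play 388 (.ref 101 67)) (.play 389 (.ref 4 132)))) (.play 388 (.both (.play 452 (.ref 101 131)) (.ref 616 193)))))))) (.both (.play 388 (.both (.play 452 (.both (.play 196 (.both (.play 131 (.both (.ref 487 67) (.play 195 (.ref 7 131)))) (.ref 8 132))) (.both (.play 261 (.ref 93 196)) (.play 516 (.both (.ref 26 259) (.ref 29 324)))))) (.both (.play 387 (.ref 284 195)) (.play 327 (.ref 449 259))))) (.both (.play 259 (.ref 100 257)) (.ref 162 259))))) (.both (.ref 285 129) (.both (.play 391 (.ref 135 323)) (.play 391 (.ref 87 323)))))) (.both (.play 454 (.ref 479 68)) (.both (.ref 422 129) (.both (.ref 615 129) (.both (.play 454 (.both (.play 261 (.both (.play 327 (.both (.play 263 (.both (.play 199 (.ref 133 134)) (.ref 131 258))) (.both (.play 260 (.ref 58 258)) (.both (.play 328 (.both (.ref 275 259) (.both (.play 389 (.ref 449 260)) (.ref 276 261)))) (.play 328 (.ref 67 260)))))) (.both (.play 197 (.ref 22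 133)) (.play 197 (.ref 14 133))))) (.both (.play 261 (.ref 15 133)) (.play 327 (.both (.play 328 (.both (.play 324 (.both (.play 323 (.both (.ref 64 258) (.ref 231 321))) (.both (.ref 169 258) (.both (.play 389 (.both (.ref 313 258) (.play 388 (.ref 1 324)))) (.ref 43 323))))) (.both (.ref 273 261) (.play 389 (.ref 41 324))))) (.both (.play 263 (.ref 351 260)) (.play 518 (.both (.play 263 (.ref 5 262)) (.ref 250 325))))))))) (.ref 222 132))))))))))))
 (.seq (.seq (.one (.play 1 (.both (.play 0 (.ref 0 0)) (.play 69 (.ref 229 1)))))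
 (.one (.play 64 (.both (.ref 8 0) (.play 321 (.ref 4 64))))))
 (.seq (.one (.play 196 (.both (.play 323 (.both (.play 195 (.ref 561 0)) (.both (.play 132 (.ref 177 3)) (.both (.play 324 (.both (.play 260 (.both (.play 132 (.ref 258 67)) (.play 325 (.ref 0 257)))) (.play 256 (.ref 0 256)))) (.ref 551 192))))) (.both (.play 260 (.ref 358 64)) (.both (.ref 550 192) (.both (.play 195 (.ref 106 192)) (.ref 493 193)))))))
 (.seq (.one (.play 193 (.both (.ref 499 0) (.play 257 (.ref 6 1)))))
 (.one (.play 320 (.both (.play 64 (.both (.play 0 (.ref 7 0)) (.ref 249 64))) (.play 256 (.ref 6 64)))))))))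
 (.seq (.seq (.seq (.one (.play 131 (.both (.play 197 (.both (.play 133 (.ref 175 4)) (.both (.play 130 (.ref 88 128)) (.both (.ref 485 130) (.ref 459 131))))) (.both (.play 195 (.ref 24 3)) (.both (.ref 23 3) (.play 132 (.ref 593 65)))))))
 (.one (.play 321 (.both (.play 65 (.ref 152 0)) (.both (.play 385 (.ref 415 65)) (.play 385 (.ref 119 128)))))))
 (.seq (.one (.both (.ref 245 2) (.play 65 (.ref 63 64))))
 (.seq (.one (.play 259 (.both (.ref 385 2) (.both (.play 324 (.both (.play 323 (.both (.ref 77 2) (.play 388 (.ref 4 131)))) (.play 260 (.ref 4 67)))) (.play 260 (.both (.play 258 (.ref 191 64)) (.play 324 (.ref 4 67))))))))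
 (.one (.both (.play 67 (.ref 138 0)) (.play 196 (.ref 0 128)))))))
 (.seq (.seq (.one (.play 391 (.both (.play 326 (.both (.ref 606 3) (.both (.play 262 (.both (.play 198 (.both (.ref 608 5) (.both (.ref 19 70) (.ref 607 133)))) (.both (.ref 373 195) (.both (.play 455 (.ref 51 198)) (.play 455 (.ref 151 198)))))) (.both (.play 324 (.both (.play 327 (.both (.ref 455 131) (.play 392 (.ref 0 324)))) (.play 323 (.ref 0 323)))) (.play 324 (.both (.play 327 (.ref 631 196)) (.play 323 (.ref 0 323)))))))) (.both (.play 389 (.both (.ref 620 64) (.both (.play 261 (.both (.play 197 (.both (.ref 382 68) (.both (.play 196 (.ref 266 132)) (.play 388 (.ref 39 132))))) (.both (.ref 630 194) (.both (.play 454 (.ref 342 197)) (.play 454 (.ref 151 197)))))) (.both (.play 261 (.both (.ref 486 66) (.both (.play 197 (.both (.ref 560 68) (.play 454 (.ref 4 197)))) (.both (.ref 630 194) (.play 454 (.ref 51 197)))))) (.both (.ref 340 130) (.play 453 (.both (.play 324 (.both (.play 260 (.ref 24 132)) (.both (.play 326 (.ref 629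 258)) (.ref 622 322)))) (.both (.play 261 (.both (.play 197 (.ref 101 132)) (.both (.play 452 (.both (.play 388 (.ref 610 195)) (.play 516 (.ref 6 260)))) (.ref 591 258)))) (.ref 628 196))))))))) (.both (.play 389 (.both (.ref 537 64) (.both (.ref 624 132) (.both (.play 324 (.ref 100 322)) (.play 392 (.ref 85 324)))))) (.both (.play 389 (.both (.play 261 (.both (.ref 627 65) (.both (.ref 368 68) (.both (.play 453 (.both (.ref 626 196) (.both (.ref 506 196) (.ref 625 259)))) (.play 454 (.ref 51 197)))))) (.both (.ref 365 194) (.play 324 (.ref 58 322))))) (.both (.play 389 (.both (.ref 377 66) (.both (.ref 624 132) (.ref 365 194)))) (.both (.play 389 (.both (.play 261 (.both (.play 453 (.both (.play 197 (.ref 338 132)) (.both (.play 197 (.ref 101 132)) (.play 517 (.ref 152 196))))) (.both (.play 197 (.both (.play 453 (.ref 152 132)) (.play 454 (.ref 4 197)))) (.both (.play 453 (.both (.play 517 (.ref 415 197)) (.both (.ref 616 258) (.ref 591 258)))) (.both (.play 454 (.ref 342 197)) (.play 454 (.ref 151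 197))))))) (.both (.play 324 (.ref 100 322)) (.play 324 (.ref 58 322))))) (.both (.play 389 (.ref 534 130)) (.both (.play 326 (.both (.play 324 (.both (.play 327 (.ref 528 132)) (.play 323 (.ref 0 323)))) (.both (.play 454 (.both (.play 261 (.both (.play 197 (.ref 22 133)) (.both (.play 197 (.ref 14 133)) (.play 453 (.both (.play 455 (.both (.ref 97 197) (.play 452 (.ref 154 387)))) (.both (.play 262 (.ref 203 197)) (.both (.play 517 (.ref 178 261)) (.ref 483 387)))))))) (.both (.play 261 (.ref 24 133)) (.both (.play 261 (.ref 15 133)) (.play 453 (.both (.play 262 (.ref 203 197)) (.both (.play 517 (.ref 33 261)) (.ref 483 387)))))))) (.both (.play 454 (.both (.ref 215 132) (.both (.play 261 (.ref 24 133)) (.both (.play 261 (.ref 15 133)) (.play 518 (.both (.play 262 (.both (.ref 623 134) (.ref 26 261))) (.both (.ref 206 325) (.play 582 (.both (.play 389 (.ref 7 325)) (.ref 29 390)))))))))) (.ref 622 323))))) (.play 389 (.both (.ref 398 258) (.both (.play 324 (.ref 100 322)) (.both (.play 392 (.ref 233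 323)) (.play 328 (.both (.play 392 (.both (.play 329 (.ref 2 325)) (.play 388 (.ref 44 387)))) (.both (.play 388 (.both (.play 327 (.ref 2 324)) (.play 392 (.ref 44 387)))) (.both (.ref 550 324) (.both (.play 327 (.ref 106 324)) (.ref 493 325))))))))))))))))))))
 (.seq (.one (.play 259 (.both (.play 66 (.both (.ref 47 0) (.play 2 (.ref 7 2)))) (.both (.ref 372 2) (.ref 626 2)))))
 (.one (.play 260 (.both (.play 67 (.ref 450 3)) (.both (.ref 506 3) (.ref 253 64)))))))
 (.seq (.one (.play 129 (.both (.play 132 (.both (.ref 300 1) (.play 65 (.both (.play 64 (.ref 3 64)) (.ref 318 64))))) (.play 128 (.ref 2 64)))))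
 (.seq (.one (.play 65 (.both (.play 4 (.ref 2 0)) (.play 132 (.ref 3 64)))))
 (.one (.both (.ref 349 0) (.ref 585 1)))))))))
 (.seq (.seq (.seq (.seq (.seq (.one (.play 196 (.both (.ref 580 0) (.play 197 (.ref 1 193)))))
 (.one (.play 197 (.both (.play 257 (.both (.play 194 (.both (.ref 235 2) (.play 193 (.ref 507 192)))) (.play 258 (.ref 2 193)))) (.both (.play 198 (.both (.ref 185 2) (.play 199 (.ref 1 195)))) (.play 198 (.ref 41 194)))))))
 (.seq (.one (.both (.play 68 (.ref 138 1)) (.play 128 (.ref 0 128))))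
 (.seq (.one (.play 193 (.both (.ref 455 0) (.play 192 (.ref 0 192)))))
 (.one (.play 65 (.both (.ref 136 0) (.play 64 (.ref 0 64))))))))
 (.seq (.seq (.one (.play 65 (.both (.play 0 (.ref 7 0)) (.play 1 (.ref 4 1)))))
 (.one (.both (.play 0 (.ref 7 0)) (.ref 218 64))))
 (.seq (.one (.play 324 (.both (.ref 510 3) (.both (.play 132 (.both (.ref 560 3) (.both (.play 131 (.ref 644 67)) (.play 325 (.ref 109 68))))) (.both (.play 323 (.both (.play 322 (.both (.play 325 (.both (.play 259 (.both (.play 131 (.both (.ref 643 67) (.play 386 (.both (.play 195 (.ref 6 130)) (.play 385 (.ref 1 321)))))) (.play 258 (.ref 112 257)))) (.both (.play 132 (.ref 109 68)) (.play 389 (.both (.play 453 (.ref 7 196)) (.play 390 (.ref 0 322))))))) (.play 321 (.ref 2 257)))) (.both (.play 132 (.ref 110 67)) (.both (.play 387 (.ref 178 131)) (.ref 635 193))))) (.both (.play 132 (.both (.ref 626 67) (.play 325 (.ref 109 68)))) (.both (.ref 634 128) (.play 387 (.both (.play 325 (.both (.play 323 (.both (.play 132 (.ref 6 131)) (.ref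 362 258))) (.both (.ref 202 131) (.both (.play 389 (.ref 51 132)) (.play 386 (.ref 354 320)))))) (.both (.play 388 (.ref 400 129)) (.both (.play 451 (.ref 176 131)) (.both (.play 323 (.ref 178 131)) (.ref 440 195)))))))))))))
 (.seq (.one (.play 68 (.both (.ref 349 0) (.play 4 (.ref 5 3)))))
 (.one (.play 65 (.both (.ref 551 0) (.play 5 (.ref 2 1)))))))))
 (.seq (.seq (.seq (.one (.play 68 (.both (.ref 647 0) (.play 259 (.ref 5 3)))))
 (.one (.play 132 (.both (.play 194 (.both (.play 130 (.ref 15 2)) (.both (.ref 648 128) (.both (.play 133 (.ref 354 128)) (.ref 225 130))))) (.both (.play 196 (.ref 186 3)) (.both (.ref 128 3) (.play 131 (.ref 350 65))))))))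
 (.seq (.one (.play 132 (.both (.play 323 (.both (.ref 605 3) (.play 387 (.ref 6 131)))) (.both (.ref 209 3) (.ref 75 64)))))
 (.seq (.one (.play 65 (.both (.ref 598 0) (.ref 8 1))))
 (.one (.play 129 (.both (.ref 78 0) (.both (.ref 651 0) (.ref 77 64))))))))
 (.seq (.seq (.one (.play 389 (.both (.play 261 (.both (.play 197 (.both (.ref 600 4) (.both (.ref 652 4) (.both (.play 133 (.both (.ref 651 4) (.play 326 (.ref 4 133)))) (.both (.ref 383 68) (.play 196 (.both (.play 132 (.ref 7 132)) (.play 453 (.both (.play 260 (.ref 7 196)) (.ref 547 260)))))))))) (.both (.ref 650 65) (.both (.ref 649 66) (.both (.ref 510 68) (.both (.ref 536 68) (.ref 633 194))))))) (.both (.ref 620 64) (.both (.ref 511 66) (.both (.play 261 (.both (.ref 649 66) (.both (.play 454 (.both (.play 453 (.both (.play 326 (.both (.ref 646 194) (.both (.play 262 (.both (.play 198 (.ref 5 197)) (.ref 348 260))) (.play 452 (.both (.play 516 (.ref 6 260)) (.play 387 (.both (.ref 636 323) (.play 451 (.ref 490 386))))))))) (.both (.play 262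 (.both (.play 260 (.both (.play 196 (.ref 7 196)) (.play 326 (.both (.play 327 (.ref 193 259)) (.play 517 (.ref 6 261)))))) (.play 198 (.ref 5 197)))) (.both (.ref 402 196) (.play 455 (.both (.play 387 (.both (.ref 491 258) (.play 388 (.ref 0 387)))) (.both (.play 516 (.both (.play 452 (.ref 6 260)) (.ref 433 388))) (.play 456 (.ref 112 388))))))))) (.both (.play 518 (.ref 149 261)) (.play 518 (.ref 50 261))))) (.both (.play 454 (.ref 342 197)) (.both (.play 454 (.ref 51 197)) (.play 454 (.ref 151 197))))))) (.both (.ref 645 129) (.both (.play 326 (.both (.play 324 (.both (.ref 641 130) (.both (.play 323 (.both (.play 259 (.ref 522 130)) (.play 322 (.ref 0 322)))) (.both (.play 388 (.both (.ref 638 131) (.both (.ref 572 194) (.play 327 (.ref 41 323))))) (.both (.ref 571 194) (.both (.ref 642 258) (.play 323 (.both (.play 387 (.both (.play 388 (.both (.play 451 (.ref 189 258)) (.play 327 (.ref 1 323)))) (.play 386 (.ref 1 322)))) (.play 322 (.ref 0 322)))))))))) (.both (.play 324 (.both (.ref 641 130) (.both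 (.play 262 (.both (.play 198 (.both (.play 199 (.both (.play 135 (.ref 5 134)) (.play 263 (.both (.play 454 (.ref 5 198)) (.play 264 (.ref 59 260)))))) (.play 134 (.ref 6 133)))) (.both (.play 517 (.both (.play 454 (.both (.ref 587 196) (.ref 302 325))) (.play 453 (.ref 5 261)))) (.play 453 (.ref 137 197))))) (.play 323 (.ref 640 194))))) (.both (.ref 639 130) (.ref 569 132))))) (.both (.play 326 (.both (.ref 639 130) (.both (.play 327 (.both (.play 197 (.both (.play 324 (.both (.play 388 (.both (.play 260 (.both (.ref 94 132) (.play 259 (.ref 3 259)))) (.play 387 (.ref 2 323)))) (.both (.ref 313 258) (.play 387 (.both (.play 323 (.ref 507 322)) (.play 388 (.ref 2 323))))))) (.both (.play 261 (.ref 109 133)) (.play 388 (.both (.play 261 (.ref 16 196)) (.play 387 (.ref 2 323))))))) (.both (.ref 638 132) (.play 328 (.ref 41 324))))) (.both (.play 388 (.both (.play 324 (.both (.play 323 (.both (.play 259 (.both (.play 452 (.ref 15 131)) (.play 258 (.ref 3 258)))) (.play 322 (.ref 0 322)))) (.both (.play 452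 (.both (.play 197 (.both (.play 260 (.both (.ref 94 132) (.play 259 (.ref 501 195)))) (.play 261 (.ref 6 196)))) (.both (.play 327 (.both (.play 515 (.both (.play 260 (.both (.play 451 (.ref 6 259)) (.play 259 (.ref 3 259)))) (.ref 91 323))) (.play 328 (.ref 1 324)))) (.play 516 (.ref 93 260))))) (.both (.play 327 (.both (.ref 313 258) (.play 328 (.ref 1 324)))) (.play 327 (.both (.play 323 (.both (.ref 45 259) (.play 322 (.ref 0 322)))) (.play 328 (.ref 1 324)))))))) (.both (.play 387 (.both (.play 451 (.both (.play 323 (.both (.play 259 (.both (.play 258 (.both (.play 194 (.ref 7 194)) (.play 324 (.ref 3 258)))) (.play 452 (.ref 109 195)))) (.play 322 (.ref 3 322)))) (.play 450 (.ref 1 386)))) (.play 386 (.ref 2 322)))) (.play 387 (.ref 154 322))))) (.both (.ref 309 132) (.play 454 (.both (.play 262 (.both (.ref 308 133) (.both (.ref 306 133) (.play 261 (.both (.play 263 (.ref 219 196)) (.play 197 (.ref 4 197))))))) (.both (.play 518 (.both (.play 517 (.ref 226 260)) (.play 582 (.ref 7 325)))) (.play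 518 (.ref 116 261)))))))))) (.both (.ref 597 193) (.both (.play 453 (.both (.play 452 (.both (.play 261 (.both (.play 262 (.both (.play 326 (.ref 637 194)) (.play 198 (.ref 5 197)))) (.play 516 (.ref 6 260)))) (.both (.play 326 (.both (.play 262 (.both (.play 261 (.ref 637 194)) (.play 198 (.ref 6 197)))) (.both (.play 262 (.both (.play 454 (.both (.play 263 (.both (.play 199 (.ref 5 198)) (.play 518 (.both (.play 327 (.ref 5 262)) (.play 582 (.ref 7 325)))))) (.play 455 (.both (.play 519 (.ref 4 262)) (.play 388 (.ref 112 387)))))) (.play 198 (.ref 6 197)))) (.both (.play 327 (.both (.play 324 (.both (.play 388 (.both (.play 260 (.both (.play 196 (.ref 4 196)) (.play 259 (.ref 3 259)))) (.play 387 (.ref 1 323)))) (.play 262 (.both (.play 198 (.ref 6 197)) (.play 263 (.ref 154 259)))))) (.both (.play 328 (.both (.play 324 (.ref 252 259)) (.both (.play 329 (.ref 127 260)) (.play 329 (.ref 46 261))))) (.play 328 (.ref 41 324))))) (.both (.play 454 (.both (.ref 570 196) (.play 518 (.ref 184 261)))) (.play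 451 (.both (.play 454 (.both (.play 518 (.ref 184 261)) (.play 387 (.both (.ref 636 323) (.play 386 (.ref 3 386)))))) (.play 450 (.ref 2 386))))))))) (.both (.play 516 (.ref 178 260)) (.ref 635 322))))) (.both (.ref 628 196) (.both (.ref 451 196) (.both (.play 517 (.both (.play 261 (.ref 465 196)) (.both (.play 581 (.ref 101 260)) (.play 581 (.ref 415 261))))) (.ref 634 257)))))) (.both (.ref 403 194) (.play 261 (.both (.ref 633 194) (.both (.play 454 (.ref 342 197)) (.both (.play 454 (.ref 51 197)) (.play 454 (.ref 151 197))))))))))))))))))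
 (.seq (.one (.play 193 (.both (.play 131 (.ref 509 0)) (.play 133 (.ref 2 129)))))
 (.one (.play 65 (.both (.play 4 (.both (.play 3 (.both (.play 64 (.ref 2 0)) (.play 71 (.ref 3 3)))) (.play 5 (.ref 2 1)))) (.ref 43 64))))))
 (.seq (.one (.play 66 (.both (.ref 71 0) (.both (.ref 655 0) (.ref 64 1)))))
 (.seq (.one (.play 68 (.both (.play 69 (.ref 0 1)) (.play 128 (.ref 2 64)))))
 (.one (.play 66 (.both (.play 65 (.ref 65 0)) (.ref 45 2)))))))))
 (.seq (.seq (.seq (.seq (.one (.play 67 (.both (.ref 658 0) (.both (.ref 656 0) (.both (.ref 396 1) (.both (.play 71 (.both (.play 4 (.both (.play 5 (.both (.play 66 (.ref 154 1)) (.play 72 (.ref 3 4)))) (.play 3 (.ref 3 3)))) (.both (.ref 45 3) (.ref 520 3)))) (.play 3 (.ref 277 2))))))))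
 (.one (.play 1 (.both (.play 0 (.ref 3 0)) (.ref 330 1)))))
 (.seq (.one (.play 326 (.both (.play 261 (.both (.ref 620 0) (.both (.play 454 (.both (.play 453 (.both (.ref 549 133) (.both (.play 452 (.both (.play 389 (.both (.play 455 (.both (.ref 286 197) (.play 456 (.ref 112 388)))) (.play 516 (.ref 6 260)))) (.both (.ref 654 258) (.play 391 (.ref 60 387))))) (.both (.play 452 (.both (.ref 198 257) (.both (.play 391 (.ref 106 387)) (.play 391 (.ref 60 387))))) (.play 517 (.ref 178 261)))))) (.play 518 (.ref 7 261)))) (.both (.play 454 (.ref 15 133)) (.play 197 (.ref 51 133)))))) (.both (.play 324 (.both (.play 327 (.both (.play 262 (.both (.play 198 (.both (.play 263 (.both (.ref 95 70) (.play 264 (.ref 2 260)))) (.both (.play 196 (.both (.play 260 (.both (.play 389 (.both (.play 132 (.ref 4 132)) (.play 453 (.ref 6 197)))) (.play 259 (.ref 3 259)))) (.play 263 (.both (.play 197 (.both (.play 133 (.ref 7 133)) (.play 195 (.ref 0 195)))) (.play 264 (.ref 2 260)))))) (.play 389 (.ref 258 133))))) (.both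 (.play 263 (.both (.play 199 (.both (.play 200 (.both (.ref 505 132) (.play 260 (.both (.play 261 (.ref 2 196)) (.play 259 (.ref 3 259)))))) (.play 135 (.ref 6 134)))) (.play 264 (.ref 2 260)))) (.ref 497 132)))) (.both (.ref 520 259) (.both (.ref 660 259) (.ref 273 260))))) (.both (.ref 659 256) (.play 391 (.ref 135 323))))) (.both (.play 324 (.both (.play 261 (.both (.play 260 (.both (.play 197 (.both (.play 133 (.ref 258 68)) (.both (.play 133 (.both (.play 69 (.ref 6 68)) (.play 389 (.both (.ref 8 69) (.play 196 (.ref 116 132)))))) (.play 196 (.both (.play 195 (.ref 629 129)) (.play 389 (.ref 116 132))))))) (.play 327 (.ref 112 259)))) (.both (.play 327 (.both (.play 453 (.both (.play 391 (.both (.play 262 (.both (.play 198 (.ref 109 134)) (.ref 302 261))) (.play 392 (.ref 0 324)))) (.both (.play 260 (.both (.play 389 (.ref 116 196)) (.play 259 (.ref 3 259)))) (.play 454 (.both (.play 452 (.both (.ref 108 260) (.ref 657 323))) (.play 518 (.ref 7 261))))))) (.both (.play 260 (.ref 112 259)) (.play 392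 (.both (.play 391 (.ref 0 324)) (.play 328 (.both (.play 389 (.ref 41 324)) (.play 393 (.ref 0 325))))))))) (.both (.play 454 (.ref 15 133)) (.play 197 (.ref 51 133)))))) (.both (.play 389 (.both (.play 260 (.both (.play 388 (.ref 434 131)) (.both (.play 196 (.ref 342 132)) (.play 259 (.ref 100 257))))) (.both (.play 323 (.ref 457 130)) (.ref 642 258)))) (.both (.play 391 (.ref 135 323)) (.play 391 (.ref 87 323)))))) (.both (.play 391 (.both (.play 324 (.both (.play 262 (.both (.play 263 (.both (.play 199 (.ref 175 70)) (.play 264 (.ref 59 260)))) (.both (.play 198 (.ref 617 69)) (.both (.ref 558 196) (.both (.play 455 (.ref 342 198)) (.play 455 (.ref 51 198))))))) (.play 323 (.ref 0 323)))) (.both (.ref 256 196) (.both (.play 324 (.ref 87 323)) (.play 392 (.ref 58 323)))))) (.both (.ref 270 68) (.both (.play 324 (.both (.ref 529 131) (.both (.play 323 (.both (.play 322 (.both (.ref 169 256) (.play 389 (.ref 0 322)))) (.both (.ref 656 256) (.both (.play 322 (.both (.ref 655 256) (.play 389 (.ref 0 322))))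 (.both (.ref 292 257) (.play 259 (.both (.play 258 (.ref 3 258)) (.play 327 (.both (.play 260 (.ref 3 259)) (.play 328 (.both (.ref 45 260) (.play 389 (.ref 41 324))))))))))))) (.play 391 (.ref 135 323))))) (.both (.ref 531 129) (.both (.ref 412 129) (.play 391 (.both (.play 324 (.both (.play 454 (.both (.play 453 (.both (.play 260 (.both (.play 389 (.ref 24 132)) (.play 259 (.ref 100 257)))) (.both (.play 452 (.both (.play 261 (.both (.play 197 (.ref 22 133)) (.both (.play 197 (.ref 14 133)) (.ref 108 260)))) (.play 451 (.ref 2 387)))) (.play 262 (.ref 110 197))))) (.both (.play 261 (.ref 15 133)) (.both (.ref 460 261) (.play 518 (.both (.play 262 (.ref 119 261)) (.both (.ref 206 325) (.ref 423 325)))))))) (.play 323 (.ref 0 323)))) (.both (.ref 256 196) (.both (.play 392 (.ref 100 323)) (.play 392 (.ref 58 323))))))))))))))))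
 (.seq (.one (.play 66 (.both (.ref 64 1) (.play 65 (.ref 44 64)))))
 (.one (.play 67 (.both (.ref 662 0) (.ref 45 3)))))))
 (.seq (.seq (.one (.play 129 (.both (.play 1 (.both (.play 65 (.ref 304 0)) (.play 2 (.ref 3 1)))) (.play 130 (.ref 1 65)))))
 (.seq (.one (.play 327 (.both (.play 262 (.both (.ref 620 1) (.both (.play 198 (.both (.play 263 (.both (.play 264 (.both (.play 261 (.both (.play 200 (.both (.play 136 (.ref 133 71)) (.play 201 (.ref 2 197)))) (.play 260 (.ref 65 195)))) (.both (.play 200 (.both (.play 136 (.ref 133 71)) (.play 201 (.ref 60 197)))) (.both (.play 197 (.ref 100 195)) (.play 197 (.ref 58 195)))))) (.play 455 (.ref 7 198)))) (.play 134 (.ref 4 134)))) (.both (.play 392 (.both (.play 393 (.both (.play 263 (.both (.play 264 (.both (.play 200 (.ref 175 71)) (.play 325 (.ref 106 260)))) (.both (.play 199 (.ref 444 70)) (.both (.play 455 (.both (.play 325 (.both (.ref 111 197) (.play 324 (.ref 0 324)))) (.ref 554 261))) (.play 456 (.ref 51 199)))))) (.play 394 (.ref 3 326)))) (.both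 (.play 263 (.both (.play 325 (.both (.play 264 (.both (.play 200 (.ref 175 71)) (.play 265 (.ref 1 261)))) (.play 324 (.ref 0 324)))) (.both (.play 199 (.both (.play 390 (.ref 137 134)) (.play 456 (.ref 4 199)))) (.play 455 (.both (.play 264 (.both (.play 200 (.ref 5 199)) (.ref 54 260))) (.play 390 (.both (.play 454 (.both (.ref 115 260) (.play 518 (.ref 6 262)))) (.play 456 (.both (.play 520 (.ref 4 263)) (.play 457 (.ref 193 389))))))))))) (.both (.play 393 (.both (.play 390 (.both (.ref 364 197) (.both (.play 454 (.ref 189 261)) (.ref 321 388)))) (.play 394 (.ref 3 326)))) (.play 393 (.ref 58 324)))))) (.both (.play 198 (.both (.play 390 (.both (.play 197 (.ref 450 133)) (.play 455 (.ref 4 198)))) (.play 134 (.ref 4 134)))) (.play 198 (.ref 342 134))))))) (.both (.ref 565 2) (.both (.play 262 (.both (.ref 489 3) (.both (.play 263 (.both (.play 328 (.both (.play 199 (.both (.play 135 (.both (.ref 382 6) (.ref 8 71))) (.both (.play 200 (.ref 122 135)) (.play 392 (.ref 109 135))))) (.play 261 (.ref 193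 260)))) (.both (.ref 221 69) (.both (.play 198 (.ref 184 134)) (.play 455 (.ref 13 134)))))) (.both (.ref 541 67) (.play 198 (.ref 342 134)))))) (.both (.play 325 (.both (.play 324 (.both (.play 388 (.both (.play 260 (.both (.ref 553 67) (.play 259 (.ref 3 259)))) (.play 387 (.ref 1 323)))) (.both (.ref 664 258) (.both (.play 263 (.both (.ref 143 258) (.play 264 (.ref 2 260)))) (.ref 275 258))))) (.both (.play 324 (.both (.play 389 (.both (.play 262 (.both (.play 453 (.ref 175 133)) (.both (.play 453 (.ref 186 133)) (.play 263 (.ref 106 259))))) (.both (.play 260 (.both (.play 453 (.ref 24 132)) (.both (.play 453 (.both (.play 261 (.ref 501 196)) (.play 517 (.ref 7 260)))) (.ref 98 260)))) (.play 264 (.both (.play 263 (.ref 2 260)) (.play 328 (.both (.play 265 (.ref 2 261)) (.play 388 (.ref 1 324))))))))) (.both (.play 260 (.both (.play 389 (.both (.play 196 (.ref 342 132)) (.both (.play 261 (.both (.play 196 (.ref 184 132)) (.play 328 (.ref 3 260)))) (.both (.play 196 (.both (.play 132 (.ref 4 132)) (.play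 388 (.both (.play 453 (.ref 4 196)) (.play 328 (.ref 1 324)))))) (.ref 98 260))))) (.play 259 (.ref 3 259)))) (.both (.ref 663 256) (.play 263 (.ref 195 258)))))) (.both (.ref 462 130) (.both (.play 388 (.both (.play 261 (.both (.play 389 (.both (.play 197 (.ref 203 132)) (.play 328 (.ref 1 324)))) (.both (.play 197 (.both (.ref 202 132) (.both (.play 389 (.ref 110 132)) (.ref 440 196)))) (.both (.play 260 (.ref 58 258)) (.ref 283 260))))) (.both (.play 324 (.ref 503 131)) (.both (.play 389 (.ref 90 322)) (.both (.ref 172 322) (.play 389 (.ref 83 322))))))) (.both (.play 389 (.both (.play 453 (.both (.play 262 (.ref 186 133)) (.both (.play 262 (.ref 175 133)) (.both (.play 261 (.both (.play 260 (.both (.play 262 (.both (.play 198 (.ref 5 197)) (.play 259 (.ref 0 259)))) (.play 196 (.ref 7 196)))) (.play 197 (.ref 119 196)))) (.ref 463 260))))) (.both (.ref 502 132) (.both (.play 328 (.both (.ref 527 260) (.play 388 (.ref 1 324)))) (.play 388 (.ref 83 322)))))) (.both (.play 324 (.both (.play 323 (.both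 (.ref 662 256) (.both (.ref 387 257) (.both (.play 388 (.both (.play 322 (.both (.ref 64 257) (.play 389 (.ref 63 321)))) (.play 387 (.ref 1 323)))) (.ref 43 322))))) (.both (.ref 663 256) (.both (.ref 658 257) (.both (.play 263 (.ref 197 258)) (.ref 326 259)))))) (.both (.ref 659 257) (.play 328 (.both (.play 324 (.ref 129 259)) (.both (.play 329 (.ref 65 260)) (.play 329 (.ref 252 260))))))))))))) (.both (.ref 422 130) (.both (.ref 557 130) (.both (.ref 531 130) (.ref 530 130))))))))))
 (.one (.play 66 (.both (.play 65 (.ref 252 0)) (.ref 43 65))))))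
 (.seq (.one (.play 67 (.both (.ref 666 0) (.ref 42 67))))
 (.seq (.one (.play 327 (.both (.play 325 (.both (.play 261 (.both (.play 197 (.both (.ref 555 4) (.both (.play 389 (.both (.play 453 (.ref 101 132)) (.ref 625 195))) (.both (.play 390 (.ref 51 133)) (.play 390 (.ref 151 133)))))) (.both (.play 197 (.both (.ref 555 4) (.both (.play 389 (.both (.play 453 (.ref 415 133)) (.play 388 (.ref 366 196)))) (.both (.play 390 (.ref 51 133)) (.play 390 (.ref 151 133)))))) (.both (.play 260 (.ref 100 258)) (.ref 404 260))))) (.both (.play 324 (.both (.play 261 (.both (.play 390 (.both (.play 197 (.ref 51 133)) (.both (.play 197 (.ref 151 133)) (.play 391 (.ref 135 323))))) (.both (.play 388 (.both (.play 197 (.ref 178 132)) (.both (.play 197 (.both (.play 133 (.ref 6 132)) (.play 389 (.ref 366 196)))) (.ref 283 260)))) (.ref 592 260)))) (.both (.ref 564 195) (.both (.ref 667 256) (.play 391 (.ref 232 322)))))) (.both (.ref 462 130) (.both (.play 324 (.both (.ref 418 131) (.both (.ref 387 258) (.both (.ref 406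 258) (.play 391 (.ref 81 322)))))) (.both (.play 324 (.both (.play 323 (.both (.ref 666 256) (.both (.ref 664 257) (.both (.play 260 (.both (.ref 447 257) (.play 259 (.ref 3 259)))) (.ref 64 258))))) (.both (.ref 667 256) (.both (.ref 170 257) (.both (.play 391 (.ref 293 258)) (.ref 414 259)))))) (.both (.ref 171 257) (.play 328 (.both (.play 324 (.ref 127 259)) (.both (.play 329 (.ref 65 260)) (.play 329 (.ref 44 324)))))))))))) (.both (.play 262 (.both (.ref 489 3) (.both (.play 455 (.both (.play 263 (.both (.play 200 (.both (.play 328 (.both (.play 199 (.both (.ref 286 70) (.play 136 (.ref 5 135)))) (.play 329 (.ref 112 261)))) (.play 264 (.ref 5 199)))) (.both (.ref 614 134) (.both (.play 454 (.both (.play 264 (.both (.play 261 (.both (.play 197 (.both (.play 196 (.ref 3 196)) (.play 390 (.ref 7 197)))) (.play 260 (.ref 63 259)))) (.play 200 (.ref 5 199)))) (.play 518 (.ref 6 262)))) (.ref 289 196))))) (.play 519 (.ref 7 262)))) (.play 455 (.ref 15 134))))) (.both (.play 455 (.both (.play 519 (.both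 (.play 263 (.both (.ref 269 70) (.ref 26 262))) (.both (.ref 206 326) (.both (.ref 17 326) (.ref 218 326))))) (.both (.ref 215 133) (.both (.play 262 (.ref 15 134)) (.play 519 (.ref 644 262)))))) (.both (.ref 422 130) (.both (.play 325 (.both (.ref 462 130) (.both (.play 328 (.both (.play 392 (.ref 631 197)) (.both (.play 261 (.ref 480 260)) (.ref 660 260)))) (.both (.ref 453 258) (.play 392 (.ref 87 324)))))) (.ref 216 133))))))))
 (.one (.play 194 (.both (.play 323 (.both (.play 130 (.ref 73 2)) (.both (.play 195 (.ref 466 2)) (.both (.play 322 (.both (.play 258 (.ref 538 65)) (.play 262 (.ref 1 258)))) (.ref 98 194))))) (.both (.play 258 (.ref 522 65)) (.both (.ref 157 192) (.play 195 (.ref 100 192)))))))))))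
 (.seq (.seq (.seq (.one (.play 4 (.both (.ref 532 0) (.play 5 (.ref 2 1)))))
 (.one (.play 327 (.both (.play 325 (.both (.play 455 (.both (.play 263 (.both (.play 199 (.both (.play 135 (.both (.ref 588 6) (.ref 8 71))) (.both (.ref 182 70) (.both (.play 136 (.both (.play 262 (.both (.ref 307 70) (.play 198 (.ref 7 198)))) (.play 200 (.ref 5 135)))) (.ref 77 134))))) (.both (.ref 155 196) (.play 262 (.both (.play 198 (.ref 7 198)) (.play 264 (.ref 52 260))))))) (.both (.play 262 (.ref 15 134)) (.both (.play 263 (.both (.ref 155 196) (.ref 267 262))) (.play 519 (.both (.play 262 (.ref 7 262)) (.ref 545 326))))))) (.both (.play 388 (.both (.play 324 (.both (.play 323 (.both (.play 261 (.both (.play 197 (.ref 33 132)) (.both (.play 197 (.ref 178 132)) (.ref 647 257)))) (.both (.play 322 (.both (.ref 64 257) (.play 321 (.both (.ref 43 320) (.play 389 (.ref 0 321)))))) (.ref 64 258)))) (.play 387 (.ref 1 323)))) (.both (.play 324 (.ref 503 131)) (.both (.play 328 (.both (.ref 527 260) (.play 389 (.ref 1 324))))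 (.play 389 (.ref 90 322)))))) (.both (.ref 279 132) (.both (.play 324 (.both (.play 388 (.ref 282 195)) (.both (.ref 666 257) (.both (.play 323 (.both (.ref 396 257) (.both (.ref 64 258) (.ref 670 258)))) (.both (.ref 71 258) (.play 323 (.both (.ref 670 258) (.ref 43 322)))))))) (.both (.play 324 (.ref 469 258)) (.play 260 (.both (.ref 157 258) (.both (.play 261 (.ref 100 258)) (.both (.play 328 (.both (.play 324 (.ref 129 259)) (.play 261 (.ref 3 260)))) (.play 324 (.ref 130 259)))))))))))) (.both (.play 325 (.both (.ref 669 66) (.both (.play 328 (.both (.play 389 (.both (.play 261 (.both (.ref 454 133) (.play 260 (.ref 3 260)))) (.play 388 (.ref 1 324)))) (.both (.play 389 (.both (.play 455 (.both (.play 453 (.both (.play 262 (.both (.play 198 (.both (.play 134 (.ref 4 134)) (.play 261 (.ref 5 197)))) (.play 517 (.ref 5 261)))) (.both (.play 262 (.both (.play 198 (.ref 14 134)) (.play 517 (.ref 5 261)))) (.play 454 (.both (.play 261 (.both (.play 260 (.ref 3 260)) (.play 518 (.ref 4 261)))) (.ref 657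 324)))))) (.both (.play 262 (.ref 15 134)) (.both (.play 392 (.both (.ref 245 262) (.play 393 (.ref 0 325)))) (.ref 463 262))))) (.play 388 (.ref 1 324)))) (.both (.ref 414 260) (.play 388 (.both (.ref 478 261) (.play 389 (.ref 1 324)))))))) (.both (.ref 453 258) (.play 392 (.ref 87 324)))))) (.both (.play 325 (.both (.ref 669 66) (.both (.play 328 (.both (.play 263 (.both (.play 261 (.both (.play 262 (.both (.play 264 (.both (.ref 113 133) (.play 265 (.ref 2 261)))) (.play 389 (.ref 189 196)))) (.play 260 (.ref 3 260)))) (.ref 497 133))) (.both (.play 261 (.ref 480 260)) (.both (.ref 414 260) (.ref 273 261))))) (.both (.ref 453 258) (.play 392 (.ref 87 324)))))) (.both (.ref 412 130) (.both (.ref 575 130) (.both (.ref 615 130) (.both (.play 455 (.both (.play 263 (.both (.ref 78 134) (.both (.ref 76 134) (.both (.ref 35 135) (.play 262 (.both (.play 264 (.both (.play 261 (.both (.ref 313 195) (.both (.play 260 (.ref 63 259)) (.play 265 (.both (.ref 42 261) (.play 266 (.ref 1 262))))))) (.play 200 (.ref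 5 199)))) (.play 198 (.ref 7 198)))))))) (.both (.play 262 (.ref 15 134)) (.both (.ref 153 198) (.play 519 (.ref 18 262)))))) (.both (.play 455 (.ref 228 132)) (.play 455 (.ref 156 132)))))))))))))
 (.seq (.one (.play 3 (.both (.ref 579 0) (.play 2 (.ref 3 2)))))
 (.seq (.one (.play 129 (.both (.play 65 (.ref 101 0)) (.ref 26 128))))
 (.one (.play 193 (.both (.ref 594 0) (.ref 26 192)))))))
 (.seq (.seq (.one (.play 256 (.both (.play 192 (.both (.play 1 (.ref 6 0)) (.play 385 (.ref 116 128)))) (.play 320 (.ref 6 64)))))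
 (.seq (.one (.play 325 (.both (.play 262 (.both (.play 261 (.both (.play 197 (.both (.play 133 (.both (.ref 623 5) (.ref 77 68))) (.both (.play 324 (.both (.play 133 (.ref 203 68)) (.both (.play 323 (.ref 60 258)) (.play 323 (.ref 106 258))))) (.ref 77 132)))) (.play 198 (.ref 5 197)))) (.both (.play 326 (.ref 175 133)) (.both (.play 261 (.ref 544 194)) (.play 517 (.both (.ref 385 260) (.play 326 (.ref 5 261)))))))) (.both (.play 261 (.both (.play 197 (.both (.play 133 (.ref 338 68)) (.ref 8 133))) (.both (.play 197 (.both (.ref 214 68) (.both (.ref 77 132) (.ref 675 132)))) (.both (.ref 78 132) (.both (.play 197 (.both (.ref 675 132) (.ref 8 133))) (.play 262 (.ref 350 195))))))) (.both (.play 261 (.ref 384 132)) (.both (.play 260 (.both (.play 324 (.ref 24 132)) (.both (.ref 23 132) (.both (.play 517 (.both (.play 261 (.ref 152 196)) (.play 324 (.ref 7 260)))) (.play 261 (.both (.play 196 (.ref 7 196)) (.play 517 (.ref 152 196)))))))) (.both (.play 455 (.both (.play 452 (.both (.play 516 (.ref 610 259))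 (.both (.play 388 (.both (.play 516 (.ref 137 260)) (.play 387 (.ref 3 387)))) (.play 451 (.both (.play 450 (.both (.ref 194 384) (.ref 43 449))) (.both (.ref 664 385) (.both (.play 514 (.both (.play 388 (.both (.ref 246 385) (.play 387 (.ref 3 387)))) (.play 515 (.ref 1 450)))) (.ref 64 386)))))))) (.both (.play 452 (.both (.play 516 (.ref 610 259)) (.ref 357 388))) (.both (.play 388 (.ref 58 386)) (.play 456 (.both (.play 388 (.ref 3 388)) (.ref 70 389))))))) (.play 517 (.both (.play 388 (.both (.play 324 (.ref 116 260)) (.play 455 (.ref 58 386)))) (.both (.play 324 (.ref 266 260)) (.ref 378 322)))))))))))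
 (.one (.play 453 (.both (.ref 676 0) (.both (.play 325 (.both (.play 261 (.both (.ref 674 4) (.both (.play 452 (.ref 589 132)) (.both (.play 260 (.both (.play 196 (.ref 7 196)) (.play 326 (.both (.play 324 (.both (.play 259 (.ref 193 258)) (.play 517 (.ref 7 260)))) (.both (.ref 622 258) (.both (.play 259 (.both (.play 258 (.ref 0 258)) (.play 262 (.both (.play 327 (.ref 0 259)) (.play 517 (.ref 5 261)))))) (.ref 459 260))))))) (.play 326 (.both (.play 388 (.both (.play 452 (.ref 178 196)) (.play 327 (.ref 83 322)))) (.both (.play 260 (.both (.play 327 (.ref 100 258)) (.both (.play 327 (.both (.play 324 (.ref 542 259)) (.play 328 (.ref 3 260)))) (.ref 459 260)))) (.ref 577 260)))))))) (.both (.play 261 (.both (.play 197 (.both (.ref 594 4) (.both (.ref 560 68) (.both (.play 262 (.both (.play 133 (.both (.ref 77 68) (.play 326 (.ref 109 69)))) (.play 198 (.ref 5 197)))) (.ref 8 133))))) (.both (.ref 674 4) (.both (.ref 673 68) (.both (.play 452 (.ref 49 132)) (.ref 535 196)))))) (.both (.play 261 (.both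 (.ref 673 68) (.both (.ref 652 68) (.both (.ref 214 132) (.both (.play 517 (.both (.play 324 (.both (.play 388 (.both (.play 197 (.ref 258 132)) (.play 581 (.ref 7 324)))) (.play 260 (.ref 7 260)))) (.both (.ref 26 260) (.ref 626 260)))) (.play 260 (.ref 266 196))))))) (.both (.ref 650 129) (.both (.ref 486 130) (.both (.play 262 (.both (.play 324 (.both (.play 260 (.ref 15 132)) (.both (.play 323 (.both (.ref 551 258) (.both (.play 326 (.ref 582 258)) (.ref 493 259)))) (.both (.ref 648 258) (.ref 225 260))))) (.both (.play 326 (.ref 175 133)) (.both (.play 326 (.ref 186 133)) (.both (.ref 128 133) (.play 261 (.ref 544 194))))))) (.both (.play 326 (.both (.play 262 (.ref 186 133)) (.both (.play 327 (.both (.play 324 (.both (.ref 244 195) (.play 323 (.ref 46 259)))) (.both (.ref 201 260) (.both (.play 388 (.ref 83 322)) (.play 388 (.ref 90 322)))))) (.both (.ref 543 258) (.play 517 (.both (.ref 385 260) (.play 262 (.ref 5 261)))))))) (.ref 451 196))))))))) (.both (.play 325 (.both (.play 261 (.both (.ref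 619 64) (.both (.ref 382 132) (.ref 12 133)))) (.both (.play 388 (.both (.play 262 (.both (.play 261 (.both (.ref 608 68) (.play 198 (.ref 5 197)))) (.both (.ref 488 133) (.play 517 (.both (.play 326 (.ref 5 261)) (.ref 224 324)))))) (.both (.play 455 (.both (.ref 604 130) (.play 456 (.ref 3 388)))) (.play 455 (.ref 100 386))))) (.both (.ref 601 68) (.both (.ref 627 129) (.both (.ref 408 130) (.both (.ref 513 130) (.ref 633 258)))))))) (.both (.ref 468 128) (.both (.play 455 (.both (.play 517 (.both (.play 581 (.both (.play 325 (.both (.play 261 (.both (.ref 19 133) (.ref 77 196))) (.both (.ref 367 196) (.both (.play 390 (.both (.play 260 (.both (.ref 643 196) (.play 324 (.ref 7 260)))) (.play 326 (.ref 5 325)))) (.ref 8 261))))) (.both (.play 390 (.ref 93 325)) (.ref 17 388)))) (.both (.play 516 (.ref 284 324)) (.play 456 (.both (.ref 317 389) (.play 516 (.ref 1 452))))))) (.both (.ref 335 196) (.both (.ref 188 259) (.both (.ref 324 323) (.both (.ref 356 387) (.ref 514 387))))))) (.both (.play 455 (.both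 (.play 452 (.both (.play 388 (.both (.play 391 (.both (.play 390 (.ref 581 195)) (.play 392 (.ref 2 388)))) (.play 387 (.ref 3 387)))) (.both (.ref 185 259) (.both (.play 519 (.both (.play 451 (.both (.ref 144 384) (.both (.ref 664 385) (.both (.ref 672 385) (.ref 64 386))))) (.play 520 (.ref 0 452)))) (.ref 396 386))))) (.both (.ref 335 196) (.both (.play 388 (.ref 100 386)) (.play 388 (.ref 58 386)))))) (.ref 399 321)))))))))))
 (.seq (.one (.play 68 (.both (.play 0 (.ref 3 0)) (.ref 273 1))))
 (.seq (.one (.play 453 (.both (.ref 676 0) (.both (.play 455 (.both (.play 452 (.both (.play 391 (.both (.play 325 (.both (.play 261 (.both (.ref 588 132) (.both (.ref 48 132) (.play 517 (.ref 101 196))))) (.both (.play 388 (.both (.ref 286 196) (.play 387 (.ref 3 387)))) (.both (.play 327 (.both (.play 326 (.both (.play 519 (.both (.play 262 (.ref 7 262)) (.play 520 (.ref 0 452)))) (.play 388 (.both (.play 328 (.ref 1 324)) (.play 387 (.ref 3 387)))))) (.both (.ref 327 260) (.play 518 (.both (.play 263 (.ref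 6 262)) (.play 582 (.both (.play 517 (.ref 4 325)) (.play 646 (.ref 5 390))))))))) (.play 518 (.ref 51 261)))))) (.play 392 (.ref 2 388)))) (.both (.play 519 (.both (.play 518 (.ref 640 323)) (.play 520 (.ref 0 452)))) (.both (.play 391 (.both (.play 451 (.both (.ref 144 384) (.both (.ref 71 385) (.both (.ref 672 385) (.ref 64 386))))) (.play 392 (.ref 2 388)))) (.play 519 (.ref 293 386)))))) (.both (.ref 359 259) (.both (.play 388 (.ref 58 386)) (.ref 678 388))))) (.both (.play 325 (.both (.ref 650 129) (.both (.ref 492 132) (.both (.play 260 (.both (.play 324 (.ref 24 132)) (.both (.ref 23 132) (.both (.play 261 (.both (.play 196 (.ref 7 196)) (.play 517 (.ref 415 197)))) (.play 517 (.both (.play 261 (.ref 415 197)) (.play 324 (.ref 7 260)))))))) (.both (.play 516 (.both (.play 517 (.both (.play 261 (.ref 415 197)) (.play 580 (.ref 6 324)))) (.both (.play 261 (.both (.play 517 (.ref 415 197)) (.play 452 (.ref 6 260)))) (.both (.play 580 (.ref 176 260)) (.both (.play 452 (.ref 178 260)) (.ref 440 324))))))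 (.ref 634 257)))))) (.both (.play 455 (.both (.play 325 (.both (.ref 627 129) (.both (.ref 368 132) (.both (.play 517 (.both (.ref 626 260) (.both (.ref 506 260) (.ref 554 323)))) (.play 518 (.ref 51 261)))))) (.both (.ref 369 131) (.ref 678 388)))) (.both (.play 455 (.both (.play 325 (.both (.play 260 (.both (.play 324 (.ref 24 132)) (.both (.ref 23 132) (.both (.play 326 (.both (.play 262 (.both (.play 261 (.both (.play 198 (.ref 5 197)) (.play 259 (.ref 63 258)))) (.play 517 (.ref 5 261)))) (.both (.play 259 (.ref 88 257)) (.both (.play 324 (.ref 618 257)) (.ref 459 260))))) (.play 261 (.ref 593 194)))))) (.both (.play 261 (.both (.play 452 (.both (.play 388 (.both (.play 197 (.ref 6 196)) (.play 387 (.ref 3 387)))) (.play 516 (.ref 6 260)))) (.play 518 (.ref 4 261)))) (.both (.play 517 (.both (.play 326 (.both (.play 327 (.both (.play 324 (.both (.play 260 (.ref 7 260)) (.play 388 (.ref 41 323)))) (.both (.play 391 (.both (.play 324 (.both (.play 260 (.ref 7 260)) (.play 392 (.ref 0 324)))) (.play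 518 (.both (.play 263 (.ref 6 262)) (.play 582 (.ref 4 325)))))) (.play 388 (.both (.play 328 (.ref 1 324)) (.play 387 (.ref 57 386))))))) (.play 262 (.ref 5 261)))) (.both (.play 324 (.ref 450 260)) (.ref 17 324)))) (.play 518 (.ref 51 261)))))) (.both (.ref 359 259) (.both (.play 388 (.ref 58 386)) (.ref 678 388))))) (.both (.ref 370 130) (.both (.ref 645 193) (.both (.play 455 (.both (.play 452 (.both (.play 388 (.both (.play 516 (.both (.ref 573 195) (.play 515 (.ref 1 451)))) (.play 387 (.ref 3 387)))) (.both (.play 519 (.ref 293 386)) (.ref 321 450)))) (.both (.play 388 (.ref 58 386)) (.both (.ref 320 387) (.ref 678 388))))) (.both (.ref 405 258) (.play 455 (.ref 603 258)))))))))))))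
 (.one (.play 390 (.both (.ref 679 1) (.both (.ref 677 1) (.both (.ref 671 64) (.both (.ref 668 64) (.both (.ref 665 64) (.both (.ref 661 65) (.both (.play 391 (.both (.play 326 (.both (.ref 620 65) (.both (.play 519 (.both (.play 518 (.both (.ref 549 198) (.both (.play 454 (.both (.ref 646 259) (.ref 53 324))) (.both (.play 517 (.both (.play 581 (.both (.play 454 (.ref 6 325)) (.play 580 (.ref 83 514)))) (.both (.ref 654 323) (.play 456 (.ref 60 452))))) (.play 582 (.ref 178 326)))))) (.play 583 (.ref 7 326)))) (.both (.play 519 (.ref 15 198)) (.play 262 (.ref 51 198)))))) (.both (.ref 563 130) (.both (.play 456 (.both (.play 263 (.both (.play 327 (.ref 617 134)) (.both (.play 327 (.both (.play 262 (.both (.play 326 (.both (.ref 290 196) (.ref 539 196))) (.play 198 (.ref 7 198)))) (.play 520 (.ref 4 263)))) (.both (.play 389 (.both (.play 392 (.both (.play 328 (.both (.ref 305 199) (.play 329 (.ref 2 325)))) (.ref 136 324))) (.play 388 (.ref 0 388)))) (.play 327 (.ref 260 198)))))) (.both (.play 457 (.both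 (.play 454 (.both (.play 521 (.both (.play 393 (.both (.ref 516 262) (.play 394 (.ref 2 390)))) (.play 522 (.ref 0 454)))) (.play 518 (.ref 189 325)))) (.play 458 (.ref 3 390)))) (.both (.play 457 (.ref 100 388)) (.play 457 (.ref 58 388)))))) (.both (.ref 270 133) (.both (.ref 412 194) (.both (.play 389 (.both (.ref 529 196) (.both (.play 388 (.both (.ref 387 322) (.both (.ref 140 322) (.both (.play 392 (.both (.ref 64 323) (.ref 420 325))) (.ref 231 386))))) (.both (.play 388 (.ref 81 386)) (.play 456 (.ref 135 388)))))) (.play 519 (.both (.play 326 (.both (.play 262 (.ref 22 198)) (.both (.play 262 (.ref 14 198)) (.play 456 (.both (.play 518 (.both (.play 389 (.both (.play 325 (.both (.play 454 (.ref 116 261)) (.play 324 (.ref 193 323)))) (.play 388 (.ref 0 388)))) (.both (.play 517 (.both (.play 520 (.both (.play 327 (.ref 109 263)) (.ref 613 324))) (.play 516 (.ref 2 452)))) (.play 327 (.ref 110 262))))) (.both (.play 518 (.both (.play 327 (.ref 110 262)) (.both (.play 582 (.ref 178 326)) (.ref 263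 453)))) (.play 457 (.ref 100 388)))))))) (.both (.play 326 (.ref 15 198)) (.both (.play 583 (.both (.play 582 (.both (.play 454 (.both (.play 518 (.both (.play 327 (.ref 5 326)) (.play 581 (.ref 191 387)))) (.play 647 (.ref 7 390)))) (.play 646 (.ref 6 390)))) (.both (.ref 40 326) (.ref 218 390)))) (.play 583 (.ref 644 326))))))))))))) (.both (.ref 653 65) (.both (.ref 632 65) (.both (.ref 621 65) (.both (.play 454 (.both (.play 389 (.ref 609 67)) (.both (.ref 392 130) (.both (.play 456 (.ref 534 195)) (.both (.ref 407 195) (.both (.play 519 (.both (.play 452 (.both (.play 518 (.both (.play 326 (.both (.play 262 (.ref 4 262)) (.ref 491 323))) (.both (.play 389 (.both (.play 388 (.both (.play 391 (.both (.ref 113 260) (.play 451 (.ref 1 387)))) (.play 387 (.ref 0 387)))) (.both (.play 325 (.both (.play 516 (.both (.play 388 (.both (.play 580 (.ref 5 324)) (.play 387 (.ref 0 387)))) (.play 517 (.ref 490 451)))) (.play 582 (.ref 7 325)))) (.play 582 (.ref 236 325))))) (.both (.ref 586 261) (.play 582 (.both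 (.play 389 (.both (.play 391 (.both (.play 327 (.ref 6 326)) (.play 388 (.ref 507 387)))) (.play 325 (.ref 7 325)))) (.both (.play 391 (.ref 93 326)) (.ref 92 389)))))))) (.both (.play 326 (.both (.play 391 (.both (.play 327 (.both (.play 328 (.ref 219 261)) (.play 518 (.ref 93 262)))) (.play 453 (.ref 272 388)))) (.play 262 (.ref 4 262)))) (.both (.play 453 (.ref 293 386)) (.both (.play 453 (.ref 471 387)) (.play 453 (.ref 390 387))))))) (.both (.play 326 (.ref 51 262)) (.ref 401 324)))) (.both (.ref 405 259) (.both (.play 519 (.both (.play 326 (.both (.play 518 (.both (.play 327 (.both (.ref 380 261) (.play 263 (.ref 5 262)))) (.play 517 (.ref 191 323)))) (.play 262 (.ref 4 262)))) (.both (.play 583 (.both (.play 391 (.both (.ref 614 262) (.both (.play 584 (.ref 20 263)) (.play 584 (.both (.play 582 (.both (.play 581 (.both (.ref 613 388) (.play 520 (.ref 154 516)))) (.play 646 (.ref 6 390)))) (.play 648 (.ref 4 391))))))) (.play 647 (.ref 7 390)))) (.both (.play 583 (.ref 15 262)) (.play 326 (.ref 51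 262)))))) (.ref 399 322))))))))) (.both (.ref 612 66) (.both (.play 454 (.both (.play 326 (.both (.ref 601 69) (.both (.play 519 (.both (.play 518 (.both (.ref 596 261) (.ref 53 324))) (.both (.play 583 (.ref 149 326)) (.play 583 (.ref 50 326))))) (.both (.play 519 (.ref 342 262)) (.both (.play 519 (.ref 51 262)) (.play 519 (.ref 151 262))))))) (.both (.play 456 (.both (.play 389 (.both (.play 392 (.both (.play 328 (.both (.ref 590 133) (.both (.play 519 (.ref 33 263)) (.play 519 (.ref 178 263))))) (.both (.play 453 (.both (.ref 517 261) (.both (.ref 336 387) (.play 520 (.ref 232 451))))) (.both (.ref 515 387) (.play 393 (.ref 106 389)))))) (.both (.play 388 (.ref 99 387)) (.play 388 (.ref 57 387))))) (.both (.play 389 (.ref 58 387)) (.both (.ref 514 388) (.play 457 (.ref 495 389)))))) (.both (.play 519 (.both (.play 326 (.both (.play 456 (.both (.play 392 (.both (.play 325 (.both (.play 261 (.ref 24 133)) (.play 391 (.ref 100 323)))) (.both (.play 328 (.both (.play 264 (.ref 6 263)) (.play 389 (.both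 (.play 329 (.ref 475 325)) (.play 388 (.ref 57 387)))))) (.play 453 (.ref 582 388))))) (.both (.play 389 (.ref 58 387)) (.both (.ref 484 389) (.ref 439 389))))) (.play 262 (.ref 4 262)))) (.both (.play 583 (.ref 15 262)) (.both (.play 326 (.ref 51 262)) (.ref 291 324))))) (.both (.ref 296 258) (.both (.ref 597 258) (.both (.ref 405 259) (.ref 399 322)))))))) (.both (.ref 595 66) (.both (.play 391 (.both (.ref 565 66) (.both (.ref 563 130) (.both (.ref 270 133) (.both (.ref 557 194) (.both (.ref 411 195) (.play 519 (.both (.ref 427 196) (.both (.play 326 (.ref 15 198)) (.play 583 (.both (.play 326 (.ref 7 326)) (.ref 10 327)))))))))))) (.both (.ref 556 66) (.both (.play 391 (.both (.play 326 (.both (.play 262 (.both (.play 263 (.both (.ref 438 69) (.both (.play 199 (.ref 186 70)) (.both (.play 454 (.ref 544 195)) (.ref 543 195))))) (.play 198 (.ref 4 198)))) (.both (.ref 541 131) (.both (.play 519 (.ref 15 198)) (.play 519 (.ref 24 198)))))) (.both (.play 456 (.both (.play 327 (.both (.play 263 (.both (.play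 199 (.both (.ref 211 70) (.ref 77 134))) (.both (.play 262 (.ref 266 198)) (.play 454 (.ref 258 198))))) (.both (.play 520 (.both (.play 454 (.both (.play 326 (.both (.play 262 (.ref 109 198)) (.ref 539 260))) (.both (.play 453 (.both (.play 452 (.ref 154 387)) (.play 521 (.ref 0 453)))) (.play 453 (.both (.ref 496 387) (.play 521 (.ref 0 453))))))) (.both (.play 584 (.ref 149 327)) (.play 584 (.ref 50 327))))) (.both (.play 263 (.ref 260 198)) (.play 520 (.ref 342 263)))))) (.both (.play 457 (.ref 100 388)) (.play 457 (.ref 58 388))))) (.both (.ref 270 133) (.both (.ref 422 194) (.both (.ref 412 194) (.play 389 (.both (.play 456 (.both (.play 392 (.both (.play 325 (.both (.play 454 (.both (.play 453 (.ref 538 196)) (.both (.play 518 (.ref 15 197)) (.play 520 (.both (.play 327 (.ref 184 263)) (.ref 247 388)))))) (.play 324 (.ref 3 324)))) (.both (.play 325 (.ref 480 324)) (.play 453 (.both (.play 329 (.both (.play 328 (.ref 2 325)) (.play 393 (.both (.play 330 (.ref 2 326)) (.play 454 (.ref 2 389))))))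 (.play 452 (.ref 1 388))))))) (.both (.play 457 (.ref 86 389)) (.play 457 (.ref 134 389))))) (.both (.play 452 (.both (.play 388 (.both (.play 392 (.ref 252 323)) (.play 451 (.ref 1 387)))) (.both (.play 392 (.both (.play 388 (.ref 252 323)) (.play 453 (.ref 1 388)))) (.both (.ref 172 386) (.play 453 (.ref 83 386)))))) (.both (.play 456 (.ref 135 388)) (.play 456 (.ref 87 388)))))))))))) (.both (.play 454 (.both (.ref 537 129) (.both (.ref 392 130) (.both (.play 326 (.both (.ref 536 133) (.both (.ref 373 259) (.both (.play 519 (.ref 342 262)) (.both (.play 519 (.ref 51 262)) (.play 519 (.ref 151 262))))))) (.both (.play 456 (.ref 534 195)) (.both (.ref 405 259) (.ref 399 322))))))) (.both (.ref 533 129) (.both (.play 454 (.both (.ref 392 130) (.both (.play 456 (.both (.play 389 (.both (.play 392 (.both (.play 328 (.both (.play 329 (.both (.play 265 (.ref 186 136)) (.play 391 (.ref 2 325)))) (.both (.play 391 (.ref 138 261)) (.play 519 (.ref 33 263))))) (.both (.ref 518 259) (.both (.ref 515 387) (.play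 393 (.ref 106 389)))))) (.both (.play 388 (.ref 99 387)) (.play 388 (.ref 57 387))))) (.both (.play 389 (.ref 58 387)) (.both (.ref 514 388) (.play 457 (.ref 495 389)))))) (.both (.play 326 (.both (.ref 513 131) (.both (.play 519 (.both (.play 518 (.both (.ref 192 261) (.ref 53 324))) (.both (.play 583 (.ref 149 326)) (.play 583 (.ref 50 326))))) (.both (.play 519 (.ref 342 262)) (.both (.play 519 (.ref 51 262)) (.play 519 (.ref 151 262))))))) (.both (.ref 511 131) (.both (.play 519 (.both (.play 453 (.both (.play 456 (.both (.play 392 (.both (.play 328 (.both (.play 329 (.both (.ref 505 261) (.play 389 (.both (.play 391 (.ref 2 325)) (.play 388 (.ref 3 388)))))) (.play 264 (.ref 6 263)))) (.play 393 (.ref 2 389)))) (.both (.play 389 (.ref 112 388)) (.ref 273 389)))) (.both (.play 452 (.both (.play 451 (.both (.ref 336 385) (.ref 64 386))) (.both (.play 391 (.ref 154 387)) (.play 388 (.ref 277 387))))) (.both (.play 452 (.ref 471 387)) (.play 520 (.ref 135 452)))))) (.both (.play 392 (.both (.play 456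 (.both (.play 583 (.both (.play 328 (.ref 61 263)) (.play 647 (.ref 7 390)))) (.play 393 (.ref 60 389)))) (.both (.play 583 (.both (.ref 128 263) (.play 647 (.ref 7 390)))) (.both (.play 583 (.both (.play 391 (.ref 219 325)) (.play 647 (.ref 7 390)))) (.play 393 (.both (.play 456 (.ref 60 389)) (.both (.play 391 (.ref 41 389)) (.both (.play 453 (.both (.play 456 (.ref 2 389)) (.play 391 (.ref 1 389)))) (.ref 352 390))))))))) (.play 326 (.ref 51 262))))) (.both (.ref 405 259) (.ref 399 322)))))))) (.both (.ref 504 129) (.both (.ref 494 129) (.both (.ref 470 129) (.both (.ref 445 129) (.both (.play 391 (.both (.ref 270 133) (.both (.ref 422 194) (.both (.play 389 (.both (.play 392 (.both (.ref 418 196) (.both (.ref 414 324) (.ref 165 388)))) (.both (.play 388 (.both (.ref 140 322) (.both (.play 452 (.both (.play 324 (.both (.play 323 (.ref 3 323)) (.ref 413 324))) (.play 451 (.ref 1 387)))) (.ref 80 386)))) (.both (.play 456 (.ref 135 388)) (.play 456 (.ref 87 388)))))) (.both (.ref 412 194) (.ref 411 195))))))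 (.both (.play 454 (.both (.ref 392 130) (.both (.play 326 (.both (.ref 408 131) (.both (.play 519 (.both (.play 518 (.both (.play 327 (.both (.play 391 (.both (.play 328 (.ref 219 261)) (.play 582 (.ref 5 326)))) (.play 263 (.ref 5 262)))) (.ref 53 324))) (.both (.play 583 (.ref 149 326)) (.play 583 (.ref 50 326))))) (.both (.play 519 (.ref 342 262)) (.both (.play 519 (.ref 51 262)) (.play 519 (.ref 151 262))))))) (.both (.ref 407 195) (.both (.ref 405 259) (.both (.ref 403 259) (.ref 399 322))))))) (.both (.ref 393 130) (.both (.ref 288 131) (.both (.ref 205 193) (.ref 118 194))))))))))))))))))))))))))))))))))))))))))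
    (by decide +kernel)

end Crest.Agent.Snaky
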