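import Crest.Agent.Lib_Snaky.Root

set_option autoImplicit false
set_option linter.all false
set_option maxRecDepth 1000000

namespace Crest.Agent.Snaky

theorem Cert_L4 : PW ⟨12, nat_lit 186070713419675363980626894819329160794532188335953423432061490990243657757029868371504908982723472783555205531204141550984858016925351936, nat_lit 84527124981706439437452598870640228491032735378003239276446102337786767965948611053791858756010121705194830392585514131225313888519281434248344153359977044037573001948816759122615035844654228647891036754790823143578528832172053860132545337491372194008639809644398087504384, 15, nat_lit 84527124981706439437452598870640228491032735378003239276446102337786767965948611053791858756010121705194830392585514131225313888519281434248344153359977044037573001948816759122615035844654228647891036754790823143578528832172053860132545337491372194008639809644398087504384⟩ :=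
  sound2 baseTbl baseTbl_ok
    (.seq (.seq (.seq (.seq (.seq (.seq (.seq (.seq (.one (.play 256 (.both (.play 65 (.ref 5 0)) (.play 321 (.ref 4 64)))))
 (.seq (.one (.play 321 (.both (.play 65 (.both (.play 1 (.ref 5 0)) (.ref 8 64))) (.play 257 (.ref 4 64)))))
 (.one (.play 257 (.both (.play 64 (.ref 7 0)) (.play 322 (.ref 4 65)))))))
 (.seq (.one (.play 258 (.both (.ref 10 0) (.play 194 (.ref 4 1)))))
 (.seq (.one (.play 64 (.both (.play 0 (.ref 7 0)) (.ref 11 64))))
 (.one (.play 257 (.both (.play 64 (.ref 7 0)) (.play 66 (.ref 5 1))))))))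
 (.seq (.seq (.one (.play 66 (.both (.play 64 (.both (.play 0 (.ref 7 0)) (.ref 13 64))) (.play 2 (.ref 5 1)))))
 (.seq (.one (.both (.play 64 (.ref 1 0)) (.play 5 (.ref 1 1))))
 (.one (.both (.play 0 (.ref 0 0)) (.play 69 (.ref 0 1))))))
 (.seq (.seq (.one (.play 257 (.both (.play 193 (.ref 4 0)) (.play 321 (.ref 4 64)))))
 (.one (.play 256 (.both (.play 192 (.ref 6 0)) (.play 320 (.ref 6 64))))))
 (.seq (.one (.both (.ref 18 0) (.ref 17 1)))
 (.one (.play 65 (.both (.play 1 (.ref 5 0)) (.play 129 (.ref 5 64)))))))))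
 (.seq (.seq (.seq (.one (.play 64 (.both (.play 0 (.ref 7 0)) (.play 128 (.ref 7 64)))))
 (.seq (.one (.both (.ref 21 0) (.ref 20 1)))
 (.one (.both (.play 65 (.ref 22 0)) (.play 385 (.ref 19 128))))))
 (.seq (.one (.both (.ref 20 0) (.ref 17 64)))
 (.seq (.one (.play 257 (.both (.ref 18 0) (.play 321 (.ref 24 1)))))
 (.one (.play 256 (.both (.play 192 (.ref 6 0)) (.play 257 (.both (.ref 17 1) (.play 320 (.ref 6 64))))))))))
 (.seq (.seq (.one (.play 1 (.both (.play 192 (.ref 6 0)) (.play 194 (.ref 4 1)))))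
 (.seq (.one (.play 256 (.both (.play 65 (.ref 5 0)) (.ref 17 0))))
 (.one (.both (.play 1 (.ref 5 0)) (.ref 28 64)))))
 (.seq (.seq (.one (.both (.play 0 (.ref 4 0)) (.play 321 (.ref 4 64))))
 (.one (.play 257 (.both (.play 64 (.ref 30 0)) (.play 448 (.ref 5 192))))))
 (.seq (.one (.play 384 (.both (.play 193 (.both (.ref 31 0) (.play 129 (.ref 5 128)))) (.both (.ref 17 128) (.play 193 (.ref 29 128))))))
 (.one (.both (.play 2 (.ref 5 1)) (.play 320 (.ref 6 64)))))))))
 (.seq (.seq (.seq (.seq (.one (.play 256 (.both (.play 192 (.ref 6 0)) (.play 257 (.ref 33 0)))))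
 (.seq (.one (.both (.play 1 (.ref 5 0)) (.play 320 (.ref 5 64))))
 (.one (.play 129 (.both (.play 194 (.both (.play 65 (.both (.play 258 (.ref 30 1)) (.ref 18 64))) (.both (.play 258 (.both (.play 65 (.ref 30 1)) (.play 385 (.ref 35 129)))) (.ref 34 128)))) (.both (.ref 32 1) (.both (.play 320 (.both (.play 322 (.both (.ref 27 64) (.play 386 (.ref 4 129)))) (.play 384 (.ref 6 128)))) (.both (.ref 26 128) (.ref 25 128)))))))))
 (.seq (.one (.both (.ref 21 0) (.ref 18 64)))
 (.seq (.one (.play 257 (.both (.play 321 (.ref 37 0)) (.ref 17 1))))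
 (.one (.play 258 (.both (.play 257 (.both (.ref 18 0) (.play 322 (.ref 4 65)))) (.play 194 (.ref 4 1))))))))
 (.seq (.seq (.one (.play 258 (.both (.play 256 (.both (.ref 27 0) (.play 320 (.ref 6 64)))) (.play 322 (.ref 4 65)))))
 (.seq (.one (.both (.play 0 (.ref 7 0)) (.play 322 (.ref 4 65))))
 (.one (.both (.play 1 (.ref 6 0)) (.play 320 (.ref 6 64))))))
 (.seq (.seq (.one (.both (.play 0 (.ref 7 0)) (.play 321 (.ref 7 64))))
 (.one (.play 192 (.both (.play 256 (.both (.play 65 (.ref 42 0)) (.play 385 (.ref 43 128)))) (.both (.play 65 (.both (.play 256 (.ref 42 0)) (.ref 17 65))) (.play 386 (.both (.play 385 (.ref 41 128)) (.play 322 (.ref 4 129)))))))))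
 (.seq (.one (.play 257 (.both (.play 64 (.ref 7 0)) (.ref 18 0))))
 (.one (.play 385 (.both (.play 192 (.both (.play 256 (.both (.play 65 (.ref 42 0)) (.play 449 (.ref 7 192)))) (.play 128 (.ref 7 128)))) (.both (.ref 18 128) (.play 192 (.both (.play 128 (.ref 7 128)) (.ref 45 192)))))))))))
 (.seq (.seq (.seq (.one (.play 129 (.both (.ref 46 0) (.both (.ref 44 0) (.both (.ref 40 64) (.both (.ref 39 128) (.ref 38 128)))))))
 (.seq (.one (.both (.play 64 (.ref 2 0)) (.play 5 (.ref 1 1))))
 (.one (.play 66 (.both (.play 65 (.ref 48 0)) (.play 259 (.ref 7 2)))))))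
 (.seq (.seq (.one (.both (.play 66 (.both (.play 2 (.ref 7 2)) (.ref 49 64))) (.play 4 (.ref 5 3))))
 (.one (.both (.play 1 (.ref 6 0)) (.play 257 (.ref 6 64)))))
 (.seq (.one (.play 65 (.both (.play 193 (.ref 51 0)) (.play 128 (.ref 5 64)))))
 (.one (.both (.play 65 (.ref 51 0)) (.play 384 (.ref 5 128)))))))
 (.seq (.seq (.one (.both (.play 1 (.ref 6 0)) (.play 128 (.ref 5 64))))
 (.seq (.one (.both (.play 65 (.ref 54 0)) (.play 384 (.ref 5 128))))
 (.one (.play 257 (.both (.play 0 (.ref 7 0)) (.play 66 (.ref 5 1)))))))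
 (.seq (.seq (.one (.both (.play 5 (.ref 2 1)) (.play 132 (.ref 16 64))))
 (.one (.both (.play 1 (.ref 1 0)) (.play 5 (.ref 1 1)))))
 (.seq (.one (.play 4 (.both (.play 67 (.ref 2 0)) (.play 2 (.ref 58 0)))))
 (.one (.play 64 (.both (.play 3 (.ref 2 0)) (.play 132 (.ref 0 64)))))))))))
 (.seq (.seq (.seq (.seq (.seq (.one (.both (.play 0 (.ref 4 0)) (.play 129 (.ref 7 64))))
 (.seq (.one (.both (.play 64 (.ref 61 0)) (.play 385 (.ref 7 128))))
 (.one (.play 4 (.both (.play 3 (.ref 2 0)) (.play 5 (.ref 2 1)))))))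
 (.seq (.one (.play 129 (.both (.play 65 (.both (.ref 63 1) (.play 128 (.ref 1 64)))) (.play 130 (.ref 1 65)))))
 (.seq (.one (.play 65 (.both (.play 64 (.ref 5 0)) (.play 129 (.ref 6 0)))))
 (.one (.play 65 (.both (.play 64 (.both (.play 1 (.ref 5 0)) (.ref 17 64))) (.play 129 (.ref 5 64))))))))
 (.seq (.seq (.one (.play 64 (.both (.play 65 (.both (.play 0 (.ref 7 0)) (.ref 17 65))) (.play 128 (.ref 7 64)))))
 (.seq (.one (.play 66 (.both (.play 65 (.both (.ref 21 0) (.play 2 (.ref 5 1)))) (.play 130 (.ref 5 65)))))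
 (.one (.play 68 (.both (.play 67 (.ref 0 0)) (.play 69 (.ref 0 1)))))))
 (.seq (.seq (.one (.play 68 (.both (.play 1 (.ref 3 0)) (.play 5 (.ref 2 1)))))
 (.one (.play 4 (.both (.play 3 (.ref 2 0)) (.ref 70 0)))))
 (.seq (.one (.both (.play 0 (.ref 3 0)) (.play 69 (.ref 3 1))))
 (.one (.play 1 (.both (.play 0 (.ref 3 0)) (.play 2 (.ref 3 1)))))))))
 (.seq (.seq (.seq (.one (.both (.play 5 (.ref 2 1)) (.play 128 (.ref 1 64))))
 (.seq (.one (.play 129 (.both (.play 65 (.ref 74 0)) (.play 130 (.ref 1 65)))))
 (.one (.play 195 (.both (.play 197 (.both (.play 261 (.ref 4 4)) (.play 198 (.both (.play 194 (.both (.ref 75 128) (.ref 73 129))) (.both (.play 131 (.ref 72 130)) (.play 199 (.both (.ref 71 132) (.ref 69 195)))))))) (.play 259 (.ref 6 3)))))))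
 (.seq (.one (.play 257 (.both (.play 64 (.ref 7 0)) (.play 320 (.ref 6 64)))))
 (.seq (.one (.play 320 (.both (.play 64 (.both (.play 0 (.ref 7 0)) (.ref 77 64))) (.play 256 (.ref 6 64)))))
 (.one (.play 65 (.both (.play 2 (.ref 5 1)) (.play 256 (.ref 6 64))))))))
 (.seq (.seq (.one (.both (.play 0 (.ref 0 0)) (.play 69 (.ref 3 1))))
 (.seq (.one (.play 67 (.both (.play 68 (.ref 80 0)) (.play 258 (.ref 5 2)))))
 (.one (.play 67 (.both (.play 3 (.ref 5 2)) (.ref 81 64))))))
 (.seq (.seq (.one (.both (.ref 82 0) (.play 1 (.ref 7 1))))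
 (.one (.both (.play 0 (.ref 4 0)) (.play 256 (.ref 4 64)))))
 (.seq (.one (.play 64 (.both (.play 192 (.ref 84 0)) (.play 129 (.ref 7 64)))))
 (.one (.both (.play 64 (.ref 84 0)) (.play 385 (.ref 7 128)))))))))
 (.seq (.seq (.seq (.seq (.one (.play 257 (.both (.play 64 (.ref 7 0)) (.play 2 (.ref 5 1)))))
 (.seq (.one (.play 68 (.both (.play 1 (.ref 3 0)) (.play 128 (.ref 1 64)))))
 (.one (.play 68 (.both (.play 0 (.ref 3 0)) (.ref 88 1))))))
 (.seq (.one (.both (.play 64 (.ref 1 0)) (.play 69 (.ref 0 1))))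
 (.seq (.one (.both (.play 0 (.ref 0 0)) (.play 4 (.ref 0 1))))
 (.one (.play 1 (.both (.play 3 (.ref 91 0)) (.play 66 (.ref 3 1))))))))
 (.seq (.seq (.one (.play 4 (.both (.play 3 (.ref 2 0)) (.play 68 (.ref 74 0)))))
 (.seq (.one (.play 65 (.both (.play 1 (.both (.play 64 (.ref 1 0)) (.play 68 (.ref 0 1)))) (.play 66 (.ref 1 1)))))
 (.one (.play 70 (.both (.play 68 (.both (.play 67 (.both (.play 66 (.both (.ref 73 1) (.ref 94 64))) (.both (.play 71 (.both (.ref 93 4) (.ref 69 67))) (.play 134 (.ref 16 66))))) (.play 4 (.ref 7 4)))) (.play 6 (.ref 5 5)))))))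
 (.seq (.seq (.one (.play 320 (.both (.play 66 (.both (.ref 79 0) (.play 130 (.ref 5 65)))) (.play 384 (.ref 6 128)))))
 (.one (.play 65 (.both (.play 0 (.ref 7 0)) (.play 256 (.ref 6 64))))))
 (.seq (.one (.play 64 (.both (.play 320 (.both (.ref 97 0) (.play 384 (.ref 6 128)))) (.play 128 (.ref 7 64)))))
 (.one (.both (.play 65 (.ref 7 0)) (.play 321 (.ref 7 64))))))))
 (.seq (.seq (.seq (.one (.both (.play 0 (.ref 4 0)) (.play 321 (.ref 99 64))))
 (.seq (.one (.both (.play 65 (.ref 3 0)) (.play 69 (.ref 3 1))))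
 (.one (.both (.play 64 (.ref 2 0)) (.play 5 (.ref 2 1))))))
 (.seq (.seq (.one (.both (.play 4 (.ref 102 0)) (.play 133 (.ref 0 65))))
 (.one (.play 64 (.both (.play 4 (.ref 2 0)) (.play 131 (.ref 0 64))))))
 (.seq (.one (.both (.play 193 (.ref 6 0)) (.play 320 (.ref 5 64))))
 (.one (.both (.play 1 (.ref 6 0)) (.play 320 (.ref 105 64)))))))
 (.seq (.seq (.one (.play 194 (.both (.play 3 (.ref 6 2)) (.play 193 (.ref 80 192)))))
 (.seq (.one (.both (.play 258 (.both (.ref 107 0) (.play 322 (.ref 6 66)))) (.play 324 (.ref 4 67))))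
 (.one (.play 260 (.both (.play 259 (.ref 108 0)) (.both (.play 194 (.both (.play 196 (.both (.play 3 (.ref 4 3)) (.play 193 (.ref 103 128)))) (.both (.play 3 (.both (.play 258 (.ref 6 2)) (.play 196 (.ref 4 3)))) (.both (.play 258 (.ref 106 2)) (.play 193 (.both (.ref 104 128) (.both (.play 196 (.ref 103 128)) (.play 261 (.both (.play 196 (.ref 0 193)) (.play 259 (.ref 101 193))))))))))) (.both (.play 196 (.ref 100 3)) (.play 324 (.both (.play 259 (.ref 4 67)) (.play 196 (.ref 99 67)))))))))))
 (.seq (.seq (.one (.both (.play 256 (.ref 6 0)) (.play 258 (.ref 4 1))))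
 (.one (.play 256 (.both (.play 192 (.ref 6 0)) (.play 258 (.both (.play 194 (.ref 4 1)) (.play 257 (.ref 110 64))))))))
 (.seq (.one (.play 132 (.both (.play 68 (.both (.ref 63 0) (.play 133 (.ref 0 65)))) (.play 131 (.ref 0 64)))))
 (.one (.play 65 (.both (.play 64 (.ref 1 0)) (.play 66 (.ref 1 1))))))))))))
 (.seq (.seq (.seq (.seq (.seq (.seq (.one (.play 65 (.both (.play 0 (.ref 3 0)) (.play 64 (.ref 0 64)))))
 (.seq (.one (.both (.play 0 (.ref 3 0)) (.play 128 (.ref 1 64))))
 (.one (.play 1 (.both (.play 129 (.both (.play 65 (.ref 115 0)) (.play 130 (.ref 1 65)))) (.play 2 (.ref 3 1)))))))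
 (.seq (.one (.play 1 (.both (.ref 113 0) (.play 68 (.ref 0 1)))))
 (.seq (.one (.play 66 (.both (.ref 73 1) (.ref 117 64))))
 (.one (.play 258 (.both (.play 256 (.both (.play 192 (.ref 6 0)) (.play 257 (.ref 110 64)))) (.play 194 (.ref 4 1))))))))
 (.seq (.seq (.one (.play 257 (.both (.ref 18 0) (.both (.play 192 (.both (.play 256 (.ref 6 0)) (.play 321 (.both (.play 128 (.ref 43 64)) (.ref 17 65))))) (.both (.ref 119 64) (.ref 38 64))))))
 (.seq (.one (.play 321 (.both (.ref 20 1) (.play 385 (.ref 19 128)))))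
 (.one (.both (.play 64 (.ref 5 0)) (.play 320 (.ref 5 64))))))
 (.seq (.seq (.one (.both (.play 1 (.ref 6 0)) (.play 320 (.ref 122 64))))
 (.one (.play 320 (.both (.play 192 (.ref 54 0)) (.play 257 (.ref 6 64))))))
 (.seq (.one (.play 257 (.both (.play 194 (.both (.play 258 (.ref 4 1)) (.play 321 (.both (.ref 18 64) (.play 130 (.ref 35 65)))))) (.both (.ref 17 1) (.both (.ref 25 64) (.ref 111 64))))))
 (.one (.play 64 (.both (.play 1 (.ref 5 0)) (.play 257 (.ref 4 64)))))))))
 (.seq (.seq (.seq (.one (.play 65 (.both (.play 321 (.both (.ref 126 0) (.play 385 (.ref 4 128)))) (.play 129 (.ref 5 64)))))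
 (.seq (.one (.play 193 (.both (.play 0 (.ref 4 0)) (.play 384 (.ref 35 128)))))
 (.one (.play 257 (.both (.ref 128 0) (.play 321 (.ref 4 64)))))))
 (.seq (.one (.play 64 (.both (.ref 20 0) (.play 257 (.ref 4 64)))))
 (.seq (.one (.both (.ref 130 0) (.play 385 (.ref 4 128))))
 (.one (.both (.play 1 (.ref 6 0)) (.play 320 (.ref 5 64)))))))
 (.seq (.seq (.one (.both (.play 64 (.ref 2 0)) (.play 68 (.ref 2 1))))
 (.seq (.one (.both (.play 65 (.ref 133 0)) (.play 6 (.ref 1 2))))
 (.one (.play 64 (.both (.play 0 (.ref 7 0)) (.play 66 (.both (.play 2 (.ref 5 1)) (.ref 13 64))))))))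
 (.seq (.seq (.one (.play 257 (.both (.play 66 (.ref 5 1)) (.play 320 (.ref 6 64)))))
 (.one (.play 66 (.both (.play 2 (.ref 5 1)) (.play 320 (.both (.play 256 (.ref 6 64)) (.ref 136 64)))))))
 (.seq (.one (.play 256 (.both (.play 192 (.ref 6 0)) (.ref 77 0))))
 (.one (.play 64 (.both (.play 0 (.ref 7 0)) (.ref 138 64)))))))))
 (.seq (.seq (.seq (.seq (.one (.play 2 (.both (.play 66 (.both (.play 1 (.ref 3 1)) (.ref 117 64))) (.play 3 (.ref 3 2)))))
 (.seq (.one (.play 322 (.both (.play 64 (.both (.play 65 (.both (.play 0 (.ref 7 0)) (.play 258 (.ref 4 65)))) (.play 128 (.ref 7 64)))) (.play 386 (.ref 4 129)))))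
 (.one (.play 322 (.both (.play 321 (.both (.ref 21 0) (.play 386 (.ref 4 129)))) (.play 258 (.ref 4 65)))))))
 (.seq (.one (.play 65 (.both (.ref 21 0) (.play 256 (.ref 6 64)))))
 (.seq (.one (.both (.ref 143 0) (.play 384 (.ref 6 128))))
 (.one (.play 68 (.both (.play 1 (.ref 3 0)) (.play 129 (.ref 1 64))))))))
 (.seq (.seq (.one (.play 129 (.both (.play 1 (.both (.play 0 (.ref 3 0)) (.ref 145 1))) (.play 128 (.ref 1 64)))))
 (.seq (.one (.play 65 (.both (.ref 146 0) (.play 5 (.ref 2 1)))))
 (.one (.play 129 (.both (.play 65 (.both (.play 4 (.ref 2 1)) (.play 128 (.ref 1 64)))) (.play 130 (.ref 1 65)))))))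
 (.seq (.seq (.one (.play 65 (.both (.play 0 (.ref 3 0)) (.play 4 (.ref 2 1)))))
 (.one (.play 1 (.both (.ref 149 0) (.play 2 (.ref 3 1))))))
 (.seq (.one (.play 66 (.both (.ref 150 0) (.both (.ref 148 0) (.ref 146 1)))))
 (.one (.play 65 (.both (.ref 73 0) (.play 4 (.ref 2 1)))))))))
 (.seq (.seq (.seq (.one (.both (.ref 152 0) (.play 6 (.ref 2 2))))
 (.seq (.one (.play 65 (.both (.play 4 (.ref 2 1)) (.ref 113 64))))
 (.one (.play 66 (.both (.ref 154 0) (.play 6 (.ref 2 2)))))))
 (.seq (.seq (.one (.play 195 (.both (.play 259 (.ref 99 2)) (.play 196 (.ref 0 128)))))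
 (.one (.play 321 (.both (.play 193 (.both (.play 129 (.both (.play 65 (.ref 22 0)) (.both (.play 322 (.ref 30 65)) (.play 385 (.ref 24 65))))) (.play 192 (.ref 3 192)))) (.play 320 (.ref 1 256))))))
 (.seq (.one (.play 259 (.both (.play 262 (.both (.ref 157 2) (.ref 156 131))) (.both (.ref 155 192) (.both (.play 258 (.ref 153 192)) (.both (.ref 151 192) (.ref 147 193)))))))
 (.one (.both (.play 67 (.ref 2 0)) (.play 5 (.ref 1 1)))))))
 (.seq (.seq (.one (.both (.play 64 (.ref 2 0)) (.play 5 (.ref 159 1))))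
 (.seq (.one (.both (.play 64 (.ref 2 0)) (.play 5 (.ref 58 1))))
 (.one (.play 195 (.both (.play 259 (.ref 7 2)) (.play 196 (.ref 0 128)))))))
 (.seq (.seq (.one (.play 129 (.both (.play 65 (.both (.ref 73 0) (.play 128 (.ref 1 64)))) (.play 130 (.ref 1 65)))))
 (.one (.play 66 (.both (.ref 163 0) (.play 5 (.ref 2 2))))))
 (.seq (.one (.play 129 (.both (.play 1 (.both (.play 65 (.ref 115 0)) (.play 2 (.ref 3 1)))) (.play 130 (.ref 1 65)))))
 (.one (.both (.ref 73 0) (.ref 63 1)))))))))
 (.seq (.seq (.seq (.seq (.seq (.one (.play 66 (.both (.play 65 (.ref 166 0)) (.ref 113 65))))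
 (.seq (.one (.play 67 (.both (.ref 167 0) (.both (.ref 165 1) (.both (.play 4 (.both (.play 66 (.both (.play 5 (.ref 102 1)) (.ref 113 65))) (.play 3 (.ref 3 3)))) (.ref 73 2))))))
 (.one (.both (.ref 113 0) (.ref 69 1)))))
 (.seq (.one (.play 66 (.both (.ref 73 1) (.play 65 (.ref 169 64)))))
 (.seq (.one (.both (.play 64 (.ref 30 0)) (.play 196 (.ref 1 192))))
 (.one (.play 68 (.both (.play 0 (.ref 3 0)) (.play 129 (.ref 1 64))))))))
 (.seq (.seq (.one (.both (.play 1 (.ref 91 0)) (.play 70 (.ref 3 2))))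
 (.seq (.one (.play 192 (.both (.play 128 (.ref 62 0)) (.play 260 (.ref 3 192)))))
 (.one (.play 323 (.both (.ref 174 2) (.both (.play 322 (.both (.play 386 (.ref 106 130)) (.play 321 (.ref 133 256)))) (.play 262 (.ref 115 194))))))))
 (.seq (.seq (.one (.both (.play 192 (.ref 4 0)) (.play 321 (.ref 7 64))))
 (.one (.both (.play 0 (.ref 4 0)) (.play 321 (.ref 176 64)))))
 (.seq (.one (.play 193 (.both (.play 257 (.ref 6 1)) (.play 192 (.ref 2 128)))))
 (.one (.both (.ref 20 1) (.ref 18 64)))))))
 (.seq (.seq (.seq (.one (.play 65 (.both (.ref 126 0) (.play 129 (.ref 5 64)))))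
 (.seq (.one (.play 65 (.both (.ref 21 0) (.play 258 (.ref 4 65)))))
 (.one (.play 129 (.both (.ref 181 0) (.both (.ref 180 1) (.play 385 (.ref 22 64))))))))
 (.seq (.seq (.one (.play 259 (.both (.play 195 (.both (.ref 182 2) (.both (.play 387 (.both (.play 451 (.ref 179 130)) (.both (.play 451 (.ref 24 131)) (.play 388 (.both (.ref 178 193) (.play 452 (.ref 4 195))))))) (.both (.play 388 (.ref 177 131)) (.play 388 (.ref 100 131)))))) (.both (.ref 175 64) (.play 258 (.ref 173 256))))))
 (.one (.play 325 (.both (.ref 183 2) (.both (.play 324 (.both (.play 388 (.both (.play 261 (.both (.play 197 (.ref 106 132)) (.both (.play 260 (.both (.play 452 (.ref 35 196)) (.play 328 (.ref 3 260)))) (.ref 172 260)))) (.play 387 (.ref 1 323)))) (.play 263 (.ref 2 260)))) (.both (.play 324 (.both (.play 260 (.both (.play 389 (.both (.play 388 (.ref 171 132)) (.both (.play 453 (.ref 62 132)) (.ref 88 260)))) (.play 259 (.ref 3 259)))) (.play 263 (.ref 2 260)))) (.both (.play 324 (.both (.play 323 (.both (.ref 170 256) (.both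 (.ref 116 257) (.both (.play 388 (.both (.play 322 (.both (.ref 73 257) (.play 389 (.ref 16 321)))) (.play 387 (.ref 1 323)))) (.ref 113 322))))) (.play 263 (.ref 2 260)))) (.both (.play 324 (.both (.ref 168 256) (.play 263 (.ref 2 260)))) (.ref 164 258)))))))))
 (.seq (.one (.play 327 (.both (.play 326 (.both (.ref 184 0) (.both (.play 265 (.both (.play 329 (.both (.play 262 (.both (.play 136 (.both (.play 390 (.both (.play 135 (.both (.play 71 (.ref 7 71)) (.ref 65 134))) (.play 389 (.ref 1 325)))) (.play 72 (.ref 4 72)))) (.play 261 (.ref 3 261)))) (.both (.play 136 (.ref 30 72)) (.ref 162 198)))) (.both (.play 266 (.ref 159 262)) (.play 266 (.ref 58 262))))) (.both (.play 265 (.ref 161 261)) (.play 265 (.ref 160 261)))))) (.both (.play 136 (.both (.ref 67 7) (.play 391 (.ref 6 135)))) (.both (.ref 158 67) (.play 391 (.ref 123 135)))))))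
 (.one (.both (.play 0 (.ref 3 0)) (.play 129 (.ref 15 64)))))))
 (.seq (.seq (.one (.both (.play 0 (.ref 0 0)) (.play 69 (.both (.play 4 (.ref 0 1)) (.play 70 (.ref 3 2))))))
 (.seq (.one (.both (.play 0 (.ref 0 0)) (.play 69 (.ref 101 1))))
 (.one (.both (.ref 73 0) (.ref 113 64)))))
 (.seq (.seq (.one (.play 65 (.both (.ref 73 0) (.play 132 (.ref 0 65)))))
 (.one (.both (.ref 63 1) (.ref 113 64))))
 (.seq (.one (.play 67 (.both (.play 3 (.ref 6 2)) (.play 68 (.ref 2 64)))))
 (.one (.play 131 (.both (.play 134 (.both (.play 198 (.both (.ref 192 3) (.play 199 (.ref 0 131)))) (.both (.play 135 (.ref 191 66)) (.play 135 (.ref 169 130))))) (.both (.play 130 (.both (.ref 190 64) (.both (.play 134 (.ref 189 65)) (.ref 94 128)))) (.both (.play 198 (.ref 188 130)) (.play 198 (.ref 187 130))))))))))))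
 (.seq (.seq (.seq (.seq (.one (.play 69 (.both (.play 67 (.both (.play 66 (.both (.play 65 (.ref 189 0)) (.both (.play 133 (.ref 16 65)) (.play 70 (.ref 169 65))))) (.play 3 (.ref 7 3)))) (.play 5 (.ref 5 4)))))
 (.seq (.one (.both (.play 0 (.ref 4 0)) (.play 321 (.ref 7 64))))
 (.one (.play 64 (.both (.play 0 (.ref 7 0)) (.play 130 (.ref 3 64)))))))
 (.seq (.one (.both (.play 64 (.ref 2 0)) (.play 2 (.ref 1 1))))
 (.seq (.one (.both (.play 65 (.ref 197 0)) (.play 6 (.ref 1 2))))
 (.one (.play 4 (.both (.play 65 (.ref 1 0)) (.play 69 (.ref 0 1))))))))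
 (.seq (.seq (.one (.play 68 (.both (.play 67 (.ref 0 0)) (.ref 199 0))))
 (.seq (.one (.play 68 (.both (.ref 63 0) (.play 129 (.ref 1 64)))))
 (.one (.both (.ref 63 0) (.ref 69 64)))))
 (.seq (.seq (.one (.play 68 (.both (.play 64 (.ref 202 0)) (.both (.ref 201 1) (.ref 200 65)))))
 (.one (.both (.ref 73 0) (.ref 69 65))))
 (.seq (.one (.play 133 (.both (.play 130 (.both (.play 194 (.both (.play 66 (.both (.play 2 (.ref 4 2)) (.play 65 (.ref 3 65)))) (.play 193 (.ref 1 129)))) (.both (.play 129 (.ref 204 64)) (.play 129 (.ref 169 128))))) (.both (.ref 203 66) (.both (.play 194 (.ref 134 128)) (.play 194 (.ref 198 128)))))))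
 (.one (.play 64 (.both (.play 65 (.both (.play 0 (.ref 7 0)) (.ref 20 1))) (.play 128 (.ref 7 64)))))))))
 (.seq (.seq (.seq (.one (.play 193 (.both (.play 257 (.ref 195 0)) (.play 132 (.ref 1 128)))))
 (.seq (.one (.play 130 (.both (.play 66 (.both (.play 194 (.both (.ref 207 2) (.play 193 (.ref 1 129)))) (.play 65 (.ref 3 65)))) (.both (.ref 154 64) (.ref 152 64)))))
 (.one (.play 68 (.both (.play 0 (.ref 3 0)) (.play 69 (.both (.play 2 (.ref 3 1)) (.ref 69 65))))))))
 (.seq (.seq (.one (.play 68 (.both (.ref 63 0) (.both (.ref 209 1) (.play 5 (.both (.play 4 (.ref 2 1)) (.play 69 (.both (.play 1 (.ref 3 1)) (.play 6 (.ref 2 2))))))))))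
 (.one (.play 128 (.both (.ref 210 1) (.play 129 (.ref 1 64))))))
 (.seq (.one (.play 129 (.both (.play 5 (.both (.play 4 (.ref 2 1)) (.play 69 (.both (.play 6 (.ref 2 2)) (.play 130 (.ref 1 65)))))) (.play 128 (.ref 1 64)))))
 (.one (.both (.play 256 (.ref 6 0)) (.play 257 (.ref 7 0)))))))
 (.seq (.seq (.one (.play 259 (.both (.play 130 (.ref 4 2)) (.play 260 (.ref 0 192)))))
 (.seq (.one (.play 65 (.both (.play 64 (.ref 1 0)) (.play 66 (.ref 3 65)))))
 (.one (.play 129 (.both (.play 257 (.ref 5 1)) (.play 196 (.ref 3 128)))))))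
 (.seq (.seq (.one (.play 259 (.both (.play 131 (.ref 7 2)) (.play 260 (.ref 0 192)))))
 (.one (.play 257 (.both (.play 2 (.ref 5 1)) (.play 256 (.ref 1 192))))))
 (.seq (.one (.play 66 (.both (.play 65 (.ref 204 0)) (.both (.play 65 (.ref 189 0)) (.both (.play 70 (.ref 204 1)) (.play 65 (.ref 169 64)))))))
 (.one (.play 66 (.both (.play 65 (.ref 204 0)) (.both (.play 65 (.ref 189 0)) (.play 70 (.ref 169 65))))))))))))))
 (.seq (.seq (.seq (.seq (.seq (.seq (.seq (.one (.play 129 (.both (.ref 216 1) (.play 128 (.ref 1 64)))))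
 (.seq (.one (.play 259 (.both (.play 131 (.ref 5 3)) (.play 258 (.ref 198 192)))))
 (.one (.both (.play 0 (.ref 7 0)) (.play 2 (.ref 5 1))))))
 (.seq (.one (.both (.play 256 (.ref 6 0)) (.play 257 (.ref 5 1))))
 (.seq (.one (.play 129 (.both (.play 257 (.ref 5 1)) (.play 128 (.ref 1 64)))))
 (.one (.both (.play 1 (.ref 5 0)) (.play 321 (.ref 4 64)))))))
 (.seq (.seq (.one (.play 1 (.both (.play 0 (.ref 3 0)) (.ref 71 1))))
 (.seq (.one (.play 129 (.both (.play 257 (.both (.play 321 (.both (.play 65 (.ref 24 1)) (.both (.play 130 (.ref 35 65)) (.play 385 (.ref 19 128))))) (.play 256 (.ref 1 192)))) (.play 128 (.ref 3 128)))))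
 (.one (.play 195 (.both (.play 198 (.both (.ref 228 2) (.both (.ref 227 130) (.ref 212 130)))) (.both (.ref 151 128) (.both (.play 134 (.ref 161 130)) (.play 134 (.ref 160 130)))))))))
 (.seq (.seq (.one (.play 257 (.both (.ref 17 1) (.ref 138 64))))
 (.one (.play 194 (.both (.play 258 (.ref 6 2)) (.play 193 (.ref 102 128))))))
 (.seq (.one (.both (.play 4 (.ref 2 0)) (.play 132 (.ref 0 64))))
 (.one (.play 64 (.both (.play 3 (.ref 2 0)) (.play 131 (.ref 0 64)))))))))
 (.seq (.seq (.seq (.one (.both (.ref 233 0) (.play 133 (.ref 0 65))))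
 (.seq (.one (.play 5 (.both (.play 69 (.both (.ref 73 0) (.play 6 (.ref 2 2)))) (.play 4 (.ref 2 1)))))
 (.one (.both (.play 65 (.ref 30 1)) (.play 128 (.ref 3 128))))))
 (.seq (.one (.both (.play 129 (.ref 236 0)) (.play 133 (.ref 2 129))))
 (.seq (.one (.play 65 (.both (.ref 73 0) (.play 64 (.ref 0 64)))))
 (.one (.play 4 (.both (.play 65 (.ref 1 0)) (.ref 69 0)))))))
 (.seq (.seq (.one (.play 68 (.both (.play 69 (.ref 202 1)) (.play 128 (.ref 1 64)))))
 (.seq (.one (.play 68 (.both (.ref 201 1) (.play 128 (.ref 1 64)))))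
 (.one (.play 129 (.both (.play 65 (.ref 84 1)) (.play 128 (.ref 3 128)))))))
 (.seq (.seq (.one (.play 1 (.both (.play 0 (.ref 0 0)) (.play 66 (.ref 3 1)))))
 (.one (.both (.ref 243 0) (.play 70 (.ref 3 2)))))
 (.seq (.one (.play 195 (.both (.play 131 (.both (.play 67 (.ref 84 3)) (.play 130 (.ref 244 128)))) (.both (.play 133 (.both (.play 134 (.ref 160 130)) (.play 388 (.ref 5 132)))) (.play 388 (.ref 223 131))))))
 (.one (.play 258 (.both (.play 66 (.both (.play 67 (.both (.play 3 (.both (.play 4 (.ref 2 0)) (.play 194 (.ref 5 2)))) (.play 68 (.ref 1 64)))) (.play 2 (.ref 5 1)))) (.play 322 (.ref 4 65))))))))))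
 (.seq (.seq (.seq (.seq (.one (.both (.play 257 (.ref 4 0)) (.play 256 (.ref 5 0))))
 (.seq (.one (.play 259 (.both (.play 131 (.ref 7 2)) (.play 260 (.ref 187 192)))))
 (.one (.play 196 (.both (.play 258 (.both (.play 131 (.ref 6 2)) (.play 257 (.ref 15 192)))) (.both (.ref 214 1) (.play 197 (.ref 169 192))))))))
 (.seq (.one (.play 67 (.both (.play 4 (.ref 2 0)) (.play 68 (.ref 1 64)))))
 (.seq (.one (.play 4 (.both (.play 3 (.ref 2 0)) (.ref 250 1))))
 (.one (.play 194 (.both (.play 3 (.ref 6 2)) (.play 193 (.both (.play 192 (.ref 2 128)) (.play 261 (.ref 3 193))))))))))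
 (.seq (.seq (.one (.play 258 (.both (.ref 252 0) (.play 322 (.ref 6 66)))))
 (.seq (.one (.play 195 (.both (.ref 253 0) (.play 323 (.ref 5 67)))))
 (.one (.both (.ref 253 0) (.play 324 (.ref 4 67))))))
 (.seq (.seq (.one (.play 68 (.both (.play 1 (.ref 3 0)) (.ref 251 1))))
 (.one (.play 1 (.both (.play 0 (.ref 3 0)) (.ref 70 1)))))
 (.seq (.one (.play 5 (.both (.ref 257 0) (.play 4 (.ref 2 1)))))
 (.one (.play 67 (.both (.play 258 (.ref 132 2)) (.play 68 (.ref 2 64)))))))))
 (.seq (.seq (.seq (.one (.play 193 (.both (.play 257 (.ref 6 1)) (.play 132 (.ref 48 128)))))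
 (.seq (.one (.play 256 (.both (.play 192 (.ref 6 0)) (.play 257 (.ref 224 64)))))
 (.one (.play 68 (.both (.ref 63 0) (.play 69 (.ref 1 65)))))))
 (.seq (.seq (.one (.play 194 (.both (.play 130 (.both (.play 323 (.ref 62 2)) (.play 197 (.both (.play 129 (.ref 3 129)) (.play 198 (.ref 202 130)))))) (.both (.play 193 (.both (.play 129 (.both (.play 128 (.ref 3 128)) (.play 197 (.both (.play 130 (.ref 3 129)) (.ref 262 130))))) (.play 192 (.ref 0 192)))) (.play 261 (.ref 80 193))))))
 (.one (.play 257 (.both (.play 0 (.ref 7 0)) (.play 321 (.ref 19 64))))))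
 (.seq (.one (.play 257 (.both (.ref 18 0) (.play 321 (.ref 5 65)))))
 (.one (.play 65 (.both (.play 64 (.both (.play 0 (.ref 7 0)) (.play 321 (.both (.play 128 (.ref 7 64)) (.ref 265 128))))) (.play 1 (.ref 4 1))))))))
 (.seq (.seq (.one (.play 131 (.both (.ref 266 2) (.both (.play 130 (.both (.ref 264 66) (.play 197 (.ref 244 128)))) (.play 324 (.ref 195 67))))))
 (.seq (.one (.play 257 (.both (.play 193 (.ref 7 0)) (.play 256 (.ref 247 64)))))
 (.one (.play 66 (.both (.play 65 (.both (.play 5 (.ref 1 1)) (.play 64 (.ref 0 64)))) (.play 259 (.ref 7 2)))))))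
 (.seq (.seq (.one (.play 67 (.both (.play 66 (.both (.play 68 (.both (.play 4 (.ref 5 3)) (.ref 269 64))) (.play 2 (.ref 7 2)))) (.play 3 (.ref 4 3)))))
 (.one (.both (.play 0 (.ref 7 0)) (.play 321 (.ref 5 65)))))
 (.seq (.one (.play 3 (.both (.play 68 (.ref 0 0)) (.play 4 (.ref 1 0)))))
 (.one (.play 68 (.both (.play 67 (.ref 3 0)) (.ref 272 1))))))))))
 (.seq (.seq (.seq (.seq (.seq (.one (.play 193 (.both (.play 129 (.both (.play 257 (.both (.play 130 (.both (.play 66 (.both (.play 2 (.ref 4 2)) (.play 321 (.ref 5 65)))) (.play 197 (.ref 3 129)))) (.play 256 (.ref 1 192)))) (.play 128 (.ref 3 128)))) (.play 192 (.ref 0 192)))))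
 (.seq (.one (.play 195 (.both (.play 194 (.both (.ref 274 0) (.both (.play 387 (.both (.play 324 (.both (.play 197 (.both (.play 261 (.both (.ref 192 66) (.play 262 (.ref 3 194)))) (.both (.ref 251 130) (.ref 273 194)))) (.play 388 (.ref 213 195)))) (.both (.play 130 (.both (.play 262 (.both (.play 197 (.both (.play 129 (.ref 3 129)) (.ref 272 195))) (.play 261 (.ref 3 194)))) (.play 323 (.ref 7 130)))) (.play 323 (.ref 271 130))))) (.play 193 (.ref 16 192))))) (.both (.play 131 (.both (.ref 270 0) (.both (.play 67 (.ref 30 3)) (.play 323 (.both (.play 322 (.both (.play 321 (.both (.play 324 (.both (.play 388 (.ref 4 131)) (.play 261 (.ref 2 257)))) (.play 320 (.ref 2 256)))) (.play 386 (.ref 6 130)))) (.both (.ref 265 130) (.ref 268 131))))))) (.both (.ref 267 0) (.both (.ref 263 0) (.both (.play 131 (.both (.play 67 (.both (.play 66 (.both (.play 2 (.ref 7 2)) (.play 323 (.both (.play 130 (.ref 7 66)) (.ref 261 130))))) (.play 3 (.ref 4 3)))) (.both (.play 67 (.ref 30 3)) (.play 323 (.both (.ref 78 66) (.both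 (.play 388 (.both (.play 130 (.both (.play 66 (.ref 7 66)) (.ref 10 130))) (.play 324 (.ref 4 131)))) (.play 324 (.both (.ref 260 129) (.play 388 (.ref 4 131)))))))))) (.both (.play 194 (.both (.play 197 (.both (.play 261 (.both (.ref 259 66) (.play 262 (.ref 0 194)))) (.both (.ref 258 129) (.play 262 (.both (.play 130 (.both (.play 129 (.ref 3 129)) (.play 198 (.both (.play 131 (.ref 3 130)) (.play 263 (.ref 0 195)))))) (.play 261 (.ref 0 194))))))) (.both (.play 193 (.both (.play 129 (.both (.play 128 (.ref 3 128)) (.ref 256 129))) (.play 192 (.ref 0 192)))) (.play 193 (.ref 16 192))))) (.play 261 (.both (.play 262 (.both (.play 323 (.both (.play 387 (.both (.play 388 (.both (.play 324 (.both (.play 131 (.ref 4 131)) (.ref 231 192))) (.play 452 (.ref 4 195)))) (.play 451 (.ref 5 195)))) (.play 322 (.ref 1 258)))) (.play 263 (.ref 3 195)))) (.both (.play 388 (.both (.play 387 (.both (.play 323 (.ref 255 128)) (.both (.ref 254 128) (.both (.play 389 (.both (.play 197 (.both (.play 194 (.both (.ref 251 130) (.play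 193 (.ref 0 193)))) (.both (.play 198 (.both (.play 325 (.ref 33 132)) (.play 199 (.ref 1 195)))) (.ref 249 194)))) (.both (.play 325 (.both (.play 197 (.both (.play 198 (.both (.play 134 (.ref 5 133)) (.play 199 (.ref 1 195)))) (.play 452 (.ref 6 196)))) (.play 453 (.ref 7 196)))) (.both (.ref 248 194) (.ref 220 320))))) (.play 323 (.ref 247 195)))))) (.both (.play 324 (.ref 43 131)) (.both (.play 324 (.both (.ref 246 131) (.play 452 (.ref 7 195)))) (.play 324 (.both (.play 131 (.ref 7 131)) (.ref 246 131))))))) (.play 262 (.ref 72 194)))))))))))))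
 (.one (.both (.play 1 (.ref 1 0)) (.play 67 (.ref 2 0))))))
 (.seq (.one (.play 4 (.both (.play 64 (.ref 276 0)) (.play 5 (.ref 1 1)))))
 (.seq (.one (.play 195 (.both (.play 259 (.ref 4 2)) (.play 196 (.ref 72 128)))))
 (.one (.both (.play 2 (.ref 5 1)) (.play 321 (.ref 7 64)))))))
 (.seq (.seq (.one (.play 67 (.both (.play 195 (.both (.play 258 (.ref 132 2)) (.play 196 (.ref 0 128)))) (.play 68 (.ref 2 64)))))
 (.seq (.one (.play 65 (.both (.ref 21 0) (.play 1 (.ref 4 1)))))
 (.one (.play 256 (.both (.play 1 (.ref 5 0)) (.ref 17 0))))))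
 (.seq (.seq (.one (.play 257 (.both (.play 193 (.ref 4 0)) (.ref 8 0))))
 (.one (.both (.play 1 (.ref 5 0)) (.ref 283 64))))
 (.seq (.one (.play 131 (.both (.ref 266 2) (.both (.play 67 (.ref 30 3)) (.play 323 (.both (.play 322 (.both (.play 386 (.ref 6 130)) (.play 321 (.ref 160 256)))) (.both (.play 386 (.both (.play 322 (.ref 6 130)) (.play 387 (.both (.play 450 (.ref 6 194)) (.ref 282 195))))) (.play 387 (.both (.ref 17 131) (.both (.play 451 (.both (.play 324 (.both (.play 388 (.ref 4 131)) (.play 515 (.ref 5 259)))) (.play 196 (.ref 5 195)))) (.both (.play 451 (.ref 284 195)) (.ref 282 195))))))))))))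
 (.one (.play 199 (.both (.play 197 (.both (.play 196 (.both (.play 132 (.both (.play 68 (.ref 177 4)) (.play 131 (.ref 173 129)))) (.play 263 (.ref 80 195)))) (.both (.ref 285 2) (.both (.play 390 (.both (.play 325 (.both (.play 196 (.both (.ref 242 3) (.play 195 (.ref 16 194)))) (.play 389 (.ref 247 197)))) (.both (.play 135 (.both (.play 196 (.both (.play 136 (.ref 2 132)) (.play 195 (.ref 16 194)))) (.play 326 (.ref 5 134)))) (.play 326 (.ref 279 133))))) (.both (.play 390 (.both (.play 325 (.both (.play 133 (.both (.ref 281 4) (.both (.play 69 (.both (.play 5 (.ref 4 5)) (.ref 18 68))) (.play 132 (.both (.play 68 (.ref 7 68)) (.ref 243 130)))))) (.play 389 (.ref 247 197)))) (.both (.play 326 (.ref 223 133)) (.play 326 (.ref 279 133))))) (.both (.play 196 (.both (.ref 280 68) (.both (.play 136 (.both (.play 195 (.both (.play 194 (.both (.ref 165 128) (.play 261 (.ref 0 194)))) (.both (.play 194 (.both (.play 257 (.both (.play 132 (.both (.play 193 (.ref 74 128)) (.play 131 (.ref 3 131)))) (.play 258 (.ref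 1 193)))) (.play 261 (.ref 0 194)))) (.ref 73 130)))) (.play 135 (.ref 2 132)))) (.play 263 (.ref 16 195))))) (.play 390 (.both (.play 263 (.both (.play 389 (.both (.play 325 (.ref 255 130)) (.both (.ref 254 130) (.both (.play 391 (.both (.ref 248 196) (.both (.ref 249 196) (.both (.play 327 (.ref 213 198)) (.ref 220 322))))) (.play 325 (.ref 247 197)))))) (.play 264 (.ref 72 196)))) (.both (.play 326 (.ref 223 133)) (.play 326 (.ref 279 133))))))))))) (.both (.play 200 (.both (.play 197 (.both (.play 133 (.ref 236 4)) (.play 196 (.ref 202 132)))) (.play 201 (.ref 1 197)))) (.both (.play 200 (.both (.play 197 (.both (.play 133 (.ref 236 4)) (.play 260 (.ref 1 196)))) (.play 201 (.ref 1 197)))) (.both (.play 200 (.both (.play 263 (.both (.play 390 (.both (.play 391 (.both (.play 327 (.ref 33 134)) (.both (.play 327 (.ref 279 134)) (.play 389 (.both (.ref 222 194) (.both (.play 325 (.both (.play 453 (.ref 5 197)) (.play 324 (.both (.play 264 (.ref 1 260)) (.ref 243 322))))) (.both (.play 325 (.both (.play 453 (.ref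 5 197)) (.play 324 (.both (.play 264 (.ref 1 260)) (.play 392 (.ref 3 324)))))) (.both (.ref 220 322) (.ref 219 322))))))))) (.both (.play 326 (.both (.play 391 (.both (.play 327 (.both (.play 136 (.ref 5 135)) (.ref 278 197))) (.play 455 (.ref 4 198)))) (.play 135 (.ref 5 134)))) (.play 326 (.ref 35 134))))) (.play 260 (.ref 2 196)))) (.play 201 (.ref 1 197)))) (.ref 277 196)))))))))))
 (.seq (.seq (.seq (.one (.play 65 (.both (.play 67 (.ref 133 0)) (.play 2 (.ref 1 1)))))
 (.seq (.one (.play 129 (.both (.play 65 (.ref 132 0)) (.play 196 (.ref 3 128)))))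
 (.one (.both (.play 129 (.both (.ref 288 1) (.play 128 (.ref 3 128)))) (.play 256 (.ref 1 192))))))
 (.seq (.seq (.one (.play 1 (.both (.play 192 (.ref 6 0)) (.play 258 (.ref 4 1)))))
 (.one (.both (.ref 290 0) (.play 320 (.ref 6 64)))))
 (.seq (.one (.play 256 (.both (.play 193 (.ref 6 0)) (.play 128 (.ref 122 0)))))
 (.one (.play 322 (.both (.play 195 (.both (.play 131 (.both (.play 68 (.both (.play 67 (.ref 226 3)) (.ref 136 66))) (.both (.ref 290 66) (.ref 292 130)))) (.both (.play 323 (.both (.play 131 (.ref 291 66)) (.play 262 (.ref 1 258)))) (.both (.play 194 (.ref 244 192)) (.ref 172 194))))) (.both (.play 258 (.ref 289 65)) (.both (.play 323 (.ref 198 256)) (.both (.ref 287 256) (.play 323 (.ref 134 256)))))))))))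
 (.seq (.seq (.one (.both (.play 259 (.both (.play 195 (.both (.play 2 (.ref 4 2)) (.play 196 (.ref 48 192)))) (.play 323 (.ref 4 66)))) (.play 321 (.ref 6 65))))
 (.seq (.one (.both (.play 1 (.ref 72 0)) (.play 128 (.ref 1 64))))
 (.one (.play 258 (.both (.play 196 (.both (.play 194 (.both (.play 3 (.ref 6 2)) (.play 197 (.ref 295 129)))) (.both (.ref 290 2) (.both (.play 260 (.ref 177 3)) (.play 197 (.both (.play 194 (.ref 295 129)) (.both (.ref 172 130) (.ref 287 192)))))))) (.both (.play 259 (.ref 294 1)) (.both (.play 194 (.ref 123 2)) (.ref 292 66))))))))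
 (.seq (.seq (.one (.play 192 (.both (.play 256 (.ref 6 0)) (.play 130 (.ref 1 128)))))
 (.one (.play 64 (.both (.play 0 (.ref 7 0)) (.play 132 (.ref 3 64))))))
 (.seq (.one (.play 257 (.both (.play 64 (.ref 7 0)) (.play 321 (.ref 5 65)))))
 (.one (.play 323 (.both (.play 131 (.both (.play 322 (.ref 144 2)) (.both (.ref 298 66) (.play 258 (.both (.play 322 (.ref 42 66)) (.play 198 (.ref 1 194))))))) (.both (.play 387 (.both (.play 198 (.both (.play 386 (.both (.play 325 (.both (.play 134 (.both (.play 261 (.ref 35 69)) (.play 135 (.ref 2 131)))) (.play 324 (.ref 198 320)))) (.play 450 (.ref 6 194)))) (.play 258 (.ref 1 194)))) (.both (.play 258 (.both (.play 451 (.both (.play 388 (.both (.play 324 (.both (.play 325 (.both (.play 261 (.ref 6 132)) (.play 326 (.ref 3 258)))) (.ref 299 258))) (.play 452 (.ref 4 195)))) (.both (.ref 17 195) (.play 515 (.both (.play 322 (.ref 7 258)) (.play 579 (.ref 19 322))))))) (.play 198 (.ref 1 194)))) (.ref 119 194)))) (.both (.play 131 (.both (.ref 298 66) (.ref 111 130)))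 (.both (.play 198 (.both (.play 387 (.both (.play 134 (.both (.play 325 (.both (.play 326 (.both (.play 261 (.ref 226 69)) (.ref 297 194))) (.both (.play 261 (.ref 35 69)) (.play 326 (.both (.play 262 (.ref 213 133)) (.ref 297 194)))))) (.play 135 (.ref 2 131)))) (.both (.play 131 (.both (.play 130 (.ref 3 130)) (.ref 17 131))) (.ref 111 194)))) (.play 258 (.ref 1 194)))) (.both (.ref 296 128) (.play 258 (.both (.play 324 (.both (.play 388 (.ref 177 131)) (.play 257 (.ref 188 256)))) (.play 198 (.ref 1 194))))))))))))))))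
 (.seq (.seq (.seq (.seq (.one (.play 257 (.both (.ref 18 0) (.ref 28 65))))
 (.seq (.one (.play 129 (.both (.play 65 (.ref 22 0)) (.ref 17 129))))
 (.one (.play 385 (.both (.ref 302 0) (.both (.play 322 (.both (.play 129 (.ref 30 65)) (.ref 261 192))) (.both (.ref 119 192) (.ref 301 192))))))))
 (.seq (.one (.play 257 (.both (.ref 18 0) (.play 66 (.ref 5 1)))))
 (.seq (.one (.play 257 (.both (.play 66 (.ref 5 1)) (.ref 119 64))))
 (.one (.play 68 (.both (.play 0 (.ref 3 0)) (.play 69 (.ref 1 65))))))))
 (.seq (.seq (.one (.both (.play 195 (.both (.play 131 (.ref 6 2)) (.ref 306 128))) (.play 1 (.ref 4 1))))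
 (.seq (.one (.play 260 (.both (.play 324 (.both (.play 388 (.both (.play 452 (.both (.play 196 (.both (.play 132 (.both (.play 68 (.both (.ref 20 4) (.play 325 (.ref 4 68)))) (.ref 21 67))) (.ref 17 196))) (.both (.ref 119 259) (.ref 304 259)))) (.both (.play 452 (.both (.play 196 (.both (.play 132 (.both (.play 69 (.both (.play 68 (.ref 226 4)) (.play 133 (.ref 5 68)))) (.ref 21 67))) (.ref 18 195))) (.both (.ref 120 259) (.both (.ref 304 259) (.both (.ref 305 259) (.play 516 (.both (.play 325 (.ref 5 260)) (.ref 38 323)))))))) (.both (.play 196 (.both (.ref 98 67) (.both (.ref 141 67) (.play 389 (.both (.play 387 (.both (.play 451 (.ref 6 195)) (.play 386 (.both (.play 385 (.ref 189 320)) (.both (.play 325 (.ref 102 321)) (.play 390 (.ref 166 321))))))) (.play 453 (.ref 4 196))))))) (.both (.play 452 (.both (.play 453 (.ref 108 193)) (.both (.ref 304 259) (.ref 28 260)))) (.both (.ref 296 193) (.both (.play 452 (.both (.play 389 (.both (.play 453 (.ref 307 195)) (.both (.play 325 (.both (.play 453 (.ref 5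 197)) (.play 516 (.ref 5 260)))) (.play 323 (.both (.play 322 (.both (.play 325 (.ref 2 258)) (.play 321 (.ref 0 321)))) (.both (.play 322 (.both (.play 321 (.ref 2 257)) (.play 390 (.ref 101 322)))) (.play 516 (.both (.play 325 (.ref 5 260)) (.ref 45 323))))))))) (.both (.play 453 (.both (.play 389 (.ref 307 195)) (.play 517 (.ref 4 260)))) (.both (.play 453 (.both (.play 325 (.both (.play 389 (.ref 5 197)) (.play 516 (.ref 5 260)))) (.play 517 (.ref 4 260)))) (.ref 305 259))))) (.play 452 (.both (.play 451 (.both (.play 453 (.both (.play 517 (.ref 4 260)) (.play 454 (.both (.play 450 (.ref 166 385)) (.both (.play 387 (.ref 72 386)) (.play 455 (.ref 202 387))))))) (.play 515 (.ref 6 259)))) (.both (.ref 304 259) (.ref 283 260))))))))))) (.both (.play 196 (.both (.ref 174 3) (.both (.ref 303 3) (.both (.play 263 (.both (.ref 207 132) (.play 195 (.ref 3 195)))) (.play 195 (.both (.ref 264 131) (.play 263 (.ref 3 195)))))))) (.both (.ref 300 65) (.play 323 (.ref 134 257)))))) (.both (.ref 293 1) (.both (.play 259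 (.both (.play 199 (.ref 2 195)) (.play 322 (.both (.play 258 (.both (.play 321 (.ref 1 257)) (.ref 69 258))) (.play 323 (.ref 1 258)))))) (.play 199 (.ref 160 195)))))))
 (.one (.play 4 (.both (.play 3 (.ref 2 0)) (.play 68 (.both (.play 1 (.ref 72 0)) (.play 5 (.ref 2 1)))))))))
 (.seq (.seq (.one (.both (.ref 162 0) (.play 68 (.ref 2 64))))
 (.one (.play 325 (.both (.play 134 (.ref 53 5)) (.both (.play 134 (.ref 55 5)) (.play 324 (.both (.play 133 (.ref 294 67)) (.both (.play 388 (.ref 123 132)) (.play 323 (.both (.play 326 (.both (.play 262 (.ref 310 195)) (.both (.play 327 (.ref 204 258)) (.play 327 (.ref 166 258))))) (.both (.play 322 (.both (.ref 154 256) (.both (.ref 150 256) (.play 326 (.ref 189 257))))) (.both (.play 262 (.ref 161 258)) (.play 262 (.ref 160 258))))))))))))))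
 (.seq (.one (.play 257 (.both (.play 2 (.ref 5 1)) (.ref 304 64))))
 (.one (.both (.play 1 (.ref 5 0)) (.play 257 (.ref 30 0))))))))
 (.seq (.seq (.seq (.one (.play 65 (.both (.play 64 (.ref 313 0)) (.play 129 (.ref 5 64)))))
 (.seq (.one (.both (.play 1 (.ref 6 0)) (.play 449 (.ref 7 192))))
 (.one (.play 386 (.both (.play 385 (.both (.play 192 (.both (.play 256 (.ref 315 0)) (.play 128 (.ref 7 128)))) (.play 450 (.ref 4 193)))) (.play 322 (.ref 4 129)))))))
 (.seq (.seq (.one (.play 66 (.both (.play 2 (.ref 7 2)) (.play 65 (.ref 16 64)))))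
 (.one (.play 195 (.both (.play 386 (.both (.play 131 (.both (.play 67 (.ref 30 3)) (.play 322 (.ref 6 130)))) (.play 450 (.ref 6 194)))) (.ref 317 128)))))
 (.seq (.one (.play 129 (.both (.ref 130 1) (.ref 21 64))))
 (.one (.play 322 (.both (.play 258 (.both (.play 386 (.both (.play 194 (.both (.ref 319 1) (.both (.ref 206 65) (.both (.play 259 (.both (.ref 281 65) (.play 450 (.ref 35 194)))) (.ref 121 129))))) (.play 385 (.ref 1 321)))) (.play 257 (.ref 3 257)))) (.both (.ref 154 256) (.ref 150 256))))))))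
 (.seq (.seq (.one (.play 323 (.both (.ref 320 0) (.both (.play 387 (.both (.play 451 (.both (.play 260 (.both (.ref 318 64) (.both (.play 196 (.ref 51 131)) (.play 196 (.ref 54 131))))) (.both (.play 515 (.both (.play 514 (.both (.play 259 (.both (.play 194 (.both (.play 195 (.both (.play 130 (.ref 7 130)) (.play 388 (.ref 30 131)))) (.play 258 (.ref 7 194)))) (.play 450 (.ref 6 258)))) (.play 578 (.ref 6 322)))) (.both (.play 579 (.both (.ref 316 258) (.play 388 (.ref 5 323)))) (.both (.play 579 (.both (.ref 316 258) (.both (.ref 18 322) (.ref 39 386)))) (.both (.play 579 (.both (.play 388 (.ref 5 323)) (.ref 26 386))) (.ref 304 322)))))) (.both (.play 260 (.ref 53 131)) (.play 260 (.ref 55 131)))))) (.both (.play 451 (.both (.play 259 (.both (.play 514 (.both (.play 515 (.both (.ref 31 131) (.play 578 (.ref 6 322)))) (.play 450 (.ref 6 258)))) (.ref 298 194))) (.both (.play 259 (.both (.ref 314 131) (.ref 298 194))) (.both (.play 260 (.ref 55 131)) (.ref 312 258))))) (.both (.play 326 (.both (.ref 235 258)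 (.play 386 (.ref 1 322)))) (.play 386 (.ref 134 320)))))) (.both (.play 262 (.ref 161 258)) (.play 262 (.ref 160 258)))))))
 (.seq (.one (.both (.play 257 (.both (.play 258 (.ref 171 1)) (.play 256 (.ref 1 192)))) (.play 128 (.ref 3 128))))
 (.one (.play 129 (.both (.ref 181 0) (.play 386 (.ref 4 129)))))))
 (.seq (.seq (.one (.play 6 (.both (.play 66 (.both (.ref 238 0) (.play 5 (.ref 2 2)))) (.play 7 (.ref 2 3)))))
 (.one (.play 70 (.both (.ref 324 0) (.play 71 (.ref 1 67))))))
 (.seq (.one (.play 257 (.both (.play 2 (.ref 5 1)) (.play 321 (.ref 19 64)))))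
 (.one (.play 257 (.both (.play 1 (.ref 19 0)) (.both (.ref 304 64) (.ref 283 65))))))))))))
 (.seq (.seq (.seq (.seq (.seq (.seq (.one (.play 66 (.both (.play 2 (.ref 7 2)) (.play 65 (.ref 91 64)))))
 (.seq (.one (.play 259 (.both (.play 67 (.both (.ref 328 0) (.play 3 (.ref 19 2)))) (.both (.ref 312 66) (.both (.ref 327 66) (.both (.ref 326 66) (.play 323 (.ref 29 67))))))))
 (.one (.play 192 (.both (.play 256 (.ref 106 0)) (.play 132 (.ref 1 128)))))))
 (.seq (.one (.play 195 (.both (.play 194 (.both (.play 130 (.ref 62 2)) (.play 193 (.ref 91 192)))) (.both (.ref 330 130) (.play 262 (.ref 115 194))))))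
 (.seq (.one (.play 257 (.both (.ref 17 1) (.ref 34 64))))
 (.one (.play 129 (.both (.play 64 (.both (.play 65 (.ref 41 0)) (.play 128 (.ref 7 64)))) (.ref 20 65)))))))
 (.seq (.seq (.one (.play 129 (.both (.play 65 (.ref 22 0)) (.play 386 (.ref 4 129)))))
 (.seq (.one (.play 259 (.both (.play 195 (.both (.ref 182 2) (.both (.ref 323 2) (.both (.ref 334 2) (.both (.play 131 (.ref 131 3)) (.play 387 (.both (.play 451 (.ref 22 130)) (.play 386 (.both (.play 450 (.ref 6 194)) (.play 385 (.ref 133 320))))))))))) (.both (.ref 175 64) (.both (.play 387 (.both (.play 451 (.both (.ref 333 66) (.both (.play 260 (.ref 35 195)) (.ref 301 258)))) (.both (.ref 330 194) (.play 386 (.ref 134 320))))) (.play 258 (.ref 173 256)))))))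
 (.one (.play 323 (.both (.play 263 (.both (.ref 335 0) (.both (.play 262 (.ref 58 259)) (.play 262 (.ref 159 259))))) (.both (.play 322 (.both (.play 386 (.both (.play 258 (.both (.play 450 (.both (.ref 302 65) (.both (.play 387 (.both (.play 194 (.ref 30 130)) (.ref 265 257))) (.both (.ref 26 257) (.ref 301 257))))) (.play 257 (.ref 3 257)))) (.play 385 (.ref 1 321)))) (.both (.ref 150 256) (.ref 148 256)))) (.both (.play 262 (.ref 161 258)) (.play 262 (.ref 160 258)))))))))
 (.seq (.seq (.one (.play 66 (.both (.play 65 (.both (.play 2 (.ref 5 1)) (.ref 18 64))) (.play 130 (.ref 5 65)))))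
 (.one (.play 64 (.both (.play 65 (.both (.play 0 (.ref 7 0)) (.ref 18 64))) (.play 128 (.ref 7 64))))))
 (.seq (.one (.play 64 (.both (.play 65 (.both (.play 0 (.ref 7 0)) (.play 1 (.ref 4 1)))) (.play 128 (.ref 7 64)))))
 (.one (.play 66 (.both (.play 64 (.both (.play 65 (.ref 223 0)) (.play 128 (.ref 7 64)))) (.play 130 (.ref 5 65)))))))))
 (.seq (.seq (.seq (.one (.play 193 (.both (.ref 319 0) (.both (.ref 340 64) (.both (.play 258 (.both (.ref 339 64) (.play 449 (.ref 35 193)))) (.ref 121 128))))))
 (.seq (.one (.both (.play 193 (.ref 6 0)) (.play 64 (.ref 5 0))))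
 (.one (.both (.play 192 (.ref 4 0)) (.play 65 (.ref 7 0))))))
 (.seq (.one (.play 1 (.both (.ref 113 0) (.play 69 (.ref 0 1)))))
 (.seq (.one (.both (.play 64 (.ref 2 0)) (.play 133 (.ref 0 65))))
 (.one (.play 65 (.both (.play 0 (.ref 3 0)) (.play 64 (.ref 2 0))))))))
 (.seq (.seq (.one (.play 194 (.both (.play 258 (.ref 6 2)) (.ref 346 128))))
 (.seq (.one (.both (.play 0 (.ref 0 0)) (.play 64 (.ref 1 0))))
 (.one (.play 65 (.both (.play 1 (.ref 4 1)) (.play 128 (.ref 5 64)))))))
 (.seq (.seq (.one (.play 129 (.both (.ref 349 0) (.play 384 (.ref 5 128)))))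
 (.one (.play 388 (.both (.play 195 (.both (.play 194 (.both (.play 193 (.both (.play 321 (.both (.play 257 (.both (.ref 350 1) (.play 258 (.ref 348 256)))) (.both (.play 322 (.both (.play 257 (.both (.ref 218 128) (.play 256 (.ref 3 256)))) (.play 389 (.ref 0 321)))) (.play 322 (.ref 345 256))))) (.play 192 (.ref 0 192)))) (.both (.play 130 (.ref 86 2)) (.both (.play 193 (.both (.play 321 (.both (.play 322 (.both (.play 386 (.both (.play 257 (.both (.play 129 (.ref 4 129)) (.play 256 (.ref 3 256)))) (.play 450 (.ref 105 194)))) (.play 389 (.ref 0 321)))) (.both (.play 387 (.both (.ref 347 192) (.ref 299 194))) (.play 322 (.ref 345 256))))) (.play 192 (.ref 0 192)))) (.play 387 (.both (.play 130 (.ref 7 130)) (.ref 265 194))))))) (.play 131 (.ref 4 131)))) (.both (.play 195 (.ref 195 131)) (.play 452 (.both (.ref 76 256) (.both (.ref 45 259) (.ref 11 259)))))))))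
 (.seq (.one (.play 192 (.both (.play 256 (.ref 106 0)) (.play 130 (.ref 1 128)))))
 (.one (.play 129 (.both (.play 65 (.ref 22 0)) (.both (.play 65 (.ref 179 0)) (.play 385 (.ref 37 64)))))))))))
 (.seq (.seq (.seq (.seq (.one (.play 129 (.both (.play 65 (.ref 37 0)) (.both (.play 65 (.ref 22 0)) (.play 385 (.ref 179 64))))))
 (.seq (.one (.play 192 (.both (.play 128 (.ref 62 0)) (.play 194 (.ref 0 192)))))
 (.one (.play 261 (.both (.play 197 (.both (.play 323 (.both (.play 195 (.both (.play 259 (.both (.play 196 (.both (.play 131 (.both (.play 67 (.ref 37 2)) (.both (.play 67 (.ref 179 2)) (.ref 328 64)))) (.play 194 (.ref 0 194)))) (.both (.ref 355 2) (.both (.ref 354 2) (.both (.play 196 (.both (.ref 350 3) (.play 194 (.ref 0 194)))) (.both (.play 194 (.both (.play 130 (.ref 86 2)) (.play 196 (.ref 0 194)))) (.play 387 (.both (.play 131 (.ref 37 66)) (.both (.play 451 (.both (.ref 21 130) (.ref 17 195))) (.play 451 (.ref 19 194))))))))))) (.both (.play 259 (.both (.play 194 (.both (.play 130 (.ref 86 2))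 (.play 260 (.ref 3 194)))) (.both (.ref 353 2) (.both (.ref 352 130) (.play 260 (.ref 115 194)))))) (.both (.play 196 (.ref 188 194)) (.play 390 (.both (.play 260 (.both (.ref 256 195) (.play 259 (.ref 348 258)))) (.play 454 (.ref 7 197)))))))) (.both (.play 390 (.both (.play 454 (.ref 7 197)) (.play 324 (.ref 345 258)))) (.both (.play 324 (.ref 310 195)) (.play 324 (.ref 102 258)))))) (.both (.play 133 (.both (.play 69 (.ref 4 69)) (.ref 260 131))) (.play 133 (.ref 30 69))))) (.both (.ref 351 2) (.both (.play 263 (.both (.play 260 (.both (.play 196 (.both (.play 132 (.ref 177 68)) (.play 195 (.ref 3 195)))) (.both (.play 195 (.both (.play 259 (.both (.play 194 (.ref 3 194)) (.ref 344 257))) (.play 196 (.ref 3 195)))) (.play 259 (.both (.play 258 (.both (.ref 94 256) (.play 326 (.ref 0 258)))) (.both (.ref 344 257) (.both (.play 258 (.both (.play 324 (.both (.play 257 (.ref 0 257)) (.play 323 (.ref 1 259)))) (.play 326 (.ref 0 258)))) (.ref 113 258)))))))) (.both (.ref 325 194) (.play 264 (.ref 15 260))))) (.both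 (.ref 267 66) (.both (.play 323 (.both (.play 197 (.both (.ref 270 66) (.both (.play 133 (.ref 30 69)) (.play 389 (.both (.play 388 (.both (.play 387 (.both (.play 390 (.both (.play 454 (.ref 4 197)) (.play 322 (.ref 3 322)))) (.play 386 (.ref 2 322)))) (.play 452 (.ref 6 196)))) (.both (.ref 265 196) (.ref 268 197))))))) (.both (.play 324 (.both (.play 390 (.both (.play 197 (.ref 195 133)) (.play 391 (.ref 0 323)))) (.play 263 (.ref 2 259)))) (.play 324 (.ref 102 258))))) (.play 324 (.both (.play 197 (.both (.play 388 (.ref 106 132)) (.both (.play 133 (.ref 110 132)) (.both (.play 390 (.ref 177 133)) (.play 452 (.both (.play 454 (.both (.play 390 (.ref 176 197)) (.both (.play 390 (.ref 99 197)) (.both (.play 390 (.ref 343 197)) (.play 453 (.both (.play 516 (.both (.play 389 (.ref 6 260)) (.play 515 (.ref 134 449)))) (.both (.play 518 (.both (.play 389 (.ref 4 261)) (.play 519 (.ref 187 451)))) (.both (.play 389 (.ref 110 260)) (.ref 220 385))))))))) (.both (.play 388 (.ref 105 196)) (.both (.play 388 (.ref 342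 196)) (.play 388 (.ref 122 196)))))))))) (.play 323 (.ref 102 258)))))))))))))
 (.seq (.one (.play 320 (.both (.play 321 (.both (.ref 21 0) (.play 384 (.ref 6 128)))) (.play 256 (.ref 6 64)))))
 (.seq (.one (.both (.play 129 (.ref 7 0)) (.play 128 (.ref 4 0))))
 (.one (.both (.play 129 (.ref 6 0)) (.play 128 (.ref 5 0)))))))
 (.seq (.seq (.one (.play 129 (.both (.play 193 (.ref 4 1)) (.play 128 (.ref 1 64)))))
 (.seq (.one (.play 129 (.both (.play 65 (.both (.play 64 (.ref 2 0)) (.play 128 (.ref 1 64)))) (.play 130 (.ref 1 65)))))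
 (.one (.play 193 (.both (.play 257 (.ref 35 1)) (.play 192 (.ref 1 128)))))))
 (.seq (.seq (.one (.both (.play 0 (.ref 3 0)) (.play 133 (.ref 0 65))))
 (.one (.play 1 (.both (.play 65 (.both (.play 0 (.ref 3 0)) (.ref 113 64))) (.play 2 (.ref 3 1))))))
 (.seq (.one (.both (.ref 190 0) (.play 134 (.ref 0 66))))
 (.one (.play 66 (.both (.play 65 (.ref 166 0)) (.ref 69 66))))))))
 (.seq (.seq (.seq (.one (.both (.play 1 (.ref 4 1)) (.play 320 (.ref 6 64))))
 (.seq (.one (.play 262 (.both (.play 261 (.both (.play 390 (.both (.play 389 (.both (.play 198 (.both (.play 133 (.both (.play 134 (.both (.ref 130 6) (.play 69 (.ref 7 69)))) (.play 197 (.ref 7 133)))) (.play 453 (.ref 6 197)))) (.both (.play 388 (.both (.play 325 (.both (.play 197 (.ref 367 132)) (.play 328 (.ref 1 324)))) (.play 387 (.ref 2 323)))) (.play 453 (.ref 123 197))))) (.both (.play 197 (.ref 62 69)) (.both (.play 454 (.both (.play 453 (.both (.play 455 (.both (.ref 107 195) (.play 519 (.ref 4 262)))) (.play 517 (.ref 6 261)))) (.both (.ref 45 261)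 (.play 518 (.both (.play 325 (.ref 7 261)) (.ref 17 262)))))) (.play 454 (.both (.play 197 (.ref 7 197)) (.ref 87 261))))))) (.both (.play 260 (.both (.ref 228 67) (.both (.play 323 (.both (.play 259 (.both (.ref 366 192) (.play 322 (.ref 1 258)))) (.play 324 (.ref 1 259)))) (.both (.play 259 (.both (.ref 366 192) (.both (.play 196 (.both (.play 326 (.both (.play 258 (.both (.play 197 (.ref 102 193)) (.play 325 (.ref 0 258)))) (.play 327 (.ref 0 259)))) (.play 195 (.ref 3 195)))) (.both (.play 326 (.ref 365 193)) (.ref 73 194))))) (.both (.play 323 (.both (.play 259 (.both (.play 194 (.both (.play 258 (.both (.play 193 (.ref 3 193)) (.ref 69 258))) (.play 195 (.ref 3 194)))) (.play 322 (.ref 1 258)))) (.play 324 (.ref 1 259)))) (.ref 364 194)))))) (.play 260 (.ref 16 259))))) (.both (.ref 351 3) (.both (.play 198 (.both (.play 391 (.both (.play 260 (.both (.play 324 (.both (.play 196 (.both (.ref 355 3) (.both (.ref 354 3) (.both (.ref 353 3) (.both (.play 197 (.both (.play 133 (.both (.ref 349 4) (.play 390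 (.ref 7 133)))) (.play 195 (.ref 0 195)))) (.play 197 (.both (.play 133 (.both (.play 388 (.ref 5 132)) (.play 390 (.ref 7 133)))) (.play 195 (.ref 0 195))))))))) (.both (.play 325 (.ref 345 259)) (.play 325 (.ref 363 259))))) (.both (.play 261 (.both (.play 324 (.both (.play 325 (.both (.ref 362 195) (.play 392 (.ref 0 324)))) (.play 323 (.ref 1 259)))) (.play 328 (.ref 0 260)))) (.play 261 (.ref 16 259))))) (.play 455 (.ref 7 198)))) (.both (.ref 270 67) (.play 134 (.ref 30 70))))) (.both (.play 328 (.both (.play 325 (.both (.play 389 (.both (.ref 331 66) (.both (.play 261 (.both (.play 197 (.both (.ref 281 68) (.both (.play 133 (.ref 30 69)) (.play 453 (.both (.play 454 (.both (.play 390 (.ref 7 197)) (.play 518 (.ref 4 261)))) (.play 517 (.ref 5 261))))))) (.play 260 (.ref 80 259)))) (.both (.ref 329 194) (.play 388 (.ref 134 322)))))) (.both (.ref 361 259) (.play 260 (.both (.ref 346 259) (.play 261 (.ref 0 260))))))) (.both (.play 455 (.both (.play 329 (.both (.play 454 (.both (.play 456 (.both (.play 518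 (.both (.play 391 (.ref 6 262)) (.play 517 (.ref 198 451)))) (.both (.ref 248 261) (.play 391 (.ref 110 262))))) (.both (.ref 225 261) (.play 389 (.both (.play 388 (.both (.play 325 (.ref 1 324)) (.play 453 (.ref 244 386)))) (.play 390 (.ref 1 325))))))) (.play 330 (.ref 3 262)))) (.both (.play 391 (.both (.play 454 (.both (.play 325 (.both (.play 324 (.ref 345 259)) (.both (.play 453 (.both (.play 516 (.both (.play 456 (.both (.play 520 (.ref 4 263)) (.play 517 (.ref 1 452)))) (.play 452 (.ref 74 387)))) (.both (.ref 225 260) (.play 452 (.both (.play 388 (.both (.play 389 (.ref 1 324)) (.play 387 (.ref 3 387)))) (.play 392 (.ref 2 388))))))) (.ref 361 259)))) (.play 518 (.ref 6 262)))) (.play 519 (.ref 7 262)))) (.both (.play 329 (.both (.play 391 (.both (.play 389 (.both (.play 325 (.both (.play 324 (.ref 345 259)) (.play 388 (.ref 1 324)))) (.play 390 (.ref 1 325)))) (.play 519 (.ref 7 262)))) (.play 330 (.ref 3 262)))) (.both (.play 329 (.both (.play 519 (.both (.ref 360 261) (.play 391 (.ref 7 262)))) (.play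 330 (.ref 3 262)))) (.both (.play 329 (.both (.play 390 (.both (.play 454 (.ref 247 262)) (.play 389 (.ref 1 325)))) (.play 330 (.ref 3 262)))) (.play 329 (.both (.play 330 (.ref 3 262)) (.play 265 (.both (.play 266 (.ref 2 262)) (.play 454 (.both (.play 518 (.ref 359 262)) (.both (.play 391 (.ref 213 262)) (.both (.play 519 (.ref 358 262)) (.play 390 (.ref 247 262)))))))))))))))) (.play 329 (.ref 72 261))))) (.both (.play 198 (.both (.ref 266 69) (.both (.play 134 (.ref 30 70)) (.play 390 (.both (.ref 357 133) (.both (.ref 142 133) (.play 391 (.both (.ref 231 195) (.play 455 (.ref 4 198)))))))))) (.both (.ref 285 67) (.both (.play 198 (.both (.play 391 (.both (.play 261 (.both (.play 328 (.both (.play 325 (.both (.play 389 (.both (.play 197 (.both (.play 133 (.ref 30 69)) (.play 196 (.both (.play 132 (.ref 7 132)) (.play 195 (.ref 0 195)))))) (.play 453 (.ref 5 197)))) (.play 324 (.ref 345 259)))) (.play 329 (.ref 3 261)))) (.both (.play 260 (.both (.play 196 (.both (.play 324 (.both (.play 325 (.both (.play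 132 (.ref 30 68)) (.play 392 (.ref 0 324)))) (.play 323 (.ref 1 259)))) (.play 195 (.ref 3 195)))) (.play 259 (.ref 0 259)))) (.play 260 (.ref 16 259))))) (.play 455 (.ref 7 198)))) (.both (.play 134 (.both (.ref 139 69) (.play 70 (.ref 4 70)))) (.play 134 (.ref 30 70))))) (.both (.play 198 (.both (.play 391 (.both (.play 325 (.both (.play 261 (.both (.play 260 (.both (.play 196 (.both (.play 389 (.ref 62 68)) (.play 195 (.ref 3 195)))) (.play 259 (.ref 0 259)))) (.both (.play 389 (.both (.play 453 (.ref 5 197)) (.play 328 (.both (.play 329 (.ref 3 261)) (.play 388 (.ref 1 324)))))) (.play 328 (.ref 72 260))))) (.play 324 (.ref 345 259)))) (.play 455 (.ref 7 198)))) (.both (.play 134 (.both (.play 325 (.both (.play 324 (.both (.play 133 (.both (.play 69 (.ref 7 69)) (.play 260 (.both (.play 388 (.both (.ref 65 132) (.play 387 (.ref 1 323)))) (.play 259 (.ref 3 259)))))) (.play 323 (.ref 2 259)))) (.play 389 (.ref 6 133)))) (.play 70 (.ref 4 70)))) (.play 134 (.ref 30 70))))) (.both (.play 198 (.both (.play 134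 (.both (.play 135 (.both (.play 133 (.both (.play 69 (.ref 7 69)) (.ref 269 131))) (.play 71 (.ref 5 70)))) (.play 70 (.ref 4 70)))) (.both (.play 134 (.ref 30 70)) (.play 390 (.both (.play 454 (.both (.ref 21 133) (.play 518 (.ref 5 262)))) (.play 389 (.both (.play 453 (.ref 6 197)) (.play 328 (.ref 134 323))))))))) (.play 325 (.both (.play 391 (.both (.play 455 (.ref 62 134)) (.both (.play 455 (.ref 86 134)) (.play 324 (.both (.ref 104 259) (.play 392 (.ref 0 324))))))) (.both (.play 389 (.both (.play 261 (.both (.play 453 (.ref 35 197)) (.play 328 (.ref 115 260)))) (.both (.play 453 (.both (.play 198 (.ref 342 197)) (.play 517 (.ref 5 261)))) (.play 388 (.ref 134 322))))) (.play 324 (.both (.play 323 (.both (.play 263 (.ref 2 259)) (.ref 113 322))) (.both (.play 323 (.both (.ref 73 258) (.play 263 (.ref 2 259)))) (.play 328 (.ref 189 259)))))))))))))))))))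
 (.one (.play 321 (.both (.play 129 (.both (.play 65 (.ref 24 1)) (.ref 298 64))) (.both (.play 130 (.ref 53 1)) (.both (.play 130 (.ref 55 1)) (.ref 327 128))))))))
 (.seq (.seq (.one (.play 66 (.both (.ref 75 0) (.play 1 (.ref 3 1)))))
 (.one (.play 325 (.both (.play 323 (.both (.play 389 (.both (.play 388 (.both (.play 197 (.both (.ref 333 4) (.play 452 (.ref 6 196)))) (.both (.play 197 (.both (.ref 314 69) (.play 452 (.ref 6 196)))) (.both (.play 390 (.both (.play 454 (.both (.play 197 (.ref 4 197)) (.play 387 (.ref 363 322)))) (.both (.play 454 (.ref 100 197)) (.ref 370 321)))) (.both (.play 390 (.both (.play 387 (.both (.play 454 (.both (.play 197 (.ref 4 197)) (.play 455 (.ref 0 387)))) (.play 322 (.ref 3 322)))) (.both (.play 452 (.both (.play 197 (.ref 6 196)) (.play 451 (.both (.play 387 (.ref 115 322)) (.play 391 (.ref 1 387)))))) (.both (.play 197 (.ref 110 196)) (.play 387 (.both (.play 322 (.ref 3 322)) (.play 391 (.ref 169 386)))))))) (.play 387 (.both (.play 390 (.both (.play 454 (.both (.play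 326 (.both (.play 518 (.ref 7 261)) (.play 386 (.ref 2 322)))) (.play 455 (.ref 0 387)))) (.both (.ref 75 321) (.play 391 (.ref 169 386))))) (.both (.play 390 (.both (.ref 156 259) (.play 322 (.ref 3 322)))) (.both (.play 322 (.ref 244 320)) (.play 386 (.both (.play 385 (.ref 189 320)) (.play 326 (.ref 2 322))))))))))))) (.both (.play 198 (.ref 55 69)) (.both (.ref 327 196) (.play 453 (.ref 284 197)))))) (.both (.play 324 (.ref 133 258)) (.both (.play 324 (.ref 197 258)) (.play 324 (.ref 276 259)))))) (.both (.ref 369 68) (.both (.play 324 (.ref 134 258)) (.play 324 (.ref 198 258))))))))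
 (.seq (.one (.both (.ref 278 0) (.play 257 (.ref 6 1))))
 (.one (.play 129 (.both (.ref 68 0) (.play 384 (.ref 6 128))))))))
 (.seq (.seq (.one (.play 129 (.both (.ref 180 1) (.ref 21 64))))
 (.seq (.one (.play 193 (.both (.ref 374 0) (.both (.play 129 (.both (.ref 180 1) (.both (.ref 20 65) (.ref 128 65)))) (.both (.ref 68 64) (.play 192 (.both (.play 128 (.ref 7 128)) (.play 449 (.both (.play 256 (.ref 7 192)) (.play 258 (.ref 35 193)))))))))))
 (.one (.play 326 (.both (.play 325 (.both (.play 265 (.both (.play 389 (.both (.play 388 (.both (.play 261 (.both (.ref 375 4) (.both (.ref 373 68) (.both (.play 453 (.both (.play 516 (.both (.play 517 (.both (.ref 20 197) (.play 580 (.ref 6 324)))) (.play 452 (.ref 6 260)))) (.both (.play 518 (.both (.play 517 (.both (.ref 20 197) (.play 582 (.ref 4 325)))) (.play 454 (.ref 4 261)))) (.play 452 (.ref 372 259))))) (.play 452 (.ref 106 196)))))) (.play 328 (.ref 1 324)))) (.both (.ref 311 128) (.both (.ref 369 132) (.play 388 (.ref 134 322)))))) (.both (.play 264 (.ref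 58 261)) (.play 264 (.ref 159 261))))) (.both (.ref 371 64) (.both (.play 264 (.ref 161 260)) (.play 264 (.ref 160 260)))))) (.both (.ref 368 0) (.both (.ref 356 1) (.both (.play 325 (.both (.play 389 (.both (.play 261 (.both (.ref 341 4) (.both (.ref 174 68) (.play 260 (.ref 173 258))))) (.both (.play 453 (.both (.play 261 (.both (.ref 68 132) (.both (.ref 338 132) (.both (.ref 337 132) (.play 262 (.both (.ref 317 194) (.play 198 (.ref 5 197)))))))) (.both (.play 262 (.ref 55 133)) (.both (.play 516 (.both (.play 454 (.both (.play 452 (.both (.play 261 (.ref 6 260)) (.play 515 (.ref 134 449)))) (.both (.ref 290 260) (.both (.play 518 (.ref 177 261)) (.play 515 (.both (.play 452 (.ref 134 449)) (.both (.play 514 (.both (.play 452 (.ref 197 449)) (.play 517 (.ref 2 450)))) (.both (.play 452 (.ref 198 449)) (.both (.play 517 (.ref 160 450)) (.play 455 (.both (.play 452 (.ref 1 451)) (.play 517 (.ref 159 451))))))))))))) (.both (.play 517 (.both (.play 518 (.both (.play 454 (.both (.play 261 (.ref 4 261)) (.play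 515 (.ref 102 450)))) (.play 582 (.ref 4 325)))) (.play 580 (.ref 6 324)))) (.both (.ref 124 260) (.both (.play 452 (.ref 123 260)) (.ref 292 324)))))) (.play 517 (.both (.play 262 (.ref 5 261)) (.ref 26 324))))))) (.both (.ref 300 130) (.both (.play 328 (.ref 289 132)) (.play 328 (.both (.ref 210 261) (.play 388 (.ref 1 324))))))))) (.both (.ref 320 2) (.both (.play 264 (.ref 161 260)) (.play 264 (.ref 160 260)))))) (.both (.ref 336 2) (.both (.play 264 (.both (.play 325 (.both (.play 391 (.both (.play 389 (.both (.play 261 (.both (.play 197 (.both (.ref 319 4) (.both (.play 390 (.ref 30 133)) (.ref 332 196)))) (.both (.ref 174 68) (.play 260 (.ref 173 258))))) (.both (.ref 331 66) (.both (.ref 329 194) (.play 388 (.ref 134 322)))))) (.both (.play 200 (.ref 53 71)) (.play 455 (.both (.play 200 (.ref 5 199)) (.play 519 (.both (.play 262 (.ref 7 262)) (.ref 17 263)))))))) (.play 324 (.ref 2 260)))) (.both (.play 262 (.both (.play 391 (.both (.play 265 (.both (.play 201 (.both (.play 329 (.both (.play 137 (.both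 (.play 73 (.ref 22 8)) (.both (.play 136 (.both (.play 72 (.ref 7 72)) (.play 328 (.both (.play 200 (.ref 6 135)) (.play 392 (.ref 6 136)))))) (.play 328 (.ref 42 72))))) (.play 330 (.ref 0 262)))) (.play 202 (.ref 2 198)))) (.play 266 (.ref 1 262)))) (.both (.play 455 (.ref 279 198)) (.play 455 (.both (.play 456 (.both (.play 454 (.both (.play 390 (.both (.ref 231 259) (.play 457 (.ref 72 389)))) (.play 518 (.ref 6 262)))) (.play 520 (.ref 4 263)))) (.play 519 (.ref 7 262))))))) (.both (.play 261 (.both (.ref 280 133) (.both (.ref 140 194) (.play 328 (.ref 16 260))))) (.both (.play 265 (.both (.play 329 (.both (.play 261 (.both (.ref 238 195) (.play 328 (.ref 0 261)))) (.play 330 (.ref 0 262)))) (.play 266 (.ref 1 262)))) (.both (.ref 325 195) (.play 265 (.both (.play 329 (.both (.play 261 (.both (.ref 63 197) (.play 328 (.ref 0 261)))) (.play 330 (.ref 0 262)))) (.play 266 (.ref 1 262))))))))) (.both (.play 265 (.ref 198 260)) (.both (.play 265 (.ref 134 260)) (.ref 277 261)))))) (.both (.play 325 (.both (.ref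 183 2) (.both (.ref 155 258) (.both (.play 324 (.ref 153 258)) (.ref 147 259))))) (.both (.play 325 (.both (.play 264 (.both (.play 391 (.both (.play 261 (.both (.play 197 (.both (.play 196 (.both (.play 132 (.ref 86 4)) (.play 262 (.ref 173 194)))) (.both (.ref 323 4) (.both (.play 133 (.ref 131 5)) (.play 133 (.both (.play 389 (.ref 22 68)) (.play 390 (.ref 4 133)))))))) (.both (.play 200 (.both (.play 262 (.ref 237 68)) (.play 136 (.ref 51 71)))) (.both (.play 328 (.ref 322 132)) (.play 260 (.ref 173 258)))))) (.both (.play 200 (.ref 53 71)) (.both (.play 455 (.both (.play 456 (.both (.play 454 (.both (.play 262 (.both (.play 261 (.both (.play 197 (.both (.play 196 (.ref 3 196)) (.play 390 (.ref 7 197)))) (.play 328 (.both (.play 260 (.ref 3 260)) (.play 329 (.ref 0 261)))))) (.play 198 (.ref 7 198)))) (.play 518 (.ref 6 262)))) (.play 520 (.ref 4 263)))) (.both (.play 262 (.ref 43 198)) (.ref 283 263)))) (.play 455 (.both (.play 262 (.ref 43 198)) (.play 200 (.ref 5 199)))))))) (.both (.play 265 (.ref 159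 261)) (.play 265 (.ref 58 261))))) (.both (.play 324 (.both (.play 260 (.both (.play 262 (.both (.play 261 (.both (.play 196 (.ref 236 67)) (.play 328 (.ref 3 260)))) (.play 323 (.ref 2 259)))) (.play 259 (.ref 3 259)))) (.both (.ref 154 258) (.ref 146 259)))) (.both (.play 264 (.ref 161 260)) (.play 264 (.ref 160 260)))))) (.both (.ref 321 2) (.both (.play 325 (.both (.play 389 (.both (.play 262 (.both (.play 264 (.both (.play 328 (.both (.play 200 (.both (.play 261 (.ref 237 68)) (.play 391 (.ref 132 135)))) (.both (.play 329 (.ref 72 261)) (.play 329 (.both (.play 330 (.ref 3 262)) (.play 390 (.ref 1 325))))))) (.play 265 (.ref 1 261)))) (.both (.play 453 (.ref 55 133)) (.play 453 (.ref 53 133))))) (.both (.ref 311 128) (.both (.play 328 (.both (.ref 309 261) (.play 388 (.ref 1 324)))) (.play 388 (.ref 134 322)))))) (.both (.play 324 (.both (.play 391 (.both (.play 328 (.both (.play 262 (.both (.play 198 (.ref 177 134)) (.both (.play 198 (.ref 100 134)) (.ref 89 261)))) (.ref 113 323))) (.play 392 (.ref 0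 324)))) (.both (.ref 148 258) (.both (.play 391 (.ref 234 259)) (.play 391 (.both (.ref 117 322) (.play 392 (.ref 0 324)))))))) (.both (.play 264 (.ref 161 260)) (.play 264 (.ref 160 260)))))) (.both (.ref 308 65) (.both (.ref 286 65) (.both (.play 325 (.both (.play 324 (.both (.ref 157 67) (.both (.ref 154 258) (.ref 150 258)))) (.both (.play 328 (.both (.play 261 (.both (.play 389 (.both (.play 197 (.both (.play 132 (.both (.play 133 (.both (.play 68 (.ref 7 68)) (.ref 128 69))) (.play 196 (.ref 7 132)))) (.both (.play 390 (.ref 30 133)) (.play 454 (.both (.play 390 (.ref 4 197)) (.play 453 (.both (.play 262 (.ref 35 197)) (.play 518 (.ref 4 261))))))))) (.play 388 (.ref 1 324)))) (.play 260 (.ref 3 260)))) (.both (.ref 212 260) (.ref 258 260)))) (.play 264 (.ref 160 260))))) (.both (.play 325 (.both (.play 328 (.both (.ref 157 68) (.both (.ref 212 260) (.ref 258 260)))) (.both (.ref 151 258) (.both (.play 264 (.ref 161 260)) (.play 264 (.ref 160 260)))))) (.both (.ref 275 67) (.both (.play 391 (.both (.play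 264 (.both (.ref 245 67) (.both (.play 265 (.both (.play 262 (.both (.ref 242 69) (.play 261 (.ref 202 197)))) (.both (.ref 203 198) (.both (.ref 241 198) (.both (.ref 240 198) (.play 266 (.both (.play 326 (.ref 1 262)) (.ref 239 263)))))))) (.both (.play 200 (.ref 53 71)) (.play 262 (.both (.play 198 (.ref 195 134)) (.play 261 (.both (.ref 238 195) (.both (.play 260 (.ref 16 259)) (.play 265 (.both (.play 329 (.both (.play 328 (.ref 3 261)) (.play 330 (.ref 0 262)))) (.play 266 (.ref 1 262))))))))))))) (.both (.play 325 (.both (.play 328 (.both (.play 264 (.both (.play 200 (.both (.play 261 (.both (.play 262 (.ref 237 68)) (.play 260 (.ref 3 260)))) (.play 136 (.ref 6 135)))) (.play 265 (.ref 2 261)))) (.both (.ref 235 260) (.both (.play 261 (.both (.play 260 (.ref 3 260)) (.play 329 (.both (.play 262 (.ref 3 261)) (.ref 93 262))))) (.both (.play 261 (.both (.play 260 (.ref 3 260)) (.play 329 (.both (.play 262 (.ref 3 261)) (.play 330 (.both (.ref 145 263) (.play 390 (.ref 1 326)))))))) (.play 265 (.both (.play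 264 (.ref 2 261)) (.play 329 (.both (.play 266 (.ref 2 262)) (.play 330 (.both (.play 390 (.ref 1 326)) (.ref 200 327)))))))))))) (.both (.play 324 (.ref 234 259)) (.both (.play 324 (.both (.ref 233 259) (.play 264 (.ref 2 260)))) (.play 324 (.ref 232 260)))))) (.both (.play 455 (.both (.play 454 (.both (.play 262 (.both (.play 456 (.both (.play 261 (.both (.play 390 (.both (.play 197 (.ref 7 197)) (.ref 231 259))) (.play 260 (.ref 16 259)))) (.play 520 (.ref 4 263)))) (.play 198 (.ref 7 198)))) (.play 518 (.ref 6 262)))) (.both (.play 262 (.ref 43 198)) (.ref 119 262)))) (.both (.play 455 (.both (.play 264 (.both (.play 325 (.both (.play 262 (.both (.play 198 (.ref 7 198)) (.play 265 (.ref 1 261)))) (.play 324 (.ref 2 260)))) (.play 200 (.ref 5 199)))) (.both (.play 262 (.ref 43 198)) (.ref 230 262)))) (.play 455 (.both (.play 264 (.both (.play 200 (.ref 5 199)) (.play 328 (.both (.play 325 (.ref 102 260)) (.play 519 (.ref 5 263)))))) (.both (.play 264 (.both (.play 200 (.ref 5 199)) (.play 265 (.ref 134 260))))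 (.play 519 (.both (.ref 17 263) (.ref 45 326))))))))))) (.both (.ref 229 130) (.play 325 (.both (.play 328 (.both (.play 264 (.both (.play 455 (.both (.play 262 (.both (.play 389 (.both (.play 453 (.ref 53 133)) (.play 388 (.ref 1 324)))) (.both (.play 456 (.both (.play 454 (.both (.play 391 (.ref 33 198)) (.play 457 (.both (.ref 214 262) (.ref 215 324))))) (.both (.play 391 (.ref 226 199)) (.play 454 (.both (.ref 221 260) (.both (.play 453 (.both (.ref 225 260) (.ref 217 261))) (.play 453 (.both (.ref 217 261) (.play 390 (.ref 224 261)))))))))) (.play 391 (.ref 223 198))))) (.both (.play 391 (.ref 35 199)) (.play 456 (.both (.play 454 (.both (.ref 222 259) (.both (.play 453 (.both (.play 389 (.both (.ref 218 260) (.play 388 (.ref 1 324)))) (.both (.play 390 (.both (.play 517 (.both (.play 262 (.ref 6 261)) (.play 516 (.ref 1 452)))) (.play 518 (.ref 5 262)))) (.play 452 (.ref 204 387))))) (.both (.ref 221 260) (.both (.ref 220 387) (.ref 219 387)))))) (.both (.play 389 (.both (.play 454 (.both (.play 453 (.both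 (.ref 218 260) (.ref 217 261))) (.ref 216 261))) (.play 388 (.ref 1 324)))) (.both (.play 457 (.both (.play 454 (.both (.play 390 (.both (.play 518 (.ref 5 262)) (.play 389 (.ref 3 389)))) (.both (.ref 215 324) (.play 458 (.ref 169 453))))) (.both (.play 389 (.both (.play 454 (.both (.ref 214 262) (.play 390 (.ref 3 389)))) (.play 388 (.ref 1 324)))) (.both (.play 519 (.both (.play 518 (.both (.play 454 (.both (.play 390 (.ref 5 262)) (.play 517 (.ref 1 453)))) (.play 458 (.ref 1 454)))) (.play 392 (.ref 6 263)))) (.play 392 (.ref 110 263)))))) (.play 392 (.ref 213 263))))))))) (.play 265 (.ref 2 261)))) (.both (.ref 212 260) (.both (.play 389 (.both (.play 329 (.both (.play 330 (.both (.play 262 (.ref 3 262)) (.ref 63 262))) (.play 390 (.ref 1 325)))) (.play 388 (.ref 1 324)))) (.both (.play 389 (.both (.play 329 (.both (.ref 209 262) (.play 390 (.ref 1 325)))) (.play 388 (.ref 1 324)))) (.both (.ref 211 260) (.play 265 (.both (.play 264 (.ref 2 261)) (.play 329 (.both (.play 266 (.ref 2 262)) (.play 330 (.both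 (.play 262 (.ref 3 262)) (.play 395 (.both (.play 391 (.both (.play 390 (.ref 1 326)) (.ref 199 327))) (.play 394 (.ref 0 327)))))))))))))))) (.both (.ref 208 194) (.both (.play 264 (.ref 161 260)) (.play 264 (.ref 160 260)))))))))))))))))))))))))))
 (.seq (.seq (.one (.play 66 (.both (.play 68 (.both (.play 69 (.both (.play 70 (.ref 202 2)) (.both (.play 65 (.ref 169 64)) (.play 130 (.ref 15 65))))) (.play 4 (.ref 5 3)))) (.play 2 (.ref 7 2)))))
 (.one (.both (.play 4 (.ref 15 0)) (.play 258 (.ref 7 1)))))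
 (.seq (.one (.both (.play 1 (.ref 16 0)) (.play 259 (.ref 5 3))))
 (.one (.play 129 (.both (.ref 68 0) (.both (.play 66 (.both (.play 65 (.both (.play 256 (.both (.play 192 (.ref 315 0)) (.play 320 (.ref 6 64)))) (.play 2 (.ref 5 1)))) (.play 130 (.ref 5 65)))) (.ref 21 64)))))))))))
 (.seq (.seq (.seq (.seq (.seq (.one (.play 129 (.both (.ref 206 0) (.both (.play 64 (.both (.play 65 (.both (.play 0 (.ref 7 0)) (.play 258 (.both (.play 194 (.both (.play 1 (.ref 4 1)) (.play 449 (.ref 5 193)))) (.play 322 (.ref 4 65)))))) (.play 128 (.ref 7 64)))) (.ref 20 65)))))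
 (.seq (.one (.both (.play 68 (.both (.play 4 (.ref 5 3)) (.play 132 (.ref 379 64)))) (.play 2 (.ref 7 2))))
 (.one (.play 5 (.both (.ref 149 0) (.play 6 (.ref 2 2)))))))
 (.seq (.one (.play 67 (.both (.play 3 (.ref 5 2)) (.play 68 (.ref 15 64)))))
 (.seq (.one (.play 260 (.both (.play 453 (.both (.play 196 (.both (.ref 380 3) (.play 389 (.ref 4 196)))) (.both (.play 452 (.both (.play 259 (.both (.play 195 (.ref 7 195)) (.play 325 (.both (.play 323 (.both (.play 258 (.ref 80 257)) (.play 516 (.ref 7 259)))) (.both (.play 258 (.ref 187 257)) (.ref 87 259)))))) (.play 517 (.ref 4 260)))) (.play 389 (.ref 100 196))))) (.both (.play 453 (.both (.play 196 (.both (.ref 381 3) (.play 389 (.ref 4 196)))) (.both (.play 452 (.both (.play 261 (.both (.play 197 (.ref 5 196)) (.play 323 (.both (.play 322 (.ref 160 257)) (.both (.play 259 (.ref 378 258)) (.ref 56 259)))))) (.play 517 (.ref 4 260)))) (.both (.play 389 (.ref 100 196)) (.play 389 (.ref 177 196)))))) (.both (.play 195 (.both (.play 259 (.both (.play 196 (.both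 (.play 389 (.both (.play 132 (.both (.play 68 (.ref 42 3)) (.play 325 (.ref 4 132)))) (.play 453 (.ref 4 196)))) (.ref 384 130))) (.play 452 (.ref 7 195)))) (.both (.play 259 (.ref 86 67)) (.play 196 (.both (.play 389 (.ref 131 68)) (.play 131 (.ref 7 131))))))) (.both (.play 195 (.both (.play 261 (.both (.play 197 (.ref 55 68)) (.both (.play 259 (.both (.play 194 (.ref 173 192)) (.play 452 (.ref 7 195)))) (.both (.play 262 (.both (.ref 92 193) (.both (.play 263 (.both (.ref 383 194) (.play 323 (.ref 1 259)))) (.ref 88 195)))) (.ref 87 195))))) (.both (.play 259 (.ref 86 67)) (.both (.ref 85 67) (.play 196 (.ref 382 129)))))) (.both (.play 196 (.both (.ref 67 67) (.both (.ref 66 68) (.ref 377 129)))) (.both (.play 196 (.both (.ref 68 67) (.both (.ref 67 67) (.ref 9 132)))) (.play 452 (.both (.ref 194 192) (.both (.ref 14 195) (.both (.ref 12 195) (.play 261 (.ref 284 196))))))))))))))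
 (.one (.play 260 (.both (.ref 137 3) (.both (.ref 9 4) (.ref 76 64))))))))
 (.seq (.seq (.one (.play 1 (.both (.ref 114 0) (.play 2 (.ref 3 1)))))
 (.seq (.one (.play 0 (.both (.play 65 (.ref 3 0)) (.play 2 (.ref 0 0)))))
 (.one (.play 0 (.both (.play 66 (.ref 3 0)) (.play 2 (.ref 0 0)))))))
 (.seq (.seq (.one (.play 65 (.both (.ref 20 1) (.play 256 (.ref 6 64)))))
 (.one (.both (.ref 390 0) (.play 384 (.ref 6 128)))))
 (.seq (.one (.play 129 (.both (.play 65 (.ref 24 1)) (.ref 21 64))))
 (.one (.play 193 (.both (.ref 392 0) (.both (.play 128 (.both (.play 130 (.both (.play 129 (.ref 223 64)) (.play 194 (.ref 5 129)))) (.play 192 (.ref 7 128)))) (.both (.play 258 (.both (.play 129 (.both (.ref 21 64) (.play 322 (.ref 30 65)))) (.play 194 (.ref 5 193)))) (.ref 20 129))))))))))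
 (.seq (.seq (.seq (.one (.play 129 (.both (.play 65 (.ref 22 0)) (.ref 18 128))))
 (.seq (.one (.play 257 (.both (.ref 393 0) (.both (.play 193 (.both (.ref 392 0) (.ref 18 192))) (.both (.ref 394 64) (.both (.ref 337 128) (.ref 137 192)))))))
 (.one (.play 452 (.both (.ref 395 3) (.both (.play 260 (.both (.ref 393 3) (.both (.ref 302 67) (.both (.play 453 (.ref 131 132)) (.both (.ref 32 132) (.ref 9 196)))))) (.both (.play 260 (.both (.play 451 (.ref 391 131)) (.both (.ref 66 132) (.both (.play 453 (.both (.play 389 (.both (.play 386 (.both (.play 322 (.both (.play 261 (.both (.play 197 (.ref 5 196)) (.play 323 (.both (.play 262 (.ref 159 258)) (.play 321 (.ref 0 321)))))) (.both (.play 450 (.both (.play 451 (.both (.play 515 (.ref 6 259)) (.play 449 (.ref 2 385)))) (.both (.play 514 (.both (.play 515 (.both (.play 451 (.ref 6 259)) (.play 579 (.ref 4 322)))) (.both (.play 578 (.ref 19 321)) (.ref 297 321)))) (.ref 352 257)))) (.ref 389 321)))) (.both (.play 387 (.both (.play 261 (.both (.play 325 (.both (.ref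 384 195) (.play 326 (.ref 2 322)))) (.play 197 (.ref 5 196)))) (.play 385 (.ref 0 385)))) (.both (.play 451 (.both (.play 515 (.ref 6 259)) (.ref 388 385))) (.ref 347 257))))) (.both (.play 390 (.both (.play 261 (.both (.play 387 (.both (.play 326 (.both (.play 262 (.both (.play 198 (.ref 6 197)) (.play 323 (.both (.play 263 (.ref 1 259)) (.play 322 (.ref 3 322)))))) (.play 327 (.ref 2 323)))) (.both (.ref 387 321) (.play 326 (.both (.play 386 (.both (.play 325 (.ref 2 322)) (.play 385 (.ref 0 385)))) (.play 327 (.ref 2 323))))))) (.play 197 (.ref 5 196)))) (.both (.play 391 (.both (.play 455 (.both (.play 327 (.both (.play 326 (.both (.play 262 (.both (.play 198 (.ref 6 197)) (.play 519 (.ref 7 262)))) (.play 387 (.ref 2 323)))) (.play 328 (.ref 2 324)))) (.play 456 (.ref 0 388)))) (.play 392 (.ref 1 388)))) (.ref 306 323)))) (.ref 260 258)))) (.play 517 (.ref 4 260)))) (.ref 40 195))))) (.both (.play 516 (.both (.play 260 (.ref 179 195)) (.both (.play 260 (.ref 24 196)) (.play 580 (.ref 19 323))))) (.both (.ref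 386 256) (.ref 109 257))))))))))
 (.seq (.seq (.one (.play 68 (.both (.ref 63 0) (.ref 239 65))))
 (.one (.play 129 (.both (.play 65 (.both (.play 257 (.both (.ref 196 0) (.play 256 (.ref 1 192)))) (.play 1 (.ref 4 1)))) (.play 128 (.ref 3 128))))))
 (.seq (.one (.play 453 (.both (.play 261 (.both (.play 197 (.both (.ref 302 4) (.both (.ref 20 133) (.play 262 (.both (.play 390 (.both (.play 326 (.both (.play 133 (.ref 4 133)) (.play 517 (.ref 5 261)))) (.play 454 (.ref 4 197)))) (.play 198 (.ref 5 197))))))) (.both (.ref 392 68) (.both (.ref 340 132) (.both (.play 197 (.both (.ref 21 132) (.ref 129 133))) (.play 260 (.ref 382 194))))))) (.both (.ref 395 4) (.both (.play 452 (.both (.play 451 (.both (.play 450 (.both (.play 514 (.both (.play 386 (.both (.play 322 (.both (.ref 374 129) (.both (.play 515 (.ref 30 258)) (.ref 332 321)))) (.play 385 (.ref 3 385)))) (.play 513 (.ref 1 449)))) (.both (.ref 154 384) (.ref 150 384)))) (.both (.play 516 (.both (.play 580 (.both (.play 387 (.both (.play 323 (.ref 84 259))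 (.play 454 (.both (.play 518 (.both (.play 390 (.both (.play 582 (.ref 7 325)) (.play 391 (.ref 2 387)))) (.play 519 (.ref 0 451)))) (.play 386 (.ref 3 386)))))) (.play 644 (.ref 5 388)))) (.both (.play 390 (.both (.play 454 (.both (.ref 398 258) (.ref 162 323))) (.both (.play 391 (.ref 159 387)) (.play 391 (.ref 58 387))))) (.play 580 (.ref 122 324))))) (.both (.play 390 (.ref 161 386)) (.play 390 (.ref 160 386)))))) (.both (.play 261 (.both (.ref 143 132) (.both (.ref 390 132) (.play 262 (.both (.play 260 (.both (.play 259 (.both (.ref 163 193) (.both (.play 263 (.both (.play 200 (.both (.play 326 (.both (.ref 250 197) (.play 327 (.ref 0 259)))) (.play 199 (.ref 2 196)))) (.both (.play 200 (.both (.play 199 (.ref 2 196)) (.play 328 (.both (.play 264 (.ref 232 197)) (.play 327 (.ref 0 260)))))) (.both (.ref 397 196) (.ref 69 259))))) (.play 326 (.ref 16 258))))) (.play 196 (.ref 7 196)))) (.play 198 (.ref 5 197))))))) (.both (.ref 373 132) (.play 516 (.ref 123 260)))))) (.both (.play 261 (.ref 23 132)) (.both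 (.ref 386 257) (.ref 109 258))))))))
 (.one (.play 65 (.both (.play 64 (.both (.play 0 (.ref 4 0)) (.play 1 (.ref 5 0)))) (.play 129 (.ref 6 64))))))))
 (.seq (.seq (.one (.both (.play 0 (.ref 7 0)) (.play 1 (.ref 6 0))))
 (.seq (.one (.play 195 (.both (.play 259 (.both (.play 131 (.both (.play 67 (.ref 401 2)) (.play 132 (.ref 2 128)))) (.play 260 (.ref 0 192)))) (.both (.ref 251 128) (.ref 273 192)))))
 (.one (.both (.play 5 (.ref 2 1)) (.play 64 (.ref 0 64))))))
 (.seq (.seq (.one (.play 195 (.both (.ref 263 0) (.both (.play 323 (.both (.play 194 (.both (.play 68 (.both (.ref 402 2) (.play 132 (.ref 6 67)))) (.both (.play 132 (.both (.play 68 (.ref 6 67)) (.play 193 (.ref 403 128)))) (.play 193 (.ref 16 192))))) (.both (.play 387 (.both (.play 388 (.ref 255 128)) (.play 451 (.ref 5 195)))) (.play 387 (.ref 35 131))))) (.both (.play 68 (.both (.play 194 (.both (.ref 274 0) (.both (.ref 402 2) (.play 193 (.ref 16 192))))) (.both (.play 132 (.ref 42 3)) (.play 132 (.ref 372 66))))) (.both (.play 323 (.both (.play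 131 (.both (.ref 281 2) (.both (.ref 400 3) (.play 130 (.both (.play 129 (.both (.play 132 (.both (.play 68 (.ref 5 67)) (.play 197 (.ref 0 129)))) (.play 128 (.ref 0 128)))) (.play 66 (.ref 7 66))))))) (.both (.play 132 (.ref 132 67)) (.play 387 (.both (.play 386 (.both (.play 388 (.both (.ref 252 128) (.play 452 (.ref 4 195)))) (.play 450 (.ref 6 194)))) (.play 451 (.ref 5 195))))))) (.both (.play 262 (.both (.play 323 (.both (.play 131 (.both (.ref 339 2) (.both (.ref 400 3) (.play 130 (.both (.play 132 (.both (.play 133 (.both (.ref 251 66) (.both (.play 129 (.both (.play 128 (.ref 0 128)) (.ref 113 128))) (.play 194 (.ref 15 129))))) (.play 68 (.ref 5 67)))) (.play 66 (.ref 7 66))))))) (.both (.play 387 (.both (.ref 338 66) (.play 451 (.ref 5 195)))) (.play 387 (.ref 35 131))))) (.both (.play 261 (.both (.ref 362 130) (.play 263 (.ref 3 195)))) (.play 261 (.ref 72 194))))) (.play 194 (.both (.play 261 (.both (.play 197 (.both (.play 130 (.both (.play 133 (.both (.play 69 (.both (.play 132 (.both (.play 70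 (.both (.play 6 (.ref 5 5)) (.play 131 (.ref 2 66)))) (.play 68 (.both (.play 4 (.ref 7 4)) (.play 325 (.ref 4 68)))))) (.play 5 (.ref 6 4)))) (.play 134 (.ref 2 130)))) (.play 129 (.ref 3 129)))) (.both (.play 130 (.both (.play 129 (.ref 3 129)) (.play 198 (.both (.play 131 (.ref 3 130)) (.play 199 (.ref 1 195)))))) (.ref 251 130)))) (.play 262 (.ref 3 194)))) (.both (.play 193 (.both (.ref 227 128) (.play 192 (.ref 0 192)))) (.play 193 (.ref 16 192))))))))))))
 (.one (.play 67 (.both (.play 68 (.both (.play 66 (.both (.play 2 (.ref 7 2)) (.play 130 (.both (.play 129 (.ref 48 64)) (.play 321 (.ref 6 65)))))) (.play 4 (.ref 5 3)))) (.play 3 (.ref 6 2))))))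
 (.seq (.one (.play 64 (.both (.play 0 (.ref 4 0)) (.play 321 (.ref 343 64)))))
 (.one (.play 65 (.both (.play 258 (.ref 30 1)) (.play 320 (.ref 6 64))))))))))
 (.seq (.seq (.seq (.seq (.one (.play 66 (.both (.play 65 (.ref 189 0)) (.ref 69 66))))
 (.seq (.one (.play 197 (.both (.play 196 (.both (.play 132 (.ref 322 3)) (.both (.play 195 (.both (.ref 408 128) (.both (.ref 113 194) (.play 260 (.both (.play 262 (.both (.play 261 (.both (.play 194 (.ref 0 194)) (.play 200 (.ref 1 196)))) (.play 263 (.ref 0 195)))) (.play 259 (.ref 1 195))))))) (.both (.ref 170 129) (.both (.ref 165 130) (.play 195 (.both (.ref 73 130) (.play 262 (.both (.play 261 (.both (.play 194 (.ref 0 194)) (.play 200 (.ref 15 196)))) (.play 263 (.ref 0 195))))))))))) (.both (.play 261 (.both (.play 262 (.both (.play 326 (.both (.play 135 (.both (.play 71 (.ref 51 6)) (.both (.play 71 (.ref 54 6)) (.play 327 (.both (.play 134 (.both (.play 325 (.ref 132 69)) (.play 391 (.ref 4 134)))) (.both (.play 328 (.both (.play 263 (.ref 226 71)) (.play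 329 (.ref 3 261)))) (.play 263 (.ref 35 71)))))))) (.both (.play 390 (.ref 279 133)) (.play 390 (.both (.play 391 (.both (.play 327 (.both (.play 134 (.ref 4 134)) (.play 263 (.ref 5 135)))) (.play 455 (.ref 4 198)))) (.play 454 (.ref 7 197))))))) (.play 201 (.ref 1 197)))) (.play 260 (.ref 1 196)))) (.both (.ref 164 130) (.both (.play 196 (.both (.play 131 (.both (.play 195 (.both (.play 130 (.ref 3 130)) (.play 262 (.both (.play 261 (.both (.play 194 (.ref 0 194)) (.play 201 (.ref 1 197)))) (.play 263 (.ref 0 195)))))) (.play 132 (.ref 3 131)))) (.play 135 (.ref 2 132)))) (.ref 148 131)))))))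
 (.one (.both (.play 0 (.ref 7 0)) (.play 320 (.ref 6 64))))))
 (.seq (.one (.play 65 (.both (.ref 63 1) (.play 64 (.ref 0 64)))))
 (.seq (.one (.play 132 (.both (.play 129 (.both (.play 65 (.both (.play 64 (.both (.play 0 (.ref 7 0)) (.play 131 (.ref 3 64)))) (.play 1 (.ref 4 1)))) (.play 128 (.ref 3 128)))) (.play 133 (.ref 2 129)))))
 (.one (.play 68 (.both (.play 1 (.ref 3 0)) (.ref 63 0)))))))
 (.seq (.seq (.one (.both (.play 0 (.ref 3 0)) (.ref 413 1)))
 (.seq (.one (.play 65 (.both (.play 67 (.ref 403 0)) (.play 133 (.ref 3 65)))))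
 (.one (.play 257 (.both (.play 195 (.both (.ref 334 2) (.play 196 (.ref 58 193)))) (.play 256 (.ref 0 256)))))))
 (.seq (.seq (.one (.play 258 (.both (.ref 416 0) (.play 326 (.ref 3 258)))))
 (.one (.play 133 (.both (.play 68 (.both (.ref 97 4) (.play 132 (.ref 7 68)))) (.both (.ref 390 4) (.play 132 (.both (.play 134 (.both (.play 131 (.both (.ref 118 64) (.both (.ref 364 65) (.both (.play 196 (.both (.ref 238 65) (.play 135 (.ref 15 131)))) (.play 135 (.both (.play 136 (.ref 202 68)) (.ref 113 130))))))) (.play 70 (.ref 5 69)))) (.play 68 (.ref 7 68)))))))))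
 (.seq (.one (.play 66 (.both (.ref 163 0) (.play 6 (.ref 2 2)))))
 (.one (.play 129 (.both (.play 65 (.ref 84 1)) (.play 195 (.both (.ref 259 65) (.play 128 (.ref 3 128)))))))))))
 (.seq (.seq (.seq (.one (.play 69 (.both (.play 65 (.ref 166 0)) (.both (.play 70 (.ref 204 1)) (.play 70 (.ref 202 2))))))
 (.seq (.one (.play 69 (.both (.play 65 (.ref 204 0)) (.both (.play 70 (.ref 166 1)) (.play 70 (.ref 202 2))))))
 (.one (.play 64 (.both (.play 193 (.ref 61 0)) (.play 256 (.ref 4 64)))))))
 (.seq (.seq (.one (.play 387 (.both (.play 324 (.both (.play 260 (.both (.ref 375 3) (.both (.play 196 (.both (.ref 340 67) (.play 451 (.ref 6 195)))) (.both (.play 452 (.both (.play 259 (.both (.play 261 (.both (.play 197 (.ref 5 196)) (.play 326 (.both (.play 258 (.ref 0 258)) (.play 327 (.ref 1 323)))))) (.play 195 (.ref 7 195)))) (.both (.play 261 (.ref 35 196)) (.play 516 (.both (.ref 18 259) (.both (.play 581 (.both (.play 451 (.both (.play 515 (.ref 6 259)) (.play 580 (.both (.play 644 (.ref 7 387)) (.play 645 (.ref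 4 388)))))) (.play 517 (.ref 4 324)))) (.both (.ref 111 323) (.ref 230 323)))))))) (.play 451 (.ref 106 195)))))) (.both (.play 259 (.both (.play 260 (.both (.play 195 (.ref 62 67)) (.play 326 (.ref 173 257)))) (.both (.play 195 (.both (.ref 423 67) (.both (.play 260 (.ref 62 67)) (.both (.play 323 (.ref 30 131)) (.play 452 (.both (.play 260 (.ref 7 195)) (.play 323 (.ref 4 195)))))))) (.both (.play 326 (.both (.play 323 (.ref 236 130)) (.play 327 (.ref 1 323)))) (.play 326 (.both (.ref 92 257) (.play 327 (.ref 1 323)))))))) (.both (.play 260 (.both (.play 196 (.both (.ref 143 67) (.both (.ref 390 67) (.play 195 (.both (.play 197 (.both (.play 133 (.ref 5 132)) (.ref 49 193))) (.play 131 (.ref 7 131))))))) (.both (.play 259 (.both (.play 195 (.ref 86 67)) (.both (.play 258 (.both (.play 323 (.both (.play 451 (.ref 271 194)) (.play 326 (.ref 3 258)))) (.play 257 (.ref 0 257)))) (.play 452 (.both (.play 195 (.ref 7 195)) (.play 515 (.both (.play 451 (.ref 6 259)) (.play 516 (.both (.play 579 (.ref 6 323)) (.ref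 28 324)))))))))) (.both (.play 196 (.ref 291 131)) (.play 451 (.ref 106 195)))))) (.both (.play 326 (.both (.play 323 (.both (.play 261 (.both (.play 452 (.ref 53 132)) (.play 262 (.ref 160 258)))) (.both (.play 259 (.both (.play 452 (.ref 195 195)) (.play 258 (.ref 3 258)))) (.play 262 (.both (.ref 150 257) (.play 263 (.ref 2 259))))))) (.play 327 (.ref 1 323)))) (.both (.play 326 (.both (.play 261 (.both (.ref 405 130) (.both (.play 452 (.both (.play 323 (.both (.play 259 (.both (.play 451 (.both (.play 260 (.ref 35 195)) (.ref 178 257))) (.play 258 (.ref 3 258)))) (.play 322 (.ref 403 257)))) (.play 516 (.ref 5 260)))) (.play 452 (.ref 132 196))))) (.play 327 (.ref 1 323)))) (.both (.play 197 (.both (.play 261 (.both (.play 196 (.both (.play 260 (.both (.ref 317 129) (.play 451 (.ref 6 195)))) (.play 132 (.ref 7 132)))) (.play 452 (.ref 6 196)))) (.both (.play 326 (.both (.play 196 (.both (.play 198 (.both (.ref 422 130) (.both (.ref 421 130) (.both (.play 262 (.both (.play 134 (.ref 6 133)) (.play 263 (.both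 (.play 195 (.ref 0 195)) (.play 323 (.ref 2 259)))))) (.both (.play 262 (.both (.play 134 (.ref 6 133)) (.play 263 (.both (.play 264 (.both (.play 199 (.ref 0 196)) (.play 265 (.ref 1 261)))) (.play 323 (.ref 2 259)))))) (.play 134 (.both (.play 135 (.ref 161 131)) (.play 262 (.ref 6 133))))))))) (.both (.play 260 (.ref 367 131)) (.play 260 (.ref 33 131))))) (.play 327 (.ref 1 323)))) (.play 261 (.ref 42 132))))) (.both (.play 261 (.both (.play 452 (.both (.play 260 (.both (.play 196 (.ref 367 131)) (.both (.ref 339 131) (.play 259 (.both (.play 258 (.both (.play 194 (.both (.play 193 (.ref 3 193)) (.play 451 (.both (.play 323 (.ref 7 194)) (.play 515 (.ref 6 259)))))) (.play 257 (.ref 0 257)))) (.play 195 (.ref 7 195))))))) (.play 516 (.ref 5 260)))) (.both (.ref 405 130) (.play 452 (.ref 132 196))))) (.play 260 (.both (.play 326 (.both (.play 323 (.both (.ref 412 130) (.both (.ref 387 257) (.ref 411 257)))) (.play 327 (.ref 1 323)))) (.play 196 (.ref 367 131)))))))))))) (.both (.ref 320 64) (.both (.ref 419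 320) (.play 326 (.ref 161 322)))))))
 (.one (.play 1 (.both (.ref 383 0) (.play 2 (.ref 3 1))))))
 (.seq (.one (.play 4 (.both (.play 3 (.ref 2 0)) (.play 68 (.both (.play 5 (.ref 2 1)) (.ref 69 64))))))
 (.one (.play 194 (.both (.play 323 (.both (.play 195 (.both (.play 130 (.ref 86 2)) (.play 262 (.ref 3 194)))) (.both (.play 130 (.both (.play 195 (.ref 86 2)) (.both (.ref 423 2) (.both (.play 195 (.ref 62 2)) (.both (.play 258 (.ref 177 66)) (.play 387 (.both (.play 195 (.ref 7 130)) (.play 258 (.ref 176 130))))))))) (.both (.ref 88 194) (.play 322 (.ref 198 256)))))) (.both (.play 258 (.ref 322 65)) (.both (.ref 388 193) (.play 195 (.ref 80 193))))))))))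
 (.seq (.seq (.one (.play 66 (.both (.play 65 (.ref 189 0)) (.ref 63 2))))
 (.seq (.one (.play 327 (.both (.play 198 (.both (.play 262 (.both (.play 199 (.both (.ref 245 2) (.both (.play 135 (.ref 53 6)) (.ref 205 67)))) (.both (.ref 323 5) (.both (.play 134 (.ref 131 6)) (.play 134 (.both (.ref 135 69) (.play 391 (.ref 4 134)))))))) (.both (.play 199 (.both (.play 197 (.both (.play 196 (.both (.play 260 (.both (.play 132 (.both (.play 324 (.both (.play 133 (.both (.play 69 (.ref 5 68)) (.play 200 (.ref 3 132)))) (.play 325 (.ref 4 132)))) (.play 131 (.ref 3 131)))) (.play 259 (.ref 1 195)))) (.both (.play 195 (.both (.ref 428 128) (.both (.ref 73 130) (.play 132 (.both (.play 134 (.both (.play 133 (.both (.play 194 (.ref 2 130)) (.play 200 (.ref 3 132)))) (.play 135 (.ref 2 131)))) (.play 131 (.ref 3 131))))))) (.both (.ref 167 129) (.both (.ref 364 130) (.play 195 (.both (.play 134 (.both (.play 133 (.both (.play 194 (.ref 2 130)) (.play 200 (.ref 72 132)))) (.play 135 (.ref 2 131)))) (.ref 113 194))))))))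 (.both (.play 200 (.both (.play 133 (.both (.play 261 (.both (.play 325 (.both (.play 134 (.ref 35 69)) (.play 326 (.ref 4 133)))) (.play 260 (.ref 1 196)))) (.play 132 (.ref 3 132)))) (.both (.play 265 (.both (.play 201 (.both (.ref 73 132) (.play 266 (.ref 0 198)))) (.play 264 (.ref 0 197)))) (.ref 112 133)))) (.both (.play 196 (.both (.ref 168 128) (.both (.ref 428 129) (.both (.ref 425 130) (.both (.play 132 (.ref 414 131)) (.play 200 (.both (.ref 63 132) (.play 201 (.ref 204 132))))))))) (.both (.play 196 (.both (.ref 64 130) (.both (.play 135 (.ref 153 130)) (.play 260 (.both (.play 132 (.both (.play 131 (.ref 3 131)) (.play 325 (.both (.play 324 (.ref 4 132)) (.play 261 (.ref 7 132)))))) (.play 259 (.ref 1 195))))))) (.both (.play 200 (.both (.play 136 (.both (.ref 148 131) (.play 137 (.ref 2 133)))) (.both (.play 135 (.both (.ref 75 131) (.play 201 (.both (.play 134 (.ref 72 133)) (.ref 69 197))))) (.both (.play 201 (.both (.play 202 (.ref 166 133)) (.ref 69 197))) (.ref 426 133))))) (.play 200 (.both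 (.play 196 (.ref 189 131)) (.play 201 (.ref 202 133)))))))))) (.both (.play 197 (.both (.play 196 (.both (.play 195 (.ref 189 130)) (.both (.play 200 (.ref 191 131)) (.play 200 (.ref 166 131))))) (.both (.play 196 (.both (.play 195 (.ref 189 130)) (.play 263 (.both (.play 135 (.both (.play 136 (.ref 2 132)) (.play 327 (.ref 6 134)))) (.play 264 (.ref 0 196)))))) (.both (.play 196 (.both (.play 195 (.ref 189 130)) (.both (.play 200 (.ref 204 131)) (.play 200 (.ref 169 195))))) (.both (.play 200 (.both (.play 196 (.ref 204 131)) (.both (.play 196 (.ref 166 131)) (.play 201 (.ref 202 133))))) (.both (.play 200 (.both (.play 196 (.ref 191 131)) (.both (.play 201 (.ref 202 133)) (.play 196 (.ref 169 195))))) (.play 200 (.both (.play 133 (.both (.play 132 (.ref 3 132)) (.ref 360 132))) (.play 201 (.ref 202 133)))))))))) (.both (.play 391 (.both (.ref 427 130) (.play 263 (.ref 83 133)))) (.both (.play 391 (.both (.ref 427 130) (.play 263 (.ref 401 134)))) (.play 263 (.both (.play 391 (.ref 83 133)) (.play 135 (.ref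 6 134))))))))) (.both (.play 262 (.both (.play 199 (.both (.play 197 (.both (.play 200 (.both (.ref 408 130) (.both (.play 263 (.both (.ref 262 133) (.play 196 (.ref 16 195)))) (.both (.ref 397 133) (.ref 426 133))))) (.play 133 (.ref 7 133)))) (.play 135 (.ref 5 134)))) (.play 453 (.ref 6 197)))) (.play 262 (.ref 291 133)))))) (.both (.play 328 (.both (.play 264 (.both (.play 200 (.both (.play 199 (.both (.play 201 (.both (.play 137 (.both (.play 73 (.ref 51 8)) (.play 138 (.ref 160 134)))) (.both (.play 135 (.both (.play 134 (.ref 244 132)) (.play 392 (.ref 7 135)))) (.play 392 (.ref 223 135))))) (.both (.play 135 (.ref 86 7)) (.ref 193 67)))) (.both (.play 136 (.ref 391 7)) (.both (.play 136 (.ref 144 7)) (.play 136 (.both (.ref 14 71) (.play 391 (.ref 6 135)))))))) (.both (.play 262 (.both (.play 261 (.both (.ref 420 68) (.both (.play 260 (.ref 91 259)) (.ref 243 259)))) (.both (.ref 407 133) (.play 453 (.ref 123 197))))) (.both (.play 325 (.both (.play 392 (.ref 365 259)) (.play 265 (.ref 2 261)))) (.play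 265 (.ref 161 261)))))) (.play 329 (.ref 1 325)))) (.both (.play 328 (.both (.play 391 (.both (.play 198 (.both (.play 199 (.both (.play 200 (.both (.ref 422 132) (.both (.ref 421 132) (.play 264 (.ref 106 135))))) (.both (.play 263 (.both (.ref 82 133) (.play 135 (.ref 6 134)))) (.both (.play 263 (.ref 83 133)) (.play 263 (.ref 401 134)))))) (.both (.play 262 (.ref 367 133)) (.play 262 (.ref 110 197))))) (.play 388 (.ref 2 324)))) (.play 329 (.ref 1 325)))) (.both (.play 328 (.both (.play 325 (.both (.ref 425 259) (.play 388 (.ref 1 324)))) (.play 329 (.ref 1 325)))) (.ref 277 324)))))))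
 (.one (.play 391 (.both (.ref 429 2) (.both (.ref 424 3) (.both (.play 264 (.both (.play 329 (.both (.play 330 (.both (.play 263 (.both (.play 266 (.both (.play 202 (.both (.play 203 (.both (.play 139 (.ref 53 10)) (.play 265 (.ref 161 199)))) (.both (.play 138 (.ref 391 9)) (.both (.play 138 (.ref 144 9)) (.play 138 (.both (.play 394 (.ref 22 73)) (.play 393 (.ref 6 137)))))))) (.both (.ref 420 70) (.both (.play 327 (.both (.play 455 (.both (.play 394 (.both (.play 454 (.both (.play 518 (.ref 6 262)) (.play 393 (.ref 1 390)))) (.play 395 (.ref 0 327)))) (.play 519 (.ref 5 263)))) (.play 267 (.ref 2 263)))) (.play 267 (.ref 161 263)))))) (.both (.play 262 (.ref 91 261)) (.ref 243 261)))) (.play 331 (.ref 1 327)))) (.both (.play 390 (.both (.play 326 (.both (.play 325 (.both (.play 323 (.both (.play 262 (.both (.play 455 (.ref 177 198)) (.play 263 (.both (.play 261 (.ref 0 261)) (.play 265 (.ref 1 261)))))) (.play 324 (.ref 0 323)))) (.play 393 (.ref 3 325)))) (.both (.play 455 (.both (.play 262 (.both (.play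 198 (.ref 4 198)) (.ref 389 261))) (.both (.play 262 (.both (.play 198 (.ref 4 198)) (.play 519 (.both (.play 454 (.ref 4 262)) (.play 583 (.ref 5 327)))))) (.play 519 (.both (.play 327 (.ref 5 263)) (.play 583 (.ref 7 326))))))) (.ref 415 260)))) (.play 389 (.ref 2 325)))) (.both (.play 330 (.ref 198 325)) (.play 330 (.ref 134 325)))))) (.both (.ref 418 67) (.both (.ref 373 71) (.play 455 (.ref 123 199)))))) (.both (.play 390 (.both (.play 389 (.both (.play 325 (.both (.play 326 (.both (.play 454 (.both (.play 262 (.both (.play 198 (.both (.play 133 (.both (.play 134 (.ref 410 69)) (.play 197 (.ref 7 133)))) (.ref 20 134))) (.both (.play 455 (.ref 131 134)) (.ref 230 261)))) (.both (.play 261 (.both (.play 262 (.both (.play 199 (.both (.play 198 (.both (.play 134 (.ref 6 133)) (.play 135 (.ref 5 134)))) (.play 263 (.ref 5 198)))) (.both (.play 264 (.both (.play 263 (.both (.play 199 (.ref 5 198)) (.play 265 (.ref 1 261)))) (.play 455 (.both (.play 200 (.ref 6 199)) (.play 519 (.ref 4 262)))))) (.play 455 (.ref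 30 198))))) (.play 197 (.ref 4 197)))) (.both (.play 261 (.ref 195 197)) (.play 518 (.ref 43 261)))))) (.play 393 (.ref 3 325)))) (.play 324 (.ref 3 324)))) (.both (.play 327 (.both (.play 455 (.both (.play 263 (.both (.play 199 (.ref 367 134)) (.both (.ref 400 135) (.play 262 (.both (.play 454 (.both (.play 261 (.both (.play 197 (.ref 358 197)) (.play 260 (.ref 0 260)))) (.play 518 (.ref 6 262)))) (.play 198 (.ref 7 198))))))) (.both (.play 519 (.both (.play 326 (.both (.play 262 (.ref 7 262)) (.play 393 (.ref 80 325)))) (.play 583 (.ref 5 327)))) (.play 519 (.ref 35 263))))) (.play 388 (.ref 2 324)))) (.both (.ref 164 322) (.ref 150 323))))) (.both (.ref 335 67) (.both (.ref 320 67) (.both (.ref 371 129) (.both (.ref 293 131) (.both (.ref 409 192) (.both (.play 389 (.both (.play 325 (.both (.play 454 (.both (.play 453 (.ref 171 197)) (.both (.ref 406 197) (.both (.play 261 (.both (.play 197 (.ref 4 197)) (.play 326 (.both (.play 518 (.ref 7 261)) (.play 393 (.ref 3 325)))))) (.ref 88 325))))) (.play 324 (.ref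 3 324)))) (.both (.play 327 (.both (.play 454 (.both (.play 518 (.ref 55 198)) (.both (.play 518 (.ref 53 198)) (.play 393 (.both (.ref 172 326) (.play 453 (.ref 1 389))))))) (.play 388 (.ref 2 324)))) (.ref 152 323)))) (.ref 208 259))))))))) (.both (.ref 336 67) (.both (.ref 321 67) (.both (.play 264 (.both (.play 390 (.both (.play 326 (.both (.play 262 (.both (.play 263 (.both (.play 199 (.ref 55 70)) (.play 325 (.ref 198 259)))) (.both (.play 198 (.both (.ref 206 69) (.play 455 (.ref 4 198)))) (.both (.play 263 (.both (.ref 326 197) (.play 325 (.ref 198 259)))) (.play 455 (.ref 177 198)))))) (.both (.ref 417 67) (.both (.play 454 (.both (.ref 303 133) (.both (.ref 330 261) (.play 453 (.ref 134 387))))) (.both (.play 454 (.both (.ref 174 133) (.both (.play 262 (.both (.ref 68 133) (.both (.ref 139 197) (.play 263 (.both (.ref 240 197) (.play 199 (.ref 5 198))))))) (.both (.ref 330 261) (.play 393 (.ref 115 325)))))) (.play 393 (.both (.play 325 (.ref 3 325)) (.ref 212 325)))))))) (.both (.ref 293 131) (.both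 (.ref 419 323) (.play 329 (.ref 160 325)))))) (.both (.play 200 (.both (.ref 141 71) (.both (.ref 127 72) (.ref 95 131)))) (.both (.play 200 (.both (.ref 66 72) (.play 455 (.ref 6 199)))) (.both (.play 200 (.both (.ref 141 71) (.play 455 (.ref 6 199)))) (.play 200 (.both (.play 199 (.both (.play 201 (.both (.play 202 (.both (.play 198 (.both (.play 133 (.both (.play 197 (.ref 363 132)) (.play 134 (.ref 3 133)))) (.ref 113 197))) (.both (.play 203 (.both (.ref 63 135) (.ref 200 200))) (.play 263 (.ref 15 198))))) (.play 137 (.ref 5 136)))) (.play 135 (.ref 7 135)))) (.play 455 (.ref 6 199))))))))) (.both (.play 264 (.both (.ref 418 67) (.both (.play 390 (.both (.ref 320 67) (.both (.play 326 (.both (.ref 417 67) (.both (.play 325 (.both (.ref 416 67) (.both (.play 327 (.ref 403 260)) (.both (.play 327 (.both (.play 329 (.both (.ref 73 260) (.play 330 (.ref 1 326)))) (.play 265 (.ref 2 261)))) (.play 324 (.ref 91 323)))))) (.both (.play 329 (.both (.play 262 (.both (.play 198 (.both (.play 263 (.both (.ref 298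 133) (.play 261 (.ref 0 261)))) (.play 455 (.ref 4 198)))) (.both (.play 455 (.ref 100 198)) (.ref 389 261)))) (.play 330 (.ref 159 326)))) (.both (.ref 415 260) (.play 393 (.ref 414 325))))))) (.both (.play 329 (.ref 161 325)) (.play 329 (.ref 160 325)))))) (.both (.ref 373 71) (.play 455 (.ref 123 199)))))) (.both (.play 390 (.both (.ref 320 67) (.both (.play 329 (.both (.play 326 (.both (.play 454 (.both (.ref 341 69) (.both (.play 453 (.both (.play 262 (.both (.play 198 (.ref 22 133)) (.play 517 (.ref 6 261)))) (.play 393 (.ref 1 389)))) (.both (.play 393 (.both (.ref 288 198) (.play 453 (.ref 1 389)))) (.ref 330 261))))) (.both (.play 327 (.both (.play 263 (.both (.ref 412 133) (.play 454 (.ref 132 198)))) (.both (.ref 387 260) (.ref 411 260)))) (.both (.play 454 (.both (.play 261 (.both (.play 197 (.both (.play 325 (.both (.play 133 (.ref 4 133)) (.play 518 (.ref 7 261)))) (.play 262 (.ref 7 197)))) (.both (.play 262 (.both (.play 197 (.ref 7 197)) (.play 263 (.both (.play 199 (.ref 5 198)) (.play 264 (.ref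 0 261)))))) (.play 518 (.both (.play 325 (.ref 7 261)) (.ref 119 325)))))) (.both (.ref 330 261) (.play 393 (.ref 115 325))))) (.play 325 (.ref 173 323)))))) (.both (.play 330 (.ref 159 326)) (.play 330 (.ref 58 326))))) (.both (.play 329 (.ref 161 325)) (.play 329 (.ref 160 325)))))) (.both (.play 390 (.both (.play 393 (.both (.play 454 (.both (.play 329 (.both (.play 264 (.both (.play 200 (.ref 30 136)) (.play 263 (.both (.play 262 (.both (.play 199 (.ref 359 198)) (.play 261 (.ref 0 261)))) (.both (.play 455 (.both (.play 262 (.both (.play 327 (.ref 410 198)) (.play 261 (.ref 0 261)))) (.both (.play 262 (.both (.play 261 (.ref 0 261)) (.play 519 (.both (.play 326 (.ref 4 262)) (.play 583 (.ref 5 327)))))) (.play 519 (.ref 122 263))))) (.both (.play 262 (.both (.play 326 (.ref 313 198)) (.play 261 (.ref 0 261)))) (.play 327 (.ref 106 198)))))))) (.play 330 (.ref 2 326)))) (.play 453 (.ref 1 389)))) (.both (.ref 212 325) (.both (.play 454 (.both (.play 394 (.both (.play 327 (.ref 72 326)) (.play 455 (.ref 1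 390)))) (.play 453 (.ref 1 389)))) (.ref 309 326))))) (.both (.ref 409 192) (.both (.play 329 (.ref 161 325)) (.play 329 (.ref 160 325)))))) (.both (.play 390 (.both (.play 330 (.both (.play 393 (.both (.play 326 (.both (.play 454 (.both (.play 518 (.both (.play 327 (.both (.play 264 (.both (.play 200 (.both (.play 136 (.ref 6 135)) (.play 457 (.ref 4 200)))) (.play 519 (.both (.play 455 (.ref 5 263)) (.play 583 (.ref 4 326)))))) (.play 263 (.ref 5 262)))) (.both (.play 327 (.ref 35 262)) (.ref 119 325)))) (.play 453 (.ref 1 389)))) (.play 325 (.ref 3 325)))) (.both (.ref 257 325) (.play 394 (.both (.play 331 (.ref 2 327)) (.ref 113 389)))))) (.both (.play 329 (.ref 58 326)) (.both (.play 329 (.ref 159 326)) (.play 329 (.ref 276 326)))))) (.both (.ref 208 259) (.both (.play 329 (.ref 161 325)) (.play 329 (.ref 160 325)))))) (.both (.play 329 (.both (.play 264 (.both (.play 330 (.both (.play 200 (.both (.play 199 (.both (.play 201 (.both (.play 198 (.both (.play 197 (.ref 189 132)) (.both (.play 265 (.ref 16 197))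 (.play 266 (.both (.play 265 (.ref 0 198)) (.play 267 (.both (.play 202 (.ref 0 199)) (.play 327 (.ref 2 263))))))))) (.play 137 (.ref 5 136)))) (.play 135 (.ref 7 135)))) (.play 393 (.ref 30 136)))) (.play 331 (.ref 1 327)))) (.both (.ref 407 135) (.both (.play 330 (.both (.play 327 (.both (.play 455 (.both (.play 266 (.both (.play 394 (.both (.play 393 (.both (.play 457 (.ref 132 201)) (.play 454 (.ref 1 390)))) (.play 395 (.ref 0 327)))) (.play 267 (.ref 2 263)))) (.play 519 (.ref 5 263)))) (.both (.ref 324 260) (.play 455 (.both (.play 519 (.ref 5 263)) (.play 394 (.both (.play 393 (.both (.play 326 (.ref 0 326)) (.play 454 (.ref 1 390)))) (.play 395 (.ref 0 327))))))))) (.play 331 (.ref 1 327)))) (.play 455 (.ref 123 199)))))) (.both (.play 390 (.both (.play 455 (.both (.play 326 (.both (.play 454 (.both (.play 262 (.ref 30 198)) (.ref 306 325))) (.both (.ref 406 198) (.play 325 (.ref 173 323))))) (.both (.play 454 (.both (.play 518 (.both (.play 453 (.both (.play 326 (.both (.ref 281 197) (.both (.play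 262 (.ref 367 197)) (.ref 265 325)))) (.play 452 (.ref 2 388)))) (.both (.play 452 (.both (.play 519 (.both (.play 517 (.both (.play 326 (.ref 367 261)) (.ref 346 451))) (.play 583 (.ref 5 327)))) (.play 453 (.ref 2 388)))) (.play 583 (.both (.play 519 (.ref 5 327)) (.play 582 (.ref 247 390))))))) (.both (.play 519 (.both (.play 326 (.both (.play 262 (.ref 4 262)) (.ref 306 325))) (.play 583 (.ref 5 327)))) (.play 393 (.ref 15 389))))) (.both (.play 200 (.both (.play 393 (.both (.ref 398 197) (.both (.play 326 (.both (.play 262 (.both (.play 198 (.ref 4 198)) (.play 327 (.ref 363 261)))) (.play 325 (.ref 3 325)))) (.play 454 (.ref 15 389))))) (.play 264 (.ref 6 199)))) (.play 519 (.ref 55 199)))))) (.play 389 (.ref 2 325)))) (.both (.play 330 (.ref 198 325)) (.play 330 (.ref 134 325)))))) (.both (.play 390 (.both (.play 393 (.both (.play 329 (.both (.play 265 (.both (.play 453 (.both (.play 264 (.both (.play 200 (.ref 367 135)) (.play 457 (.both (.ref 384 199) (.play 521 (.ref 7 264)))))) (.play 454 (.ref 1 389))))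 (.both (.ref 405 134) (.both (.play 201 (.both (.play 200 (.both (.play 136 (.ref 7 136)) (.play 264 (.ref 110 199)))) (.play 137 (.ref 6 136)))) (.both (.play 201 (.both (.play 202 (.both (.play 200 (.both (.play 136 (.ref 7 136)) (.ref 81 199))) (.play 138 (.ref 5 137)))) (.play 137 (.ref 6 136)))) (.play 201 (.both (.play 137 (.ref 6 136)) (.play 202 (.both (.play 138 (.ref 5 137)) (.play 457 (.both (.play 266 (.ref 5 201)) (.play 521 (.ref 43 264))))))))))))) (.play 330 (.ref 2 326)))) (.both (.play 454 (.both (.play 455 (.both (.play 519 (.ref 55 199)) (.play 394 (.ref 1 390)))) (.play 453 (.ref 1 389)))) (.both (.play 264 (.both (.play 200 (.ref 110 199)) (.ref 210 326))) (.both (.ref 212 325) (.ref 211 325)))))) (.both (.ref 208 259) (.both (.play 329 (.ref 161 325)) (.play 329 (.ref 160 325)))))) (.both (.ref 404 132) (.ref 229 195)))))))))))))))))))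
 (.seq (.seq (.one (.play 129 (.both (.play 65 (.ref 37 0)) (.ref 20 65))))
 (.one (.play 193 (.both (.ref 431 0) (.both (.ref 340 64) (.both (.play 256 (.both (.play 129 (.both (.play 320 (.ref 42 64)) (.ref 20 65))) (.play 192 (.ref 7 192)))) (.ref 21 128)))))))
 (.seq (.one (.play 129 (.both (.play 65 (.ref 24 1)) (.ref 18 128))))
 (.one (.play 392 (.both (.play 328 (.both (.play 264 (.both (.play 199 (.both (.play 200 (.both (.ref 433 7) (.play 135 (.ref 7 135)))) (.play 263 (.ref 7 199)))) (.both (.play 200 (.both (.ref 433 7) (.both (.play 391 (.ref 391 71)) (.both (.play 265 (.both (.play 391 (.both (.play 136 (.both (.play 329 (.ref 30 72)) (.play 327 (.ref 6 135)))) (.play 455 (.ref 6 199)))) (.play 201 (.ref 5 200)))) (.ref 20 136))))) (.both (.play 199 (.both (.play 200 (.both (.ref 337 71) (.play 135 (.ref 7 135)))) (.play 263 (.ref 7 199)))) (.both (.ref 68 135) (.ref 194 196)))))) (.both (.play 329 (.both (.play 330 (.both (.play 327 (.both (.ref 242 134) (.both (.play 266 (.both (.play 326 (.both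 (.play 325 (.ref 365 259)) (.both (.ref 344 324) (.ref 113 325)))) (.play 267 (.ref 2 263)))) (.play 262 (.both (.play 326 (.both (.play 261 (.ref 3 261)) (.play 389 (.both (.play 325 (.ref 90 324)) (.play 390 (.ref 1 325)))))) (.play 263 (.ref 3 262))))))) (.both (.play 331 (.both (.play 395 (.both (.play 267 (.both (.play 266 (.both (.play 459 (.ref 43 202)) (.play 327 (.ref 2 263)))) (.play 268 (.ref 2 264)))) (.play 396 (.ref 0 328)))) (.both (.ref 201 264) (.ref 239 328)))) (.both (.ref 241 263) (.play 391 (.ref 198 325)))))) (.both (.ref 245 132) (.play 265 (.ref 53 136))))) (.both (.play 264 (.ref 23 135)) (.ref 296 261))))) (.both (.play 520 (.both (.play 328 (.both (.play 264 (.both (.ref 431 71) (.ref 17 264))) (.both (.ref 432 71) (.both (.ref 302 135) (.both (.ref 67 199) (.ref 12 263)))))) (.both (.play 328 (.both (.ref 432 71) (.both (.ref 394 135) (.both (.play 519 (.ref 144 199)) (.both (.ref 46 199) (.ref 78 263)))))) (.both (.ref 185 192) (.both (.play 584 (.both (.play 583 (.both (.play 391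 (.both (.play 327 (.ref 7 327)) (.play 585 (.both (.play 649 (.ref 4 392)) (.play 586 (.both (.play 518 (.both (.ref 370 516) (.play 519 (.ref 3 518)))) (.both (.play 519 (.ref 72 518)) (.play 651 (.both (.play 587 (.both (.ref 413 520) (.play 652 (.ref 0 584)))) (.play 650 (.ref 0 583))))))))))) (.play 647 (.ref 6 391)))) (.both (.ref 357 327) (.both (.ref 142 327) (.ref 39 391))))) (.ref 109 325)))))) (.both (.ref 430 64) (.both (.ref 399 67) (.both (.ref 396 68) (.both (.ref 385 68) (.both (.play 328 (.both (.play 265 (.both (.play 329 (.both (.ref 318 69) (.play 520 (.ref 5 264)))) (.both (.play 264 (.both (.play 455 (.ref 144 135)) (.play 201 (.ref 5 200)))) (.play 329 (.ref 53 136))))) (.both (.play 519 (.both (.play 264 (.both (.ref 381 71) (.play 455 (.ref 6 263)))) (.both (.play 520 (.both (.play 329 (.both (.play 265 (.ref 5 264)) (.play 391 (.both (.play 330 (.ref 198 325)) (.both (.play 393 (.both (.play 330 (.ref 48 326)) (.play 584 (.ref 5 328)))) (.ref 56 327)))))) (.play 583 (.ref 6 327)))) (.play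 455 (.ref 123 263))))) (.both (.play 519 (.both (.play 264 (.both (.ref 380 71) (.play 455 (.ref 6 263)))) (.both (.play 520 (.both (.play 327 (.both (.play 263 (.ref 7 263)) (.play 393 (.both (.play 394 (.ref 244 325)) (.both (.play 329 (.ref 379 325)) (.ref 87 327)))))) (.play 583 (.ref 6 327)))) (.both (.play 455 (.ref 123 263)) (.play 455 (.ref 106 263)))))) (.both (.play 265 (.both (.play 327 (.both (.play 263 (.ref 62 135)) (.both (.play 326 (.both (.play 325 (.both (.ref 257 260) (.play 393 (.ref 0 325)))) (.both (.ref 60 261) (.ref 59 262)))) (.both (.play 329 (.both (.play 266 (.ref 161 262)) (.play 520 (.ref 5 264)))) (.ref 56 263))))) (.both (.play 329 (.ref 53 136)) (.both (.ref 52 136) (.play 264 (.both (.play 263 (.both (.play 199 (.ref 7 199)) (.play 327 (.ref 378 262)))) (.play 201 (.ref 5 200)))))))) (.both (.play 264 (.both (.ref 68 135) (.both (.ref 338 135) (.both (.ref 337 135) (.ref 194 196))))) (.both (.play 264 (.both (.ref 206 135) (.both (.ref 337 135) (.ref 78 199)))) (.play 520 (.both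 (.ref 377 261) (.both (.ref 139 263) (.ref 137 263))))))))))) (.both (.ref 376 129) (.both (.play 520 (.both (.play 328 (.both (.play 585 (.both (.play 329 (.both (.play 327 (.both (.play 330 (.both (.play 394 (.both (.play 266 (.both (.play 393 (.both (.play 202 (.ref 42 137)) (.play 326 (.ref 0 326)))) (.play 267 (.ref 2 263)))) (.play 395 (.ref 0 327)))) (.play 391 (.ref 15 326)))) (.play 263 (.ref 7 263)))) (.play 265 (.ref 5 264)))) (.play 521 (.ref 4 328)))) (.both (.ref 67 199) (.both (.ref 206 199) (.play 521 (.ref 131 200)))))) (.both (.play 393 (.both (.play 329 (.ref 53 200)) (.both (.ref 205 261) (.play 584 (.ref 50 325))))) (.both (.ref 47 199) (.both (.ref 36 199) (.play 584 (.ref 23 263))))))) (.both (.play 520 (.both (.play 519 (.both (.play 518 (.both (.ref 184 192) (.both (.play 457 (.both (.play 521 (.both (.play 582 (.both (.play 454 (.both (.play 390 (.both (.play 327 (.both (.play 263 (.both (.play 326 (.ref 5 262)) (.play 328 (.ref 7 263)))) (.play 391 (.ref 5 326)))) (.ref 196 325))) (.play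 453 (.ref 3 453)))) (.play 581 (.ref 1 517)))) (.both (.play 585 (.ref 195 328)) (.ref 162 390)))) (.both (.play 458 (.ref 159 454)) (.play 458 (.ref 58 454))))) (.both (.play 457 (.ref 161 453)) (.play 457 (.ref 160 453)))))) (.both (.ref 158 259) (.both (.play 328 (.both (.ref 194 260) (.play 583 (.ref 6 327)))) (.play 583 (.ref 123 327)))))) (.both (.play 391 (.both (.play 327 (.ref 86 199)) (.both (.ref 193 259) (.play 584 (.ref 83 326))))) (.both (.play 327 (.both (.play 393 (.both (.play 329 (.ref 55 200)) (.both (.play 394 (.both (.ref 92 325) (.both (.play 391 (.ref 186 326)) (.ref 88 327)))) (.both (.play 391 (.both (.play 394 (.ref 186 326)) (.play 584 (.ref 7 327)))) (.ref 87 327))))) (.both (.play 391 (.ref 86 199)) (.both (.ref 85 199) (.play 328 (.ref 83 262)))))) (.ref 109 325))))) (.both (.play 520 (.both (.ref 185 192) (.both (.play 584 (.both (.play 328 (.both (.play 519 (.ref 144 199)) (.both (.ref 21 263) (.play 519 (.both (.play 455 (.both (.play 264 (.ref 6 263)) (.play 648 (.ref 43 391))))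 (.play 583 (.ref 6 327))))))) (.both (.play 328 (.both (.play 264 (.ref 37 199)) (.ref 17 328))) (.both (.ref 44 263) (.both (.ref 141 263) (.ref 142 327)))))) (.both (.play 584 (.both (.ref 141 263) (.both (.play 648 (.both (.ref 21 327) (.ref 25 455))) (.both (.play 648 (.both (.ref 21 327) (.play 712 (.ref 19 455)))) (.ref 125 391))))) (.both (.play 584 (.both (.play 391 (.both (.play 583 (.both (.play 393 (.both (.play 390 (.both (.ref 140 323) (.both (.play 458 (.both (.play 394 (.both (.ref 93 327) (.play 459 (.ref 0 391)))) (.play 457 (.ref 0 390)))) (.play 457 (.ref 16 389))))) (.play 329 (.ref 5 328)))) (.play 647 (.ref 6 391)))) (.play 327 (.ref 7 327)))) (.both (.ref 139 327) (.both (.ref 137 327) (.ref 135 327))))) (.ref 109 325)))))) (.both (.play 520 (.both (.play 328 (.both (.ref 96 199) (.both (.ref 66 200) (.both (.play 521 (.both (.play 519 (.both (.play 329 (.both (.play 265 (.ref 5 264)) (.play 518 (.both (.play 454 (.both (.play 391 (.both (.play 330 (.ref 134 325)) (.play 582 (.both (.play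 455 (.ref 132 326)) (.play 581 (.ref 1 517)))))) (.play 453 (.ref 3 453)))) (.play 457 (.ref 102 453)))))) (.play 583 (.ref 6 327)))) (.play 585 (.ref 4 328)))) (.ref 40 263))))) (.both (.play 584 (.both (.play 328 (.both (.play 521 (.ref 131 200)) (.both (.ref 20 264) (.ref 129 264)))) (.both (.ref 127 264) (.both (.ref 121 327) (.ref 125 391))))) (.both (.play 583 (.both (.play 328 (.both (.play 329 (.ref 29 264)) (.play 519 (.ref 6 327)))) (.both (.ref 124 327) (.both (.play 519 (.ref 123 327)) (.play 584 (.both (.play 393 (.ref 29 328)) (.play 647 (.ref 6 391)))))))) (.both (.play 584 (.both (.ref 96 263) (.both (.ref 121 327) (.both (.play 648 (.both (.ref 20 328) (.ref 38 455))) (.ref 120 391))))) (.both (.play 584 (.both (.play 391 (.both (.play 393 (.both (.play 394 (.both (.play 390 (.both (.ref 118 323) (.both (.ref 116 324) (.both (.play 325 (.both (.play 455 (.both (.ref 114 324) (.play 454 (.ref 1 390)))) (.play 326 (.ref 3 325)))) (.ref 113 389))))) (.both (.ref 112 327) (.play 455 (.ref 15 390)))))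 (.play 329 (.ref 5 328)))) (.play 327 (.ref 7 327)))) (.both (.ref 12 327) (.ref 111 391)))) (.ref 109 325))))))) (.both (.play 520 (.both (.play 328 (.both (.ref 98 199) (.both (.ref 96 199) (.ref 95 259)))) (.both (.play 327 (.both (.play 393 (.both (.play 329 (.ref 55 200)) (.both (.play 394 (.both (.ref 92 325) (.both (.play 459 (.both (.play 391 (.both (.play 326 (.ref 3 326)) (.play 458 (.ref 0 391)))) (.play 395 (.ref 90 391)))) (.ref 88 327)))) (.both (.play 391 (.both (.ref 89 326) (.play 584 (.ref 7 327)))) (.ref 87 327))))) (.both (.play 391 (.ref 86 199)) (.both (.ref 85 199) (.play 328 (.ref 83 262)))))) (.both (.play 584 (.both (.play 329 (.both (.play 583 (.both (.ref 79 263) (.play 647 (.ref 6 391)))) (.play 393 (.ref 5 328)))) (.both (.play 583 (.both (.play 585 (.both (.play 519 (.both (.play 328 (.ref 6 327)) (.play 586 (.ref 72 518)))) (.play 649 (.ref 4 392)))) (.play 647 (.ref 6 391)))) (.play 393 (.ref 29 328))))) (.play 584 (.both (.ref 12 327) (.both (.ref 78 327) (.ref 76 388))))))))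 (.play 520 (.both (.play 328 (.both (.ref 68 199) (.both (.ref 67 199) (.both (.ref 66 200) (.play 521 (.both (.play 519 (.both (.play 265 (.both (.play 327 (.both (.play 263 (.ref 7 263)) (.play 518 (.both (.play 582 (.both (.play 454 (.both (.ref 65 326) (.play 453 (.ref 3 453)))) (.play 581 (.ref 1 517)))) (.both (.ref 64 452) (.play 453 (.both (.play 517 (.both (.play 452 (.ref 3 452)) (.ref 63 453))) (.play 454 (.ref 3 453))))))))) (.play 329 (.ref 5 264)))) (.play 583 (.ref 6 327)))) (.play 585 (.ref 4 328)))))))) (.both (.play 329 (.both (.play 391 (.both (.play 327 (.ref 62 199)) (.both (.play 390 (.both (.ref 60 325) (.both (.play 393 (.ref 57 325)) (.ref 59 326)))) (.both (.play 393 (.both (.play 390 (.ref 57 325)) (.play 584 (.ref 5 328)))) (.ref 56 327))))) (.both (.play 393 (.ref 55 200)) (.both (.play 393 (.ref 53 200)) (.both (.ref 52 200) (.play 328 (.ref 50 261))))))) (.both (.ref 47 199) (.both (.ref 36 199) (.both (.play 584 (.ref 23 263)) (.play 584 (.both (.play 393 (.both (.play 391 (.both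 (.play 394 (.both (.play 331 (.both (.play 395 (.both (.play 332 (.ref 2 328)) (.play 457 (.both (.play 390 (.ref 16 389)) (.play 396 (.ref 1 392)))))) (.play 330 (.ref 2 327)))) (.both (.play 454 (.both (.play 390 (.both (.play 457 (.ref 16 389)) (.play 453 (.ref 1 389)))) (.play 455 (.ref 1 390)))) (.play 455 (.ref 15 390))))) (.play 327 (.ref 7 327)))) (.play 329 (.ref 5 328)))) (.both (.ref 14 327) (.both (.ref 12 327) (.ref 9 328)))))))))))))))))))))))))))))))))))
    (by decide +kernel)

theorem Cert_L5 : PW ⟨15, nat_lit 1716199415032652428745475199770348304317358825035826352348615864796385795849414013030639910165363638744324077847870214509280496999929160953143507072778764288, nat_lit 18711002901887998235326630534493521405703133730156428920714234665148509561533508841165310783128666447056748159408099832432186417754874357785287010598814853869186593233237910307420557675446040941273788272101511593824542016038527110336805391477966202024672878098202519246831143841371561775857920, 15, nat_lit 18711002901887998235326630534493521405703133730156428920714234665148509561533508841165310783128666447056748159408099832432186417754874357785287010598814853869186593233237910307420557675446040941273788272101511593824542016038527110336805391477966202024672878098202519246831143841371561775857920⟩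 :=
  sound2 baseTbl baseTbl_ok
    (.seq (.seq (.seq (.seq (.seq (.seq (.seq (.seq (.one (.play 257 (.both (.play 193 (.ref 4 0)) (.play 321 (.ref 4 64)))))
 (.one (.play 65 (.both (.play 1 (.ref 5 0)) (.play 129 (.ref 5 64))))))
 (.seq (.one (.both (.ref 9 0) (.ref 8 64)))
 (.one (.play 256 (.both (.play 192 (.ref 6 0)) (.play 320 (.ref 6 64)))))))
 (.seq (.seq (.one (.play 64 (.both (.play 0 (.ref 7 0)) (.play 128 (.ref 7 64)))))
 (.one (.both (.ref 12 0) (.ref 11 64))))
 (.seq (.one (.play 68 (.both (.play 67 (.ref 0 0)) (.play 69 (.ref 0 1)))))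
 (.one (.play 65 (.both (.play 64 (.ref 1 0)) (.play 66 (.ref 1 1))))))))
 (.seq (.seq (.seq (.one (.both (.ref 15 0) (.ref 14 1)))
 (.one (.play 1 (.both (.play 0 (.ref 3 0)) (.play 2 (.ref 3 1))))))
 (.seq (.one (.play 65 (.both (.ref 17 0) (.ref 15 64))))
 (.one (.both (.ref 17 0) (.ref 14 65)))))
 (.seq (.seq (.one (.play 66 (.both (.play 65 (.ref 19 0)) (.both (.ref 18 0) (.play 70 (.ref 16 65))))))
 (.one (.play 69 (.both (.play 67 (.both (.ref 20 0) (.play 3 (.ref 7 3)))) (.play 5 (.ref 5 4))))))
 (.seq (.one (.both (.ref 21 0) (.both (.play 324 (.ref 13 3)) (.play 324 (.ref 10 4)))))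
 (.one (.both (.ref 12 0) (.ref 8 65)))))))
 (.seq (.seq (.seq (.seq (.one (.both (.ref 9 1) (.ref 11 64)))
 (.one (.play 257 (.both (.ref 11 0) (.ref 8 1)))))
 (.seq (.one (.play 321 (.both (.play 65 (.ref 10 1)) (.both (.play 385 (.ref 24 64)) (.ref 25 128)))))
 (.one (.play 321 (.both (.play 65 (.ref 13 0)) (.both (.play 385 (.ref 23 64)) (.ref 25 128)))))))
 (.seq (.seq (.one (.play 4 (.both (.play 3 (.ref 2 0)) (.play 5 (.ref 2 1)))))
 (.one (.both (.ref 17 0) (.ref 28 1))))
 (.seq (.one (.both (.ref 28 1) (.ref 15 64)))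
 (.one (.play 66 (.both (.ref 18 0) (.both (.play 65 (.ref 30 0)) (.play 70 (.ref 29 1)))))))))
 (.seq (.seq (.seq (.one (.play 197 (.both (.play 195 (.both (.play 259 (.ref 6 3)) (.ref 31 128))) (.play 261 (.ref 4 4)))))
 (.one (.play 3 (.both (.play 5 (.both (.play 69 (.ref 5 4)) (.play 259 (.both (.play 261 (.both (.play 325 (.ref 4 68)) (.ref 31 192))) (.play 323 (.ref 6 67)))))) (.play 67 (.ref 7 3))))))
 (.seq (.one (.both (.ref 33 0) (.both (.ref 21 0) (.ref 32 64))))
 (.one (.play 257 (.both (.play 64 (.ref 7 0)) (.ref 25 64))))))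
 (.seq (.seq (.one (.play 64 (.both (.play 0 (.ref 7 0)) (.ref 35 64))))
 (.one (.play 66 (.both (.play 2 (.ref 5 1)) (.play 321 (.both (.play 130 (.ref 5 65)) (.ref 25 128)))))))
 (.seq (.one (.play 68 (.both (.ref 28 0) (.ref 14 64))))
 (.seq (.one (.play 66 (.both (.play 68 (.both (.play 69 (.both (.play 70 (.ref 30 1)) (.both (.ref 38 2) (.play 65 (.ref 16 64))))) (.play 4 (.ref 5 3)))) (.play 2 (.ref 7 2)))))
 (.one (.play 65 (.both (.ref 12 0) (.ref 9 1))))))))))
 (.seq (.seq (.seq (.seq (.seq (.one (.both (.play 65 (.ref 23 0)) (.both (.play 385 (.ref 13 64)) (.ref 25 128))))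
 (.one (.play 129 (.both (.play 65 (.ref 10 1)) (.play 64 (.ref 7 64))))))
 (.seq (.one (.both (.play 0 (.ref 4 0)) (.play 385 (.ref 7 128))))
 (.one (.play 128 (.both (.play 64 (.both (.play 192 (.ref 43 0)) (.play 129 (.ref 7 64)))) (.both (.ref 42 0) (.play 385 (.both (.play 192 (.ref 7 128)) (.play 449 (.ref 10 129))))))))))
 (.seq (.seq (.one (.play 257 (.both (.play 321 (.ref 13 0)) (.play 66 (.ref 5 1)))))
 (.one (.play 257 (.both (.play 321 (.ref 10 1)) (.play 320 (.ref 6 64))))))
 (.seq (.one (.play 256 (.both (.play 192 (.ref 6 0)) (.ref 46 0))))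
 (.one (.play 260 (.both (.ref 21 0) (.both (.play 324 (.ref 23 3)) (.play 324 (.ref 10 4)))))))))
 (.seq (.seq (.seq (.one (.play 196 (.both (.ref 32 0) (.both (.play 260 (.both (.ref 11 3) (.both (.ref 48 64) (.ref 47 67)))) (.both (.ref 25 3) (.both (.ref 47 3) (.both (.play 261 (.both (.play 260 (.both (.play 69 (.both (.play 5 (.ref 5 4)) (.ref 45 67))) (.play 325 (.ref 4 68)))) (.play 197 (.ref 4 4)))) (.play 261 (.both (.play 260 (.both (.play 324 (.ref 24 3)) (.play 325 (.ref 4 68)))) (.play 197 (.ref 4 4)))))))))))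
 (.one (.play 260 (.both (.ref 21 0) (.both (.ref 37 3) (.ref 36 3))))))
 (.seq (.one (.both (.play 321 (.ref 13 0)) (.play 322 (.ref 4 65))))
 (.one (.play 386 (.both (.play 129 (.both (.play 65 (.ref 13 0)) (.play 322 (.ref 4 129)))) (.both (.play 385 (.ref 51 128)) (.play 450 (.both (.play 322 (.ref 43 129)) (.play 385 (.ref 4 193))))))))))
 (.seq (.seq (.one (.both (.play 0 (.ref 0 0)) (.play 69 (.ref 3 1))))
 (.one (.both (.play 65 (.both (.ref 17 0) (.play 64 (.ref 0 64)))) (.play 70 (.both (.ref 28 2) (.play 71 (.ref 1 67)))))))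
 (.seq (.one (.both (.play 68 (.ref 0 0)) (.play 4 (.ref 1 0))))
 (.one (.play 68 (.both (.play 67 (.both (.play 0 (.ref 0 0)) (.play 128 (.ref 1 64)))) (.play 4 (.ref 55 1)))))))))
 (.seq (.seq (.seq (.seq (.one (.both (.play 0 (.ref 4 0)) (.play 129 (.ref 7 64))))
 (.one (.play 194 (.both (.play 130 (.both (.play 66 (.ref 57 2)) (.play 197 (.both (.play 129 (.ref 3 129)) (.ref 56 194))))) (.both (.play 197 (.ref 54 128)) (.play 261 (.ref 53 193)))))))
 (.seq (.one (.both (.play 196 (.both (.play 260 (.both (.ref 58 0) (.play 451 (.ref 5 195)))) (.play 132 (.ref 5 131)))) (.both (.play 131 (.ref 13 66)) (.play 451 (.ref 24 130)))))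
 (.one (.play 132 (.both (.play 68 (.ref 13 3)) (.both (.play 68 (.ref 23 3)) (.ref 32 128)))))))
 (.seq (.seq (.one (.both (.play 1 (.ref 6 0)) (.play 384 (.ref 5 128))))
 (.one (.play 384 (.both (.play 129 (.both (.play 65 (.ref 10 1)) (.play 320 (.ref 6 128)))) (.both (.play 448 (.both (.play 320 (.ref 61 128)) (.play 385 (.ref 6 192)))) (.ref 46 128))))))
 (.seq (.one (.both (.play 64 (.ref 2 0)) (.play 5 (.ref 1 1))))
 (.one (.play 1 (.both (.play 0 (.ref 0 0)) (.play 64 (.ref 1 0))))))))
 (.seq (.seq (.seq (.one (.play 65 (.both (.ref 64 0) (.play 66 (.both (.play 5 (.ref 1 1)) (.play 133 (.ref 0 65)))))))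
 (.one (.both (.play 1 (.ref 6 0)) (.play 128 (.ref 5 64)))))
 (.seq (.one (.play 197 (.both (.play 133 (.both (.play 69 (.ref 66 4)) (.play 194 (.both (.play 134 (.ref 2 130)) (.ref 65 192))))) (.both (.play 194 (.ref 54 128)) (.play 258 (.ref 63 193))))))
 (.one (.play 321 (.both (.play 65 (.ref 24 0)) (.both (.play 385 (.ref 10 65)) (.ref 25 128)))))))
 (.seq (.seq (.one (.both (.play 65 (.ref 13 0)) (.play 66 (.ref 5 65))))
 (.one (.play 130 (.both (.play 129 (.ref 69 0)) (.both (.play 66 (.both (.play 194 (.ref 61 1)) (.play 129 (.ref 5 65)))) (.ref 45 128))))))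
 (.seq (.one (.play 132 (.both (.play 68 (.ref 13 3)) (.both (.play 68 (.ref 24 3)) (.ref 21 64)))))
 (.seq (.one (.play 260 (.both (.play 324 (.ref 24 3)) (.both (.play 324 (.ref 10 4)) (.ref 32 64)))))
 (.one (.play 132 (.both (.ref 40 3) (.both (.play 68 (.ref 23 3)) (.both (.play 68 (.ref 10 4)) (.ref 21 64)))))))))))))
 (.seq (.seq (.seq (.seq (.seq (.seq (.one (.play 128 (.both (.ref 42 0) (.play 192 (.ref 7 128)))))
 (.one (.play 260 (.both (.play 324 (.ref 13 3)) (.both (.play 324 (.ref 23 3)) (.ref 32 64))))))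
 (.seq (.one (.play 129 (.both (.ref 40 0) (.both (.play 65 (.ref 10 1)) (.play 385 (.ref 23 64))))))
 (.one (.play 129 (.both (.ref 40 0) (.both (.play 65 (.ref 24 0)) (.play 385 (.ref 13 64))))))))
 (.seq (.seq (.one (.play 129 (.both (.ref 40 0) (.play 320 (.ref 6 128)))))
 (.one (.play 129 (.both (.ref 40 0) (.play 322 (.ref 4 129))))))
 (.seq (.one (.play 196 (.both (.play 389 (.both (.ref 79 3) (.play 453 (.ref 4 196)))) (.both (.play 387 (.both (.ref 78 3) (.play 451 (.ref 6 195)))) (.ref 32 192)))))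
 (.one (.both (.play 68 (.ref 13 3)) (.both (.play 68 (.ref 10 4)) (.ref 32 128)))))))
 (.seq (.seq (.seq (.one (.play 129 (.both (.ref 40 0) (.both (.play 65 (.ref 23 0)) (.play 385 (.ref 10 65))))))
 (.one (.play 260 (.both (.ref 21 0) (.both (.play 324 (.ref 13 3)) (.play 324 (.ref 24 3)))))))
 (.seq (.one (.play 257 (.both (.play 64 (.ref 7 0)) (.play 66 (.ref 5 1)))))
 (.one (.play 66 (.both (.ref 18 0) (.play 70 (.both (.play 71 (.both (.ref 28 3) (.play 133 (.both (.play 134 (.ref 0 66)) (.play 72 (.ref 1 68)))))) (.both (.ref 38 3) (.both (.play 71 (.both (.ref 28 3) (.play 136 (.both (.play 135 (.ref 0 68)) (.play 72 (.both (.play 133 (.ref 1 68)) (.play 137 (.ref 0 69)))))))) (.ref 14 66))))))))))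
 (.seq (.seq (.one (.both (.ref 85 0) (.play 3 (.ref 7 3))))
 (.one (.play 71 (.both (.play 67 (.both (.play 66 (.both (.ref 17 1) (.play 129 (.both (.play 65 (.both (.play 128 (.ref 1 64)) (.play 132 (.ref 0 65)))) (.play 130 (.ref 1 65)))))) (.both (.ref 18 1) (.both (.play 66 (.both (.ref 17 1) (.play 132 (.both (.play 65 (.ref 0 65)) (.play 131 (.ref 1 67)))))) (.ref 15 66))))) (.ref 38 4)))))
 (.seq (.one (.both (.ref 87 0) (.play 4 (.ref 7 4))))
 (.one (.both (.play 68 (.ref 88 0)) (.play 6 (.ref 5 5))))))))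
 (.seq (.seq (.seq (.seq (.one (.both (.play 65 (.both (.play 1 (.ref 6 0)) (.play 257 (.ref 6 64)))) (.play 384 (.ref 5 128))))
 (.one (.both (.ref 85 0) (.play 5 (.ref 5 4)))))
 (.seq (.one (.both (.play 69 (.ref 91 0)) (.play 3 (.ref 7 3))))
 (.one (.both (.ref 87 0) (.play 6 (.ref 5 5))))))
 (.seq (.seq (.one (.both (.play 67 (.ref 2 0)) (.play 5 (.ref 1 1))))
 (.one (.both (.play 64 (.ref 2 0)) (.play 5 (.ref 94 1)))))
 (.seq (.one (.both (.play 64 (.ref 2 0)) (.play 2 (.ref 1 1))))
 (.one (.both (.play 65 (.ref 96 0)) (.play 6 (.ref 1 2)))))))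
 (.seq (.seq (.seq (.one (.both (.play 65 (.both (.play 3 (.ref 96 0)) (.play 68 (.ref 2 1)))) (.both (.play 3 (.ref 97 0)) (.both (.play 68 (.ref 95 1)) (.play 6 (.both (.play 3 (.ref 1 2)) (.play 68 (.ref 94 2))))))))
 (.one (.play 66 (.both (.play 65 (.ref 19 0)) (.play 6 (.ref 2 2))))))
 (.seq (.one (.play 321 (.both (.play 193 (.both (.ref 82 0) (.play 192 (.ref 3 192)))) (.play 320 (.ref 1 256)))))
 (.one (.play 260 (.both (.ref 100 0) (.both (.play 261 (.ref 29 192)) (.play 261 (.ref 16 256))))))))
 (.seq (.seq (.one (.play 66 (.both (.play 6 (.ref 2 2)) (.play 65 (.ref 16 64)))))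
 (.one (.play 65 (.both (.play 4 (.ref 2 1)) (.ref 15 64)))))
 (.seq (.one (.both (.play 65 (.ref 66 0)) (.play 384 (.ref 5 128))))
 (.seq (.one (.play 131 (.both (.play 322 (.ref 104 2)) (.play 132 (.ref 2 128)))))
 (.one (.play 196 (.both (.play 261 (.both (.play 197 (.both (.play 198 (.both (.ref 105 3) (.play 130 (.ref 3 130)))) (.play 262 (.ref 0 194)))) (.play 260 (.ref 0 193)))) (.play 129 (.ref 3 128)))))))))))
 (.seq (.seq (.seq (.seq (.seq (.one (.both (.play 65 (.both (.play 1 (.ref 6 0)) (.ref 9 1))) (.play 385 (.both (.ref 8 129) (.play 449 (.ref 7 192))))))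
 (.one (.both (.play 1 (.ref 6 0)) (.play 320 (.ref 6 64)))))
 (.seq (.one (.play 195 (.both (.play 131 (.both (.play 67 (.ref 108 2)) (.both (.play 323 (.ref 107 2)) (.play 323 (.both (.play 387 (.both (.ref 11 130) (.play 452 (.both (.play 451 (.both (.play 258 (.ref 7 194)) (.play 516 (.ref 4 259)))) (.play 388 (.ref 4 195)))))) (.play 324 (.ref 0 256))))))) (.play 196 (.ref 2 192)))))
 (.one (.play 260 (.both (.ref 109 1) (.both (.play 261 (.ref 19 192)) (.play 261 (.ref 29 192))))))))
 (.seq (.seq (.one (.play 66 (.both (.ref 18 0) (.play 6 (.ref 2 2)))))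
 (.one (.play 65 (.both (.ref 17 0) (.play 4 (.ref 2 1))))))
 (.seq (.one (.play 129 (.both (.play 257 (.both (.ref 26 0) (.play 256 (.ref 1 192)))) (.play 128 (.ref 3 128)))))
 (.one (.play 68 (.both (.play 5 (.ref 2 1)) (.play 69 (.ref 16 64))))))))
 (.seq (.seq (.seq (.one (.play 66 (.both (.play 5 (.ref 2 2)) (.play 65 (.ref 16 64)))))
 (.one (.play 260 (.both (.ref 109 1) (.both (.play 261 (.ref 30 192)) (.play 261 (.ref 16 256)))))))
 (.seq (.one (.play 66 (.both (.play 65 (.ref 29 0)) (.play 133 (.ref 0 66)))))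
 (.one (.play 130 (.both (.play 66 (.both (.play 65 (.ref 29 0)) (.play 129 (.ref 1 65)))) (.play 131 (.ref 1 66)))))))
 (.seq (.seq (.one (.both (.play 69 (.ref 3 1)) (.play 128 (.ref 1 64))))
 (.one (.play 256 (.both (.play 1 (.ref 5 0)) (.play 320 (.ref 5 64))))))
 (.seq (.one (.play 193 (.both (.ref 120 1) (.play 132 (.ref 119 64)))))
 (.seq (.one (.play 65 (.both (.play 0 (.ref 3 0)) (.play 64 (.ref 2 0)))))
 (.one (.play 65 (.both (.play 64 (.ref 2 0)) (.play 128 (.ref 1 64))))))))))
 (.seq (.seq (.seq (.seq (.one (.play 129 (.both (.ref 123 0) (.play 130 (.ref 1 65)))))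
 (.one (.play 192 (.both (.play 257 (.ref 4 0)) (.play 256 (.ref 5 0))))))
 (.seq (.one (.play 133 (.both (.play 130 (.both (.play 66 (.both (.play 194 (.both (.play 259 (.both (.play 195 (.both (.play 2 (.ref 4 2)) (.play 4 (.ref 5 3)))) (.ref 125 66))) (.play 193 (.ref 1 129)))) (.play 65 (.ref 0 65)))) (.both (.ref 124 64) (.play 65 (.both (.ref 122 64) (.play 66 (.ref 0 65))))))) (.both (.ref 121 2) (.play 66 (.ref 53 65))))))
 (.one (.play 65 (.both (.play 64 (.ref 2 0)) (.ref 15 64))))))
 (.seq (.seq (.one (.both (.ref 127 0) (.play 70 (.both (.play 71 (.ref 3 3)) (.ref 14 66)))))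
 (.one (.both (.play 256 (.ref 6 0)) (.play 257 (.ref 7 0)))))
 (.seq (.one (.both (.play 3 (.ref 0 0)) (.play 69 (.ref 3 1))))
 (.one (.both (.play 0 (.ref 0 0)) (.play 69 (.ref 130 1)))))))
 (.seq (.seq (.seq (.one (.play 196 (.both (.play 260 (.ref 4 3)) (.play 129 (.ref 131 128)))))
 (.one (.play 133 (.both (.play 259 (.both (.play 196 (.both (.ref 132 1) (.play 260 (.ref 129 67)))) (.play 195 (.ref 5 3)))) (.both (.ref 121 2) (.play 130 (.ref 128 64)))))))
 (.seq (.one (.both (.play 192 (.ref 4 0)) (.play 321 (.ref 7 64))))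
 (.one (.play 65 (.both (.play 66 (.both (.play 5 (.ref 2 1)) (.play 133 (.ref 3 65)))) (.ref 122 64))))))
 (.seq (.seq (.one (.play 133 (.both (.play 197 (.both (.play 130 (.both (.ref 135 0) (.play 198 (.ref 0 130)))) (.play 261 (.ref 134 4)))) (.both (.play 130 (.ref 128 64)) (.play 66 (.ref 53 65))))))
 (.one (.play 65 (.both (.play 64 (.ref 2 0)) (.play 68 (.ref 2 1))))))
 (.seq (.one (.both (.ref 137 0) (.play 6 (.ref 1 2))))
 (.seq (.one (.play 257 (.both (.play 2 (.ref 5 1)) (.ref 25 64))))
 (.one (.both (.play 68 (.ref 3 0)) (.play 4 (.ref 2 0))))))))))))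
 (.seq (.seq (.seq (.seq (.seq (.seq (.seq (.one (.play 193 (.both (.play 195 (.both (.play 259 (.ref 4 2)) (.play 132 (.both (.play 131 (.both (.play 64 (.ref 3 64)) (.play 192 (.ref 2 128)))) (.play 196 (.ref 140 129)))))) (.play 257 (.ref 5 1)))))
 (.one (.both (.play 2 (.ref 5 1)) (.play 321 (.ref 7 64)))))
 (.seq (.one (.play 259 (.both (.play 68 (.both (.play 195 (.ref 142 2)) (.play 129 (.ref 63 64)))) (.both (.play 195 (.both (.play 2 (.ref 4 2)) (.ref 141 65))) (.ref 125 66)))))
 (.one (.both (.play 0 (.ref 0 0)) (.play 69 (.ref 0 1))))))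
 (.seq (.seq (.one (.play 257 (.both (.play 0 (.ref 7 0)) (.play 321 (.ref 5 65)))))
 (.one (.play 66 (.both (.ref 145 2) (.play 65 (.ref 144 64))))))
 (.seq (.one (.both (.play 0 (.ref 4 0)) (.play 321 (.ref 7 64))))
 (.one (.both (.play 0 (.ref 0 0)) (.play 66 (.ref 3 1)))))))
 (.seq (.seq (.seq (.one (.both (.play 1 (.ref 148 0)) (.play 70 (.ref 3 2))))
 (.one (.play 66 (.both (.play 2 (.ref 7 2)) (.play 133 (.ref 149 64))))))
 (.seq (.one (.play 67 (.both (.ref 150 0) (.play 260 (.ref 147 3)))))
 (.one (.play 259 (.both (.play 66 (.ref 147 2)) (.ref 132 64))))))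
 (.seq (.seq (.one (.play 68 (.both (.play 259 (.ref 142 2)) (.play 129 (.ref 63 64)))))
 (.one (.play 65 (.both (.play 5 (.ref 2 1)) (.play 64 (.ref 0 64))))))
 (.seq (.one (.both (.play 1 (.ref 6 0)) (.play 320 (.ref 5 64))))
 (.one (.play 194 (.both (.play 258 (.ref 155 2)) (.play 193 (.ref 63 128)))))))))
 (.seq (.seq (.seq (.seq (.one (.play 65 (.both (.play 64 (.ref 2 0)) (.play 5 (.both (.play 2 (.ref 1 1)) (.play 6 (.ref 1 2)))))))
 (.one (.play 193 (.both (.play 256 (.ref 6 0)) (.play 257 (.ref 5 1))))))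
 (.seq (.one (.play 260 (.both (.play 131 (.both (.play 322 (.both (.play 67 (.both (.play 3 (.ref 4 3)) (.play 258 (.ref 6 66)))) (.ref 158 130))) (.ref 153 65))) (.both (.ref 152 65) (.both (.play 133 (.both (.ref 139 67) (.ref 157 129))) (.both (.ref 136 128) (.play 323 (.both (.play 261 (.both (.play 193 (.both (.play 258 (.both (.ref 156 128) (.ref 122 192))) (.play 194 (.ref 0 193)))) (.both (.play 258 (.ref 128 192)) (.play 194 (.ref 53 193))))) (.play 387 (.ref 5 131))))))))))
 (.one (.play 195 (.both (.play 2 (.ref 7 2)) (.ref 132 64))))))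
 (.seq (.seq (.one (.both (.play 64 (.ref 1 0)) (.play 5 (.ref 1 1))))
 (.one (.play 70 (.both (.play 67 (.both (.play 66 (.both (.play 1 (.both (.play 65 (.both (.play 0 (.ref 3 0)) (.play 132 (.ref 0 65)))) (.play 2 (.ref 3 1)))) (.ref 15 65))) (.play 3 (.ref 7 3)))) (.both (.play 67 (.ref 54 1)) (.play 71 (.ref 161 67)))))))
 (.seq (.one (.play 324 (.both (.play 132 (.both (.play 68 (.ref 23 3)) (.both (.ref 162 64) (.play 325 (.both (.ref 160 66) (.play 389 (.ref 4 132))))))) (.play 388 (.ref 5 132)))))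
 (.one (.play 324 (.both (.ref 60 0) (.play 388 (.ref 5 132))))))))
 (.seq (.seq (.seq (.one (.play 71 (.both (.play 67 (.both (.play 66 (.both (.play 1 (.both (.play 65 (.both (.play 0 (.ref 3 0)) (.play 4 (.ref 2 1)))) (.play 2 (.ref 3 1)))) (.ref 15 65))) (.both (.ref 18 1) (.both (.play 66 (.both (.play 4 (.both (.play 65 (.ref 2 1)) (.play 3 (.ref 3 3)))) (.ref 15 65))) (.ref 17 2))))) (.both (.play 72 (.ref 29 3)) (.ref 38 4)))))
 (.one (.play 325 (.both (.play 133 (.both (.play 69 (.ref 13 4)) (.both (.play 132 (.both (.play 135 (.both (.play 72 (.both (.play 71 (.ref 2 68)) (.play 136 (.both (.play 73 (.ref 2 69)) (.play 137 (.ref 1 133)))))) (.play 131 (.both (.play 130 (.ref 0 130)) (.play 195 (.both (.play 194 (.ref 1 130)) (.play 196 (.ref 2 131)))))))) (.play 68 (.ref 7 68)))) (.play 324 (.both (.play 326 (.both (.play 390 (.ref 4 133)) (.ref 165 256))) (.play 388 (.ref 6 132))))))) (.play 389 (.ref 5 133))))))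
 (.seq (.one (.play 64 (.both (.play 0 (.ref 4 0)) (.play 321 (.ref 4 64)))))
 (.one (.play 388 (.both (.play 196 (.both (.play 132 (.both (.ref 167 4) (.ref 11 131))) (.ref 162 128))) (.play 452 (.ref 5 196)))))))
 (.seq (.seq (.one (.play 66 (.both (.play 65 (.ref 19 0)) (.play 5 (.ref 2 2)))))
 (.one (.play 66 (.both (.ref 18 0) (.play 5 (.ref 2 2))))))
 (.seq (.one (.both (.play 193 (.ref 6 0)) (.play 320 (.ref 5 64))))
 (.seq (.one (.both (.play 1 (.ref 6 0)) (.play 320 (.ref 171 64))))
 (.one (.play 131 (.both (.ref 151 0) (.both (.play 130 (.both (.ref 145 66) (.play 197 (.ref 53 129)))) (.play 324 (.both (.ref 160 65) (.ref 125 131)))))))))))))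
 (.seq (.seq (.seq (.seq (.seq (.one (.play 195 (.both (.ref 132 0) (.play 259 (.ref 7 2)))))
 (.one (.play 65 (.both (.play 1 (.ref 4 1)) (.play 320 (.ref 6 64))))))
 (.seq (.one (.play 131 (.both (.play 259 (.both (.ref 27 2) (.play 260 (.ref 0 192)))) (.play 132 (.ref 2 128)))))
 (.one (.play 195 (.both (.ref 176 0) (.play 196 (.ref 1 192)))))))
 (.seq (.seq (.one (.play 195 (.both (.play 259 (.ref 7 2)) (.play 196 (.ref 0 128)))))
 (.one (.both (.play 67 (.ref 149 0)) (.both (.play 1 (.both (.play 67 (.ref 148 0)) (.play 4 (.ref 0 1)))) (.both (.play 4 (.ref 131 1)) (.play 70 (.both (.play 67 (.ref 3 2)) (.play 4 (.ref 130 2)))))))))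
 (.seq (.one (.play 66 (.both (.ref 124 0) (.play 70 (.both (.play 6 (.both (.play 5 (.ref 1 2)) (.play 7 (.ref 2 3)))) (.play 71 (.ref 3 3)))))))
 (.one (.play 130 (.both (.play 66 (.both (.play 194 (.both (.play 258 (.ref 5 2)) (.play 193 (.ref 1 129)))) (.play 65 (.ref 3 65)))) (.both (.ref 124 64) (.play 65 (.both (.ref 122 64) (.play 66 (.ref 3 65)))))))))))
 (.seq (.seq (.seq (.one (.play 193 (.both (.play 2 (.ref 5 1)) (.play 320 (.ref 6 64)))))
 (.one (.play 66 (.both (.play 1 (.ref 3 1)) (.play 65 (.ref 16 64))))))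
 (.seq (.one (.play 4 (.both (.play 3 (.ref 2 0)) (.ref 114 0))))
 (.one (.play 323 (.both (.play 195 (.both (.ref 77 2) (.play 196 (.ref 2 192)))) (.play 324 (.ref 0 256)))))))
 (.seq (.seq (.one (.both (.ref 185 1) (.play 320 (.ref 1 256))))
 (.one (.play 262 (.both (.play 263 (.ref 186 3)) (.both (.play 263 (.both (.ref 185 4) (.both (.play 264 (.both (.ref 28 196) (.play 325 (.ref 1 260)))) (.play 264 (.both (.play 265 (.both (.play 198 (.ref 3 197)) (.ref 184 198))) (.play 325 (.ref 1 260))))))) (.both (.play 325 (.both (.play 388 (.both (.play 389 (.both (.play 453 (.both (.ref 9 133) (.play 517 (.both (.play 260 (.ref 7 260)) (.ref 25 324))))) (.both (.play 453 (.ref 10 133)) (.play 390 (.both (.play 454 (.ref 4 197)) (.ref 181 257)))))) (.play 452 (.ref 5 196)))) (.both (.play 452 (.both (.play 453 (.both (.ref 182 196) (.both (.play 389 (.ref 142 196)) (.play 323 (.both (.play 451 (.both (.play 515 (.both (.play 387 (.ref 5 259)) (.play 514 (.ref 98 448)))) (.both (.play 386 (.both (.play 387 (.both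 (.play 515 (.ref 5 259)) (.play 326 (.ref 1 322)))) (.ref 183 384))) (.both (.play 387 (.both (.play 515 (.ref 5 259)) (.play 386 (.both (.play 326 (.ref 1 322)) (.play 454 (.ref 3 386)))))) (.both (.ref 20 384) (.play 450 (.both (.play 449 (.ref 19 384)) (.both (.ref 18 384) (.both (.play 454 (.ref 19 385)) (.play 449 (.ref 16 448))))))))))) (.play 322 (.ref 2 258))))))) (.play 388 (.ref 5 196)))) (.both (.play 452 (.both (.play 453 (.both (.ref 182 196) (.both (.play 389 (.ref 142 196)) (.both (.play 389 (.both (.play 198 (.ref 5 197)) (.play 516 (.both (.play 452 (.ref 6 260)) (.play 518 (.both (.play 454 (.ref 4 261)) (.play 517 (.both (.play 580 (.ref 6 324)) (.play 582 (.ref 4 325)))))))))) (.play 454 (.both (.play 390 (.both (.play 326 (.ref 129 261)) (.ref 111 385))) (.both (.play 390 (.both (.play 518 (.both (.play 326 (.ref 7 261)) (.play 519 (.ref 179 450)))) (.both (.play 518 (.both (.play 326 (.ref 7 261)) (.play 391 (.both (.ref 139 325) (.play 392 (.ref 94 388)))))) (.both (.ref 99 385) (.play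 391 (.ref 95 387)))))) (.both (.play 455 (.both (.ref 176 260) (.both (.play 456 (.ref 30 387)) (.play 456 (.ref 16 451))))) (.both (.ref 20 385) (.both (.play 451 (.both (.ref 18 385) (.both (.ref 38 387) (.play 455 (.ref 16 450))))) (.play 455 (.both (.play 451 (.ref 30 386)) (.both (.ref 38 388) (.play 456 (.ref 16 451))))))))))))))) (.play 388 (.ref 5 196)))) (.both (.play 388 (.both (.play 389 (.both (.play 453 (.ref 142 196)) (.play 390 (.both (.ref 181 257) (.both (.ref 180 321) (.play 391 (.ref 179 322))))))) (.play 452 (.ref 5 196)))) (.both (.play 389 (.both (.ref 132 194) (.play 453 (.ref 142 196)))) (.play 326 (.both (.play 323 (.both (.ref 178 195) (.play 322 (.ref 2 258)))) (.ref 121 195))))))))) (.play 323 (.ref 138 257))))))))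
 (.seq (.one (.play 1 (.both (.play 65 (.both (.play 0 (.ref 3 0)) (.play 64 (.ref 0 64)))) (.play 2 (.ref 3 1)))))
 (.one (.play 66 (.both (.ref 188 0) (.play 70 (.both (.play 134 (.both (.play 133 (.ref 3 66)) (.play 135 (.ref 0 67)))) (.play 71 (.ref 1 67)))))))))))
 (.seq (.seq (.seq (.seq (.one (.play 198 (.both (.play 196 (.both (.play 260 (.ref 6 4)) (.ref 165 128))) (.play 262 (.ref 4 5)))))
 (.one (.both (.play 64 (.ref 2 0)) (.play 5 (.ref 2 1)))))
 (.seq (.one (.play 258 (.both (.ref 175 2) (.play 257 (.ref 191 192)))))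
 (.one (.play 65 (.both (.play 0 (.ref 7 0)) (.play 1 (.ref 4 1)))))))
 (.seq (.seq (.one (.play 129 (.both (.play 64 (.both (.ref 193 0) (.play 128 (.ref 7 64)))) (.play 385 (.both (.play 386 (.both (.play 322 (.ref 7 129)) (.play 450 (.ref 4 193)))) (.play 449 (.ref 5 193)))))))
 (.one (.both (.play 65 (.both (.ref 12 0) (.play 1 (.ref 4 1)))) (.play 385 (.both (.ref 11 128) (.play 449 (.ref 5 193)))))))
 (.seq (.one (.both (.play 0 (.ref 3 0)) (.play 69 (.ref 3 1))))
 (.one (.play 130 (.both (.play 66 (.ref 147 2)) (.play 129 (.ref 53 128))))))))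
 (.seq (.seq (.seq (.one (.both (.play 4 (.both (.play 2 (.ref 1 0)) (.play 66 (.ref 2 0)))) (.both (.play 68 (.both (.play 66 (.ref 3 0)) (.play 2 (.ref 0 0)))) (.both (.play 2 (.ref 55 0)) (.play 66 (.ref 140 0))))))
 (.one (.play 64 (.both (.ref 193 0) (.play 321 (.both (.play 128 (.ref 7 64)) (.play 385 (.ref 5 129))))))))
 (.seq (.one (.play 257 (.both (.ref 8 1) (.play 320 (.both (.play 256 (.ref 6 64)) (.play 321 (.both (.play 128 (.ref 7 64)) (.play 384 (.ref 6 128)))))))))
 (.one (.play 323 (.both (.play 131 (.both (.play 67 (.ref 13 2)) (.both (.ref 40 2) (.play 387 (.both (.ref 11 130) (.both (.play 451 (.both (.play 322 (.both (.play 386 (.ref 6 130)) (.play 515 (.ref 7 258)))) (.ref 8 195))) (.both (.ref 25 194) (.ref 200 194)))))))) (.play 324 (.ref 0 256)))))))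
 (.seq (.seq (.one (.both (.ref 201 0) (.play 196 (.ref 2 192))))
 (.one (.both (.play 259 (.both (.play 451 (.both (.play 195 (.both (.play 131 (.both (.play 66 (.both (.play 67 (.both (.play 2 (.ref 7 2)) (.play 258 (.ref 6 66)))) (.play 130 (.ref 7 66)))) (.ref 9 67))) (.both (.ref 40 66) (.both (.play 131 (.both (.play 258 (.both (.play 67 (.ref 6 66)) (.play 194 (.ref 7 194)))) (.ref 9 67))) (.ref 12 130))))) (.both (.play 515 (.ref 13 194)) (.ref 25 258)))) (.play 260 (.ref 2 256)))) (.play 388 (.ref 0 320)))))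
 (.seq (.one (.play 390 (.both (.play 328 (.both (.play 453 (.both (.play 392 (.both (.play 327 (.ref 203 5)) (.both (.play 391 (.both (.ref 201 133) (.play 452 (.ref 1 388)))) (.play 391 (.ref 119 324))))) (.play 517 (.ref 5 261)))) (.both (.play 392 (.both (.play 261 (.both (.play 264 (.both (.ref 76 71) (.both (.ref 82 71) (.both (.play 200 (.both (.ref 40 71) (.both (.play 456 (.ref 23 135)) (.play 456 (.ref 10 136))))) (.play 263 (.ref 55 261)))))) (.ref 199 132))) (.both (.play 391 (.ref 202 133)) (.play 453 (.both (.ref 120 261) (.play 391 (.ref 119 324))))))) (.both (.play 261 (.both (.ref 199 132) (.play 264 (.ref 198 261)))) (.play 392 (.ref 198 325)))))) (.both (.play 261 (.both (.play 197 (.both (.play 260 (.both (.ref 197 66) (.play 327 (.ref 53 259)))) (.play 133 (.ref 4 133)))) (.both (.play 328 (.both (.play 327 (.both (.ref 176 133) (.play 260 (.ref 3 260)))) (.both (.play 263 (.both (.play 454 (.ref 142 197)) (.play 264 (.ref 55 261)))) (.play 327 (.ref 196 260))))) (.play 197 (.ref 147 133)))))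 (.both (.play 453 (.both (.play 261 (.ref 195 132)) (.both (.ref 194 132) (.both (.play 454 (.both (.ref 192 194) (.both (.ref 167 197) (.ref 174 323)))) (.play 517 (.both (.ref 190 320) (.play 581 (.ref 5 325)))))))) (.both (.play 454 (.both (.play 518 (.ref 24 197)) (.both (.play 518 (.ref 10 198)) (.play 453 (.both (.play 455 (.both (.play 519 (.ref 4 262)) (.ref 180 386))) (.play 517 (.ref 5 261))))))) (.play 517 (.both (.play 454 (.both (.play 261 (.both (.play 263 (.both (.ref 189 194) (.play 199 (.ref 5 198)))) (.play 197 (.ref 7 197)))) (.both (.play 263 (.both (.play 199 (.ref 5 198)) (.play 518 (.both (.play 327 (.ref 5 262)) (.play 581 (.ref 6 325)))))) (.play 518 (.both (.play 261 (.ref 7 261)) (.play 581 (.ref 6 325))))))) (.play 453 (.ref 5 261))))))))))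
 (.seq (.one (.play 66 (.both (.ref 18 0) (.play 133 (.ref 0 66)))))
 (.one (.play 134 (.both (.ref 205 0) (.play 135 (.ref 0 67))))))))))))
 (.seq (.seq (.seq (.seq (.seq (.seq (.one (.play 6 (.both (.ref 170 0) (.play 7 (.ref 2 3)))))
 (.one (.play 129 (.both (.ref 40 0) (.play 386 (.ref 4 129))))))
 (.seq (.one (.play 132 (.both (.play 68 (.both (.play 69 (.ref 3 1)) (.play 133 (.ref 0 65)))) (.play 131 (.ref 0 64)))))
 (.one (.play 257 (.both (.play 193 (.both (.play 0 (.ref 7 0)) (.play 2 (.ref 6 1)))) (.play 258 (.ref 129 65)))))))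
 (.seq (.seq (.one (.play 65 (.both (.play 64 (.ref 2 0)) (.play 133 (.ref 0 65)))))
 (.one (.play 257 (.both (.play 0 (.ref 7 0)) (.play 321 (.ref 7 64))))))
 (.seq (.one (.play 196 (.both (.ref 212 3) (.ref 211 64))))
 (.one (.play 69 (.both (.play 65 (.both (.play 64 (.ref 2 0)) (.play 1 (.both (.play 0 (.ref 3 0)) (.play 2 (.ref 0 1)))))) (.ref 209 2)))))))
 (.seq (.seq (.seq (.one (.play 129 (.both (.ref 40 0) (.play 385 (.both (.play 449 (.both (.play 322 (.both (.play 386 (.ref 4 129)) (.play 513 (.ref 5 257)))) (.ref 11 192))) (.both (.ref 8 129) (.both (.ref 25 192) (.play 449 (.both (.ref 11 192) (.play 514 (.both (.play 450 (.ref 4 257)) (.play 513 (.both (.play 322 (.ref 5 257)) (.play 578 (.ref 4 321)))))))))))))))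
 (.one (.play 193 (.both (.play 321 (.both (.ref 215 0) (.play 320 (.ref 1 256)))) (.play 192 (.ref 3 192))))))
 (.seq (.one (.both (.play 64 (.ref 57 0)) (.play 385 (.ref 7 128))))
 (.one (.play 68 (.both (.play 0 (.ref 3 0)) (.play 69 (.ref 1 65)))))))
 (.seq (.seq (.one (.play 129 (.both (.ref 167 1) (.ref 218 128))))
 (.one (.play 64 (.both (.play 0 (.ref 4 0)) (.play 1 (.ref 5 0))))))
 (.seq (.one (.play 197 (.both (.play 194 (.both (.play 258 (.both (.play 130 (.both (.play 67 (.both (.ref 220 2) (.play 131 (.both (.play 322 (.ref 5 66)) (.play 324 (.ref 4 67)))))) (.play 129 (.ref 3 129)))) (.play 257 (.ref 2 193)))) (.both (.ref 188 128) (.play 257 (.both (.ref 64 192) (.play 258 (.ref 2 193))))))) (.both (.ref 219 2) (.play 258 (.ref 63 193))))))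
 (.one (.both (.play 0 (.ref 4 0)) (.play 321 (.ref 134 64))))))))
 (.seq (.seq (.seq (.seq (.one (.play 259 (.both (.play 66 (.ref 222 2)) (.play 260 (.ref 0 192)))))
 (.one (.play 323 (.both (.play 387 (.ref 203 0)) (.play 324 (.ref 1 320))))))
 (.seq (.one (.play 196 (.both (.ref 113 0) (.both (.play 197 (.ref 29 128)) (.play 197 (.ref 16 192))))))
 (.one (.play 68 (.both (.play 69 (.ref 29 0)) (.play 133 (.ref 0 65)))))))
 (.seq (.seq (.one (.play 258 (.both (.play 194 (.ref 4 1)) (.play 257 (.both (.play 321 (.ref 7 64)) (.play 322 (.ref 4 65)))))))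
 (.one (.play 195 (.both (.play 259 (.ref 147 2)) (.play 196 (.ref 53 128))))))
 (.seq (.one (.play 1 (.both (.ref 15 0) (.play 68 (.ref 0 1)))))
 (.one (.play 65 (.both (.ref 17 0) (.play 132 (.ref 0 65))))))))
 (.seq (.seq (.seq (.one (.play 325 (.both (.ref 224 3) (.play 322 (.both (.play 386 (.both (.play 258 (.both (.play 194 (.ref 4 194)) (.play 257 (.ref 3 257)))) (.play 385 (.ref 1 321)))) (.both (.ref 188 256) (.play 385 (.both (.ref 64 320) (.play 386 (.ref 1 321))))))))))
 (.one (.play 195 (.both (.play 132 (.both (.ref 228 1) (.play 65 (.ref 53 64)))) (.play 259 (.ref 7 2))))))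
 (.seq (.one (.play 257 (.both (.ref 8 1) (.both (.ref 35 64) (.play 321 (.both (.play 128 (.ref 7 64)) (.ref 47 128)))))))
 (.one (.play 259 (.both (.play 4 (.ref 5 3)) (.ref 153 64))))))
 (.seq (.seq (.one (.play 259 (.both (.play 4 (.ref 5 3)) (.ref 132 64))))
 (.one (.play 196 (.both (.ref 223 1) (.play 256 (.ref 1 192))))))
 (.seq (.one (.play 261 (.both (.play 133 (.both (.play 69 (.both (.play 68 (.ref 92 1)) (.play 5 (.ref 6 4)))) (.play 325 (.both (.play 324 (.both (.play 326 (.both (.play 390 (.ref 4 133)) (.play 327 (.ref 3 259)))) (.play 388 (.ref 6 132)))) (.both (.ref 227 132) (.play 388 (.both (.play 324 (.ref 6 132)) (.play 389 (.ref 129 196))))))))) (.both (.ref 236 66) (.play 322 (.ref 138 256))))))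
 (.seq (.one (.play 66 (.both (.ref 18 0) (.play 134 (.ref 0 66)))))
 (.one (.play 325 (.both (.play 134 (.ref 90 5)) (.both (.play 199 (.both (.play 196 (.both (.ref 192 65) (.both (.play 195 (.both (.ref 238 128) (.ref 28 131))) (.play 195 (.ref 29 130))))) (.play 200 (.ref 1 196)))) (.ref 152 130)))))))))))
 (.seq (.seq (.seq (.seq (.seq (.one (.play 324 (.both (.play 321 (.both (.play 388 (.ref 203 1)) (.play 257 (.both (.play 450 (.ref 147 193)) (.play 256 (.ref 3 256)))))) (.play 325 (.ref 1 321)))))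
 (.one (.play 65 (.both (.play 258 (.ref 147 1)) (.ref 218 64)))))
 (.seq (.one (.play 387 (.both (.play 453 (.both (.play 514 (.both (.play 323 (.both (.play 259 (.both (.play 195 (.both (.play 132 (.both (.play 131 (.ref 69 2)) (.play 196 (.ref 5 131)))) (.play 388 (.ref 4 195)))) (.both (.ref 79 66) (.ref 12 194)))) (.play 578 (.ref 6 322)))) (.ref 137 448))) (.both (.play 454 (.ref 196 386)) (.play 454 (.ref 119 386))))) (.both (.ref 241 258) (.ref 56 386)))))
 (.one (.play 259 (.both (.play 195 (.ref 202 0)) (.play 260 (.ref 3 192)))))))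
 (.seq (.seq (.one (.play 454 (.both (.play 518 (.both (.play 392 (.both (.ref 242 3) (.both (.ref 240 69) (.both (.play 393 (.both (.play 390 (.both (.ref 185 134) (.both (.play 389 (.ref 19 324)) (.play 389 (.ref 29 324))))) (.play 394 (.ref 1 390)))) (.both (.ref 239 194) (.both (.ref 237 195) (.play 519 (.both (.play 520 (.both (.ref 243 262) (.both (.play 517 (.both (.play 456 (.both (.ref 178 389) (.play 457 (.ref 2 453)))) (.both (.ref 127 451) (.play 516 (.ref 30 451))))) (.both (.play 517 (.ref 128 451)) (.ref 180 451))))) (.both (.ref 235 324) (.both (.ref 234 324) (.both (.play 583 (.both (.play 328 (.ref 5 327)) (.ref 200 390))) (.play 583 (.both (.play 457 (.both (.play 520 (.both (.ref 228 389) (.play 521 (.ref 140 454)))) (.both (.play 517 (.both (.play 520 (.ref 128 451)) (.play 456 (.ref 1 453)))) (.both (.play 456 (.ref 161 453)) (.play 521 (.ref 198 454)))))) (.both (.ref 153 388) (.ref 233 390))))))))))))))) (.both (.play 392 (.both (.ref 242 3) (.both (.ref 240 69) (.both (.ref 239 194) (.both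 (.ref 237 195) (.both (.play 393 (.both (.play 390 (.both (.ref 176 198) (.both (.play 389 (.ref 19 324)) (.play 389 (.ref 29 324))))) (.play 394 (.ref 1 390)))) (.play 519 (.both (.play 456 (.both (.ref 177 262) (.both (.play 520 (.both (.ref 213 388) (.both (.play 521 (.both (.play 584 (.both (.ref 228 390) (.ref 212 391))) (.play 522 (.ref 3 454)))) (.play 581 (.both (.ref 123 452) (.play 521 (.both (.play 522 (.ref 3 454)) (.play 582 (.ref 1 517))))))))) (.play 517 (.ref 63 452))))) (.both (.ref 235 324) (.both (.ref 234 324) (.both (.play 583 (.both (.play 328 (.ref 5 327)) (.ref 233 390))) (.play 583 (.both (.play 584 (.both (.play 648 (.ref 4 391)) (.play 585 (.ref 179 516)))) (.play 647 (.both (.play 456 (.ref 5 391)) (.play 711 (.ref 7 454))))))))))))))))) (.both (.ref 204 129) (.both (.play 582 (.both (.play 390 (.both (.play 326 (.both (.ref 208 133) (.ref 11 325))) (.both (.play 326 (.ref 13 261)) (.play 389 (.ref 86 322))))) (.play 646 (.ref 5 390)))) (.both (.ref 187 194) (.both (.ref 164 258) (.both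 (.ref 173 259) (.play 582 (.both (.play 390 (.both (.play 389 (.both (.play 325 (.ref 7 325)) (.play 456 (.ref 53 388)))) (.ref 190 385))) (.play 646 (.ref 5 390)))))))))))) (.both (.play 518 (.both (.play 390 (.both (.ref 231 67) (.both (.play 519 (.both (.play 452 (.both (.play 453 (.both (.ref 100 195) (.play 520 (.ref 0 452)))) (.both (.play 517 (.both (.ref 175 261) (.ref 122 451))) (.play 453 (.ref 144 451))))) (.both (.play 583 (.ref 147 326)) (.ref 232 388)))) (.both (.ref 151 259) (.play 519 (.both (.play 517 (.both (.ref 175 261) (.ref 135 387))) (.both (.ref 212 326) (.ref 232 388)))))))) (.both (.play 390 (.both (.ref 231 67) (.both (.ref 194 197) (.ref 143 324)))) (.both (.play 519 (.both (.play 583 (.both (.play 453 (.both (.play 452 (.both (.ref 216 195) (.both (.ref 230 386) (.ref 229 450)))) (.ref 210 389))) (.both (.play 582 (.both (.play 584 (.both (.play 648 (.ref 4 391)) (.play 517 (.ref 53 516)))) (.play 646 (.ref 6 390)))) (.ref 227 390)))) (.both (.ref 136 387) (.both (.ref 133 387) (.both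 (.ref 126 387) (.both (.play 646 (.both (.play 453 (.both (.ref 154 387) (.play 520 (.both (.play 583 (.both (.ref 228 389) (.play 647 (.ref 129 454)))) (.play 521 (.ref 3 453)))))) (.play 582 (.ref 5 390)))) (.play 583 (.both (.ref 141 389) (.both (.ref 227 390) (.play 646 (.both (.play 582 (.ref 5 390)) (.play 647 (.ref 129 454))))))))))))) (.both (.ref 168 194) (.both (.ref 166 257) (.both (.ref 164 258) (.both (.ref 163 258) (.ref 159 259))))))))) (.both (.play 453 (.both (.play 456 (.both (.play 389 (.both (.play 325 (.both (.play 261 (.both (.ref 74 68) (.play 518 (.ref 4 261)))) (.both (.play 261 (.both (.play 197 (.both (.ref 9 133) (.play 390 (.ref 4 197)))) (.play 517 (.ref 13 196)))) (.both (.play 261 (.ref 51 196)) (.both (.play 518 (.both (.play 261 (.both (.play 390 (.ref 57 197)) (.play 453 (.ref 4 261)))) (.both (.play 390 (.ref 217 197)) (.both (.play 453 (.ref 222 261)) (.play 582 (.both (.play 390 (.ref 7 325)) (.play 453 (.ref 134 325)))))))) (.play 517 (.both (.play 581 (.ref 10 261)) (.both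 (.play 516 (.both (.play 580 (.ref 6 324)) (.play 515 (.ref 98 449)))) (.ref 47 324))))))))) (.play 388 (.ref 3 388)))) (.both (.play 521 (.both (.ref 226 389) (.play 520 (.ref 0 453)))) (.play 457 (.ref 16 452))))) (.both (.ref 225 260) (.both (.ref 102 386) (.play 392 (.ref 98 387)))))) (.both (.play 390 (.both (.play 392 (.both (.ref 224 70) (.both (.play 456 (.both (.play 328 (.both (.play 264 (.ref 108 199)) (.ref 154 324))) (.both (.play 457 (.both (.ref 223 262) (.play 458 (.ref 3 390)))) (.play 389 (.ref 144 388))))) (.both (.play 389 (.ref 54 323)) (.ref 189 323))))) (.both (.ref 221 195) (.both (.play 453 (.both (.play 389 (.both (.play 388 (.both (.play 324 (.both (.play 517 (.ref 217 196)) (.play 323 (.ref 3 323)))) (.play 387 (.ref 0 387)))) (.both (.ref 121 324) (.play 456 (.ref 196 388))))) (.both (.play 452 (.both (.ref 216 195) (.play 451 (.ref 2 387)))) (.both (.play 456 (.ref 128 387)) (.ref 214 387))))) (.play 453 (.both (.ref 213 323) (.both (.play 456 (.both (.play 392 (.both (.play 520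 (.both (.ref 210 326) (.play 521 (.ref 0 453)))) (.play 393 (.ref 1 389)))) (.both (.ref 209 389) (.play 393 (.both (.play 392 (.ref 1 389)) (.play 457 (.ref 140 390))))))) (.play 392 (.ref 63 388))))))))) (.both (.play 453 (.both (.play 452 (.both (.play 388 (.both (.play 324 (.both (.ref 208 131) (.ref 106 260))) (.play 387 (.ref 3 387)))) (.both (.play 451 (.both (.ref 176 259) (.both (.ref 207 384) (.ref 206 384)))) (.play 451 (.ref 19 386))))) (.both (.ref 110 196) (.both (.ref 99 386) (.play 392 (.ref 98 387)))))) (.both (.play 518 (.both (.ref 204 129) (.both (.ref 187 194) (.both (.play 390 (.both (.play 392 (.both (.ref 177 198) (.both (.play 456 (.both (.play 328 (.both (.play 519 (.ref 155 263)) (.ref 154 324))) (.play 457 (.ref 119 389)))) (.both (.play 389 (.ref 54 323)) (.ref 56 389))))) (.both (.ref 58 195) (.both (.ref 151 259) (.play 519 (.both (.play 517 (.both (.ref 175 261) (.play 456 (.ref 63 452)))) (.both (.play 326 (.ref 147 262)) (.ref 174 388)))))))) (.both (.ref 164 258) (.both (.ref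 173 259) (.play 582 (.both (.play 390 (.both (.play 326 (.ref 13 261)) (.both (.ref 150 323) (.play 517 (.both (.play 581 (.ref 172 325)) (.play 456 (.ref 97 451))))))) (.play 646 (.ref 5 390)))))))))) (.both (.play 453 (.both (.play 452 (.both (.ref 100 195) (.both (.ref 118 385) (.both (.ref 169 385) (.ref 115 385))))) (.both (.play 456 (.both (.ref 100 196) (.both (.play 457 (.ref 19 388)) (.play 457 (.ref 16 452))))) (.both (.play 452 (.both (.ref 118 385) (.both (.play 456 (.ref 19 387)) (.play 456 (.ref 16 451))))) (.both (.play 452 (.both (.ref 118 385) (.both (.play 456 (.ref 19 387)) (.play 451 (.ref 16 450))))) (.both (.play 452 (.both (.ref 170 385) (.both (.ref 115 385) (.both (.play 451 (.ref 19 386)) (.play 456 (.ref 19 387)))))) (.both (.play 452 (.both (.ref 118 385) (.both (.ref 169 385) (.play 456 (.ref 16 451))))) (.ref 20 386)))))))) (.both (.play 518 (.both (.ref 168 194) (.both (.ref 166 257) (.both (.ref 164 258) (.both (.ref 163 258) (.both (.ref 159 259) (.both (.play 519 (.both (.play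 517 (.both (.play 516 (.both (.ref 100 259) (.play 515 (.ref 2 451)))) (.both (.play 453 (.both (.play 581 (.both (.play 390 (.ref 155 325)) (.play 520 (.ref 119 452)))) (.ref 154 387))) (.both (.ref 135 387) (.play 520 (.ref 128 451)))))) (.both (.play 390 (.both (.play 326 (.both (.ref 150 259) (.play 262 (.ref 4 262)))) (.both (.ref 153 324) (.play 583 (.ref 147 326))))) (.both (.ref 152 324) (.ref 136 387))))) (.both (.play 390 (.both (.ref 151 259) (.both (.ref 146 323) (.ref 143 324)))) (.play 519 (.both (.play 392 (.both (.ref 139 326) (.play 393 (.ref 138 388)))) (.both (.ref 136 387) (.both (.ref 133 387) (.ref 126 387))))))))))))) (.both (.play 453 (.both (.ref 116 196) (.both (.play 452 (.both (.ref 118 385) (.both (.play 519 (.both (.ref 117 385) (.play 520 (.ref 0 452)))) (.play 456 (.ref 16 451))))) (.both (.ref 102 386) (.play 392 (.ref 98 387)))))) (.both (.play 453 (.both (.ref 116 196) (.both (.ref 111 386) (.both (.ref 20 386) (.both (.ref 102 386) (.both (.ref 99 386) (.play 392 (.both (.ref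 115 386) (.both (.play 393 (.both (.play 391 (.both (.play 452 (.ref 2 388)) (.play 394 (.ref 1 390)))) (.play 456 (.ref 2 389)))) (.ref 114 388)))))))))) (.both (.play 453 (.both (.play 456 (.both (.ref 100 196) (.both (.play 457 (.ref 30 388)) (.play 457 (.ref 29 388))))) (.both (.play 452 (.both (.ref 113 259) (.both (.ref 103 386) (.ref 112 386)))) (.both (.ref 111 386) (.play 392 (.ref 98 387)))))) (.both (.play 453 (.both (.ref 110 196) (.both (.play 452 (.both (.play 388 (.both (.ref 106 260) (.play 387 (.ref 3 387)))) (.both (.ref 18 386) (.ref 103 386)))) (.both (.ref 102 386) (.play 392 (.ref 98 387)))))) (.play 453 (.both (.play 456 (.both (.ref 100 196) (.both (.play 452 (.ref 19 387)) (.play 457 (.ref 16 452))))) (.both (.ref 101 196) (.both (.ref 99 386) (.play 392 (.ref 98 387))))))))))))))))))))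
 (.one (.play 66 (.both (.play 65 (.ref 30 0)) (.play 134 (.ref 0 66))))))
 (.seq (.one (.play 2 (.both (.ref 183 0) (.play 3 (.ref 3 2)))))
 (.one (.play 66 (.both (.play 65 (.ref 30 0)) (.play 133 (.ref 0 66))))))))
 (.seq (.seq (.seq (.one (.play 66 (.both (.play 65 (.ref 29 0)) (.play 134 (.ref 0 66)))))
 (.one (.play 196 (.both (.play 133 (.both (.play 197 (.both (.ref 236 2) (.play 134 (.ref 2 130)))) (.play 132 (.ref 2 129)))) (.play 257 (.ref 1 192))))))
 (.seq (.one (.play 323 (.both (.play 387 (.both (.play 195 (.both (.play 131 (.both (.play 68 (.both (.play 67 (.both (.play 4 (.ref 5 3)) (.play 258 (.ref 6 66)))) (.play 132 (.ref 5 67)))) (.ref 12 66))) (.play 196 (.ref 2 192)))) (.both (.play 195 (.ref 107 66)) (.ref 212 194)))) (.play 324 (.ref 0 256)))))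
 (.one (.play 260 (.both (.ref 250 1) (.both (.play 261 (.ref 30 192)) (.play 261 (.ref 16 256))))))))
 (.seq (.seq (.one (.play 260 (.both (.ref 250 1) (.both (.play 261 (.ref 19 192)) (.play 261 (.ref 29 192))))))
 (.one (.play 194 (.both (.play 258 (.ref 6 2)) (.play 133 (.ref 97 128))))))
 (.seq (.one (.play 259 (.both (.play 68 (.ref 155 3)) (.ref 253 64))))
 (.seq (.one (.play 65 (.both (.play 67 (.both (.play 3 (.ref 5 2)) (.ref 56 64))) (.play 1 (.ref 4 1)))))
 (.one (.both (.play 1 (.ref 6 0)) (.play 322 (.ref 4 65)))))))))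
 (.seq (.seq (.seq (.seq (.one (.play 198 (.both (.play 195 (.both (.play 259 (.ref 6 3)) (.play 194 (.both (.play 257 (.both (.play 193 (.both (.play 132 (.ref 2 129)) (.play 256 (.ref 1 192)))) (.play 258 (.ref 1 193)))) (.ref 17 129))))) (.both (.play 195 (.ref 128 129)) (.play 199 (.ref 196 131))))))
 (.one (.play 68 (.both (.play 4 (.ref 5 3)) (.play 129 (.ref 95 64))))))
 (.seq (.one (.play 131 (.both (.ref 258 0) (.play 322 (.ref 6 66)))))
 (.one (.play 68 (.both (.play 260 (.both (.play 69 (.both (.ref 259 2) (.play 5 (.ref 5 4)))) (.both (.play 324 (.ref 24 3)) (.ref 257 64)))) (.play 4 (.ref 4 4)))))))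
 (.seq (.seq (.one (.play 68 (.both (.play 260 (.both (.play 324 (.ref 13 3)) (.both (.play 324 (.both (.ref 12 3) (.ref 120 132))) (.ref 257 64)))) (.play 4 (.ref 4 4)))))
 (.one (.play 69 (.both (.play 261 (.both (.play 68 (.both (.play 70 (.ref 93 0)) (.play 4 (.ref 7 4)))) (.both (.play 325 (.ref 13 4)) (.play 260 (.both (.play 324 (.ref 6 68)) (.ref 214 194)))))) (.play 5 (.ref 4 5))))))
 (.seq (.one (.play 65 (.both (.play 0 (.ref 7 0)) (.play 1 (.ref 6 0)))))
 (.one (.play 67 (.both (.ref 258 0) (.play 258 (.ref 155 2))))))))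
 (.seq (.seq (.seq (.one (.play 260 (.both (.play 67 (.ref 256 2)) (.play 193 (.ref 53 192)))))
 (.one (.play 196 (.both (.ref 67 0) (.both (.play 131 (.both (.play 197 (.both (.play 257 (.both (.play 194 (.both (.ref 197 0) (.ref 64 192))) (.play 258 (.ref 2 193)))) (.both (.play 194 (.ref 54 128)) (.play 258 (.ref 63 193))))) (.play 67 (.ref 4 67)))) (.both (.play 325 (.both (.ref 208 3) (.play 258 (.both (.play 257 (.ref 0 257)) (.play 326 (.both (.play 323 (.ref 3 258)) (.play 327 (.ref 3 259)))))))) (.both (.ref 264 65) (.play 323 (.both (.ref 265 65) (.ref 199 66))))))))))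
 (.seq (.one (.play 67 (.both (.ref 258 0) (.play 3 (.ref 6 2)))))
 (.one (.play 69 (.both (.play 70 (.ref 89 0)) (.play 5 (.ref 4 5)))))))
 (.seq (.seq (.one (.play 131 (.both (.play 67 (.ref 155 2)) (.play 132 (.ref 63 128)))))
 (.one (.play 131 (.both (.play 196 (.both (.ref 269 1) (.play 257 (.ref 63 192)))) (.play 67 (.ref 6 66))))))
 (.seq (.one (.play 257 (.both (.play 193 (.both (.ref 74 0) (.play 384 (.ref 6 192)))) (.both (.ref 78 64) (.ref 9 193)))))
 (.seq (.one (.play 454 (.both (.play 390 (.both (.play 391 (.both (.play 327 (.both (.ref 271 6) (.both (.play 262 (.both (.ref 263 198) (.play 326 (.ref 4 262)))) (.ref 39 260)))) (.both (.play 327 (.both (.ref 271 6) (.both (.play 262 (.both (.ref 263 198) (.play 326 (.ref 7 262)))) (.ref 255 261)))) (.both (.play 327 (.both (.play 453 (.both (.play 452 (.both (.play 516 (.both (.play 388 (.both (.play 580 (.both (.play 324 (.both (.play 260 (.both (.play 197 (.both (.play 196 (.both (.play 133 (.ref 5 132)) (.play 389 (.ref 4 196)))) (.play 261 (.ref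 5 196)))) (.ref 12 195))) (.both (.ref 40 195) (.both (.play 260 (.both (.ref 12 195) (.play 389 (.both (.play 196 (.ref 4 196)) (.play 325 (.ref 5 324)))))) (.ref 9 260))))) (.both (.play 644 (.ref 10 324)) (.ref 25 387)))) (.play 387 (.ref 3 387)))) (.play 515 (.ref 1 451)))) (.both (.ref 103 386) (.ref 112 386)))) (.play 262 (.both (.ref 263 198) (.play 326 (.both (.play 517 (.ref 6 261)) (.play 519 (.ref 7 262)))))))) (.both (.play 264 (.both (.play 263 (.both (.play 199 (.ref 6 198)) (.play 200 (.ref 5 199)))) (.play 328 (.ref 5 263)))) (.play 326 (.both (.play 328 (.both (.play 264 (.ref 5 263)) (.play 389 (.ref 63 324)))) (.play 262 (.ref 7 262))))))) (.both (.ref 221 195) (.both (.ref 67 195) (.play 262 (.both (.play 453 (.both (.play 392 (.both (.play 327 (.both (.ref 269 197) (.ref 263 198))) (.play 393 (.ref 1 389)))) (.ref 211 387))) (.play 326 (.ref 4 262)))))))))) (.both (.play 518 (.both (.play 391 (.both (.ref 270 196) (.both (.play 452 (.both (.play 453 (.both (.ref 113 259) (.play 392 (.ref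 2 388)))) (.both (.play 389 (.both (.ref 145 325) (.ref 64 387))) (.play 453 (.ref 191 387))))) (.play 327 (.ref 155 262))))) (.both (.play 391 (.both (.ref 270 196) (.both (.play 327 (.ref 108 262)) (.play 389 (.both (.ref 145 325) (.ref 65 387)))))) (.both (.play 520 (.both (.ref 243 262) (.ref 181 387))) (.ref 254 323))))) (.both (.ref 266 195) (.both (.ref 262 257) (.both (.play 326 (.both (.play 518 (.both (.play 327 (.both (.play 325 (.ref 86 258)) (.play 263 (.ref 5 262)))) (.both (.play 582 (.ref 24 261)) (.ref 257 322)))) (.play 262 (.ref 4 262)))) (.both (.ref 261 258) (.both (.ref 260 258) (.play 326 (.both (.play 518 (.both (.ref 39 259) (.both (.play 582 (.ref 13 261)) (.play 582 (.ref 24 261))))) (.play 262 (.ref 4 262)))))))))))) (.both (.play 453 (.both (.play 452 (.both (.play 451 (.both (.ref 185 195) (.both (.ref 207 384) (.ref 206 384)))) (.both (.play 516 (.both (.play 580 (.both (.ref 249 260) (.ref 139 387))) (.play 515 (.ref 1 451)))) (.play 451 (.ref 30 386))))) (.both (.ref 251 196)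 (.both (.ref 245 386) (.play 520 (.ref 179 451)))))) (.both (.play 518 (.both (.play 390 (.both (.play 391 (.both (.play 327 (.both (.play 519 (.both (.play 263 (.ref 10 199)) (.play 582 (.ref 6 326)))) (.both (.play 263 (.both (.play 454 (.ref 108 198)) (.play 519 (.ref 10 199)))) (.both (.play 454 (.ref 155 262)) (.play 582 (.both (.play 519 (.ref 6 326)) (.play 454 (.ref 5 326)))))))) (.both (.ref 267 260) (.ref 146 323)))) (.both (.ref 268 257) (.both (.play 327 (.both (.play 391 (.both (.play 326 (.both (.play 325 (.both (.play 328 (.ref 54 259)) (.both (.play 328 (.both (.play 329 (.both (.play 266 (.both (.play 265 (.ref 2 262)) (.play 330 (.both (.play 267 (.ref 2 263)) (.play 391 (.ref 1 326)))))) (.ref 14 325))) (.play 264 (.ref 5 263)))) (.play 324 (.ref 144 323))))) (.play 262 (.ref 7 262)))) (.play 582 (.ref 5 326)))) (.both (.play 391 (.ref 155 262)) (.ref 220 262)))) (.both (.play 327 (.both (.ref 259 260) (.ref 220 262))) (.play 326 (.both (.play 582 (.both (.ref 12 261) (.ref 139 389))) (.play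 262 (.ref 4 262))))))))) (.both (.play 517 (.both (.play 581 (.both (.play 520 (.both (.play 457 (.both (.play 456 (.ref 186 197)) (.both (.play 456 (.ref 161 453)) (.play 521 (.ref 140 454))))) (.play 580 (.ref 1 516)))) (.play 390 (.ref 172 325)))) (.both (.play 520 (.ref 128 451)) (.play 456 (.ref 63 452))))) (.both (.play 390 (.both (.ref 268 257) (.both (.play 391 (.both (.ref 267 260) (.both (.ref 146 323) (.ref 120 326)))) (.both (.play 582 (.ref 195 261)) (.play 582 (.both (.play 326 (.both (.play 262 (.ref 4 262)) (.play 327 (.both (.play 263 (.ref 5 262)) (.play 391 (.ref 6 326)))))) (.play 645 (.both (.play 581 (.ref 6 389)) (.ref 158 453))))))))) (.both (.play 520 (.both (.play 456 (.both (.play 457 (.both (.ref 105 262) (.play 458 (.ref 1 454)))) (.both (.ref 213 388) (.play 517 (.ref 191 452))))) (.both (.ref 243 262) (.both (.play 517 (.ref 128 451)) (.ref 180 451))))) (.both (.play 582 (.both (.play 581 (.both (.play 390 (.both (.ref 40 261) (.play 645 (.ref 6 389)))) (.ref 157 515))) (.both (.play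 390 (.ref 195 261)) (.ref 120 390)))) (.play 517 (.both (.play 582 (.both (.play 391 (.ref 155 326)) (.ref 156 387))) (.play 456 (.ref 63 452)))))))))) (.both (.play 453 (.both (.ref 252 196) (.both (.play 452 (.both (.ref 246 385) (.both (.play 391 (.both (.ref 115 385) (.play 392 (.ref 2 388)))) (.play 456 (.ref 29 387))))) (.both (.ref 248 386) (.play 520 (.ref 179 451)))))) (.both (.play 390 (.both (.ref 266 195) (.both (.play 391 (.both (.ref 67 195) (.both (.play 389 (.both (.play 388 (.both (.ref 113 195) (.play 387 (.ref 0 387)))) (.both (.play 453 (.both (.ref 241 260) (.ref 211 387))) (.both (.play 392 (.ref 54 323)) (.ref 65 387))))) (.both (.play 518 (.both (.ref 265 260) (.both (.play 327 (.ref 155 262)) (.play 582 (.both (.ref 253 387) (.play 646 (.ref 5 390))))))) (.ref 264 260))))) (.both (.play 391 (.both (.ref 221 195) (.both (.ref 67 195) (.both (.play 392 (.both (.play 262 (.both (.play 327 (.both (.ref 263 198) (.ref 258 260))) (.play 326 (.ref 4 262)))) (.both (.ref 219 197) (.play 389 (.ref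 54 323))))) (.play 520 (.both (.ref 208 198) (.play 521 (.both (.play 453 (.both (.play 452 (.ref 0 452)) (.play 456 (.ref 0 453)))) (.play 522 (.ref 3 454)))))))))) (.both (.ref 262 257) (.both (.play 326 (.both (.ref 83 258) (.play 262 (.ref 4 262)))) (.both (.ref 261 258) (.both (.ref 260 258) (.play 518 (.both (.ref 192 259) (.both (.play 327 (.both (.play 520 (.both (.play 391 (.ref 256 262)) (.play 453 (.ref 53 452)))) (.both (.play 391 (.both (.ref 255 261) (.play 582 (.ref 5 326)))) (.ref 220 262)))) (.ref 254 323)))))))))))) (.both (.play 453 (.both (.play 456 (.both (.play 517 (.both (.play 581 (.both (.play 389 (.both (.ref 74 196) (.both (.play 325 (.ref 10 261)) (.play 388 (.both (.play 324 (.ref 7 324)) (.play 387 (.ref 179 385))))))) (.both (.play 390 (.both (.play 326 (.both (.play 453 (.ref 66 261)) (.play 518 (.ref 6 325)))) (.both (.play 453 (.ref 104 261)) (.both (.play 518 (.ref 172 325)) (.play 645 (.both (.play 453 (.ref 5 389)) (.play 518 (.ref 171 389)))))))) (.both (.play 645 (.ref 69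 324)) (.both (.play 645 (.both (.play 389 (.ref 13 324)) (.play 709 (.both (.play 518 (.ref 5 453)) (.ref 8 453))))) (.play 645 (.both (.play 390 (.ref 5 389)) (.ref 47 452)))))))) (.play 516 (.ref 1 452)))) (.both (.play 457 (.ref 29 388)) (.ref 184 389)))) (.both (.ref 101 196) (.both (.ref 248 386) (.play 520 (.ref 179 451)))))) (.both (.play 453 (.both (.play 456 (.both (.play 520 (.both (.play 517 (.both (.play 389 (.both (.ref 215 196) (.play 388 (.ref 3 388)))) (.play 516 (.ref 1 452)))) (.play 521 (.ref 0 453)))) (.both (.play 457 (.ref 30 388)) (.ref 38 389)))) (.both (.ref 238 386) (.both (.play 456 (.both (.ref 18 387) (.both (.play 518 (.ref 54 387)) (.play 457 (.ref 30 388))))) (.play 520 (.ref 179 451)))))) (.both (.play 453 (.both (.ref 252 196) (.both (.ref 238 386) (.both (.ref 31 386) (.both (.ref 248 386) (.both (.ref 245 386) (.play 520 (.both (.ref 117 386) (.both (.ref 226 388) (.play 521 (.both (.play 519 (.both (.play 452 (.ref 0 452)) (.play 522 (.ref 3 454)))) (.play 456 (.ref 0 453)))))))))))))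 (.both (.play 453 (.both (.play 452 (.both (.ref 100 195) (.both (.ref 230 386) (.ref 229 450)))) (.both (.play 456 (.both (.ref 113 260) (.both (.play 457 (.ref 19 388)) (.play 457 (.ref 16 452))))) (.both (.ref 238 386) (.play 520 (.ref 179 451)))))) (.both (.play 453 (.both (.ref 251 196) (.both (.play 452 (.both (.play 516 (.both (.ref 249 260) (.play 515 (.ref 1 451)))) (.both (.ref 18 386) (.ref 230 386)))) (.both (.ref 248 386) (.play 520 (.ref 179 451)))))) (.both (.play 453 (.both (.play 452 (.both (.ref 113 259) (.both (.ref 247 385) (.both (.ref 246 385) (.ref 117 385))))) (.both (.play 456 (.both (.ref 113 260) (.both (.play 457 (.ref 30 388)) (.play 457 (.ref 29 388))))) (.both (.play 452 (.both (.ref 246 385) (.both (.play 456 (.ref 30 387)) (.play 456 (.ref 29 387))))) (.both (.play 452 (.both (.ref 246 385) (.both (.play 451 (.ref 29 386)) (.play 456 (.ref 30 387))))) (.both (.play 452 (.both (.ref 205 385) (.both (.ref 117 385) (.both (.play 451 (.ref 30 386)) (.play 456 (.ref 30 387)))))) (.both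 (.play 452 (.both (.ref 247 385) (.both (.ref 246 385) (.play 456 (.ref 29 387))))) (.ref 31 386)))))))) (.play 453 (.both (.play 456 (.both (.ref 113 260) (.both (.play 452 (.ref 30 387)) (.play 457 (.ref 29 388))))) (.both (.ref 225 260) (.both (.ref 245 386) (.play 520 (.ref 179 451)))))))))))))))))))
 (.one (.play 455 (.both (.ref 272 0) (.both (.ref 244 64) (.both (.play 391 (.both (.ref 80 131) (.both (.play 326 (.both (.play 390 (.both (.play 262 (.both (.play 198 (.ref 4 198)) (.play 454 (.ref 4 262)))) (.play 583 (.ref 7 326)))) (.both (.play 328 (.both (.play 327 (.ref 93 258)) (.both (.play 327 (.ref 91 259)) (.ref 84 326)))) (.play 327 (.ref 92 259))))) (.both (.ref 44 198) (.ref 48 323))))) (.both (.play 391 (.both (.ref 80 131) (.both (.play 328 (.both (.play 392 (.ref 90 199)) (.both (.play 327 (.ref 89 258)) (.play 326 (.both (.play 327 (.ref 88 258)) (.both (.play 327 (.ref 86 259)) (.ref 84 326))))))) (.both (.ref 70 198) (.ref 83 323))))) (.both (.play 391 (.both (.play 327 (.both (.play 518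 (.both (.play 263 (.both (.play 199 (.ref 23 134)) (.play 454 (.ref 6 262)))) (.play 582 (.ref 6 326)))) (.both (.play 263 (.ref 10 199)) (.play 583 (.ref 24 262))))) (.both (.play 327 (.both (.play 520 (.both (.play 263 (.both (.play 199 (.ref 24 134)) (.play 456 (.ref 4 263)))) (.play 584 (.ref 4 327)))) (.both (.play 263 (.ref 13 198)) (.play 583 (.ref 23 262))))) (.both (.play 327 (.ref 81 195)) (.both (.ref 77 198) (.both (.ref 82 198) (.play 583 (.ref 34 323)))))))) (.both (.play 391 (.both (.play 327 (.ref 59 132)) (.both (.play 327 (.ref 81 195)) (.both (.ref 82 198) (.ref 49 387))))) (.both (.play 391 (.both (.ref 80 131) (.both (.play 327 (.ref 81 195)) (.both (.ref 77 198) (.both (.ref 76 198) (.both (.ref 52 198) (.both (.play 327 (.both (.ref 40 198) (.both (.play 263 (.ref 10 199)) (.ref 25 326)))) (.ref 75 323)))))))) (.both (.play 391 (.both (.play 327 (.ref 81 195)) (.both (.ref 44 198) (.both (.ref 62 198) (.both (.ref 52 198) (.both (.ref 70 198) (.both (.play 327 (.both (.play 520 (.both (.play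 518 (.both (.play 263 (.both (.play 454 (.ref 6 262)) (.play 456 (.ref 4 263)))) (.play 582 (.ref 6 326)))) (.play 584 (.ref 4 327)))) (.both (.play 583 (.ref 13 262)) (.play 583 (.ref 10 263))))) (.play 583 (.both (.ref 33 323) (.both (.play 647 (.ref 13 326)) (.play 647 (.ref 10 327)))))))))))) (.both (.play 391 (.both (.ref 73 195) (.both (.play 327 (.both (.play 263 (.ref 10 199)) (.play 583 (.ref 13 262)))) (.both (.play 583 (.ref 81 259)) (.both (.play 583 (.both (.play 327 (.ref 13 262)) (.both (.ref 40 262) (.play 647 (.ref 24 326))))) (.both (.play 583 (.both (.play 327 (.ref 13 262)) (.both (.play 327 (.ref 23 262)) (.ref 47 390)))) (.ref 72 323))))))) (.both (.play 583 (.both (.ref 80 195) (.both (.ref 77 262) (.both (.ref 76 262) (.ref 75 387))))) (.both (.play 583 (.both (.play 391 (.both (.ref 74 198) (.both (.play 647 (.ref 13 326)) (.play 647 (.ref 24 326))))) (.both (.ref 73 259) (.both (.play 391 (.ref 41 262)) (.both (.play 391 (.ref 22 323)) (.both (.play 647 (.both (.play 391 (.ref 13 326))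 (.play 711 (.ref 10 391)))) (.ref 72 387))))))) (.both (.play 391 (.both (.ref 71 195) (.both (.ref 27 262) (.both (.ref 68 262) (.ref 50 323))))) (.both (.play 583 (.both (.ref 71 259) (.both (.ref 70 262) (.both (.ref 27 326) (.both (.ref 68 326) (.both (.play 647 (.both (.ref 40 326) (.both (.play 711 (.ref 10 391)) (.ref 25 454)))) (.both (.play 647 (.ref 22 387)) (.ref 50 387)))))))) (.both (.play 583 (.both (.play 391 (.both (.play 327 (.ref 24 262)) (.both (.play 327 (.ref 10 263)) (.ref 32 387)))) (.both (.play 647 (.both (.play 454 (.both (.play 518 (.both (.ref 67 259) (.play 711 (.ref 7 454)))) (.play 390 (.ref 7 390)))) (.both (.play 391 (.ref 10 327)) (.play 711 (.ref 23 390))))) (.both (.ref 62 262) (.both (.ref 50 387) (.ref 49 451)))))) (.both (.play 583 (.both (.ref 60 259) (.both (.play 647 (.ref 59 260)) (.both (.ref 52 262) (.both (.ref 50 387) (.ref 49 451)))))) (.both (.play 583 (.both (.play 391 (.both (.ref 40 262) (.both (.play 327 (.ref 23 262)) (.both (.play 327 (.ref 10 263)) (.ref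 39 324))))) (.both (.ref 44 262) (.both (.ref 26 326) (.both (.play 647 (.ref 41 326)) (.both (.play 647 (.both (.ref 40 326) (.both (.play 711 (.ref 13 390)) (.ref 25 454)))) (.both (.play 647 (.both (.ref 39 388) (.both (.play 711 (.ref 13 390)) (.play 711 (.ref 10 391))))) (.play 647 (.both (.ref 39 388) (.both (.ref 37 390) (.ref 36 390))))))))))) (.play 583 (.both (.play 391 (.ref 34 323)) (.both (.ref 27 326) (.both (.ref 26 326) (.both (.play 647 (.both (.play 391 (.ref 23 326)) (.both (.play 454 (.both (.play 390 (.ref 7 390)) (.play 711 (.both (.play 518 (.ref 7 454)) (.play 775 (.ref 24 454)))))) (.play 711 (.ref 10 391))))) (.both (.play 647 (.both (.play 391 (.ref 24 326)) (.both (.play 711 (.ref 13 390)) (.play 456 (.both (.play 392 (.ref 5 391)) (.play 711 (.both (.play 775 (.ref 23 454)) (.play 520 (.ref 5 455))))))))) (.play 647 (.ref 22 387)))))))))))))))))))))))))))))))))))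
    (by decide +kernel)

theorem Cert_L6 : PW ⟨20, nat_lit 1167984798111281975972139931059274579172666497855631342228273284582214442805421410945513679697247078343332431250840168271536308408672112127552681297848886832192510636636227827221215793215130566656, nat_lit 27976521739257904734453851654947595888090427529140706052342747257575427077370767717422038782244839348893667443148919126687298155568624908801512484014985926525129690890730730647199641347577709858123662828086723978844765726220507550336991408170951405969989049598252462791411923931510652884812722076325657864361388612379465276113558686587722956834167040933199123663680725542512935028643594496, 16, nat_lit 27976521739257904734453851654947595888090427529140706052342747257575427077370767717422038782244839348893667443148919126687298155568624908801512484014985926525129690890730730647199641347577709858123662828086723978844765726220507550336991408170951405969989049598252462791411923931510652884812722076325657864361388612379465276113558686587722956834167040933199123663680725542512935028643594496⟩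 :=
  sound2 baseTbl baseTbl_ok
    (.seq (.seq (.seq (.seq (.seq (.seq (.seq (.seq (.one (.play 256 (.both (.play 192 (.ref 6 0)) (.play 320 (.ref 6 64)))))
 (.one (.play 65 (.both (.play 1 (.ref 5 0)) (.play 129 (.ref 5 64))))))
 (.seq (.one (.both (.ref 9 1) (.ref 8 64)))
 (.one (.play 64 (.both (.play 0 (.ref 7 0)) (.play 128 (.ref 7 64)))))))
 (.seq (.seq (.one (.both (.ref 11 0) (.ref 8 64)))
 (.one (.play 257 (.both (.play 321 (.ref 12 0)) (.play 66 (.ref 5 1))))))
 (.seq (.one (.play 66 (.both (.play 2 (.ref 5 1)) (.ref 13 64))))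
 (.one (.play 257 (.both (.play 193 (.ref 4 0)) (.play 321 (.ref 4 64))))))))
 (.seq (.seq (.seq (.one (.both (.ref 9 0) (.ref 15 64)))
 (.one (.play 257 (.both (.play 321 (.ref 16 1)) (.play 320 (.ref 6 64))))))
 (.seq (.one (.play 256 (.both (.play 192 (.ref 6 0)) (.ref 17 0))))
 (.one (.both (.ref 8 0) (.ref 15 1)))))
 (.seq (.seq (.one (.both (.ref 11 0) (.ref 15 65)))
 (.one (.play 68 (.both (.play 67 (.ref 0 0)) (.play 69 (.ref 0 1))))))
 (.seq (.one (.play 65 (.both (.play 64 (.ref 1 0)) (.play 66 (.ref 1 1)))))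
 (.seq (.one (.both (.ref 22 0) (.ref 21 1)))
 (.one (.play 1 (.both (.play 0 (.ref 3 0)) (.play 2 (.ref 3 1))))))))))
 (.seq (.seq (.seq (.seq (.one (.both (.ref 24 0) (.ref 22 64)))
 (.one (.both (.ref 24 0) (.ref 21 65))))
 (.seq (.one (.play 66 (.both (.play 65 (.ref 26 0)) (.both (.play 65 (.ref 25 0)) (.play 70 (.ref 23 65))))))
 (.one (.play 67 (.both (.play 69 (.both (.ref 27 0) (.play 5 (.ref 5 4)))) (.play 3 (.ref 7 3)))))))
 (.seq (.seq (.one (.play 4 (.both (.play 3 (.ref 2 0)) (.play 5 (.ref 2 1)))))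
 (.one (.both (.ref 24 0) (.ref 29 1))))
 (.seq (.one (.both (.ref 29 1) (.ref 22 64)))
 (.seq (.one (.play 66 (.both (.play 65 (.ref 25 0)) (.both (.play 65 (.ref 31 0)) (.play 70 (.ref 30 1))))))
 (.one (.play 195 (.both (.play 197 (.both (.play 261 (.ref 4 4)) (.ref 32 128))) (.play 259 (.ref 6 3)))))))))
 (.seq (.seq (.seq (.one (.play 196 (.both (.ref 33 0) (.both (.play 260 (.both (.ref 8 3) (.both (.play 324 (.ref 10 3)) (.both (.ref 14 3) (.play 324 (.both (.ref 28 64) (.both (.play 388 (.ref 20 67)) (.both (.ref 14 67) (.play 388 (.ref 16 68)))))))))) (.both (.play 260 (.ref 19 3)) (.both (.ref 18 3) (.both (.play 261 (.both (.play 260 (.both (.ref 14 3) (.play 325 (.ref 4 68)))) (.play 197 (.ref 4 4)))) (.play 261 (.both (.play 260 (.both (.play 324 (.ref 10 3)) (.play 325 (.ref 4 68)))) (.play 197 (.ref 4 4)))))))))))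
 (.one (.play 257 (.both (.play 64 (.ref 7 0)) (.play 321 (.ref 16 1))))))
 (.seq (.one (.play 64 (.both (.play 0 (.ref 7 0)) (.ref 35 64))))
 (.one (.play 68 (.both (.play 0 (.ref 3 0)) (.play 69 (.ref 3 1)))))))
 (.seq (.seq (.one (.play 65 (.both (.play 64 (.ref 2 0)) (.ref 22 64))))
 (.one (.both (.ref 38 0) (.play 70 (.both (.play 71 (.ref 3 3)) (.ref 21 66))))))
 (.seq (.one (.both (.play 192 (.ref 4 0)) (.play 321 (.ref 7 64))))
 (.seq (.one (.both (.play 0 (.ref 3 0)) (.play 64 (.ref 2 0))))
 (.one (.play 65 (.both (.play 66 (.both (.play 5 (.ref 2 1)) (.play 133 (.ref 3 65)))) (.play 129 (.ref 41 64)))))))))))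
 (.seq (.seq (.seq (.seq (.seq (.one (.play 133 (.both (.play 197 (.both (.play 130 (.both (.ref 42 0) (.play 198 (.ref 0 130)))) (.play 261 (.ref 40 4)))) (.both (.play 130 (.ref 39 64)) (.ref 37 66)))))
 (.one (.play 324 (.both (.play 68 (.ref 12 3)) (.both (.play 323 (.both (.play 259 (.both (.play 68 (.ref 6 67)) (.ref 43 192))) (.play 387 (.ref 6 131)))) (.play 388 (.ref 20 67)))))))
 (.seq (.one (.both (.play 0 (.ref 0 0)) (.play 69 (.ref 3 1))))
 (.one (.play 256 (.both (.play 1 (.ref 5 0)) (.play 320 (.ref 5 64)))))))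
 (.seq (.seq (.one (.play 130 (.both (.play 194 (.both (.play 66 (.both (.ref 46 2) (.play 65 (.ref 45 64)))) (.play 193 (.ref 1 129)))) (.both (.ref 38 64) (.play 65 (.both (.play 129 (.ref 41 64)) (.play 66 (.ref 0 65))))))))
 (.one (.play 260 (.both (.play 259 (.both (.play 195 (.both (.play 4 (.ref 6 3)) (.ref 47 128))) (.play 323 (.ref 6 67)))) (.play 325 (.ref 4 68))))))
 (.seq (.one (.play 129 (.both (.play 65 (.ref 12 0)) (.play 322 (.ref 4 129)))))
 (.one (.play 256 (.both (.play 192 (.ref 6 0)) (.play 257 (.both (.play 321 (.ref 20 0)) (.play 320 (.ref 6 64))))))))))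
 (.seq (.seq (.seq (.one (.play 257 (.both (.play 321 (.ref 12 0)) (.play 322 (.ref 4 65)))))
 (.one (.play 258 (.both (.ref 51 0) (.play 194 (.ref 4 1))))))
 (.seq (.one (.both (.ref 29 0) (.ref 21 64)))
 (.one (.play 69 (.both (.play 70 (.ref 31 1)) (.both (.play 70 (.ref 53 2)) (.play 65 (.ref 23 64))))))))
 (.seq (.seq (.one (.play 68 (.both (.play 66 (.both (.ref 54 0) (.play 2 (.ref 7 2)))) (.play 4 (.ref 5 3)))))
 (.one (.play 69 (.both (.play 65 (.ref 30 0)) (.both (.play 70 (.ref 26 1)) (.play 70 (.ref 53 2)))))))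
 (.seq (.one (.play 196 (.both (.play 194 (.both (.play 258 (.ref 6 2)) (.ref 56 128))) (.play 260 (.ref 4 3)))))
 (.seq (.one (.both (.play 64 (.ref 2 0)) (.play 5 (.ref 2 1))))
 (.one (.play 2 (.both (.play 66 (.both (.play 65 (.ref 31 0)) (.play 1 (.ref 3 1)))) (.play 3 (.ref 3 2))))))))))
 (.seq (.seq (.seq (.seq (.one (.play 195 (.both (.play 197 (.both (.play 261 (.ref 4 4)) (.play 198 (.both (.ref 59 128) (.both (.play 263 (.both (.play 133 (.both (.play 194 (.ref 58 129)) (.play 199 (.both (.play 200 (.ref 3 132)) (.play 264 (.ref 0 196)))))) (.play 262 (.ref 0 195)))) (.play 199 (.ref 26 130))))))) (.play 259 (.ref 6 3)))))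
 (.one (.both (.play 65 (.ref 10 0)) (.both (.play 385 (.ref 16 65)) (.play 385 (.ref 19 128))))))
 (.seq (.one (.both (.play 193 (.ref 6 0)) (.play 320 (.ref 5 64))))
 (.one (.play 68 (.both (.play 67 (.both (.play 0 (.ref 3 0)) (.play 128 (.ref 2 64)))) (.play 132 (.both (.play 133 (.ref 3 65)) (.play 69 (.ref 2 65)))))))))
 (.seq (.seq (.one (.play 323 (.both (.play 67 (.ref 16 3)) (.both (.play 324 (.both (.play 260 (.both (.play 67 (.ref 4 67)) (.play 322 (.both (.play 386 (.both (.play 325 (.both (.ref 63 194) (.play 385 (.ref 1 321)))) (.play 450 (.ref 62 194)))) (.both (.play 321 (.ref 58 256)) (.play 325 (.ref 39 256))))))) (.play 388 (.ref 4 131)))) (.play 387 (.ref 10 66))))))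
 (.one (.play 257 (.both (.play 64 (.ref 7 0)) (.play 321 (.ref 19 64))))))
 (.seq (.one (.play 64 (.both (.play 0 (.ref 7 0)) (.ref 65 64))))
 (.seq (.one (.play 4 (.both (.play 64 (.ref 1 0)) (.play 5 (.ref 1 1)))))
 (.one (.play 68 (.both (.ref 29 0) (.play 69 (.ref 1 65)))))))))
 (.seq (.seq (.seq (.one (.play 65 (.both (.ref 24 0) (.play 64 (.ref 0 64)))))
 (.one (.both (.ref 69 0) (.ref 68 2))))
 (.seq (.one (.both (.play 0 (.ref 0 0)) (.play 64 (.ref 1 0))))
 (.one (.play 65 (.both (.play 1 (.ref 71 0)) (.play 66 (.both (.play 5 (.ref 1 1)) (.play 133 (.ref 0 65)))))))))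
 (.seq (.seq (.one (.both (.play 1 (.ref 6 0)) (.play 128 (.ref 5 64))))
 (.one (.play 195 (.both (.play 259 (.both (.play 197 (.both (.play 133 (.both (.play 69 (.ref 73 4)) (.play 194 (.both (.play 134 (.ref 2 130)) (.ref 72 192))))) (.both (.play 194 (.ref 70 128)) (.ref 67 194)))) (.play 452 (.ref 7 195)))) (.play 131 (.ref 7 131))))))
 (.seq (.one (.play 66 (.both (.play 65 (.ref 25 0)) (.play 6 (.ref 2 2)))))
 (.seq (.one (.play 321 (.both (.play 65 (.ref 16 1)) (.both (.play 385 (.ref 10 64)) (.play 385 (.ref 19 128))))))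
 (.one (.play 257 (.both (.play 129 (.both (.ref 76 0) (.play 128 (.ref 3 128)))) (.play 256 (.ref 1 192))))))))))))
 (.seq (.seq (.seq (.seq (.seq (.seq (.one (.both (.play 64 (.ref 2 0)) (.play 5 (.ref 1 1))))
 (.one (.both (.play 1 (.ref 6 0)) (.play 320 (.ref 5 64)))))
 (.seq (.one (.play 257 (.both (.play 0 (.ref 7 0)) (.ref 52 64))))
 (.one (.play 257 (.both (.play 0 (.ref 7 0)) (.play 321 (.ref 19 64)))))))
 (.seq (.seq (.one (.play 257 (.both (.ref 15 1) (.play 321 (.ref 7 64)))))
 (.one (.play 65 (.both (.play 1 (.ref 6 0)) (.ref 9 1)))))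
 (.seq (.one (.both (.ref 83 0) (.ref 82 128)))
 (.one (.both (.play 1 (.ref 6 0)) (.play 320 (.ref 6 64)))))))
 (.seq (.seq (.seq (.one (.play 257 (.both (.play 2 (.ref 5 1)) (.ref 18 64))))
 (.one (.play 64 (.both (.play 0 (.ref 4 0)) (.play 321 (.ref 4 64))))))
 (.seq (.one (.play 65 (.both (.ref 11 0) (.play 1 (.ref 4 1)))))
 (.one (.both (.ref 88 0) (.play 385 (.both (.ref 8 128) (.play 449 (.ref 5 193))))))))
 (.seq (.seq (.one (.play 257 (.both (.ref 8 0) (.both (.ref 52 64) (.both (.ref 80 64) (.play 321 (.both (.play 64 (.ref 7 64)) (.play 257 (.ref 19 64)))))))))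
 (.one (.play 131 (.both (.play 67 (.ref 85 2)) (.both (.play 323 (.ref 84 2)) (.play 323 (.both (.ref 90 130) (.play 324 (.ref 0 256)))))))))
 (.seq (.one (.play 195 (.both (.ref 91 0) (.play 196 (.ref 2 192)))))
 (.seq (.one (.both (.ref 92 1) (.both (.play 261 (.ref 31 192)) (.play 261 (.ref 23 256)))))
 (.one (.both (.ref 11 0) (.ref 9 1))))))))
 (.seq (.seq (.seq (.seq (.one (.play 129 (.both (.play 65 (.ref 94 0)) (.both (.play 65 (.ref 20 0)) (.play 385 (.ref 16 65))))))
 (.one (.both (.play 0 (.ref 4 0)) (.play 321 (.ref 7 64)))))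
 (.seq (.one (.play 194 (.both (.play 130 (.both (.play 66 (.ref 96 2)) (.play 129 (.ref 45 128)))) (.play 193 (.ref 0 193)))))
 (.one (.both (.play 5 (.ref 2 1)) (.play 69 (.ref 23 64))))))
 (.seq (.seq (.one (.both (.play 67 (.ref 2 0)) (.play 5 (.ref 1 1))))
 (.one (.both (.play 64 (.ref 2 0)) (.play 5 (.ref 99 1)))))
 (.seq (.one (.both (.play 64 (.ref 2 0)) (.play 2 (.ref 1 1))))
 (.seq (.one (.both (.play 65 (.ref 101 0)) (.play 6 (.ref 1 2))))
 (.one (.play 5 (.both (.play 65 (.both (.play 3 (.ref 101 0)) (.play 68 (.ref 2 1)))) (.both (.play 3 (.ref 102 0)) (.both (.play 68 (.ref 100 1)) (.play 6 (.both (.play 3 (.ref 1 2)) (.play 68 (.ref 99 2)))))))))))))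
 (.seq (.seq (.seq (.one (.play 194 (.both (.ref 77 1) (.both (.play 129 (.both (.play 193 (.both (.play 128 (.ref 3 128)) (.play 132 (.ref 2 129)))) (.play 130 (.ref 3 129)))) (.play 257 (.both (.play 193 (.both (.play 132 (.ref 2 129)) (.play 256 (.ref 1 192)))) (.play 258 (.ref 1 193))))))))
 (.one (.play 260 (.both (.ref 92 1) (.both (.play 261 (.ref 26 192)) (.play 261 (.ref 30 192)))))))
 (.seq (.one (.both (.play 69 (.ref 26 0)) (.play 5 (.ref 2 1))))
 (.one (.both (.play 256 (.ref 6 0)) (.play 257 (.ref 7 0))))))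
 (.seq (.seq (.one (.play 195 (.both (.play 193 (.both (.play 257 (.ref 79 1)) (.ref 37 128))) (.play 259 (.ref 4 2)))))
 (.one (.play 194 (.both (.ref 108 0) (.both (.ref 82 1) (.play 257 (.both (.play 193 (.ref 5 1)) (.play 258 (.ref 107 65)))))))))
 (.seq (.one (.play 66 (.both (.play 65 (.ref 26 0)) (.play 6 (.ref 2 2)))))
 (.seq (.one (.play 66 (.both (.play 5 (.ref 2 2)) (.play 65 (.ref 23 64)))))
 (.one (.play 66 (.both (.play 65 (.ref 25 0)) (.play 5 (.ref 2 2)))))))))))
 (.seq (.seq (.seq (.seq (.seq (.one (.play 67 (.both (.ref 112 0) (.both (.ref 111 0) (.both (.play 66 (.ref 26 1)) (.play 71 (.ref 26 2)))))))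
 (.one (.play 66 (.both (.play 6 (.ref 2 2)) (.play 65 (.ref 23 64))))))
 (.seq (.one (.play 130 (.both (.play 66 (.both (.play 65 (.ref 30 0)) (.play 129 (.ref 1 65)))) (.play 131 (.ref 1 66)))))
 (.one (.play 67 (.both (.ref 115 0) (.both (.play 71 (.ref 26 2)) (.play 66 (.ref 23 65))))))))
 (.seq (.seq (.one (.play 66 (.both (.play 65 (.ref 30 0)) (.play 133 (.ref 0 66)))))
 (.one (.play 67 (.both (.ref 115 0) (.both (.play 134 (.both (.ref 117 0) (.play 135 (.ref 0 67)))) (.play 71 (.ref 23 66)))))))
 (.seq (.one (.both (.play 129 (.ref 6 0)) (.play 128 (.ref 5 0))))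
 (.one (.both (.play 65 (.ref 26 0)) (.both (.play 70 (.ref 30 1)) (.play 70 (.ref 53 2))))))))
 (.seq (.seq (.seq (.one (.play 321 (.both (.play 65 (.ref 12 0)) (.both (.play 385 (.ref 20 64)) (.play 385 (.ref 19 128))))))
 (.one (.play 259 (.both (.play 131 (.both (.ref 121 2) (.play 132 (.ref 2 128)))) (.play 260 (.ref 0 192))))))
 (.seq (.one (.play 196 (.both (.ref 122 1) (.both (.play 197 (.ref 31 128)) (.play 197 (.ref 23 192))))))
 (.one (.both (.play 3 (.ref 0 0)) (.play 69 (.ref 3 1))))))
 (.seq (.seq (.one (.both (.play 0 (.ref 0 0)) (.play 69 (.ref 124 1))))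
 (.one (.both (.play 0 (.ref 0 0)) (.play 66 (.ref 3 1)))))
 (.seq (.one (.both (.play 1 (.ref 126 0)) (.play 70 (.ref 3 2))))
 (.seq (.one (.both (.play 67 (.ref 127 0)) (.both (.play 1 (.both (.play 67 (.ref 126 0)) (.play 4 (.ref 0 1)))) (.both (.play 4 (.ref 125 1)) (.play 70 (.both (.play 67 (.ref 3 2)) (.play 4 (.ref 124 2))))))))
 (.one (.both (.play 69 (.ref 30 0)) (.play 133 (.ref 0 65)))))))))
 (.seq (.seq (.seq (.seq (.one (.play 66 (.both (.play 65 (.ref 25 0)) (.both (.play 70 (.ref 26 1)) (.play 65 (.ref 23 64))))))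
 (.one (.play 1 (.both (.play 0 (.ref 3 0)) (.play 69 (.both (.play 2 (.ref 3 1)) (.play 70 (.ref 23 65))))))))
 (.seq (.one (.play 132 (.both (.play 68 (.ref 129 0)) (.play 131 (.ref 0 64)))))
 (.one (.play 69 (.both (.play 65 (.ref 31 0)) (.both (.play 70 (.ref 53 2)) (.play 70 (.ref 23 65))))))))
 (.seq (.seq (.one (.play 129 (.both (.play 256 (.ref 6 0)) (.play 258 (.ref 4 1)))))
 (.one (.play 132 (.both (.play 68 (.ref 12 3)) (.both (.play 68 (.ref 20 3)) (.ref 33 128))))))
 (.seq (.one (.both (.ref 135 0) (.play 388 (.ref 5 132))))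
 (.seq (.one (.both (.play 257 (.ref 4 0)) (.play 256 (.ref 5 0))))
 (.one (.both (.play 129 (.ref 7 0)) (.play 128 (.ref 4 0))))))))
 (.seq (.seq (.seq (.one (.both (.play 0 (.ref 0 0)) (.play 69 (.ref 0 1))))
 (.one (.play 66 (.both (.play 2 (.ref 7 2)) (.play 65 (.ref 139 64))))))
 (.seq (.one (.play 260 (.both (.ref 140 0) (.play 324 (.ref 4 67)))))
 (.one (.play 69 (.both (.ref 24 0) (.ref 67 66))))))
 (.seq (.seq (.one (.play 194 (.both (.play 261 (.both (.play 197 (.both (.play 133 (.both (.play 69 (.ref 85 4)) (.play 134 (.ref 2 130)))) (.ref 142 129))) (.play 262 (.ref 3 194)))) (.both (.play 197 (.ref 70 128)) (.play 193 (.ref 139 192))))))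
 (.one (.play 129 (.both (.ref 87 1) (.ref 8 128)))))
 (.seq (.one (.play 66 (.both (.play 65 (.ref 25 0)) (.both (.play 65 (.ref 30 0)) (.play 70 (.ref 31 1))))))
 (.seq (.one (.both (.play 65 (.ref 25 0)) (.play 70 (.ref 53 2))))
 (.one (.both (.play 0 (.ref 7 0)) (.play 321 (.ref 7 64))))))))))))
 (.seq (.seq (.seq (.seq (.seq (.seq (.seq (.one (.both (.play 65 (.ref 73 0)) (.play 384 (.ref 5 128))))
 (.one (.play 194 (.both (.play 195 (.both (.play 131 (.ref 148 2)) (.play 196 (.both (.play 193 (.ref 1 192)) (.play 197 (.ref 1 193)))))) (.play 449 (.ref 6 193))))))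
 (.seq (.one (.play 257 (.both (.ref 15 1) (.both (.ref 65 64) (.play 321 (.both (.play 128 (.ref 7 64)) (.ref 18 128)))))))
 (.one (.play 64 (.both (.play 65 (.both (.play 0 (.ref 7 0)) (.play 1 (.ref 4 1)))) (.play 128 (.ref 7 64)))))))
 (.seq (.seq (.one (.play 129 (.both (.ref 151 0) (.ref 8 128))))
 (.one (.both (.ref 152 4) (.both (.play 133 (.ref 12 68)) (.both (.play 388 (.both (.play 387 (.both (.play 324 (.both (.play 133 (.ref 6 132)) (.play 390 (.ref 39 321)))) (.both (.ref 104 192) (.both (.play 390 (.both (.play 454 (.ref 4 197)) (.play 386 (.ref 25 321)))) (.play 390 (.both (.play 454 (.ref 4 197)) (.play 323 (.both (.play 322 (.ref 3 322)) (.play 391 (.both (.play 324 (.ref 3 323)) (.play 392 (.ref 53 324)))))))))))) (.play 452 (.ref 6 196)))) (.ref 141 130))))))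
 (.seq (.one (.play 193 (.both (.play 321 (.both (.ref 95 0) (.play 320 (.ref 1 256)))) (.play 192 (.ref 3 192)))))
 (.one (.play 130 (.both (.play 66 (.both (.play 65 (.ref 26 0)) (.play 129 (.ref 1 65)))) (.play 131 (.ref 1 66))))))))
 (.seq (.seq (.seq (.one (.play 66 (.both (.play 1 (.ref 3 1)) (.play 65 (.ref 23 64)))))
 (.one (.play 2 (.both (.ref 156 0) (.play 3 (.ref 3 2))))))
 (.seq (.one (.play 67 (.both (.ref 157 0) (.play 6 (.ref 2 3)))))
 (.one (.play 257 (.both (.play 193 (.both (.play 0 (.ref 4 0)) (.play 2 (.ref 5 1)))) (.play 256 (.ref 137 64)))))))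
 (.seq (.seq (.one (.play 194 (.both (.play 258 (.ref 6 2)) (.play 133 (.ref 102 128)))))
 (.one (.play 257 (.both (.play 2 (.ref 5 1)) (.play 321 (.ref 7 64))))))
 (.seq (.one (.both (.play 1 (.ref 4 1)) (.play 320 (.ref 6 64))))
 (.seq (.one (.play 258 (.both (.play 67 (.ref 162 2)) (.play 257 (.ref 58 192)))))
 (.one (.play 196 (.both (.play 260 (.both (.play 261 (.both (.play 324 (.both (.play 132 (.ref 89 3)) (.both (.play 325 (.both (.ref 163 65) (.both (.ref 87 68) (.ref 161 132)))) (.both (.play 325 (.both (.ref 161 132) (.play 388 (.both (.ref 160 193) (.play 452 (.ref 5 196)))))) (.ref 159 132))))) (.play 200 (.ref 1 196)))) (.play 259 (.ref 1 195)))) (.both (.ref 158 128) (.both (.play 195 (.both (.ref 155 128) (.play 134 (.ref 2 131)))) (.both (.ref 112 129) (.play 195 (.ref 25 130)))))))))))))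
 (.seq (.seq (.seq (.seq (.one (.play 256 (.both (.play 192 (.ref 6 0)) (.play 257 (.ref 107 64)))))
 (.one (.play 193 (.both (.play 195 (.both (.play 259 (.ref 4 2)) (.ref 63 64))) (.play 257 (.ref 5 1))))))
 (.seq (.one (.play 68 (.both (.play 69 (.ref 3 1)) (.play 128 (.ref 1 64)))))
 (.one (.play 193 (.both (.ref 46 1) (.ref 167 64))))))
 (.seq (.seq (.one (.play 65 (.both (.play 193 (.both (.ref 159 1) (.play 192 (.ref 1 128)))) (.play 64 (.ref 0 64)))))
 (.one (.play 133 (.both (.ref 169 4) (.both (.play 132 (.both (.ref 158 64) (.both (.ref 112 65) (.ref 22 131)))) (.both (.play 132 (.ref 25 67)) (.both (.play 196 (.both (.play 132 (.both (.play 131 (.ref 2 67)) (.play 195 (.ref 1 131)))) (.play 197 (.ref 1 132)))) (.play 68 (.both (.play 132 (.ref 41 67)) (.play 69 (.ref 3 68)))))))))))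
 (.seq (.one (.play 257 (.both (.play 0 (.ref 7 0)) (.play 321 (.ref 5 65)))))
 (.seq (.one (.play 129 (.both (.play 66 (.both (.ref 171 2) (.play 65 (.ref 71 64)))) (.both (.play 69 (.both (.play 66 (.ref 70 0)) (.play 130 (.ref 2 65)))) (.play 130 (.ref 58 64))))))
 (.one (.play 66 (.both (.play 2 (.ref 7 2)) (.play 133 (.ref 127 64)))))))))
 (.seq (.seq (.seq (.one (.play 131 (.both (.ref 87 3) (.ref 173 64))))
 (.one (.both (.play 0 (.ref 4 0)) (.play 321 (.ref 40 64)))))
 (.seq (.one (.both (.play 0 (.ref 4 0)) (.play 129 (.ref 7 64))))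
 (.one (.both (.play 64 (.ref 176 0)) (.play 385 (.ref 7 128))))))
 (.seq (.seq (.one (.both (.play 64 (.both (.play 193 (.ref 176 0)) (.play 256 (.ref 4 64)))) (.both (.play 193 (.ref 177 0)) (.both (.play 256 (.ref 175 64)) (.play 385 (.both (.play 193 (.ref 7 128)) (.play 256 (.ref 40 128))))))))
 (.one (.play 131 (.both (.play 195 (.both (.play 259 (.ref 96 2)) (.play 196 (.ref 45 128)))) (.play 132 (.ref 3 64))))))
 (.seq (.one (.play 259 (.both (.ref 163 0) (.play 323 (.ref 79 67)))))
 (.seq (.one (.play 257 (.both (.play 66 (.ref 5 1)) (.play 321 (.ref 19 64)))))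
 (.one (.both (.play 5 (.ref 2 1)) (.play 64 (.ref 0 64))))))))))
 (.seq (.seq (.seq (.seq (.seq (.one (.both (.play 1 (.ref 6 0)) (.play 320 (.ref 62 64))))
 (.one (.play 257 (.both (.play 66 (.ref 183 1)) (.play 256 (.ref 1 192))))))
 (.seq (.one (.play 193 (.both (.ref 184 0) (.play 192 (.ref 2 128)))))
 (.one (.play 130 (.both (.play 258 (.both (.ref 87 2) (.play 257 (.ref 78 192)))) (.play 129 (.ref 3 129)))))))
 (.seq (.seq (.one (.play 194 (.both (.ref 186 0) (.both (.ref 69 128) (.play 257 (.both (.play 193 (.ref 71 192)) (.play 258 (.ref 2 193))))))))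
 (.one (.play 197 (.both (.ref 187 0) (.both (.play 194 (.ref 70 128)) (.play 258 (.ref 78 193)))))))
 (.seq (.one (.play 67 (.both (.ref 157 0) (.play 135 (.ref 0 67)))))
 (.one (.play 260 (.both (.ref 154 0) (.both (.play 261 (.ref 31 192)) (.play 261 (.ref 30 192)))))))))
 (.seq (.seq (.seq (.one (.play 6 (.both (.ref 111 0) (.play 7 (.ref 2 3)))))
 (.one (.play 263 (.both (.play 262 (.both (.play 261 (.both (.ref 154 4) (.both (.play 260 (.both (.play 259 (.both (.ref 122 67) (.both (.ref 191 192) (.both (.play 258 (.ref 26 193)) (.play 258 (.ref 30 193)))))) (.both (.ref 191 193) (.both (.play 259 (.ref 31 194)) (.ref 22 259))))) (.both (.ref 158 193) (.ref 112 194))))) (.both (.ref 190 5) (.both (.ref 75 195) (.ref 103 196))))) (.both (.play 327 (.both (.play 199 (.both (.play 135 (.both (.play 71 (.ref 12 6)) (.both (.play 71 (.ref 20 6)) (.play 328 (.both (.play 329 (.both (.play 326 (.both (.play 390 (.ref 6 134)) (.play 325 (.both (.play 324 (.both (.ref 115 257) (.play 264 (.ref 2 260)))) (.both (.ref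 115 258) (.both (.play 324 (.both (.play 325 (.ref 25 259)) (.play 264 (.ref 2 260)))) (.ref 24 260))))))) (.both (.play 326 (.ref 39 260)) (.ref 37 262)))) (.play 392 (.ref 4 135))))))) (.both (.ref 188 4) (.both (.play 135 (.both (.ref 173 68) (.play 328 (.ref 96 71)))) (.play 328 (.both (.play 261 (.both (.play 326 (.both (.play 135 (.ref 162 70)) (.play 325 (.ref 41 260)))) (.both (.play 262 (.ref 139 260)) (.play 329 (.both (.play 326 (.ref 39 260)) (.play 262 (.ref 0 261))))))) (.both (.play 135 (.ref 96 71)) (.ref 43 196)))))))) (.both (.play 391 (.both (.play 199 (.both (.ref 144 6) (.play 201 (.both (.play 198 (.both (.play 197 (.both (.ref 189 129) (.both (.ref 157 130) (.both (.play 196 (.both (.play 197 (.ref 25 131)) (.play 264 (.ref 0 196)))) (.ref 22 196))))) (.play 134 (.ref 7 134)))) (.both (.play 198 (.ref 70 132)) (.ref 67 198)))))) (.play 455 (.ref 5 199)))) (.both (.play 199 (.both (.ref 188 4) (.both (.play 135 (.ref 89 6)) (.play 391 (.both (.play 390 (.both (.play 326 (.both (.play 135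 (.ref 6 134)) (.play 389 (.both (.play 325 (.both (.ref 185 195) (.play 324 (.ref 182 259)))) (.both (.ref 42 259) (.both (.play 325 (.both (.play 324 (.ref 182 259)) (.ref 168 260))) (.play 392 (.ref 39 323)))))))) (.play 454 (.ref 6 198)))) (.both (.play 455 (.ref 19 198)) (.both (.ref 181 198) (.both (.play 455 (.both (.play 264 (.ref 5 199)) (.ref 52 262))) (.play 455 (.both (.play 264 (.ref 5 199)) (.ref 50 262))))))))))) (.both (.play 262 (.both (.play 392 (.both (.play 391 (.both (.play 199 (.both (.ref 152 6) (.play 456 (.ref 4 199)))) (.play 455 (.ref 5 199)))) (.both (.play 328 (.both (.ref 180 132) (.both (.ref 108 198) (.ref 179 198)))) (.both (.play 328 (.both (.play 199 (.both (.play 135 (.ref 4 135)) (.ref 179 198))) (.both (.play 199 (.ref 96 135)) (.ref 150 199)))) (.both (.play 456 (.ref 178 135)) (.play 328 (.both (.play 391 (.both (.play 393 (.both (.play 457 (.ref 4 200)) (.ref 37 326))) (.play 455 (.ref 6 199)))) (.both (.play 456 (.ref 19 199)) (.both (.ref 82 199) (.both (.ref 165 199)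 (.ref 90 199))))))))))) (.ref 75 195))) (.both (.play 199 (.both (.ref 174 4) (.both (.ref 172 132) (.play 392 (.both (.play 328 (.both (.play 135 (.ref 4 135)) (.ref 166 198))) (.both (.play 328 (.ref 96 135)) (.play 391 (.ref 137 199)))))))) (.both (.play 199 (.both (.ref 174 4) (.both (.ref 172 132) (.play 392 (.both (.play 328 (.both (.play 135 (.ref 4 135)) (.play 393 (.both (.play 457 (.ref 4 200)) (.play 326 (.ref 125 325)))))) (.both (.play 328 (.ref 96 135)) (.play 391 (.ref 137 199)))))))) (.both (.play 391 (.ref 136 67)) (.play 328 (.both (.play 329 (.both (.ref 170 193) (.both (.ref 168 198) (.ref 37 262)))) (.both (.ref 43 196) (.both (.ref 109 198) (.play 392 (.both (.ref 166 198) (.both (.play 456 (.ref 19 199)) (.both (.play 457 (.both (.play 393 (.ref 4 200)) (.play 456 (.both (.play 520 (.ref 7 263)) (.play 521 (.ref 4 264)))))) (.both (.ref 165 199) (.ref 150 199)))))))))))))))))) (.both (.play 262 (.both (.play 265 (.ref 93 5)) (.both (.ref 164 65) (.both (.ref 114 195) (.both (.ref 110 195)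 (.both (.play 261 (.ref 98 196)) (.play 201 (.both (.play 261 (.ref 2 197)) (.play 265 (.ref 98 197)))))))))) (.both (.play 262 (.both (.play 261 (.both (.ref 154 4) (.both (.ref 115 194) (.both (.play 260 (.both (.play 259 (.ref 26 194)) (.play 199 (.ref 2 196)))) (.ref 111 194))))) (.both (.play 265 (.both (.ref 154 5) (.both (.play 266 (.ref 26 197)) (.play 266 (.ref 23 261))))) (.both (.ref 118 194) (.both (.play 261 (.both (.ref 115 194) (.both (.play 265 (.ref 26 196)) (.play 265 (.ref 23 260))))) (.both (.ref 116 194) (.both (.ref 113 194) (.ref 27 195)))))))) (.both (.play 391 (.both (.play 199 (.both (.play 327 (.ref 153 2)) (.both (.ref 143 4) (.both (.play 135 (.both (.ref 87 7) (.play 327 (.ref 12 70)))) (.both (.play 198 (.both (.play 327 (.both (.play 134 (.ref 7 134)) (.ref 60 195))) (.play 197 (.ref 139 196)))) (.play 392 (.both (.play 328 (.both (.play 135 (.ref 7 135)) (.play 393 (.both (.play 457 (.ref 4 200)) (.ref 56 325))))) (.both (.play 328 (.ref 147 135)) (.play 390 (.both (.ref 134 198)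 (.both (.play 393 (.ref 120 324)) (.play 393 (.ref 146 324))))))))))))) (.both (.play 327 (.both (.play 199 (.ref 153 2)) (.play 455 (.ref 5 199)))) (.both (.play 392 (.both (.play 393 (.both (.play 329 (.both (.play 265 (.both (.ref 149 7) (.play 457 (.ref 7 200)))) (.ref 75 324))) (.both (.play 329 (.both (.play 457 (.both (.play 265 (.ref 7 200)) (.play 458 (.ref 128 389)))) (.both (.play 457 (.both (.play 265 (.ref 7 200)) (.play 330 (.both (.play 521 (.both (.play 266 (.ref 5 265)) (.ref 150 328))) (.play 331 (.ref 99 327)))))) (.both (.ref 110 324) (.play 330 (.ref 100 326)))))) (.both (.ref 123 198) (.both (.ref 27 324) (.both (.play 390 (.ref 146 324)) (.ref 133 325))))))) (.both (.play 393 (.both (.play 199 (.both (.play 198 (.both (.play 265 (.both (.play 329 (.both (.ref 149 7) (.both (.play 201 (.both (.play 137 (.ref 16 73)) (.play 456 (.ref 6 200)))) (.ref 75 324)))) (.play 266 (.ref 3 198)))) (.both (.play 201 (.ref 70 132)) (.play 197 (.ref 139 196))))) (.both (.ref 143 4) (.play 328 (.ref 147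 135))))) (.both (.play 328 (.both (.play 199 (.ref 147 135)) (.play 457 (.ref 4 200)))) (.play 390 (.ref 146 324))))) (.both (.play 328 (.both (.play 199 (.ref 147 135)) (.play 455 (.ref 6 199)))) (.play 393 (.both (.ref 134 199) (.both (.play 390 (.ref 146 324)) (.ref 145 324)))))))) (.both (.play 327 (.both (.play 199 (.both (.ref 144 6) (.ref 140 132))) (.play 455 (.ref 5 199)))) (.both (.play 199 (.both (.ref 143 4) (.both (.play 327 (.both (.ref 141 132) (.play 455 (.ref 5 199)))) (.play 392 (.both (.play 455 (.ref 119 199)) (.both (.play 328 (.ref 107 199)) (.both (.play 456 (.ref 138 199)) (.play 327 (.ref 137 199))))))))) (.both (.play 327 (.ref 136 67)) (.play 392 (.both (.play 393 (.both (.ref 134 199) (.both (.play 390 (.both (.play 389 (.ref 31 324)) (.both (.play 394 (.ref 53 326)) (.play 389 (.ref 23 388))))) (.ref 133 325)))) (.both (.play 393 (.both (.play 390 (.both (.play 457 (.both (.play 329 (.both (.play 454 (.both (.ref 121 200) (.play 453 (.ref 1 389)))) (.play 330 (.ref 2 326)))) (.play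 458 (.ref 0 390)))) (.both (.play 389 (.ref 30 324)) (.play 389 (.ref 23 388))))) (.both (.play 394 (.both (.ref 122 199) (.both (.play 395 (.both (.play 396 (.both (.ref 77 200) (.both (.play 397 (.ref 31 328)) (.both (.play 397 (.ref 30 328)) (.ref 131 328))))) (.both (.play 396 (.ref 26 327)) (.both (.ref 131 327) (.ref 21 391))))) (.both (.play 395 (.ref 53 327)) (.both (.ref 132 327) (.both (.play 331 (.both (.play 330 (.ref 2 327)) (.play 395 (.ref 106 327)))) (.play 331 (.both (.play 330 (.ref 2 327)) (.play 395 (.both (.ref 131 327) (.play 332 (.ref 2 328)))))))))))) (.both (.ref 32 324) (.both (.ref 130 324) (.both (.play 390 (.both (.play 394 (.ref 30 325)) (.play 389 (.ref 23 388)))) (.both (.play 458 (.both (.ref 117 324) (.both (.play 394 (.ref 129 326)) (.play 459 (.ref 128 390))))) (.play 394 (.ref 120 325))))))))) (.both (.play 393 (.both (.play 390 (.both (.play 457 (.both (.play 329 (.both (.play 265 (.ref 7 200)) (.play 330 (.ref 2 326)))) (.play 458 (.ref 0 390)))) (.play 389 (.ref 25 324))))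 (.both (.ref 123 198) (.both (.ref 27 324) (.both (.play 390 (.both (.play 389 (.ref 25 324)) (.both (.play 394 (.ref 31 325)) (.play 394 (.ref 30 325))))) (.play 390 (.ref 120 324))))))) (.play 455 (.ref 119 199))))))))))))) (.both (.play 262 (.both (.play 265 (.ref 93 5)) (.both (.ref 118 194) (.both (.ref 114 195) (.ref 103 196))))) (.both (.play 262 (.both (.ref 105 5) (.both (.ref 116 194) (.both (.ref 114 195) (.ref 103 196))))) (.both (.play 262 (.both (.ref 105 5) (.both (.ref 113 194) (.both (.ref 110 195) (.ref 103 196))))) (.both (.play 262 (.both (.play 265 (.both (.play 201 (.both (.play 137 (.both (.play 329 (.ref 84 8)) (.both (.play 328 (.ref 79 72)) (.ref 109 135)))) (.play 202 (.ref 2 198)))) (.both (.play 266 (.ref 31 197)) (.play 266 (.ref 23 261))))) (.both (.ref 75 195) (.both (.play 261 (.both (.play 260 (.ref 25 195)) (.both (.play 265 (.ref 26 196)) (.play 265 (.ref 23 260))))) (.play 261 (.ref 106 196)))))) (.both (.play 262 (.both (.ref 105 5) (.both (.ref 104 67) (.both (.ref 103 196)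 (.play 261 (.ref 98 196)))))) (.both (.play 265 (.both (.play 199 (.both (.play 135 (.both (.ref 97 4) (.play 328 (.ref 96 71)))) (.both (.play 135 (.both (.play 327 (.ref 89 6)) (.both (.ref 87 7) (.play 327 (.both (.play 326 (.both (.play 390 (.ref 6 134)) (.play 266 (.ref 1 262)))) (.play 391 (.both (.ref 15 135) (.both (.play 455 (.both (.play 200 (.ref 5 199)) (.play 519 (.ref 19 262)))) (.ref 86 198))))))))) (.play 198 (.ref 45 197))))) (.both (.play 262 (.both (.play 198 (.both (.play 326 (.both (.play 201 (.both (.ref 95 5) (.play 202 (.ref 2 198)))) (.play 325 (.ref 1 261)))) (.play 197 (.ref 3 197)))) (.both (.play 266 (.ref 30 197)) (.play 266 (.ref 23 261))))) (.both (.play 262 (.ref 93 5)) (.both (.play 266 (.both (.play 199 (.both (.play 135 (.both (.play 327 (.ref 89 6)) (.both (.ref 87 7) (.play 327 (.both (.play 391 (.both (.ref 15 135) (.both (.ref 18 198) (.both (.ref 86 198) (.play 455 (.both (.play 391 (.ref 19 198)) (.play 200 (.ref 5 199)))))))) (.play 326 (.ref 1 262))))))) (.play 198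 (.ref 3 198)))) (.both (.play 262 (.ref 26 197)) (.play 262 (.ref 23 261))))) (.play 201 (.both (.play 137 (.both (.play 73 (.ref 85 8)) (.both (.play 329 (.ref 84 8)) (.play 329 (.both (.play 330 (.both (.play 394 (.ref 4 137)) (.play 262 (.ref 0 262)))) (.play 393 (.both (.ref 8 136) (.both (.ref 81 200) (.ref 80 200))))))))) (.both (.play 137 (.both (.play 202 (.both (.play 138 (.both (.play 74 (.ref 79 9)) (.play 139 (.ref 78 135)))) (.play 203 (.ref 1 199)))) (.play 328 (.ref 79 72)))) (.play 202 (.ref 78 198)))))))))) (.play 262 (.both (.play 265 (.both (.ref 77 69) (.both (.play 266 (.ref 26 197)) (.play 266 (.ref 23 261))))) (.both (.ref 75 195) (.play 201 (.both (.play 261 (.ref 2 197)) (.play 202 (.both (.play 199 (.ref 1 198)) (.play 265 (.ref 2 198)))))))))))))))))))))))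
 (.seq (.one (.play 260 (.both (.play 324 (.ref 12 3)) (.both (.play 324 (.ref 20 3)) (.ref 60 64)))))
 (.one (.both (.play 65 (.ref 20 0)) (.both (.play 385 (.ref 12 64)) (.play 385 (.ref 19 128)))))))
 (.seq (.seq (.one (.play 129 (.both (.play 65 (.ref 94 0)) (.both (.play 65 (.ref 16 1)) (.play 385 (.ref 20 64))))))
 (.one (.play 132 (.both (.play 68 (.ref 12 3)) (.both (.play 68 (.ref 16 4)) (.play 323 (.both (.play 325 (.both (.play 131 (.both (.play 67 (.ref 7 67)) (.ref 32 256))) (.play 389 (.ref 4 132)))) (.play 387 (.ref 6 131)))))))))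
 (.seq (.one (.play 129 (.both (.play 65 (.ref 16 1)) (.play 64 (.ref 7 64)))))
 (.seq (.one (.play 128 (.both (.ref 197 0) (.play 192 (.ref 7 128)))))
 (.one (.play 386 (.both (.ref 49 0) (.play 450 (.ref 4 193))))))))))
 (.seq (.seq (.seq (.seq (.one (.play 384 (.both (.play 129 (.both (.play 65 (.ref 16 1)) (.play 320 (.ref 6 128)))) (.play 448 (.ref 6 192)))))
 (.one (.play 65 (.both (.play 64 (.both (.play 1 (.ref 5 0)) (.play 257 (.ref 4 64)))) (.play 129 (.ref 5 64))))))
 (.seq (.one (.play 129 (.both (.play 65 (.ref 12 0)) (.play 66 (.ref 5 65)))))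
 (.one (.play 130 (.both (.ref 202 0) (.play 194 (.ref 5 129)))))))
 (.seq (.seq (.one (.play 260 (.both (.play 324 (.ref 10 3)) (.both (.play 324 (.ref 16 4)) (.ref 60 64)))))
 (.one (.play 129 (.both (.play 65 (.ref 12 0)) (.both (.play 65 (.ref 94 0)) (.play 385 (.ref 10 64)))))))
 (.seq (.one (.play 3 (.both (.play 68 (.ref 0 0)) (.play 4 (.ref 1 0)))))
 (.seq (.one (.play 68 (.both (.play 67 (.both (.play 0 (.ref 0 0)) (.play 128 (.ref 1 64)))) (.ref 206 1))))
 (.one (.play 195 (.both (.play 196 (.both (.play 260 (.both (.play 194 (.both (.play 130 (.both (.play 66 (.ref 176 2)) (.play 197 (.both (.play 129 (.ref 3 129)) (.ref 207 194))))) (.both (.play 197 (.ref 70 128)) (.play 193 (.ref 139 192))))) (.play 451 (.ref 5 195)))) (.play 132 (.ref 5 131)))) (.both (.play 131 (.ref 20 66)) (.play 451 (.ref 16 131))))))))))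
 (.seq (.seq (.seq (.one (.play 67 (.both (.play 4 (.ref 2 0)) (.play 68 (.ref 1 64)))))
 (.one (.play 67 (.both (.play 69 (.both (.play 70 (.both (.ref 155 0) (.both (.play 7 (.both (.play 133 (.both (.ref 209 4) (.play 66 (.ref 139 65)))) (.play 6 (.ref 2 3)))) (.play 71 (.ref 31 2))))) (.play 5 (.ref 5 4)))) (.play 3 (.ref 7 3))))))
 (.seq (.one (.play 67 (.both (.play 69 (.both (.play 259 (.both (.ref 27 0) (.play 323 (.ref 6 67)))) (.play 5 (.ref 5 4)))) (.play 3 (.ref 7 3)))))
 (.one (.play 196 (.both (.ref 74 0) (.both (.play 132 (.ref 10 67)) (.play 452 (.ref 12 131))))))))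
 (.seq (.seq (.one (.both (.ref 211 0) (.both (.play 324 (.ref 12 3)) (.play 324 (.ref 16 4)))))
 (.one (.play 132 (.both (.play 68 (.ref 12 3)) (.both (.play 68 (.ref 10 3)) (.ref 210 64))))))
 (.seq (.one (.play 129 (.both (.play 65 (.both (.play 192 (.ref 73 0)) (.play 257 (.ref 6 64)))) (.both (.play 192 (.ref 148 0)) (.both (.play 257 (.ref 183 64)) (.play 384 (.both (.play 192 (.ref 5 128)) (.play 257 (.ref 62 128)))))))))
 (.seq (.one (.both (.play 69 (.ref 31 0)) (.play 133 (.ref 0 65))))
 (.one (.play 1 (.both (.play 131 (.both (.play 65 (.both (.play 0 (.ref 3 0)) (.play 64 (.ref 0 64)))) (.ref 67 66))) (.play 2 (.ref 3 1))))))))))))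
 (.seq (.seq (.seq (.seq (.seq (.seq (.one (.play 69 (.both (.play 67 (.both (.play 66 (.both (.play 65 (.ref 26 0)) (.both (.ref 217 0) (.play 134 (.both (.play 70 (.ref 216 2)) (.play 133 (.ref 0 66))))))) (.play 3 (.ref 7 3)))) (.play 5 (.ref 5 4)))))
 (.one (.both (.play 0 (.ref 4 0)) (.play 1 (.ref 5 0)))))
 (.seq (.one (.play 65 (.both (.play 64 (.ref 219 0)) (.play 129 (.both (.play 320 (.ref 5 64)) (.play 322 (.ref 4 65)))))))
 (.one (.play 68 (.both (.play 0 (.ref 3 0)) (.play 69 (.ref 1 65)))))))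
 (.seq (.seq (.one (.play 129 (.both (.ref 87 1) (.ref 221 128))))
 (.one (.play 129 (.both (.play 65 (.ref 94 0)) (.play 384 (.ref 6 128))))))
 (.seq (.one (.play 323 (.both (.play 322 (.both (.ref 223 2) (.play 261 (.ref 102 256)))) (.both (.play 131 (.ref 89 2)) (.ref 46 131)))))
 (.one (.play 131 (.both (.play 130 (.both (.play 132 (.both (.play 68 (.ref 79 3)) (.play 129 (.ref 139 128)))) (.play 66 (.ref 7 66)))) (.both (.ref 88 2) (.play 68 (.both (.play 67 (.ref 219 3)) (.play 132 (.ref 6 67)))))))))))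
 (.seq (.seq (.seq (.one (.play 323 (.both (.ref 225 0) (.both (.play 131 (.ref 89 2)) (.play 132 (.ref 79 67))))))
 (.one (.play 66 (.both (.play 65 (.ref 25 0)) (.play 133 (.ref 0 66))))))
 (.seq (.one (.play 67 (.both (.ref 157 0) (.both (.ref 191 0) (.play 71 (.ref 30 2))))))
 (.one (.both (.play 3 (.ref 0 0)) (.play 65 (.ref 3 0))))))
 (.seq (.seq (.one (.both (.play 0 (.ref 0 0)) (.play 69 (.ref 229 1))))
 (.one (.play 66 (.both (.play 65 (.ref 25 0)) (.play 134 (.ref 0 66))))))
 (.seq (.one (.play 4 (.both (.play 3 (.ref 2 0)) (.play 68 (.ref 98 0)))))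
 (.seq (.one (.play 68 (.both (.play 69 (.ref 53 1)) (.play 129 (.ref 1 64)))))
 (.one (.play 130 (.both (.play 129 (.both (.play 65 (.ref 20 0)) (.play 66 (.ref 5 65)))) (.play 194 (.ref 5 129))))))))))
 (.seq (.seq (.seq (.seq (.one (.play 193 (.both (.play 321 (.both (.play 385 (.both (.ref 234 0) (.both (.play 448 (.both (.play 322 (.both (.ref 87 65) (.play 449 (.both (.play 512 (.ref 6 256)) (.play 513 (.ref 5 257)))))) (.play 384 (.ref 6 192)))) (.play 449 (.ref 10 128))))) (.play 320 (.ref 1 256)))) (.play 192 (.ref 3 192)))))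
 (.one (.both (.play 0 (.ref 7 0)) (.play 1 (.ref 6 0)))))
 (.seq (.one (.play 68 (.both (.play 66 (.both (.play 2 (.ref 7 2)) (.ref 72 64))) (.play 4 (.ref 6 3)))))
 (.one (.play 66 (.both (.ref 171 2) (.play 65 (.ref 139 64)))))))
 (.seq (.seq (.one (.play 515 (.both (.play 323 (.both (.play 259 (.both (.play 195 (.both (.ref 203 2) (.play 450 (.ref 6 194)))) (.both (.ref 203 66) (.both (.play 195 (.both (.play 259 (.ref 94 130)) (.play 450 (.ref 6 194)))) (.ref 11 194))))) (.play 324 (.ref 2 320)))) (.both (.play 323 (.ref 84 194)) (.play 579 (.ref 147 322))))))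
 (.one (.play 451 (.both (.ref 239 0) (.play 452 (.ref 0 384))))))
 (.seq (.one (.both (.ref 240 1) (.both (.play 449 (.both (.play 450 (.both (.play 578 (.both (.play 321 (.both (.play 513 (.ref 89 192)) (.play 514 (.ref 7 321)))) (.both (.play 514 (.ref 147 321)) (.play 513 (.both (.ref 167 384) (.play 577 (.ref 137 385))))))) (.play 389 (.ref 1 385)))) (.play 448 (.ref 1 384)))) (.both (.play 389 (.ref 31 320)) (.play 449 (.both (.play 389 (.both (.play 390 (.both (.ref 29 322) (.play 452 (.both (.play 453 (.ref 0 385)) (.play 391 (.ref 1 387)))))) (.play 450 (.ref 1 385)))) (.play 448 (.ref 1 384))))))))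
 (.seq (.one (.play 194 (.both (.play 258 (.ref 79 2)) (.play 193 (.ref 78 128)))))
 (.one (.play 131 (.both (.play 322 (.ref 148 2)) (.play 132 (.ref 2 128)))))))))
 (.seq (.seq (.seq (.one (.play 258 (.both (.ref 154 1) (.both (.play 193 (.both (.play 257 (.both (.play 192 (.ref 3 192)) (.play 324 (.ref 0 257)))) (.play 194 (.ref 3 193)))) (.play 321 (.both (.play 257 (.both (.play 320 (.ref 1 256)) (.play 324 (.ref 0 257)))) (.play 322 (.ref 1 257))))))))
 (.one (.play 132 (.both (.play 68 (.ref 129 0)) (.play 64 (.ref 0 64))))))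
 (.seq (.one (.play 66 (.both (.play 65 (.ref 30 0)) (.play 134 (.ref 0 66)))))
 (.one (.play 67 (.both (.ref 59 0) (.play 134 (.ref 0 67)))))))
 (.seq (.seq (.one (.play 194 (.both (.play 258 (.ref 6 2)) (.ref 42 64))))
 (.one (.both (.play 0 (.both (.play 66 (.ref 3 0)) (.play 2 (.ref 0 0)))) (.both (.play 64 (.both (.play 2 (.ref 1 0)) (.play 66 (.ref 2 0)))) (.both (.play 2 (.ref 71 0)) (.play 66 (.ref 41 0)))))))
 (.seq (.one (.play 256 (.both (.play 64 (.ref 5 0)) (.play 320 (.ref 5 64)))))
 (.seq (.one (.play 195 (.both (.ref 250 3) (.play 194 (.ref 102 128)))))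
 (.one (.both (.play 1 (.ref 6 0)) (.play 322 (.ref 4 65))))))))))
 (.seq (.seq (.seq (.seq (.seq (.one (.play 260 (.both (.play 67 (.ref 252 2)) (.play 193 (.ref 45 192)))))
 (.one (.play 193 (.both (.play 129 (.both (.play 322 (.ref 177 1)) (.play 128 (.ref 3 128)))) (.play 192 (.ref 0 192))))))
 (.seq (.one (.both (.play 1 (.ref 119 0)) (.both (.play 0 (.ref 138 0)) (.both (.play 129 (.ref 236 0)) (.play 128 (.ref 219 0))))))
 (.one (.play 129 (.both (.play 0 (.ref 7 0)) (.play 2 (.ref 5 1)))))))
 (.seq (.seq (.one (.play 66 (.both (.play 69 (.ref 146 0)) (.both (.ref 133 0) (.ref 256 2)))))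
 (.one (.play 68 (.both (.play 69 (.ref 53 1)) (.play 128 (.ref 1 64))))))
 (.seq (.one (.play 194 (.both (.play 258 (.ref 183 2)) (.play 133 (.ref 102 128)))))
 (.one (.play 67 (.both (.ref 173 0) (.play 3 (.ref 4 3))))))))
 (.seq (.seq (.seq (.one (.play 65 (.both (.play 64 (.ref 2 0)) (.play 133 (.ref 0 65)))))
 (.one (.play 129 (.both (.play 65 (.ref 94 0)) (.play 322 (.ref 4 129))))))
 (.seq (.one (.play 257 (.both (.play 193 (.both (.ref 203 0) (.play 386 (.ref 4 193)))) (.both (.ref 262 64) (.ref 11 192)))))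
 (.one (.play 454 (.both (.play 389 (.both (.play 518 (.both (.play 456 (.both (.play 517 (.both (.play 326 (.both (.ref 263 5) (.play 581 (.ref 6 325)))) (.play 516 (.ref 101 451)))) (.play 457 (.ref 3 389)))) (.both (.ref 259 323) (.ref 171 325)))) (.both (.play 388 (.both (.ref 77 195) (.play 387 (.ref 0 387)))) (.play 388 (.ref 139 387))))) (.both (.play 518 (.both (.play 326 (.both (.ref 263 5) (.both (.play 262 (.ref 12 197)) (.ref 160 323)))) (.both (.play 326 (.ref 89 197)) (.both (.ref 238 323) (.ref 259 323))))) (.both (.play 518 (.both (.play 326 (.both (.ref 263 5) (.both (.play 262 (.ref 94 197)) (.both (.ref 151 197) (.both (.play 263 (.both (.play 262 (.ref 219 198)) (.play 327 (.ref 5 262)))) (.ref 237 259)))))) (.both (.ref 238 323) (.ref 46 326)))) (.both (.play 518 (.both (.play 327 (.both (.play 326 (.both (.play 262 (.both (.play 453 (.both (.play 388 (.both (.play 389 (.both (.play 452 (.both (.play 516 (.both (.play 324 (.both (.play 260 (.both (.play 196 (.both (.ref 198 3) (.play 453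 (.ref 4 196)))) (.both (.ref 198 67) (.both (.play 196 (.both (.play 260 (.ref 94 131)) (.play 453 (.ref 4 196)))) (.ref 9 196))))) (.play 323 (.ref 3 323)))) (.both (.play 324 (.ref 89 195)) (.ref 46 324)))) (.play 451 (.ref 1 387)))) (.play 456 (.ref 3 388)))) (.both (.play 324 (.ref 249 323)) (.play 452 (.ref 41 387))))) (.play 517 (.ref 6 261)))) (.play 198 (.ref 4 198)))) (.both (.play 325 (.both (.play 389 (.both (.ref 222 132) (.ref 261 323))) (.both (.play 389 (.both (.ref 254 131) (.ref 261 323))) (.both (.play 328 (.ref 70 259)) (.ref 72 323))))) (.both (.ref 260 195) (.play 262 (.both (.play 198 (.ref 4 198)) (.ref 248 259))))))) (.play 263 (.ref 6 262)))) (.both (.play 326 (.ref 89 197)) (.both (.ref 238 323) (.ref 259 323))))) (.both (.play 389 (.both (.play 456 (.both (.play 262 (.both (.play 520 (.both (.play 263 (.both (.play 261 (.both (.play 325 (.both (.play 260 (.both (.ref 186 66) (.both (.play 259 (.ref 25 194)) (.both (.play 259 (.ref 30 194)) (.play 259 (.ref 31 194)))))) (.play 197 (.ref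 4 197)))) (.both (.ref 145 194) (.both (.play 197 (.both (.play 196 (.ref 128 194)) (.play 325 (.ref 4 197)))) (.both (.ref 56 195) (.play 325 (.both (.ref 258 196) (.play 197 (.ref 4 197))))))))) (.play 327 (.ref 4 263)))) (.play 453 (.both (.play 452 (.both (.play 451 (.ref 58 386)) (.ref 22 451))) (.play 521 (.ref 0 453)))))) (.both (.play 263 (.both (.ref 257 195) (.both (.play 327 (.both (.play 264 (.both (.ref 54 196) (.play 200 (.ref 5 199)))) (.play 520 (.ref 4 263)))) (.play 327 (.ref 252 198))))) (.both (.play 453 (.both (.play 326 (.ref 162 197)) (.both (.play 261 (.ref 255 197)) (.ref 185 259)))) (.play 263 (.ref 255 198)))))) (.play 457 (.ref 3 389)))) (.both (.play 453 (.both (.ref 187 194) (.both (.ref 254 195) (.both (.ref 185 259) (.ref 47 322))))) (.play 456 (.ref 45 388))))) (.both (.play 327 (.both (.ref 215 134) (.both (.ref 253 196) (.play 388 (.both (.play 453 (.both (.play 518 (.both (.ref 242 323) (.play 582 (.ref 5 326)))) (.play 452 (.ref 41 387)))) (.both (.play 389 (.both (.play 328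 (.ref 2 324)) (.play 456 (.ref 0 388)))) (.play 452 (.ref 249 387)))))))) (.both (.play 327 (.both (.ref 253 196) (.both (.play 263 (.ref 85 198)) (.play 456 (.both (.ref 170 320) (.both (.ref 251 323) (.play 389 (.ref 45 388)))))))) (.both (.ref 224 195) (.play 518 (.both (.play 388 (.both (.play 326 (.both (.play 325 (.both (.play 327 (.both (.play 263 (.ref 79 198)) (.play 324 (.ref 71 323)))) (.play 261 (.ref 7 261)))) (.both (.play 262 (.ref 12 197)) (.play 262 (.ref 10 197))))) (.both (.play 327 (.both (.play 389 (.both (.ref 77 195) (.play 328 (.ref 2 324)))) (.play 263 (.ref 6 262)))) (.both (.play 327 (.both (.play 263 (.ref 6 262)) (.play 389 (.ref 182 323)))) (.play 452 (.ref 249 387)))))) (.both (.play 326 (.ref 89 197)) (.ref 46 326))))))))))))))))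
 (.seq (.seq (.one (.play 1 (.both (.play 0 (.ref 0 0)) (.play 4 (.ref 0 1)))))
 (.one (.play 194 (.both (.play 130 (.ref 177 2)) (.ref 265 192)))))
 (.seq (.one (.play 131 (.both (.play 259 (.both (.play 67 (.ref 85 2)) (.play 260 (.ref 45 192)))) (.play 132 (.ref 2 128)))))
 (.seq (.one (.play 195 (.both (.ref 267 0) (.both (.ref 68 128) (.play 260 (.both (.play 259 (.ref 3 192)) (.ref 206 193)))))))
 (.one (.play 197 (.both (.play 261 (.both (.play 198 (.both (.ref 267 3) (.both (.play 199 (.ref 26 130)) (.play 199 (.ref 30 130))))) (.play 133 (.ref 6 132)))) (.both (.ref 32 128) (.both (.play 261 (.both (.ref 231 128) (.play 133 (.ref 6 132)))) (.both (.play 198 (.ref 120 129)) (.play 133 (.both (.ref 103 129) (.play 261 (.ref 6 132)))))))))))))))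
 (.seq (.seq (.seq (.seq (.one (.play 386 (.both (.ref 262 0) (.play 450 (.ref 4 193)))))
 (.one (.play 68 (.both (.play 4 (.ref 5 3)) (.play 129 (.ref 100 64))))))
 (.seq (.one (.play 67 (.both (.ref 271 0) (.play 3 (.ref 6 2)))))
 (.one (.play 130 (.both (.play 131 (.both (.play 129 (.both (.play 65 (.ref 96 1)) (.ref 67 128))) (.play 67 (.ref 5 66)))) (.both (.ref 83 1) (.play 65 (.both (.play 66 (.ref 236 1)) (.play 129 (.ref 4 65))))))))))
 (.seq (.seq (.one (.play 454 (.both (.play 392 (.both (.play 326 (.both (.play 262 (.both (.play 261 (.both (.play 260 (.both (.ref 244 1) (.both (.play 263 (.both (.play 259 (.ref 25 194)) (.play 199 (.ref 5 198)))) (.both (.play 325 (.both (.play 263 (.ref 70 194)) (.play 518 (.ref 7 261)))) (.play 263 (.both (.play 324 (.both (.ref 233 196) (.play 323 (.ref 1 259)))) (.play 199 (.ref 5 198)))))))) (.play 197 (.ref 7 197)))) (.play 198 (.ref 4 198)))) (.both (.ref 266 131) (.both (.play 327 (.both (.ref 225 131) (.both (.play 262 (.both (.ref 97 131) (.ref 87 134)))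 (.both (.ref 273 133) (.ref 272 196))))) (.both (.play 327 (.both (.ref 272 196) (.both (.ref 238 259) (.ref 46 262)))) (.both (.play 263 (.both (.play 327 (.both (.play 262 (.both (.play 261 (.both (.play 264 (.ref 70 195)) (.both (.play 264 (.both (.play 265 (.both (.ref 232 198) (.both (.play 266 (.both (.ref 232 199) (.play 326 (.ref 1 262)))) (.both (.play 266 (.both (.play 265 (.ref 53 198)) (.play 326 (.ref 1 262)))) (.ref 21 261))))) (.play 200 (.ref 5 199)))) (.play 260 (.ref 139 259))))) (.play 198 (.ref 4 198)))) (.play 518 (.ref 6 262)))) (.both (.play 262 (.ref 219 198)) (.play 327 (.ref 85 198))))) (.play 263 (.both (.play 327 (.both (.ref 271 196) (.play 518 (.ref 5 262)))) (.both (.play 327 (.ref 79 198)) (.play 262 (.ref 219 198))))))))))) (.ref 67 389))) (.both (.play 453 (.both (.play 263 (.both (.play 262 (.both (.play 392 (.both (.ref 269 67) (.play 393 (.ref 1 389)))) (.both (.ref 257 195) (.play 326 (.ref 162 197))))) (.both (.play 262 (.both (.play 326 (.both (.play 261 (.both (.ref 27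 194) (.play 197 (.ref 7 197)))) (.play 517 (.ref 6 261)))) (.both (.play 264 (.both (.play 261 (.ref 146 195)) (.both (.ref 130 195) (.ref 256 198)))) (.play 326 (.ref 162 197))))) (.both (.play 456 (.both (.play 392 (.both (.play 264 (.ref 255 199)) (.play 393 (.ref 1 389)))) (.both (.play 327 (.ref 252 198)) (.play 457 (.ref 53 389))))) (.play 262 (.ref 255 198)))))) (.both (.play 452 (.both (.play 516 (.both (.play 580 (.both (.play 388 (.both (.ref 270 195) (.play 387 (.ref 3 387)))) (.both (.play 517 (.both (.play 388 (.ref 89 259)) (.play 456 (.ref 1 452)))) (.both (.play 388 (.both (.play 387 (.ref 3 387)) (.play 644 (.ref 19 387)))) (.play 644 (.both (.ref 33 448) (.both (.play 707 (.both (.play 643 (.ref 6 451)) (.play 708 (.both (.play 517 (.ref 5 452)) (.play 771 (.ref 6 515)))))) (.play 709 (.both (.play 645 (.ref 4 452)) (.play 708 (.both (.play 517 (.ref 5 452)) (.play 773 (.ref 4 516))))))))))))) (.play 515 (.ref 1 451)))) (.play 451 (.ref 2 387)))) (.play 392 (.ref 78 388))))) (.both (.play 392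 (.both (.play 263 (.both (.play 262 (.both (.play 453 (.both (.ref 269 67) (.play 452 (.ref 2 388)))) (.both (.ref 257 195) (.both (.play 326 (.both (.play 518 (.ref 12 197)) (.play 198 (.ref 4 198)))) (.play 326 (.ref 219 198)))))) (.both (.play 327 (.both (.ref 218 195) (.play 518 (.ref 6 262)))) (.both (.play 327 (.ref 85 198)) (.play 262 (.ref 255 198)))))) (.both (.play 326 (.both (.play 262 (.both (.play 263 (.both (.play 327 (.both (.play 261 (.both (.ref 268 69) (.both (.play 264 (.ref 70 195)) (.play 328 (.ref 45 260))))) (.play 518 (.ref 5 262)))) (.play 199 (.ref 5 198)))) (.both (.play 198 (.ref 94 133)) (.both (.play 198 (.both (.ref 11 133) (.play 391 (.ref 4 198)))) (.play 198 (.both (.ref 9 134) (.play 391 (.ref 4 198)))))))) (.both (.ref 266 131) (.play 393 (.both (.play 325 (.ref 3 325)) (.play 394 (.both (.ref 29 326) (.both (.ref 233 327) (.play 395 (.both (.ref 132 328) (.play 456 (.ref 1 391)))))))))))) (.play 453 (.ref 78 388))))) (.both (.ref 226 195) (.both (.ref 224 195) (.both (.play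 453 (.both (.ref 164 256) (.both (.play 517 (.both (.play 326 (.ref 183 261)) (.ref 258 388))) (.play 392 (.ref 78 388))))) (.play 453 (.both (.ref 164 256) (.both (.play 456 (.both (.play 520 (.both (.play 392 (.both (.play 584 (.ref 147 327)) (.play 393 (.ref 78 389)))) (.play 521 (.ref 0 453)))) (.both (.play 457 (.ref 31 388)) (.play 457 (.ref 23 452))))) (.play 392 (.ref 78 388)))))))))))))
 (.one (.play 321 (.both (.play 257 (.both (.play 193 (.both (.ref 198 0) (.play 384 (.ref 6 192)))) (.both (.play 193 (.both (.play 129 (.ref 94 64)) (.play 384 (.ref 6 192)))) (.ref 9 193)))) (.play 578 (.ref 4 321))))))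
 (.seq (.one (.play 256 (.both (.play 1 (.ref 6 0)) (.ref 17 0))))
 (.seq (.one (.play 455 (.both (.play 454 (.both (.play 517 (.both (.play 390 (.both (.play 518 (.both (.play 326 (.both (.ref 263 5) (.both (.play 262 (.both (.ref 262 69) (.both (.ref 9 198) (.play 327 (.both (.play 391 (.both (.play 198 (.ref 4 198)) (.play 582 (.ref 5 326)))) (.play 263 (.ref 5 262))))))) (.both (.play 262 (.ref 94 197)) (.ref 36 261))))) (.both (.ref 223 197) (.both (.play 389 (.both (.ref 81 325) (.ref 265 387))) (.ref 276 325))))) (.both (.play 518 (.both (.ref 276 325) (.play 457 (.ref 1 453)))) (.both (.play 389 (.both (.ref 265 387) (.play 457 (.ref 3 389)))) (.play 457 (.both (.play 389 (.ref 3 389)) (.play 518 (.ref 1 453)))))))) (.both (.play 453 (.both (.play 389 (.both (.play 390 (.both (.ref 225 194) (.play 457 (.ref 3 389)))) (.play 388 (.ref 3 388)))) (.play 516 (.ref 1 452)))) (.play 516 (.both (.play 515 (.both (.play 514 (.both (.ref 154 257) (.both (.play 513 (.ref 26 448)) (.play 513 (.ref 23 512))))) (.play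 518 (.ref 2 451)))) (.play 453 (.ref 1 452))))))) (.both (.play 457 (.both (.ref 240 70) (.both (.play 390 (.both (.play 326 (.both (.play 262 (.both (.play 197 (.both (.play 198 (.both (.play 133 (.ref 7 133)) (.play 391 (.ref 4 198)))) (.play 261 (.ref 7 197)))) (.both (.ref 201 134) (.ref 28 194)))) (.both (.play 518 (.both (.play 262 (.ref 94 197)) (.play 517 (.ref 1 453)))) (.both (.play 391 (.both (.play 518 (.ref 89 197)) (.play 458 (.ref 3 390)))) (.play 518 (.both (.play 327 (.both (.play 263 (.ref 5 262)) (.ref 181 325))) (.play 517 (.ref 1 453)))))))) (.play 389 (.ref 3 389)))) (.both (.play 458 (.ref 30 389)) (.play 517 (.both (.play 521 (.both (.play 458 (.both (.ref 24 389) (.play 395 (.both (.play 394 (.ref 2 391)) (.ref 209 392))))) (.play 522 (.ref 0 454)))) (.play 518 (.ref 1 453)))))))) (.both (.ref 246 387) (.play 453 (.ref 216 388)))))) (.both (.play 521 (.both (.play 519 (.both (.play 392 (.both (.ref 275 7) (.both (.ref 215 199) (.play 583 (.both (.play 522 (.both (.play 458 (.both (.play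 586 (.both (.play 394 (.both (.play 330 (.ref 94 265)) (.both (.play 330 (.ref 10 265)) (.play 650 (.ref 12 329))))) (.play 587 (.ref 0 519)))) (.play 459 (.ref 2 455)))) (.play 582 (.ref 1 518)))) (.ref 250 391)))))) (.both (.play 392 (.both (.ref 215 199) (.both (.play 585 (.both (.play 328 (.ref 4 328)) (.play 518 (.both (.play 517 (.both (.play 452 (.both (.play 516 (.both (.play 451 (.ref 3 451)) (.play 456 (.ref 2 452)))) (.play 453 (.ref 3 452)))) (.ref 22 516))) (.play 586 (.ref 0 518)))))) (.ref 251 388)))) (.both (.play 457 (.both (.play 458 (.both (.ref 243 263) (.play 459 (.ref 1 455)))) (.both (.play 585 (.both (.play 649 (.ref 147 392)) (.ref 261 453))) (.play 518 (.ref 58 453))))) (.play 518 (.both (.ref 184 325) (.play 517 (.ref 58 452)))))))) (.both (.play 392 (.both (.ref 275 7) (.both (.play 328 (.both (.play 264 (.ref 10 199)) (.play 585 (.ref 4 328)))) (.play 519 (.both (.ref 251 388) (.both (.ref 47 388) (.play 454 (.ref 45 453)))))))) (.both (.play 522 (.both (.play 457 (.both (.play 585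 (.both (.play 392 (.both (.play 393 (.both (.play 329 (.both (.play 265 (.ref 85 200)) (.ref 15 329))) (.play 394 (.both (.play 330 (.ref 5 329)) (.ref 67 391))))) (.play 328 (.ref 4 328)))) (.both (.play 393 (.ref 84 264)) (.play 649 (.ref 147 392))))) (.play 454 (.ref 0 454)))) (.both (.play 519 (.both (.play 583 (.both (.ref 46 391) (.play 582 (.ref 1 518)))) (.play 518 (.both (.play 517 (.ref 58 452)) (.ref 21 518))))) (.both (.ref 156 453) (.play 454 (.ref 229 454)))))) (.both (.play 454 (.both (.play 457 (.both (.play 394 (.both (.play 458 (.both (.ref 222 263) (.play 395 (.ref 2 391)))) (.play 393 (.ref 2 390)))) (.play 522 (.ref 0 454)))) (.play 453 (.ref 0 453)))) (.both (.play 457 (.both (.play 585 (.both (.ref 273 263) (.both (.play 393 (.ref 84 264)) (.play 392 (.ref 96 328))))) (.play 518 (.both (.play 519 (.both (.ref 184 325) (.play 458 (.ref 1 454)))) (.play 454 (.ref 71 453)))))) (.play 454 (.ref 230 453)))))))) (.both (.ref 274 65) (.both (.play 454 (.both (.play 457 (.both (.ref 240 70) (.both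 (.play 458 (.ref 30 389)) (.play 521 (.both (.ref 142 389) (.play 522 (.ref 0 454))))))) (.both (.play 453 (.both (.play 389 (.both (.play 390 (.both (.play 325 (.both (.play 326 (.both (.play 262 (.ref 252 197)) (.ref 238 258))) (.both (.play 326 (.both (.ref 260 194) (.play 262 (.ref 252 197)))) (.both (.play 517 (.ref 89 196)) (.ref 220 197))))) (.play 457 (.ref 3 389)))) (.play 388 (.ref 3 388)))) (.both (.play 452 (.both (.ref 115 385) (.play 519 (.ref 0 452)))) (.both (.ref 247 385) (.both (.ref 227 386) (.play 452 (.ref 25 387))))))) (.both (.ref 246 387) (.both (.play 453 (.both (.play 452 (.ref 31 387)) (.play 521 (.ref 0 453)))) (.both (.play 453 (.ref 129 388)) (.ref 245 389))))))) (.both (.ref 264 65) (.both (.play 454 (.both (.play 457 (.ref 241 69)) (.both (.play 457 (.both (.play 393 (.both (.play 392 (.both (.play 328 (.both (.play 329 (.both (.play 265 (.ref 79 200)) (.play 330 (.both (.ref 161 264) (.ref 67 327))))) (.both (.play 265 (.both (.play 329 (.both (.play 264 (.both (.play 266 (.both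 (.play 202 (.ref 5 201)) (.ref 207 263))) (.play 200 (.ref 4 200)))) (.play 520 (.ref 5 264)))) (.both (.play 329 (.ref 79 200)) (.play 264 (.ref 219 200))))) (.play 521 (.ref 96 264))))) (.play 453 (.ref 2 389)))) (.play 394 (.ref 2 390)))) (.both (.play 518 (.both (.play 519 (.both (.play 583 (.both (.ref 180 323) (.both (.play 390 (.ref 96 326)) (.play 646 (.both (.play 582 (.both (.play 391 (.ref 6 390)) (.play 647 (.both (.ref 248 451) (.play 711 (.ref 7 454)))))) (.both (.play 582 (.ref 79 390)) (.play 647 (.ref 107 454)))))))) (.play 458 (.ref 1 454)))) (.play 517 (.ref 1 453)))) (.play 458 (.ref 31 389))))) (.both (.play 453 (.both (.ref 247 385) (.play 521 (.ref 0 453)))) (.both (.ref 246 387) (.play 457 (.both (.play 453 (.ref 30 388)) (.both (.ref 217 388) (.play 458 (.ref 31 389)))))))))) (.both (.play 454 (.both (.play 457 (.both (.ref 240 70) (.both (.play 390 (.both (.play 391 (.both (.play 327 (.both (.play 326 (.both (.play 262 (.ref 96 198)) (.ref 238 259))) (.both (.play 262 (.both (.play 326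 (.both (.ref 237 195) (.play 519 (.ref 7 262)))) (.both (.play 326 (.ref 96 198)) (.play 263 (.ref 236 198))))) (.play 518 (.ref 79 262))))) (.play 458 (.ref 3 390)))) (.play 389 (.ref 3 389)))) (.play 458 (.ref 30 389))))) (.both (.ref 189 386) (.both (.ref 228 386) (.both (.play 453 (.both (.ref 191 386) (.play 521 (.ref 0 453)))) (.both (.ref 246 387) (.ref 245 389))))))) (.both (.play 454 (.both (.play 457 (.ref 241 69)) (.both (.ref 244 195) (.both (.play 453 (.ref 216 388)) (.play 453 (.ref 129 388)))))) (.both (.play 457 (.both (.play 519 (.both (.play 583 (.both (.play 458 (.both (.play 521 (.both (.play 522 (.both (.ref 239 71) (.play 582 (.ref 1 518)))) (.both (.play 394 (.both (.ref 215 201) (.play 395 (.ref 2 391)))) (.both (.play 522 (.both (.ref 91 263) (.play 582 (.ref 1 518)))) (.both (.ref 243 263) (.play 522 (.both (.play 586 (.both (.play 393 (.ref 175 329)) (.play 587 (.ref 0 519)))) (.play 582 (.ref 1 518))))))))) (.play 459 (.ref 1 455)))) (.play 392 (.ref 79 327)))) (.both (.play 583 (.both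 (.play 392 (.ref 79 327)) (.play 518 (.both (.ref 242 388) (.play 517 (.ref 2 453)))))) (.play 518 (.ref 78 453))))) (.both (.play 454 (.both (.ref 240 70) (.ref 235 197))) (.both (.play 454 (.ref 241 69)) (.both (.play 519 (.both (.play 392 (.both (.ref 215 199) (.both (.play 391 (.own 457 (.both (.ref 163 260) (.ref 238 324)))) (.both (.play 518 (.both (.play 327 (.both (.play 391 (.both (.ref 237 260) (.play 582 (.ref 6 326)))) (.both (.play 391 (.ref 162 262)) (.play 328 (.ref 236 263))))) (.play 517 (.ref 2 453)))) (.play 583 (.ref 79 327)))))) (.both (.play 328 (.both (.play 391 (.both (.play 327 (.ref 219 263)) (.ref 221 390))) (.both (.play 583 (.both (.play 391 (.ref 89 262)) (.play 392 (.ref 6 327)))) (.play 392 (.ref 85 263))))) (.play 518 (.ref 78 453))))) (.both (.play 454 (.both (.ref 235 197) (.both (.play 458 (.ref 31 389)) (.play 458 (.ref 30 389))))) (.play 458 (.both (.play 454 (.ref 30 389)) (.both (.play 459 (.both (.ref 24 390) (.ref 233 392))) (.play 459 (.both (.ref 29 391) (.both (.play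 460 (.both (.play 461 (.ref 26 392)) (.play 521 (.ref 1 456)))) (.ref 232 392))))))))))))) (.both (.play 454 (.both (.ref 190 197) (.both (.ref 231 387) (.play 521 (.ref 230 453))))) (.both (.play 454 (.both (.play 453 (.both (.ref 77 260) (.both (.play 452 (.both (.play 451 (.ref 31 386)) (.play 519 (.ref 0 452)))) (.both (.ref 157 386) (.ref 117 386))))) (.both (.play 457 (.both (.ref 77 261) (.both (.play 458 (.ref 31 389)) (.play 458 (.ref 30 389))))) (.both (.ref 228 386) (.both (.play 453 (.both (.ref 157 386) (.both (.play 457 (.ref 31 388)) (.play 457 (.ref 30 388))))) (.both (.play 453 (.both (.ref 157 386) (.both (.play 452 (.ref 30 387)) (.play 457 (.ref 31 388))))) (.both (.play 453 (.both (.ref 227 386) (.both (.ref 117 386) (.both (.play 452 (.ref 31 387)) (.play 457 (.ref 31 388)))))) (.ref 32 387)))))))) (.play 519 (.both (.ref 226 260) (.both (.ref 224 260) (.both (.play 518 (.both (.play 454 (.both (.ref 222 261) (.play 453 (.ref 45 452)))) (.both (.play 453 (.both (.play 454 (.both (.play 517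 (.both (.play 389 (.both (.ref 220 261) (.play 388 (.ref 3 388)))) (.play 516 (.ref 2 452)))) (.play 521 (.ref 3 453)))) (.both (.play 517 (.ref 41 452)) (.play 454 (.ref 45 452))))) (.play 457 (.ref 78 453))))) (.play 454 (.both (.play 518 (.both (.ref 168 389) (.play 517 (.ref 78 452)))) (.both (.play 517 (.both (.play 518 (.both (.ref 169 388) (.play 457 (.ref 1 453)))) (.both (.play 453 (.ref 71 452)) (.play 518 (.ref 78 452))))) (.play 521 (.ref 45 453))))))))))))))))))))))
 (.one (.play 260 (.both (.ref 210 0) (.both (.play 324 (.ref 12 3)) (.play 324 (.ref 16 4))))))))))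
 (.seq (.seq (.seq (.one (.play 196 (.both (.ref 199 3) (.both (.play 132 (.ref 10 67)) (.both (.play 132 (.ref 16 68)) (.ref 33 192))))))
 (.one (.play 324 (.both (.play 260 (.both (.ref 279 0) (.both (.ref 199 67) (.both (.play 196 (.ref 20 131)) (.ref 11 195))))) (.both (.play 261 (.both (.play 260 (.both (.ref 199 67) (.play 197 (.ref 5 196)))) (.play 325 (.ref 5 260)))) (.both (.ref 198 131) (.both (.ref 234 131) (.both (.play 260 (.ref 94 195)) (.ref 28 256)))))))))
 (.seq (.one (.play 257 (.both (.play 64 (.ref 7 0)) (.play 321 (.ref 10 0)))))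
 (.one (.play 128 (.both (.play 129 (.both (.play 65 (.ref 10 0)) (.play 64 (.ref 7 64)))) (.play 192 (.ref 7 128)))))))
 (.seq (.seq (.one (.play 387 (.both (.play 323 (.both (.play 259 (.both (.play 195 (.both (.play 131 (.both (.play 67 (.ref 12 2)) (.both (.play 67 (.ref 20 2)) (.ref 57 128)))) (.both (.play 131 (.ref 10 66)) (.ref 9 131)))) (.both (.play 194 (.both (.play 195 (.both (.ref 200 2) (.play 130 (.ref 7 130)))) (.play 258 (.ref 7 194)))) (.both (.ref 203 66) (.both (.ref 282 66) (.both (.play 195 (.ref 94 130)) (.ref 55 192))))))) (.play 515 (.ref 4 323)))) (.play 452 (.ref 7 387)))))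
 (.one (.play 257 (.both (.play 321 (.ref 20 0)) (.play 66 (.ref 5 1))))))
 (.seq (.one (.play 452 (.both (.play 388 (.both (.ref 280 0) (.play 580 (.ref 6 387)))) (.play 515 (.ref 5 451)))))
 (.seq (.one (.both (.play 0 (.ref 4 0)) (.play 385 (.ref 7 128))))
 (.one (.play 712 (.both (.play 584 (.both (.play 521 (.both (.ref 285 5) (.both (.play 520 (.both (.play 519 (.both (.play 583 (.both (.ref 187 324) (.play 776 (.ref 7 519)))) (.play 455 (.ref 7 455)))) (.play 457 (.ref 5 456)))) (.both (.play 457 (.both (.play 585 (.both (.play 393 (.ref 6 392)) (.play 776 (.ref 5 520)))) (.play 520 (.ref 5 456)))) (.ref 284 519))))) (.both (.ref 214 388) (.both (.play 777 (.both (.play 520 (.both (.play 456 (.ref 10 391)) (.play 713 (.ref 4 520)))) (.both (.ref 48 516) (.both (.play 841 (.both (.play 713 (.ref 286 520)) (.play 776 (.ref 4 584)))) (.play 841 (.both (.play 776 (.ref 4 584)) (.play 905 (.both (.play 713 (.ref 7 648)) (.ref 34 773))))))))) (.both (.play 520 (.ref 213 452)) (.ref 193 516)))))) (.both (.play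 584 (.both (.play 519 (.both (.ref 283 68) (.both (.play 520 (.both (.play 521 (.both (.play 585 (.both (.ref 268 327) (.play 776 (.ref 5 520)))) (.play 457 (.ref 5 456)))) (.play 455 (.ref 7 455)))) (.both (.play 455 (.both (.play 583 (.ref 286 391)) (.play 520 (.ref 7 455)))) (.ref 281 519))))) (.both (.play 520 (.both (.ref 198 327) (.both (.ref 270 327) (.both (.play 583 (.both (.play 519 (.both (.play 585 (.both (.play 649 (.both (.play 456 (.ref 175 392)) (.ref 231 516))) (.both (.play 582 (.ref 39 516)) (.ref 37 518)))) (.play 776 (.ref 7 519)))) (.both (.play 649 (.both (.play 713 (.ref 175 456)) (.play 582 (.ref 125 581)))) (.both (.ref 81 519) (.play 776 (.both (.play 519 (.ref 7 519)) (.ref 18 583))))))) (.both (.play 776 (.ref 20 455)) (.ref 66 455)))))) (.both (.play 520 (.both (.play 456 (.ref 94 391)) (.both (.play 456 (.ref 20 391)) (.both (.play 456 (.ref 16 392)) (.ref 210 452))))) (.both (.play 520 (.both (.play 456 (.ref 16 392)) (.play 776 (.ref 12 455)))) (.both (.play 520 (.ref 213 452))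 (.ref 204 516))))))) (.both (.play 776 (.both (.play 585 (.both (.ref 285 69) (.both (.ref 202 455) (.ref 284 583)))) (.both (.play 584 (.both (.play 520 (.both (.ref 279 260) (.both (.ref 196 324) (.both (.ref 198 327) (.ref 11 455))))) (.both (.play 520 (.both (.ref 135 324) (.both (.play 456 (.ref 10 391)) (.ref 9 456)))) (.both (.ref 203 391) (.both (.ref 282 391) (.both (.play 520 (.ref 94 455)) (.ref 55 517))))))) (.both (.ref 44 516) (.both (.play 840 (.ref 61 519)) (.ref 278 580)))))) (.both (.play 776 (.both (.play 583 (.both (.ref 283 132) (.both (.ref 197 455) (.ref 281 583)))) (.both (.ref 280 260) (.both (.ref 64 517) (.both (.play 840 (.ref 194 519)) (.ref 278 580)))))) (.both (.ref 277 192) (.both (.play 584 (.both (.ref 208 325) (.both (.play 519 (.both (.play 455 (.ref 178 327)) (.both (.ref 197 391) (.ref 35 519)))) (.both (.play 520 (.both (.play 456 (.ref 94 391)) (.both (.play 456 (.ref 20 391)) (.both (.play 456 (.ref 16 392)) (.ref 218 452))))) (.both (.ref 195 391) (.both (.play 776 (.both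 (.play 520 (.ref 94 455)) (.both (.play 840 (.ref 12 519)) (.play 840 (.ref 10 519))))) (.both (.ref 76 455) (.both (.play 776 (.ref 194 455)) (.both (.play 776 (.both (.play 520 (.ref 20 455)) (.play 840 (.ref 10 519)))) (.play 776 (.both (.play 585 (.both (.play 583 (.both (.play 777 (.both (.ref 54 517) (.play 841 (.ref 4 584)))) (.play 519 (.ref 7 519)))) (.play 521 (.ref 5 520)))) (.both (.play 840 (.ref 12 519)) (.play 840 (.ref 16 520)))))))))))))) (.both (.play 584 (.both (.ref 212 324) (.both (.play 521 (.both (.ref 215 328) (.both (.ref 202 391) (.ref 13 519)))) (.both (.ref 214 388) (.both (.ref 205 391) (.both (.ref 121 455) (.both (.play 776 (.both (.play 520 (.ref 94 455)) (.both (.play 840 (.ref 20 519)) (.play 840 (.ref 16 520))))) (.both (.play 776 (.ref 61 455)) (.both (.play 776 (.both (.play 520 (.ref 10 455)) (.play 840 (.ref 20 519)))) (.play 776 (.ref 213 516))))))))))) (.both (.play 584 (.both (.ref 212 324) (.both (.ref 208 325) (.both (.ref 196 388) (.both (.play 520 (.ref 61 391)) (.both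 (.play 520 (.ref 194 391)) (.play 776 (.both (.ref 211 516) (.both (.ref 210 516) (.ref 60 580)))))))))) (.both (.play 584 (.both (.ref 208 325) (.both (.ref 196 388) (.both (.play 520 (.both (.play 456 (.ref 12 391)) (.both (.play 456 (.ref 20 391)) (.play 776 (.ref 19 519))))) (.both (.ref 205 391) (.ref 204 516)))))) (.both (.play 584 (.both (.play 520 (.both (.ref 199 327) (.both (.play 456 (.ref 16 392)) (.play 776 (.ref 10 455))))) (.both (.play 520 (.both (.ref 200 327) (.both (.play 456 (.ref 20 391)) (.play 776 (.ref 12 455))))) (.both (.play 520 (.both (.ref 203 327) (.both (.play 776 (.ref 12 455)) (.both (.play 776 (.ref 10 455)) (.ref 14 455))))) (.both (.play 520 (.both (.play 456 (.ref 20 391)) (.both (.play 456 (.ref 16 392)) (.ref 28 452)))) (.both (.play 520 (.both (.play 713 (.both (.ref 201 392) (.play 777 (.ref 4 520)))) (.play 776 (.ref 12 455)))) (.both (.play 520 (.both (.play 456 (.ref 12 391)) (.both (.play 456 (.ref 16 392)) (.play 776 (.ref 10 455))))) (.play 776 (.both (.ref 28 516)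 (.both (.play 840 (.ref 12 519)) (.play 840 (.ref 10 519)))))))))))) (.both (.play 584 (.both (.play 520 (.both (.ref 200 327) (.both (.play 456 (.ref 12 391)) (.play 776 (.ref 20 455))))) (.both (.play 520 (.both (.ref 199 327) (.both (.play 456 (.ref 10 391)) (.play 776 (.ref 16 456))))) (.both (.play 520 (.both (.ref 198 327) (.both (.play 776 (.ref 20 455)) (.both (.ref 36 455) (.play 776 (.ref 16 456)))))) (.both (.play 520 (.both (.play 456 (.ref 12 391)) (.both (.play 456 (.ref 10 391)) (.ref 55 453)))) (.both (.play 520 (.both (.play 711 (.both (.play 455 (.both (.play 456 (.both (.play 391 (.ref 7 391)) (.play 647 (.ref 6 455)))) (.play 519 (.ref 7 455)))) (.play 775 (.ref 6 519)))) (.play 776 (.ref 16 456)))) (.both (.play 520 (.both (.play 456 (.ref 12 391)) (.both (.play 456 (.ref 16 392)) (.play 776 (.ref 20 455))))) (.play 776 (.both (.ref 55 517) (.both (.play 840 (.ref 20 519)) (.play 840 (.ref 16 520)))))))))))) (.both (.play 584 (.both (.ref 196 388) (.both (.play 520 (.both (.play 456 (.ref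 10 391)) (.both (.play 456 (.ref 16 392)) (.play 776 (.ref 19 519))))) (.both (.ref 195 391) (.both (.play 520 (.both (.play 456 (.ref 12 391)) (.both (.play 456 (.ref 94 391)) (.both (.play 456 (.ref 10 391)) (.play 776 (.ref 12 455)))))) (.both (.play 520 (.both (.play 456 (.ref 12 391)) (.both (.play 456 (.ref 10 391)) (.play 776 (.ref 20 455))))) (.both (.play 777 (.both (.ref 49 391) (.both (.ref 51 519) (.play 841 (.ref 178 520))))) (.both (.ref 44 452) (.both (.play 776 (.ref 194 455)) (.ref 193 516)))))))))) (.both (.ref 192 448) (.both (.play 776 (.both (.play 840 (.both (.ref 74 452) (.both (.play 584 (.ref 10 519)) (.ref 66 583)))) (.both (.play 584 (.both (.play 520 (.ref 10 455)) (.both (.play 520 (.ref 16 456)) (.ref 60 580)))) (.both (.ref 64 517) (.both (.play 840 (.ref 61 519)) (.both (.play 840 (.both (.play 584 (.ref 16 520)) (.both (.play 904 (.ref 20 583)) (.ref 14 583)))) (.ref 34 644))))))) (.play 776 (.both (.play 584 (.both (.play 520 (.ref 12 455)) (.both (.play 520 (.ref 20 455)) (.ref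 60 580)))) (.both (.play 839 (.both (.play 584 (.both (.play 520 (.ref 20 455)) (.play 775 (.ref 6 583)))) (.both (.ref 17 583) (.play 903 (.both (.play 840 (.ref 6 647)) (.play 967 (.both (.play 775 (.ref 5 711)) (.play 1031 (.both (.ref 57 836) (.both (.play 1095 (.both (.play 1159 (.ref 20 838)) (.both (.ref 15 839) (.play 1159 (.both (.ref 55 900) (.both (.play 1223 (.ref 12 902)) (.play 1223 (.ref 10 902)))))))) (.both (.play 1095 (.ref 19 838)) (.both (.ref 52 838) (.both (.play 1094 (.both (.play 1030 (.ref 6 838)) (.play 1095 (.both (.ref 36 838) (.play 1158 (.ref 6 902)))))) (.ref 50 838)))))))))))))) (.both (.play 841 (.both (.ref 49 455) (.both (.ref 48 580) (.play 905 (.both (.play 840 (.ref 4 648)) (.play 969 (.both (.play 777 (.ref 7 712)) (.play 1033 (.both (.play 1097 (.ref 10 776)) (.both (.play 1097 (.ref 16 777)) (.ref 33 837))))))))))) (.both (.ref 44 516) (.both (.play 840 (.both (.play 584 (.ref 20 519)) (.both (.play 904 (.ref 12 583)) (.play 904 (.ref 16 584))))) (.both (.play 840 (.both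 (.play 584 (.ref 20 519)) (.both (.ref 14 583) (.play 904 (.ref 16 584))))) (.both (.play 840 (.both (.play 584 (.ref 12 519)) (.both (.play 904 (.ref 10 583)) (.ref 36 583)))) (.ref 34 644))))))))))))))))))))))))))))))))))
    (by decide +kernel)

theorem Cert_L7 : PW ⟨20, nat_lit 4671939192445127903888559724237098316690665991422525368913093138328857771221685643782054718788988313373329725003360673086145233634688448510210725191395547328770042546544911308884863172860522266624, nat_lit 216484989649019500922497090578550225233777099128225356637087417881578700614195834235556545793967891391124221302293661518650471865427893397803939219185277873610170753425036115621495736087393867985389736331851508533177882040399783105177518845946595536510861551311107871688585739585329895724348129641465786486981094724181287684642989972307077686013961094061342976654811993597658009194853302592, 21, nat_lit 216484989649019500922497090578550225233777099128225356637087417881578700614195834235556545793967891391124221302293661518650471865427893397803939219185277873610170753425036115621495736087393867985389736331851508533177882040399783105177518845946595536510861551311107871688585739585329895724348129641465786486981094724181287684642989972307077686013961094061342976654811993597658009194853302592⟩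 :=
  sound2 baseTbl baseTbl_ok
    (.seq (.seq (.seq (.seq (.seq (.seq (.seq (.seq (.seq (.one (.play 68 (.both (.play 67 (.ref 0 0)) (.play 69 (.ref 0 1)))))
 (.one (.play 65 (.both (.play 64 (.ref 1 0)) (.play 66 (.ref 1 1))))))
 (.seq (.one (.both (.ref 9 0) (.ref 8 1)))
 (.one (.play 4 (.both (.play 3 (.ref 2 0)) (.play 5 (.ref 2 1)))))))
 (.seq (.seq (.one (.play 1 (.both (.play 0 (.ref 3 0)) (.play 2 (.ref 3 1)))))
 (.one (.both (.ref 12 0) (.ref 11 1))))
 (.seq (.one (.play 66 (.both (.play 65 (.ref 13 0)) (.play 70 (.ref 10 65)))))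
 (.seq (.one (.play 257 (.both (.play 193 (.ref 4 0)) (.play 321 (.ref 4 64)))))
 (.one (.play 256 (.both (.play 192 (.ref 6 0)) (.play 320 (.ref 6 64)))))))))
 (.seq (.seq (.seq (.one (.both (.ref 16 0) (.ref 15 1)))
 (.one (.play 64 (.both (.play 0 (.ref 7 0)) (.play 128 (.ref 7 64))))))
 (.seq (.one (.both (.ref 18 0) (.ref 15 65)))
 (.seq (.one (.both (.ref 18 0) (.ref 16 64)))
 (.one (.both (.play 65 (.ref 20 0)) (.both (.play 385 (.ref 19 64)) (.play 385 (.ref 17 128))))))))
 (.seq (.seq (.one (.play 259 (.both (.play 131 (.both (.play 323 (.ref 21 2)) (.play 132 (.ref 2 128)))) (.play 260 (.ref 0 192)))))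
 (.one (.play 65 (.both (.play 1 (.ref 5 0)) (.play 129 (.ref 5 64))))))
 (.seq (.one (.both (.ref 23 1) (.ref 16 64)))
 (.seq (.one (.both (.ref 23 0) (.ref 15 64)))
 (.one (.play 321 (.both (.play 65 (.ref 25 1)) (.both (.play 385 (.ref 24 64)) (.play 385 (.ref 17 128)))))))))))
 (.seq (.seq (.seq (.seq (.one (.play 257 (.both (.play 129 (.both (.ref 26 0) (.play 128 (.ref 3 128)))) (.play 256 (.ref 1 192)))))
 (.one (.play 196 (.both (.ref 27 0) (.ref 22 1)))))
 (.seq (.one (.both (.ref 11 0) (.ref 8 64)))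
 (.seq (.one (.both (.ref 12 0) (.ref 8 65)))
 (.one (.both (.ref 22 1) (.both (.play 197 (.ref 30 128)) (.both (.play 197 (.ref 13 128)) (.play 197 (.ref 29 129)))))))))
 (.seq (.seq (.one (.both (.ref 27 1) (.both (.play 193 (.ref 30 128)) (.play 193 (.ref 10 192)))))
 (.one (.both (.ref 11 1) (.ref 9 64))))
 (.seq (.one (.both (.ref 12 0) (.ref 9 64)))
 (.seq (.one (.both (.ref 27 1) (.both (.play 193 (.ref 34 128)) (.both (.play 193 (.ref 13 128)) (.play 193 (.ref 33 128))))))
 (.one (.play 66 (.both (.play 65 (.ref 33 0)) (.play 133 (.ref 0 66)))))))))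
 (.seq (.seq (.seq (.one (.play 134 (.both (.ref 36 0) (.play 135 (.ref 0 67)))))
 (.one (.play 260 (.both (.play 132 (.both (.play 257 (.both (.play 324 (.ref 21 3)) (.play 256 (.ref 1 192)))) (.play 133 (.ref 2 129)))) (.play 261 (.ref 0 193))))))
 (.seq (.one (.play 195 (.both (.ref 38 2) (.both (.ref 37 128) (.both (.play 194 (.ref 33 129)) (.both (.play 194 (.ref 29 130)) (.play 194 (.ref 10 193))))))))
 (.seq (.one (.play 69 (.both (.play 70 (.ref 33 1)) (.both (.play 70 (.ref 29 2)) (.play 65 (.ref 10 64))))))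
 (.one (.play 69 (.both (.play 65 (.ref 30 0)) (.both (.play 70 (.ref 13 1)) (.play 70 (.ref 29 2)))))))))
 (.seq (.seq (.one (.play 257 (.both (.play 66 (.ref 5 1)) (.play 321 (.ref 17 64)))))
 (.one (.both (.play 2 (.ref 5 1)) (.ref 42 64))))
 (.seq (.one (.play 257 (.both (.play 321 (.ref 25 1)) (.play 320 (.ref 6 64)))))
 (.seq (.one (.play 256 (.both (.play 192 (.ref 6 0)) (.ref 44 0))))
 (.one (.both (.play 2 (.ref 5 1)) (.ref 45 64)))))))))
 (.seq (.seq (.seq (.seq (.seq (.one (.both (.play 2 (.ref 5 1)) (.play 321 (.ref 17 64))))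
 (.one (.play 258 (.both (.play 257 (.both (.play 321 (.ref 24 0)) (.play 322 (.ref 4 65)))) (.play 194 (.ref 4 1))))))
 (.seq (.one (.both (.play 64 (.ref 2 0)) (.play 5 (.ref 2 1))))
 (.seq (.one (.play 65 (.both (.play 1 (.ref 4 1)) (.play 320 (.ref 6 64)))))
 (.one (.play 258 (.both (.ref 50 2) (.play 257 (.ref 49 192))))))))
 (.seq (.seq (.one (.play 196 (.both (.play 260 (.both (.ref 51 0) (.play 451 (.ref 5 195)))) (.play 132 (.ref 5 131)))))
 (.one (.play 129 (.both (.play 65 (.ref 19 0)) (.play 320 (.ref 6 128))))))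
 (.seq (.one (.play 384 (.both (.ref 53 0) (.play 448 (.ref 6 192)))))
 (.seq (.one (.play 387 (.both (.ref 54 2) (.both (.play 452 (.both (.play 451 (.both (.ref 52 64) (.play 516 (.ref 4 259)))) (.play 388 (.ref 4 195)))) (.both (.play 451 (.ref 17 194)) (.both (.ref 45 194) (.ref 48 194)))))))
 (.one (.both (.play 3 (.ref 0 0)) (.play 69 (.ref 3 1))))))))
 (.seq (.seq (.seq (.one (.both (.play 0 (.ref 0 0)) (.play 69 (.ref 56 1))))
 (.one (.play 323 (.both (.play 131 (.both (.play 67 (.ref 19 2)) (.both (.play 324 (.both (.play 322 (.both (.play 260 (.both (.play 67 (.ref 4 67)) (.play 321 (.ref 49 256)))) (.play 386 (.ref 6 130)))) (.play 388 (.ref 4 131)))) (.play 130 (.both (.play 66 (.ref 7 66)) (.play 129 (.ref 57 128))))))) (.both (.ref 55 0) (.both (.play 387 (.ref 47 130)) (.both (.play 387 (.ref 46 130)) (.play 387 (.ref 43 130)))))))))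
 (.seq (.one (.play 259 (.both (.ref 58 0) (.play 258 (.ref 1 194)))))
 (.seq (.one (.play 195 (.both (.ref 59 0) (.both (.play 194 (.ref 30 129)) (.both (.play 194 (.ref 34 129)) (.play 194 (.ref 10 193)))))))
 (.one (.play 64 (.both (.play 3 (.ref 2 0)) (.play 131 (.ref 0 64))))))))
 (.seq (.seq (.one (.play 65 (.both (.play 69 (.ref 13 0)) (.both (.play 4 (.both (.play 132 (.both (.ref 61 0) (.play 133 (.ref 0 65)))) (.play 5 (.ref 2 1)))) (.play 69 (.ref 10 64))))))
 (.one (.both (.play 0 (.ref 0 0)) (.play 70 (.ref 3 2)))))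
 (.seq (.one (.play 66 (.both (.play 65 (.ref 13 0)) (.play 133 (.ref 0 66)))))
 (.seq (.one (.play 196 (.both (.play 197 (.both (.ref 38 1) (.both (.play 198 (.ref 33 129)) (.both (.play 198 (.ref 29 130)) (.play 198 (.ref 10 193)))))) (.play 193 (.ref 3 128)))))
 (.one (.play 196 (.both (.ref 65 1) (.play 131 (.ref 0 128))))))))))
 (.seq (.seq (.seq (.seq (.one (.both (.play 0 (.ref 7 0)) (.play 321 (.ref 7 64))))
 (.one (.play 67 (.both (.play 260 (.ref 67 3)) (.play 128 (.ref 2 64))))))
 (.seq (.one (.play 198 (.both (.play 134 (.both (.play 70 (.both (.ref 68 2) (.play 71 (.ref 2 67)))) (.play 199 (.ref 0 131)))) (.both (.ref 66 3) (.both (.ref 64 64) (.play 199 (.both (.play 197 (.ref 63 130)) (.play 134 (.ref 0 131)))))))))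
 (.seq (.one (.play 66 (.both (.play 65 (.ref 34 0)) (.play 5 (.ref 2 2)))))
 (.one (.play 67 (.both (.ref 70 0) (.play 70 (.ref 2 3))))))))
 (.seq (.seq (.one (.both (.ref 71 0) (.play 8 (.ref 1 4))))
 (.one (.play 257 (.both (.play 64 (.ref 7 0)) (.ref 45 64)))))
 (.seq (.one (.both (.play 64 (.ref 7 0)) (.play 321 (.ref 17 64))))
 (.seq (.one (.play 257 (.both (.ref 15 1) (.both (.play 321 (.ref 74 64)) (.ref 73 64)))))
 (.one (.both (.play 1 (.ref 6 0)) (.play 320 (.ref 6 64))))))))
 (.seq (.seq (.seq (.one (.play 1 (.both (.play 0 (.ref 0 0)) (.play 4 (.ref 0 1)))))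
 (.one (.play 256 (.both (.play 192 (.ref 6 0)) (.play 257 (.both (.play 64 (.ref 7 0)) (.play 320 (.ref 6 64))))))))
 (.seq (.one (.play 257 (.both (.ref 15 1) (.ref 78 64))))
 (.seq (.one (.play 192 (.both (.play 1 (.ref 6 0)) (.play 385 (.ref 7 128)))))
 (.one (.play 129 (.both (.play 65 (.ref 20 0)) (.play 322 (.ref 4 129))))))))
 (.seq (.seq (.one (.play 386 (.both (.ref 81 0) (.play 450 (.ref 4 193)))))
 (.one (.play 323 (.both (.play 387 (.both (.ref 82 2) (.both (.play 451 (.both (.play 386 (.both (.ref 80 130) (.play 450 (.ref 6 194)))) (.both (.ref 16 194) (.play 515 (.ref 74 258))))) (.both (.play 451 (.ref 17 194)) (.ref 79 194))))) (.both (.play 131 (.both (.play 130 (.both (.play 66 (.ref 7 66)) (.ref 77 128))) (.play 322 (.ref 76 66)))) (.both (.play 387 (.ref 47 130)) (.play 387 (.both (.play 132 (.ref 5 131)) (.ref 75 194)))))))))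
 (.seq (.one (.play 261 (.both (.play 260 (.both (.ref 83 2) (.ref 71 192))) (.both (.ref 58 2) (.both (.play 260 (.both (.ref 83 2) (.play 200 (.ref 1 196)))) (.play 260 (.ref 72 192)))))))
 (.seq (.one (.both (.play 64 (.ref 2 0)) (.play 6 (.ref 1 2))))
 (.one (.play 66 (.both (.play 5 (.ref 2 2)) (.play 65 (.ref 10 64))))))))))))
 (.seq (.seq (.seq (.seq (.seq (.seq (.one (.play 259 (.both (.play 68 (.ref 76 3)) (.play 192 (.ref 0 192)))))
 (.one (.both (.ref 18 0) (.ref 23 1))))
 (.seq (.one (.play 129 (.both (.play 65 (.ref 88 0)) (.both (.play 65 (.ref 24 0)) (.play 385 (.ref 20 64))))))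
 (.seq (.one (.play 196 (.both (.play 324 (.both (.play 193 (.both (.ref 89 3) (.play 192 (.ref 3 192)))) (.play 325 (.ref 0 257)))) (.play 197 (.ref 2 193)))))
 (.one (.play 260 (.both (.play 261 (.both (.play 262 (.both (.ref 90 2) (.both (.play 263 (.ref 30 194)) (.both (.play 263 (.ref 13 194)) (.play 263 (.ref 29 195)))))) (.play 258 (.ref 1 257)))) (.play 323 (.ref 2 256))))))))
 (.seq (.seq (.one (.play 262 (.both (.ref 91 3) (.both (.play 326 (.both (.play 390 (.both (.ref 87 130) (.play 391 (.ref 0 323)))) (.play 263 (.ref 2 259)))) (.both (.ref 86 256) (.play 263 (.both (.play 261 (.ref 85 258)) (.play 326 (.ref 2 259)))))))))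
 (.one (.play 257 (.both (.play 129 (.both (.play 260 (.both (.ref 26 0) (.play 261 (.ref 0 193)))) (.play 128 (.ref 3 128)))) (.play 256 (.ref 1 192))))))
 (.seq (.one (.play 193 (.both (.ref 93 0) (.both (.play 197 (.ref 13 128)) (.play 197 (.ref 10 192))))))
 (.seq (.one (.play 257 (.both (.play 193 (.ref 4 0)) (.play 256 (.both (.play 65 (.ref 5 0)) (.play 321 (.ref 4 64)))))))
 (.one (.play 257 (.both (.ref 16 0) (.ref 95 65))))))))
 (.seq (.seq (.seq (.one (.play 257 (.both (.play 321 (.both (.play 194 (.both (.play 258 (.ref 4 1)) (.play 385 (.ref 5 129)))) (.ref 16 64))) (.both (.ref 15 1) (.both (.play 321 (.ref 17 64)) (.ref 96 64))))))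
 (.one (.play 129 (.both (.play 65 (.ref 88 0)) (.ref 97 128)))))
 (.seq (.one (.both (.ref 98 0) (.play 192 (.ref 3 192))))
 (.seq (.one (.play 321 (.both (.play 193 (.ref 99 0)) (.play 320 (.ref 1 256)))))
 (.one (.play 129 (.both (.play 65 (.ref 88 0)) (.both (.play 65 (.ref 19 0)) (.play 385 (.ref 25 65)))))))))
 (.seq (.seq (.one (.play 193 (.both (.play 321 (.both (.ref 101 0) (.play 320 (.ref 1 256)))) (.play 192 (.ref 3 192)))))
 (.one (.both (.ref 102 1) (.both (.play 257 (.ref 30 192)) (.both (.play 257 (.ref 34 192)) (.play 257 (.ref 10 256)))))))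
 (.seq (.one (.play 66 (.both (.play 65 (.ref 34 0)) (.play 133 (.ref 0 66)))))
 (.seq (.one (.both (.ref 104 0) (.play 135 (.ref 0 67))))
 (.one (.play 129 (.both (.play 65 (.ref 88 0)) (.play 320 (.ref 6 128))))))))))
 (.seq (.seq (.seq (.seq (.one (.both (.ref 106 0) (.play 448 (.ref 6 192))))
 (.one (.play 263 (.both (.play 327 (.both (.play 391 (.both (.play 390 (.both (.play 199 (.ref 107 6)) (.play 323 (.ref 0 323)))) (.play 392 (.ref 0 324)))) (.play 264 (.ref 2 260)))) (.both (.ref 91 4) (.play 323 (.both (.play 390 (.ref 105 256)) (.play 262 (.ref 2 259)))))))))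
 (.seq (.one (.both (.play 67 (.ref 2 0)) (.play 5 (.ref 1 1))))
 (.seq (.one (.both (.play 64 (.ref 2 0)) (.play 5 (.ref 109 1))))
 (.one (.both (.play 64 (.ref 2 0)) (.play 2 (.ref 1 1)))))))
 (.seq (.seq (.one (.both (.play 65 (.ref 111 0)) (.play 6 (.ref 1 2))))
 (.one (.both (.play 65 (.both (.play 3 (.ref 111 0)) (.play 68 (.ref 2 1)))) (.both (.play 3 (.ref 112 0)) (.both (.play 68 (.ref 110 1)) (.play 6 (.both (.play 3 (.ref 1 2)) (.play 68 (.ref 109 2)))))))))
 (.seq (.one (.play 65 (.both (.play 64 (.both (.play 1 (.ref 5 0)) (.play 257 (.ref 4 64)))) (.play 129 (.ref 5 64)))))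
 (.seq (.one (.play 129 (.both (.ref 114 1) (.ref 18 64))))
 (.one (.play 193 (.both (.ref 115 0) (.both (.play 129 (.ref 88 64)) (.both (.play 129 (.both (.ref 18 64) (.play 258 (.both (.play 65 (.ref 4 65)) (.play 194 (.ref 5 193)))))) (.ref 23 129))))))))))
 (.seq (.seq (.seq (.one (.play 449 (.both (.ref 116 0) (.both (.play 513 (.ref 25 193)) (.play 513 (.ref 17 256))))))
 (.one (.play 257 (.both (.ref 117 0) (.play 256 (.ref 3 256))))))
 (.seq (.one (.play 68 (.both (.play 1 (.ref 3 0)) (.play 129 (.ref 1 64)))))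
 (.seq (.one (.play 259 (.both (.play 258 (.both (.play 194 (.both (.play 322 (.both (.play 197 (.both (.ref 101 1) (.play 198 (.ref 2 194)))) (.play 321 (.ref 1 257)))) (.play 193 (.ref 3 193)))) (.both (.play 257 (.ref 34 192)) (.both (.play 257 (.ref 13 192)) (.play 257 (.ref 33 192)))))) (.play 262 (.ref 0 259)))))
 (.one (.play 389 (.both (.play 261 (.both (.play 260 (.both (.ref 120 0) (.play 325 (.ref 3 260)))) (.both (.play 325 (.ref 99 68)) (.ref 119 261)))) (.both (.play 325 (.both (.ref 118 4) (.play 388 (.ref 1 324)))) (.both (.play 390 (.ref 72 321)) (.play 388 (.ref 113 322))))))))))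
 (.seq (.seq (.one (.both (.ref 70 0) (.play 7 (.ref 2 3))))
 (.one (.both (.play 0 (.ref 7 0)) (.play 321 (.ref 74 64)))))
 (.seq (.one (.play 199 (.both (.play 135 (.both (.play 71 (.both (.play 70 (.both (.play 263 (.ref 123 6)) (.play 131 (.ref 2 67)))) (.play 72 (.ref 2 68)))) (.play 200 (.ref 0 132)))) (.both (.ref 66 4) (.play 131 (.both (.play 70 (.ref 122 64)) (.play 198 (.ref 0 131))))))))
 (.seq (.one (.both (.ref 117 0) (.play 384 (.ref 1 320))))
 (.one (.both (.play 0 (.ref 0 0)) (.play 66 (.ref 3 1))))))))))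
 (.seq (.seq (.seq (.seq (.seq (.one (.both (.play 1 (.ref 126 0)) (.play 70 (.ref 3 2))))
 (.one (.both (.play 67 (.ref 127 0)) (.both (.play 1 (.both (.play 67 (.ref 126 0)) (.play 4 (.ref 0 1)))) (.both (.play 4 (.ref 57 1)) (.play 70 (.both (.play 67 (.ref 3 2)) (.play 4 (.ref 56 2)))))))))
 (.seq (.one (.play 67 (.both (.ref 104 0) (.play 70 (.ref 0 67)))))
 (.seq (.one (.both (.ref 129 0) (.play 136 (.ref 3 68))))
 (.one (.play 195 (.both (.play 194 (.both (.ref 93 1) (.both (.play 193 (.ref 30 128)) (.both (.play 193 (.ref 34 128)) (.play 193 (.ref 10 192)))))) (.play 198 (.ref 2 131))))))))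
 (.seq (.seq (.one (.play 261 (.both (.play 389 (.both (.play 325 (.ref 125 4)) (.both (.play 388 (.both (.ref 131 192) (.play 325 (.ref 1 324)))) (.ref 119 261)))) (.both (.play 325 (.both (.play 389 (.both (.ref 98 68) (.play 388 (.ref 1 324)))) (.play 260 (.ref 3 260)))) (.both (.play 262 (.ref 130 193)) (.play 260 (.ref 128 258)))))))
 (.one (.play 66 (.both (.play 65 (.ref 34 0)) (.both (.play 70 (.ref 30 1)) (.play 65 (.ref 10 64)))))))
 (.seq (.one (.play 66 (.both (.play 65 (.ref 30 0)) (.both (.play 65 (.ref 34 0)) (.play 70 (.ref 10 65))))))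
 (.seq (.one (.play 66 (.both (.play 65 (.ref 13 0)) (.play 129 (.ref 1 65)))))
 (.one (.play 130 (.both (.ref 135 0) (.play 131 (.ref 1 66)))))))))
 (.seq (.seq (.seq (.one (.play 67 (.both (.ref 136 0) (.play 134 (.ref 0 67)))))
 (.one (.play 65 (.both (.play 64 (.ref 2 0)) (.play 133 (.ref 0 65))))))
 (.seq (.one (.play 196 (.both (.play 260 (.ref 67 3)) (.ref 138 64))))
 (.seq (.one (.play 67 (.both (.play 68 (.both (.ref 139 0) (.play 135 (.ref 3 67)))) (.play 66 (.ref 3 66)))))
 (.one (.play 131 (.both (.ref 140 1) (.both (.ref 136 64) (.both (.play 130 (.ref 34 65)) (.ref 12 66)))))))))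
 (.seq (.seq (.one (.play 132 (.both (.ref 141 0) (.both (.play 199 (.both (.ref 137 64) (.play 200 (.ref 0 132)))) (.both (.play 199 (.ref 105 65)) (.play 136 (.ref 30 67)))))))
 (.one (.both (.play 0 (.ref 4 0)) (.play 256 (.ref 4 64)))))
 (.seq (.one (.both (.play 64 (.ref 143 0)) (.play 385 (.ref 7 128))))
 (.seq (.one (.play 259 (.both (.play 323 (.ref 144 2)) (.play 260 (.ref 0 192)))))
 (.one (.play 65 (.both (.play 1 (.ref 6 0)) (.play 257 (.ref 6 64))))))))))
 (.seq (.seq (.seq (.seq (.one (.both (.ref 146 0) (.play 384 (.ref 5 128))))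
 (.one (.play 257 (.both (.play 321 (.ref 147 1)) (.play 256 (.ref 1 192))))))
 (.seq (.one (.play 258 (.both (.play 257 (.both (.play 321 (.ref 20 0)) (.play 322 (.ref 4 65)))) (.play 194 (.ref 4 1)))))
 (.seq (.one (.play 257 (.both (.play 0 (.ref 7 0)) (.ref 149 64))))
 (.one (.both (.play 0 (.ref 7 0)) (.play 321 (.ref 17 64)))))))
 (.seq (.seq (.one (.play 257 (.both (.ref 16 0) (.both (.play 321 (.ref 151 64)) (.ref 150 64)))))
 (.one (.both (.play 192 (.ref 4 0)) (.play 321 (.ref 7 64)))))
 (.seq (.one (.both (.play 0 (.ref 4 0)) (.play 321 (.ref 153 64))))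
 (.seq (.one (.both (.play 0 (.ref 4 0)) (.play 129 (.ref 7 64))))
 (.one (.both (.play 64 (.ref 155 0)) (.play 385 (.ref 7 128))))))))
 (.seq (.seq (.seq (.one (.both (.play 64 (.both (.play 193 (.ref 155 0)) (.play 256 (.ref 4 64)))) (.both (.play 193 (.ref 156 0)) (.both (.play 256 (.ref 154 64)) (.play 385 (.both (.play 193 (.ref 7 128)) (.play 256 (.ref 153 128))))))))
 (.one (.both (.play 1 (.ref 6 0)) (.play 320 (.ref 5 64)))))
 (.seq (.one (.play 259 (.both (.ref 51 0) (.play 323 (.ref 158 67)))))
 (.seq (.one (.both (.play 0 (.ref 4 0)) (.play 321 (.ref 4 64))))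
 (.one (.play 2 (.both (.play 66 (.both (.play 1 (.ref 3 1)) (.play 65 (.ref 10 64)))) (.play 3 (.ref 3 2))))))))
 (.seq (.seq (.one (.play 132 (.both (.play 68 (.ref 76 3)) (.play 193 (.both (.play 133 (.ref 2 129)) (.play 192 (.ref 0 192)))))))
 (.one (.play 259 (.both (.play 260 (.both (.ref 162 0) (.play 199 (.ref 1 195)))) (.play 258 (.ref 1 194))))))
 (.seq (.one (.play 195 (.both (.ref 163 1) (.both (.ref 161 128) (.both (.play 194 (.ref 34 129)) (.ref 9 194))))))
 (.seq (.one (.play 196 (.both (.ref 164 0) (.both (.play 263 (.both (.play 262 (.both (.play 261 (.both (.play 134 (.both (.play 70 (.ref 160 6)) (.play 326 (.both (.ref 159 66) (.both (.play 390 (.ref 20 69)) (.both (.play 390 (.ref 157 69)) (.both (.play 390 (.both (.ref 18 69) (.play 454 (.ref 47 197)))) (.ref 152 133)))))))) (.both (.play 260 (.both (.ref 148 67) (.play 200 (.ref 2 196)))) (.play 260 (.both (.ref 145 68) (.play 200 (.ref 2 196))))))) (.play 195 (.ref 0 195)))) (.play 264 (.ref 0 196)))) (.both (.play 263 (.ref 105 129))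 (.play 200 (.ref 10 195)))))))
 (.one (.both (.ref 77 0) (.play 70 (.ref 3 2))))))))))))
 (.seq (.seq (.seq (.seq (.seq (.seq (.seq (.one (.play 67 (.both (.play 68 (.ref 3 0)) (.play 4 (.ref 2 0)))))
 (.one (.play 66 (.both (.play 65 (.both (.ref 12 0) (.play 5 (.ref 2 1)))) (.ref 9 65)))))
 (.seq (.one (.play 67 (.both (.ref 168 0) (.play 6 (.ref 2 3)))))
 (.one (.play 7 (.both (.ref 169 0) (.ref 167 4))))))
 (.seq (.seq (.one (.play 4 (.both (.play 3 (.ref 2 0)) (.play 68 (.both (.play 1 (.ref 3 0)) (.play 5 (.ref 2 1)))))))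
 (.one (.play 257 (.both (.play 65 (.ref 7 0)) (.play 321 (.ref 7 64))))))
 (.seq (.one (.play 198 (.both (.ref 172 5) (.play 131 (.both (.ref 168 64) (.play 199 (.ref 0 131)))))))
 (.seq (.one (.play 257 (.both (.ref 16 0) (.both (.play 321 (.both (.play 192 (.both (.play 256 (.ref 6 0)) (.play 385 (.ref 7 128)))) (.ref 15 65))) (.both (.play 321 (.ref 17 64)) (.ref 79 64))))))
 (.one (.play 323 (.both (.play 195 (.both (.play 131 (.both (.play 67 (.ref 20 2)) (.both (.play 67 (.ref 88 2)) (.ref 174 130)))) (.play 196 (.ref 2 192)))) (.play 324 (.ref 0 256)))))))))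
 (.seq (.seq (.seq (.one (.play 261 (.both (.ref 175 2) (.both (.ref 27 65) (.play 257 (.ref 10 256))))))
 (.one (.play 261 (.both (.ref 175 2) (.both (.ref 27 65) (.play 257 (.ref 30 192)))))))
 (.seq (.one (.play 66 (.both (.play 65 (.ref 30 0)) (.play 5 (.ref 2 2)))))
 (.seq (.one (.play 6 (.both (.ref 178 0) (.play 7 (.ref 2 3)))))
 (.one (.play 67 (.both (.ref 179 0) (.both (.play 66 (.ref 33 1)) (.ref 9 66))))))))
 (.seq (.seq (.one (.play 195 (.both (.ref 22 3) (.both (.play 134 (.ref 122 128)) (.both (.play 262 (.ref 105 128)) (.play 194 (.ref 29 130)))))))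
 (.one (.play 196 (.both (.ref 181 0) (.both (.ref 180 128) (.both (.ref 37 129) (.play 200 (.ref 10 195))))))))
 (.seq (.one (.play 2 (.both (.play 66 (.both (.play 65 (.ref 33 0)) (.play 1 (.ref 3 1)))) (.play 3 (.ref 3 2)))))
 (.seq (.one (.play 6 (.both (.ref 86 0) (.play 7 (.ref 2 3)))))
 (.one (.play 196 (.both (.ref 27 3) (.both (.ref 180 128) (.both (.play 131 (.both (.play 195 (.both (.ref 184 128) (.play 130 (.ref 3 130)))) (.play 132 (.ref 3 131)))) (.both (.ref 183 129) (.play 195 (.ref 34 130)))))))))))))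
 (.seq (.seq (.seq (.seq (.one (.play 197 (.both (.play 196 (.both (.ref 39 0) (.both (.play 195 (.both (.ref 38 2) (.both (.play 194 (.ref 13 129)) (.play 194 (.ref 10 193))))) (.both (.ref 161 129) (.ref 12 131))))) (.both (.ref 181 1) (.both (.play 196 (.ref 30 131)) (.play 201 (.ref 30 132)))))))
 (.one (.both (.play 65 (.ref 34 0)) (.both (.play 70 (.ref 30 1)) (.play 70 (.ref 10 65))))))
 (.seq (.one (.play 66 (.both (.play 65 (.ref 30 0)) (.both (.play 65 (.ref 34 0)) (.both (.play 70 (.ref 30 1)) (.play 65 (.ref 10 64)))))))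
 (.seq (.one (.play 195 (.both (.play 323 (.both (.ref 89 2) (.play 324 (.ref 0 256)))) (.play 196 (.ref 2 192)))))
 (.one (.play 259 (.both (.ref 189 3) (.both (.play 198 (.ref 122 192)) (.both (.play 326 (.ref 105 192)) (.play 258 (.ref 29 194))))))))))
 (.seq (.seq (.one (.play 260 (.both (.ref 190 0) (.both (.ref 180 192) (.both (.play 259 (.ref 10 258)) (.play 264 (.ref 10 259)))))))
 (.one (.both (.play 0 (.ref 3 0)) (.play 128 (.ref 1 64)))))
 (.seq (.one (.play 129 (.both (.play 65 (.ref 88 0)) (.both (.play 65 (.ref 25 1)) (.play 385 (.ref 19 64))))))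
 (.seq (.one (.play 65 (.both (.play 64 (.ref 2 0)) (.play 68 (.ref 2 1)))))
 (.one (.both (.play 65 (.ref 88 0)) (.play 384 (.ref 6 128))))))))
 (.seq (.seq (.seq (.one (.play 322 (.both (.play 131 (.ref 195 2)) (.ref 194 256))))
 (.one (.both (.play 1 (.ref 5 0)) (.play 320 (.ref 5 64)))))
 (.seq (.one (.play 321 (.both (.play 65 (.ref 24 0)) (.both (.play 385 (.ref 25 65)) (.play 385 (.ref 17 128))))))
 (.seq (.one (.play 130 (.both (.play 66 (.ref 67 2)) (.ref 77 128))))
 (.one (.play 256 (.both (.play 1 (.ref 5 0)) (.ref 15 0)))))))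
 (.seq (.seq (.one (.play 257 (.both (.ref 16 0) (.ref 200 65))))
 (.one (.both (.play 65 (.ref 88 0)) (.play 386 (.ref 4 129)))))
 (.seq (.one (.play 256 (.both (.play 192 (.ref 6 0)) (.play 257 (.both (.play 321 (.ref 19 0)) (.play 320 (.ref 6 64)))))))
 (.seq (.one (.both (.play 0 (.ref 3 0)) (.play 69 (.ref 3 1))))
 (.one (.play 259 (.both (.play 66 (.both (.play 2 (.ref 6 1)) (.play 323 (.ref 4 66)))) (.play 260 (.ref 204 192)))))))))))
 (.seq (.seq (.seq (.seq (.seq (.one (.play 193 (.both (.play 257 (.both (.ref 205 0) (.play 450 (.ref 7 193)))) (.play 129 (.ref 7 129)))))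
 (.one (.play 386 (.both (.play 129 (.both (.play 65 (.ref 24 0)) (.play 322 (.ref 4 129)))) (.play 450 (.ref 4 193))))))
 (.seq (.one (.play 386 (.both (.ref 207 1) (.both (.play 449 (.both (.play 450 (.both (.ref 206 64) (.play 513 (.ref 6 257)))) (.play 385 (.ref 6 193)))) (.both (.play 450 (.ref 17 193)) (.both (.ref 149 193) (.ref 203 193)))))))
 (.seq (.one (.play 323 (.both (.play 131 (.both (.play 67 (.ref 24 2)) (.both (.play 132 (.both (.play 68 (.ref 5 67)) (.play 133 (.ref 112 128)))) (.play 322 (.both (.play 324 (.both (.play 258 (.both (.play 67 (.ref 6 66)) (.play 325 (.ref 204 257)))) (.play 388 (.ref 4 131)))) (.play 386 (.ref 6 130))))))) (.both (.ref 208 1) (.both (.play 387 (.ref 151 130)) (.both (.ref 150 130) (.play 387 (.ref 123 130))))))))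
 (.one (.play 259 (.both (.ref 209 0) (.play 260 (.ref 0 192))))))))
 (.seq (.seq (.one (.play 67 (.both (.ref 104 0) (.play 3 (.ref 7 3)))))
 (.one (.play 69 (.both (.ref 211 0) (.play 5 (.ref 5 4))))))
 (.seq (.one (.play 68 (.both (.play 67 (.ref 0 0)) (.play 4 (.both (.play 65 (.ref 1 0)) (.play 69 (.ref 0 1)))))))
 (.seq (.one (.play 68 (.both (.ref 11 0) (.ref 213 65))))
 (.one (.play 66 (.both (.play 65 (.ref 34 0)) (.play 70 (.both (.play 71 (.both (.ref 11 3) (.play 133 (.both (.play 134 (.ref 0 66)) (.play 72 (.ref 1 68)))))) (.both (.play 71 (.ref 29 3)) (.both (.ref 214 3) (.ref 8 66))))))))))))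
 (.seq (.seq (.seq (.one (.play 69 (.both (.play 67 (.both (.ref 215 0) (.play 3 (.ref 7 3)))) (.play 5 (.ref 5 4)))))
 (.one (.play 263 (.both (.play 324 (.both (.play 196 (.both (.play 132 (.both (.play 68 (.ref 88 3)) (.both (.play 68 (.ref 19 3)) (.both (.play 68 (.ref 25 4)) (.ref 216 64))))) (.play 195 (.ref 3 195)))) (.play 323 (.ref 1 259)))) (.both (.play 198 (.both (.play 196 (.both (.play 324 (.both (.play 132 (.both (.play 68 (.ref 88 3)) (.both (.play 68 (.ref 19 3)) (.both (.play 68 (.ref 25 4)) (.ref 212 64))))) (.play 323 (.ref 1 259)))) (.play 195 (.ref 3 195)))) (.ref 145 68))) (.both (.ref 175 4) (.both (.ref 22 68) (.ref 210 68))))))))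
 (.seq (.one (.play 259 (.both (.ref 90 2) (.both (.ref 179 192) (.both (.play 258 (.ref 30 193)) (.both (.play 258 (.ref 13 193)) (.play 258 (.ref 29 194))))))))
 (.seq (.one (.both (.play 65 (.ref 25 1)) (.play 64 (.ref 7 64))))
 (.one (.play 128 (.both (.play 129 (.ref 219 0)) (.play 192 (.ref 7 128))))))))
 (.seq (.seq (.one (.play 193 (.both (.ref 220 0) (.play 450 (.ref 4 193)))))
 (.one (.play 257 (.both (.ref 221 0) (.both (.play 193 (.ref 202 64)) (.ref 23 193))))))
 (.seq (.one (.both (.play 321 (.both (.play 513 (.both (.ref 222 0) (.both (.play 577 (.ref 24 256)) (.ref 96 320)))) (.play 320 (.ref 3 320)))) (.play 448 (.ref 1 384))))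
 (.seq (.one (.both (.play 0 (.ref 0 0)) (.play 69 (.ref 0 1))))
 (.one (.play 68 (.both (.play 1 (.ref 224 0)) (.play 259 (.ref 5 3))))))))))
 (.seq (.seq (.seq (.seq (.one (.play 129 (.both (.play 65 (.ref 88 0)) (.play 322 (.ref 4 129)))))
 (.one (.both (.ref 226 0) (.play 450 (.ref 4 193)))))
 (.seq (.one (.play 64 (.both (.play 0 (.ref 7 0)) (.play 321 (.both (.play 128 (.ref 7 64)) (.play 385 (.ref 24 64)))))))
 (.seq (.one (.both (.play 0 (.ref 7 0)) (.play 321 (.ref 5 65))))
 (.one (.play 66 (.both (.play 259 (.ref 229 2)) (.play 65 (.ref 224 64))))))))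
 (.seq (.seq (.one (.play 260 (.both (.play 196 (.both (.play 3 (.ref 4 3)) (.ref 230 128))) (.play 324 (.ref 4 67)))))
 (.one (.both (.play 65 (.ref 19 0)) (.play 66 (.ref 5 65)))))
 (.seq (.one (.play 130 (.both (.play 129 (.ref 232 0)) (.play 194 (.ref 5 129)))))
 (.seq (.one (.play 195 (.both (.ref 220 2) (.both (.ref 233 2) (.both (.play 132 (.both (.play 131 (.both (.ref 231 64) (.play 68 (.ref 5 67)))) (.play 196 (.ref 5 131)))) (.both (.play 131 (.ref 88 66)) (.ref 228 130)))))))
 (.one (.play 259 (.both (.ref 234 0) (.both (.ref 221 2) (.both (.play 195 (.ref 227 2)) (.both (.play 195 (.ref 202 66)) (.play 451 (.both (.play 260 (.both (.play 258 (.both (.play 194 (.ref 7 194)) (.ref 225 256))) (.play 196 (.ref 5 195)))) (.both (.play 515 (.ref 24 194)) (.play 450 (.both (.play 514 (.ref 6 258)) (.play 449 (.ref 110 384)))))))))))))))))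
 (.seq (.seq (.seq (.one (.play 323 (.both (.ref 235 0) (.play 322 (.ref 3 322)))))
 (.one (.play 387 (.both (.ref 236 0) (.both (.play 386 (.ref 34 321)) (.both (.play 386 (.ref 13 321)) (.play 386 (.ref 33 321))))))))
 (.seq (.one (.play 257 (.both (.ref 15 1) (.both (.play 321 (.ref 47 64)) (.play 321 (.ref 46 64))))))
 (.seq (.one (.both (.play 385 (.both (.play 193 (.both (.ref 115 0) (.both (.play 129 (.ref 19 64)) (.ref 238 192)))) (.play 384 (.ref 1 320)))) (.play 256 (.ref 3 256))))
 (.one (.play 322 (.both (.play 258 (.ref 239 1)) (.both (.play 321 (.ref 34 256)) (.both (.play 321 (.ref 13 256)) (.play 321 (.ref 33 256))))))))))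
 (.seq (.seq (.one (.play 68 (.both (.ref 171 1) (.ref 8 64))))
 (.one (.play 68 (.both (.ref 11 0) (.both (.play 69 (.both (.play 3 (.both (.play 4 (.ref 2 0)) (.play 70 (.ref 3 2)))) (.ref 8 65))) (.both (.play 69 (.ref 29 1)) (.ref 241 1)))))))
 (.seq (.one (.play 66 (.both (.play 65 (.ref 34 0)) (.ref 242 2))))
 (.seq (.one (.play 197 (.both (.play 195 (.both (.play 259 (.ref 6 3)) (.ref 243 128))) (.play 261 (.ref 4 4)))))
 (.one (.play 260 (.both (.play 324 (.ref 24 3)) (.both (.play 324 (.ref 25 4)) (.ref 244 64))))))))))))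
 (.seq (.seq (.seq (.seq (.seq (.seq (.one (.play 197 (.both (.play 195 (.both (.play 259 (.ref 6 3)) (.ref 70 128))) (.play 261 (.ref 4 4)))))
 (.one (.play 260 (.both (.play 324 (.ref 24 3)) (.both (.play 324 (.ref 25 4)) (.ref 246 64))))))
 (.seq (.one (.play 256 (.both (.play 64 (.ref 5 0)) (.play 320 (.ref 5 64)))))
 (.seq (.one (.both (.play 1 (.ref 6 0)) (.ref 248 64)))
 (.one (.play 131 (.both (.play 67 (.ref 249 2)) (.play 132 (.ref 2 128))))))))
 (.seq (.seq (.one (.play 65 (.both (.play 192 (.both (.play 1 (.ref 6 0)) (.play 128 (.ref 7 128)))) (.ref 23 1))))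
 (.one (.play 64 (.both (.play 65 (.both (.play 0 (.ref 7 0)) (.play 256 (.ref 6 64)))) (.play 128 (.ref 7 64))))))
 (.seq (.one (.play 129 (.both (.ref 252 0) (.ref 23 65))))
 (.seq (.one (.play 193 (.both (.ref 253 0) (.both (.play 129 (.ref 88 64)) (.both (.ref 251 64) (.ref 18 128))))))
 (.one (.play 259 (.both (.play 387 (.both (.play 451 (.both (.ref 254 2) (.both (.play 515 (.ref 20 194)) (.play 515 (.ref 17 258))))) (.play 388 (.ref 0 320)))) (.play 260 (.ref 2 256)))))))))
 (.seq (.seq (.seq (.one (.both (.play 64 (.ref 1 0)) (.play 5 (.ref 1 1))))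
 (.one (.both (.play 65 (.ref 20 0)) (.play 66 (.ref 5 65)))))
 (.seq (.one (.play 130 (.both (.play 129 (.ref 257 0)) (.play 194 (.ref 5 129)))))
 (.seq (.one (.both (.ref 258 0) (.play 448 (.ref 6 192))))
 (.one (.play 66 (.both (.play 2 (.ref 5 1)) (.play 321 (.both (.play 385 (.ref 19 64)) (.play 130 (.ref 5 65))))))))))
 (.seq (.seq (.one (.both (.play 2 (.ref 5 1)) (.play 321 (.ref 7 64))))
 (.one (.play 67 (.both (.play 258 (.ref 261 1)) (.play 68 (.ref 256 64))))))
 (.seq (.one (.play 257 (.both (.play 193 (.both (.play 2 (.ref 6 1)) (.ref 262 128))) (.play 321 (.ref 6 65)))))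
 (.seq (.one (.play 128 (.both (.play 129 (.both (.play 65 (.ref 24 0)) (.play 64 (.ref 7 64)))) (.play 192 (.ref 7 128)))))
 (.one (.play 259 (.both (.play 195 (.both (.ref 258 2) (.both (.ref 264 2) (.both (.play 130 (.both (.play 131 (.both (.ref 263 65) (.play 66 (.ref 7 66)))) (.play 194 (.ref 7 130)))) (.both (.play 131 (.ref 88 66)) (.ref 260 130)))))) (.both (.play 195 (.ref 259 2)) (.both (.play 195 (.ref 107 2)) (.both (.play 195 (.ref 195 66)) (.play 451 (.both (.play 258 (.both (.play 260 (.both (.play 196 (.ref 5 195)) (.play 322 (.both (.play 261 (.ref 256 257)) (.play 515 (.ref 7 258)))))) (.play 194 (.ref 7 194)))) (.both (.play 515 (.ref 19 194)) (.play 452 (.both (.play 516 (.ref 4 259)) (.play 453 (.ref 127 384))))))))))))))))))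
 (.seq (.seq (.seq (.seq (.one (.play 323 (.both (.ref 265 0) (.play 324 (.ref 2 320)))))
 (.one (.play 391 (.both (.ref 266 4) (.both (.ref 255 68) (.both (.ref 189 132) (.both (.play 454 (.both (.ref 250 196) (.play 452 (.both (.play 324 (.both (.ref 247 256) (.play 323 (.ref 3 323)))) (.play 451 (.ref 1 387)))))) (.play 324 (.both (.play 452 (.both (.ref 245 256) (.play 451 (.ref 1 387)))) (.play 323 (.ref 3 323)))))))))))
 (.seq (.one (.play 67 (.both (.ref 161 0) (.play 6 (.ref 2 3)))))
 (.seq (.one (.play 7 (.both (.ref 268 0) (.play 8 (.ref 2 4)))))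
 (.one (.play 196 (.both (.ref 164 0) (.both (.ref 269 128) (.both (.play 135 (.ref 122 129)) (.play 200 (.ref 33 131))))))))))
 (.seq (.seq (.one (.play 69 (.both (.play 65 (.ref 33 0)) (.both (.play 70 (.ref 29 2)) (.play 70 (.ref 10 65))))))
 (.one (.play 69 (.both (.play 65 (.ref 13 0)) (.both (.play 70 (.ref 30 1)) (.play 70 (.ref 29 2)))))))
 (.seq (.one (.both (.play 0 (.ref 4 0)) (.ref 172 64)))
 (.seq (.one (.play 129 (.both (.play 65 (.ref 273 1)) (.play 128 (.ref 3 128)))))
 (.one (.both (.play 0 (.ref 4 0)) (.play 321 (.ref 7 64))))))))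
 (.seq (.seq (.seq (.one (.both (.play 193 (.ref 6 0)) (.play 320 (.ref 5 64))))
 (.one (.both (.play 1 (.ref 6 0)) (.play 320 (.ref 276 64)))))
 (.seq (.one (.both (.play 1 (.ref 6 0)) (.play 128 (.ref 5 64))))
 (.seq (.one (.both (.play 65 (.ref 278 0)) (.play 384 (.ref 5 128))))
 (.one (.both (.play 65 (.both (.play 192 (.ref 278 0)) (.play 257 (.ref 6 64)))) (.both (.play 192 (.ref 279 0)) (.both (.play 257 (.ref 277 64)) (.play 384 (.both (.play 192 (.ref 5 128)) (.play 257 (.ref 276 128)))))))))))
 (.seq (.seq (.one (.play 193 (.both (.play 129 (.ref 202 0)) (.ref 16 192))))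
 (.one (.play 257 (.both (.play 193 (.ref 259 0)) (.both (.play 193 (.ref 195 64)) (.ref 18 192))))))
 (.seq (.one (.play 452 (.both (.play 391 (.both (.play 390 (.both (.play 389 (.both (.play 518 (.both (.play 326 (.both (.ref 282 5) (.both (.ref 281 69) (.both (.play 262 (.ref 280 133)) (.both (.play 325 (.both (.play 261 (.ref 275 197)) (.ref 230 258))) (.play 262 (.ref 20 197))))))) (.play 582 (.ref 197 326)))) (.both (.play 388 (.both (.ref 274 195) (.play 456 (.ref 0 388)))) (.play 388 (.both (.ref 250 196) (.play 456 (.ref 0 388))))))) (.play 451 (.ref 2 387)))) (.play 392 (.ref 2 388)))) (.both (.ref 141 320) (.both (.play 391 (.ref 122 385)) (.play 456 (.ref 13 387)))))))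
 (.seq (.one (.play 129 (.both (.play 65 (.both (.ref 18 0) (.play 320 (.ref 6 64)))) (.ref 23 65))))
 (.one (.play 4 (.both (.play 1 (.ref 1 0)) (.play 5 (.ref 1 1)))))))))))
 (.seq (.seq (.seq (.seq (.seq (.one (.play 65 (.both (.play 64 (.ref 2 0)) (.ref 285 1))))
 (.one (.play 67 (.both (.play 4 (.ref 2 0)) (.play 68 (.ref 1 64))))))
 (.seq (.one (.play 131 (.both (.play 67 (.ref 143 3)) (.play 130 (.ref 127 128)))))
 (.seq (.one (.play 198 (.both (.play 195 (.both (.ref 288 0) (.play 134 (.both (.play 135 (.ref 2 131)) (.play 325 (.ref 5 133)))))) (.both (.play 135 (.both (.play 134 (.both (.play 195 (.ref 2 131)) (.play 325 (.ref 5 133)))) (.ref 287 132))) (.play 199 (.ref 256 195))))))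
 (.one (.play 518 (.both (.play 454 (.both (.play 390 (.both (.play 389 (.both (.play 326 (.both (.ref 282 5) (.both (.play 325 (.both (.ref 289 129) (.play 261 (.ref 4 261)))) (.both (.play 327 (.both (.play 263 (.ref 279 134)) (.ref 286 323))) (.both (.ref 284 133) (.play 262 (.ref 88 197))))))) (.play 450 (.ref 2 386)))) (.play 391 (.ref 2 387)))) (.play 519 (.ref 0 451)))) (.both (.ref 66 323) (.ref 36 384))))))))
 (.seq (.seq (.one (.play 68 (.both (.play 69 (.ref 29 1)) (.play 129 (.ref 1 64)))))
 (.one (.play 68 (.both (.ref 291 1) (.play 65 (.ref 1 64))))))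
 (.seq (.one (.both (.ref 292 1) (.play 128 (.ref 2 64))))
 (.seq (.one (.play 68 (.both (.play 65 (.ref 3 0)) (.play 69 (.ref 3 1)))))
 (.one (.play 257 (.both (.play 64 (.ref 7 0)) (.play 321 (.ref 25 1)))))))))
 (.seq (.seq (.seq (.one (.play 64 (.both (.play 0 (.ref 7 0)) (.ref 295 64))))
 (.one (.play 193 (.both (.play 0 (.ref 4 0)) (.play 384 (.ref 5 128))))))
 (.seq (.one (.play 193 (.both (.ref 258 0) (.play 386 (.ref 4 193)))))
 (.seq (.one (.play 257 (.both (.ref 298 0) (.both (.ref 226 64) (.ref 18 192)))))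
 (.one (.play 321 (.both (.ref 299 0) (.play 576 (.ref 6 320))))))))
 (.seq (.seq (.one (.play 386 (.both (.ref 300 1) (.both (.play 322 (.both (.play 258 (.both (.ref 226 65) (.both (.ref 23 194) (.play 323 (.both (.ref 297 194) (.play 259 (.ref 5 258))))))) (.both (.ref 115 129) (.both (.play 258 (.ref 88 193)) (.ref 296 257))))) (.both (.play 322 (.ref 195 193)) (.play 578 (.both (.play 387 (.ref 197 322)) (.play 579 (.both (.play 643 (.ref 4 386)) (.ref 294 512))))))))))
 (.one (.play 451 (.both (.play 452 (.both (.ref 301 1) (.play 512 (.ref 2 448)))) (.both (.play 452 (.both (.ref 301 1) (.ref 292 385))) (.both (.ref 265 128) (.play 452 (.ref 293 384))))))))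
 (.seq (.one (.play 257 (.both (.ref 15 1) (.play 321 (.both (.play 64 (.ref 7 64)) (.ref 16 64))))))
 (.seq (.one (.play 1 (.both (.play 0 (.ref 0 0)) (.ref 294 1))))
 (.one (.play 196 (.both (.play 260 (.ref 154 3)) (.ref 304 128)))))))))
 (.seq (.seq (.seq (.seq (.one (.play 67 (.both (.play 68 (.ref 3 0)) (.play 132 (.ref 0 64)))))
 (.one (.play 259 (.both (.play 66 (.ref 4 2)) (.play 192 (.ref 0 192))))))
 (.seq (.one (.play 195 (.both (.ref 248 3) (.play 194 (.ref 112 128)))))
 (.seq (.one (.play 259 (.both (.play 66 (.ref 4 2)) (.play 260 (.ref 0 192)))))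
 (.one (.play 262 (.both (.ref 91 3) (.both (.ref 178 256) (.play 326 (.both (.play 390 (.both (.play 389 (.both (.play 454 (.both (.play 453 (.both (.play 455 (.both (.play 452 (.both (.ref 309 260) (.ref 308 321))) (.both (.play 520 (.both (.ref 307 260) (.ref 306 389))) (.play 456 (.ref 204 388))))) (.play 517 (.ref 5 261)))) (.both (.ref 305 259) (.both (.play 518 (.ref 17 261)) (.both (.ref 303 261) (.ref 152 261)))))) (.play 322 (.ref 0 322)))) (.play 391 (.ref 0 323)))) (.play 263 (.ref 2 259)))))))))))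
 (.seq (.seq (.one (.play 68 (.both (.play 1 (.ref 3 0)) (.play 69 (.ref 29 1)))))
 (.one (.play 68 (.both (.play 65 (.ref 3 0)) (.ref 311 1)))))
 (.seq (.one (.play 68 (.both (.play 0 (.ref 0 0)) (.ref 312 1))))
 (.seq (.one (.play 257 (.both (.play 66 (.ref 5 1)) (.ref 149 64))))
 (.one (.play 257 (.both (.ref 16 0) (.both (.ref 42 64) (.ref 314 64)))))))))
 (.seq (.seq (.seq (.one (.play 384 (.both (.play 129 (.both (.play 65 (.ref 25 1)) (.play 320 (.ref 6 128)))) (.play 448 (.ref 6 192)))))
 (.one (.play 322 (.both (.play 386 (.both (.ref 316 1) (.both (.play 450 (.both (.play 387 (.both (.ref 297 130) (.play 451 (.ref 4 194)))) (.both (.ref 15 194) (.ref 42 257)))) (.both (.play 450 (.ref 17 193)) (.ref 96 193))))) (.both (.play 130 (.both (.play 131 (.both (.play 67 (.ref 5 66)) (.ref 285 128))) (.play 323 (.ref 160 66)))) (.both (.play 386 (.ref 151 129)) (.play 386 (.both (.play 129 (.ref 7 129)) (.ref 315 193)))))))))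
 (.seq (.one (.play 66 (.both (.play 2 (.ref 5 1)) (.play 321 (.both (.play 385 (.ref 20 64)) (.play 130 (.ref 5 65)))))))
 (.seq (.one (.play 193 (.both (.ref 220 0) (.play 384 (.ref 6 192)))))
 (.one (.play 321 (.both (.play 257 (.both (.ref 319 0) (.both (.ref 106 64) (.ref 23 193)))) (.play 578 (.ref 4 321))))))))
 (.seq (.seq (.one (.play 387 (.both (.ref 320 2) (.both (.play 323 (.both (.play 259 (.both (.ref 106 66) (.both (.ref 18 194) (.play 322 (.both (.ref 80 194) (.play 258 (.ref 7 258))))))) (.both (.ref 253 130) (.both (.play 259 (.ref 88 194)) (.ref 318 258))))) (.both (.play 323 (.ref 202 194)) (.play 579 (.both (.play 386 (.ref 67 322)) (.play 578 (.both (.play 642 (.ref 6 386)) (.ref 194 512))))))))))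
 (.one (.play 453 (.both (.play 452 (.both (.ref 321 2) (.ref 129 384))) (.both (.play 452 (.both (.ref 321 2) (.play 520 (.ref 3 452)))) (.both (.ref 235 130) (.play 452 (.ref 130 384))))))))
 (.seq (.one (.play 322 (.both (.ref 263 0) (.both (.ref 16 65) (.both (.play 386 (.ref 17 129)) (.ref 149 129))))))
 (.seq (.one (.play 258 (.both (.ref 323 0) (.play 67 (.ref 5 2)))))
 (.one (.play 323 (.both (.ref 231 0) (.both (.ref 15 67) (.both (.play 387 (.ref 17 130)) (.ref 45 130)))))))))))))))
 (.seq (.seq (.seq (.seq (.seq (.seq (.seq (.seq (.one (.play 259 (.both (.ref 325 0) (.play 68 (.ref 5 3)))))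
 (.one (.play 259 (.both (.play 3 (.ref 17 2)) (.both (.ref 326 64) (.both (.ref 324 65) (.ref 42 66)))))))
 (.seq (.one (.both (.play 0 (.ref 3 0)) (.ref 311 1)))
 (.one (.both (.play 69 (.ref 13 0)) (.play 133 (.ref 0 65))))))
 (.seq (.seq (.one (.play 132 (.both (.play 68 (.ref 329 0)) (.play 131 (.ref 0 64)))))
 (.one (.play 68 (.both (.play 0 (.ref 3 0)) (.ref 330 1)))))
 (.seq (.one (.play 68 (.both (.play 0 (.ref 3 0)) (.play 69 (.ref 29 1)))))
 (.seq (.one (.play 68 (.both (.play 69 (.ref 30 0)) (.play 5 (.ref 2 1)))))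
 (.one (.play 4 (.both (.play 3 (.ref 2 0)) (.ref 333 0))))))))
 (.seq (.seq (.seq (.one (.play 134 (.both (.play 71 (.both (.play 135 (.both (.ref 140 1) (.play 72 (.ref 2 68)))) (.play 70 (.ref 2 67)))) (.both (.ref 37 64) (.both (.play 135 (.ref 29 67)) (.both (.ref 330 67) (.ref 334 67)))))))
 (.one (.play 197 (.both (.play 194 (.both (.play 258 (.both (.play 322 (.ref 279 2)) (.play 257 (.ref 1 193)))) (.play 133 (.both (.play 261 (.both (.ref 68 65) (.play 262 (.ref 0 194)))) (.play 134 (.ref 2 130)))))) (.both (.ref 335 64) (.both (.ref 332 130) (.both (.ref 331 130) (.play 198 (.ref 328 130)))))))))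
 (.seq (.one (.play 196 (.both (.ref 336 0) (.play 260 (.ref 4 3)))))
 (.seq (.one (.play 323 (.both (.play 131 (.both (.play 67 (.ref 24 2)) (.both (.play 67 (.ref 25 3)) (.ref 337 128)))) (.both (.play 132 (.ref 280 3)) (.both (.ref 327 128) (.play 387 (.ref 47 130)))))))
 (.one (.play 197 (.both (.play 261 (.ref 4 4)) (.ref 243 128)))))))
 (.seq (.seq (.one (.both (.ref 339 0) (.play 259 (.ref 6 3))))
 (.one (.play 452 (.both (.play 260 (.both (.ref 116 3) (.both (.play 196 (.ref 25 132)) (.play 451 (.ref 340 256))))) (.both (.play 261 (.ref 280 132)) (.both (.ref 327 257) (.play 516 (.ref 47 259))))))))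
 (.seq (.one (.both (.play 64 (.ref 2 0)) (.play 5 (.ref 1 1))))
 (.seq (.one (.play 66 (.both (.play 65 (.ref 34 0)) (.both (.play 65 (.ref 33 0)) (.play 70 (.ref 13 1))))))
 (.one (.play 259 (.both (.play 261 (.both (.play 67 (.both (.play 3 (.ref 7 3)) (.ref 343 192))) (.play 325 (.ref 4 68)))) (.play 323 (.ref 6 67))))))))))
 (.seq (.seq (.seq (.seq (.one (.play 260 (.both (.play 68 (.ref 5 4)) (.play 324 (.both (.ref 344 64) (.both (.play 388 (.ref 20 67)) (.both (.play 388 (.ref 19 67)) (.play 388 (.ref 17 131)))))))))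
 (.one (.both (.play 5 (.ref 6 4)) (.ref 345 64))))
 (.seq (.one (.play 260 (.both (.play 258 (.both (.play 68 (.both (.play 4 (.ref 5 3)) (.ref 272 192))) (.play 322 (.ref 6 66)))) (.play 324 (.ref 4 67)))))
 (.seq (.one (.play 259 (.both (.play 194 (.ref 4 2)) (.play 323 (.both (.play 131 (.ref 7 66)) (.play 387 (.both (.ref 347 128) (.both (.play 451 (.ref 24 130)) (.both (.play 451 (.ref 25 131)) (.play 451 (.ref 17 194)))))))))))
 (.one (.play 66 (.both (.play 1 (.both (.play 65 (.both (.play 0 (.ref 3 0)) (.play 4 (.ref 2 1)))) (.play 2 (.ref 3 1)))) (.ref 9 65)))))))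
 (.seq (.seq (.one (.play 67 (.both (.ref 349 0) (.both (.play 66 (.ref 34 1)) (.both (.play 66 (.both (.play 4 (.both (.play 65 (.ref 2 1)) (.play 3 (.ref 3 3)))) (.ref 9 65))) (.ref 12 2))))))
 (.one (.play 71 (.both (.ref 350 0) (.both (.play 72 (.ref 13 3)) (.play 72 (.ref 29 4)))))))
 (.seq (.one (.both (.play 262 (.ref 4 5)) (.ref 351 128)))
 (.seq (.one (.play 1 (.both (.play 192 (.ref 6 0)) (.play 194 (.ref 4 1)))))
 (.one (.play 196 (.both (.play 260 (.ref 6 4)) (.ref 351 128))))))))
 (.seq (.seq (.seq (.one (.play 453 (.both (.play 261 (.both (.ref 116 4) (.both (.play 197 (.ref 24 132)) (.play 454 (.both (.ref 354 256) (.play 518 (.ref 4 261))))))) (.both (.play 262 (.ref 279 133)) (.both (.play 516 (.both (.play 518 (.both (.ref 353 260) (.both (.play 517 (.ref 352 320)) (.ref 348 323)))) (.both (.play 452 (.ref 346 256)) (.both (.play 517 (.both (.play 518 (.both (.play 454 (.both (.play 261 (.ref 4 261)) (.play 455 (.ref 342 451)))) (.play 582 (.ref 4 325)))) (.play 580 (.ref 6 324)))) (.both (.play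 580 (.ref 280 260)) (.play 517 (.ref 340 321))))))) (.play 517 (.ref 47 260)))))))
 (.one (.play 69 (.both (.ref 215 0) (.play 5 (.ref 5 4))))))
 (.seq (.one (.play 67 (.both (.ref 356 0) (.play 3 (.ref 7 3)))))
 (.seq (.one (.play 194 (.both (.ref 258 1) (.both (.ref 206 64) (.both (.play 130 (.ref 88 65)) (.ref 18 129))))))
 (.one (.play 195 (.both (.ref 220 2) (.both (.ref 52 64) (.both (.play 131 (.ref 88 66)) (.ref 23 131)))))))))
 (.seq (.seq (.one (.play 259 (.both (.ref 359 0) (.play 452 (.ref 4 259)))))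
 (.one (.play 323 (.both (.ref 360 0) (.both (.play 259 (.both (.ref 358 1) (.play 452 (.ref 4 259)))) (.both (.ref 226 130) (.both (.play 259 (.ref 88 194)) (.play 579 (.ref 88 258)))))))))
 (.seq (.one (.play 261 (.both (.play 260 (.both (.ref 218 0) (.both (.play 259 (.both (.ref 90 2) (.both (.play 258 (.ref 13 193)) (.play 258 (.ref 10 257))))) (.both (.ref 136 193) (.ref 9 259))))) (.both (.ref 190 1) (.both (.play 260 (.ref 33 195)) (.play 265 (.ref 33 196)))))))
 (.seq (.one (.play 325 (.both (.ref 255 2) (.both (.ref 27 129) (.play 321 (.ref 33 256))))))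
 (.one (.play 67 (.both (.ref 37 0) (.both (.play 66 (.ref 30 1)) (.ref 12 2)))))))))))
 (.seq (.seq (.seq (.seq (.seq (.one (.play 260 (.both (.ref 190 0) (.both (.ref 364 192) (.both (.ref 179 193) (.play 264 (.ref 13 195)))))))
 (.one (.play 325 (.both (.ref 255 2) (.both (.ref 27 129) (.play 321 (.ref 13 256)))))))
 (.seq (.one (.both (.play 0 (.ref 0 0)) (.play 69 (.ref 3 1))))
 (.seq (.one (.play 196 (.both (.play 194 (.both (.play 258 (.ref 6 2)) (.play 129 (.ref 367 128)))) (.play 260 (.ref 4 3)))))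
 (.one (.play 195 (.both (.ref 305 0) (.both (.ref 368 0) (.both (.ref 303 2) (.ref 152 2)))))))))
 (.seq (.seq (.one (.play 66 (.both (.play 2 (.ref 5 1)) (.play 321 (.both (.play 130 (.ref 5 65)) (.ref 303 128))))))
 (.one (.play 129 (.both (.ref 252 0) (.both (.play 65 (.ref 88 0)) (.ref 370 64))))))
 (.seq (.one (.play 68 (.both (.play 69 (.ref 30 0)) (.play 129 (.ref 1 64)))))
 (.seq (.one (.play 69 (.both (.ref 135 0) (.both (.ref 291 2) (.ref 372 2)))))
 (.one (.both (.ref 274 1) (.play 193 (.ref 224 192))))))))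
 (.seq (.seq (.seq (.one (.play 194 (.both (.play 130 (.ref 156 2)) (.ref 77 192))))
 (.one (.play 323 (.both (.play 67 (.ref 19 2)) (.both (.ref 325 64) (.both (.play 130 (.both (.play 66 (.ref 7 66)) (.ref 73 130))) (.play 130 (.ref 123 66))))))))
 (.seq (.one (.play 67 (.both (.play 69 (.both (.ref 134 0) (.play 5 (.ref 5 4)))) (.play 3 (.ref 7 3)))))
 (.seq (.one (.play 132 (.both (.play 68 (.ref 88 3)) (.both (.play 68 (.ref 19 3)) (.both (.play 68 (.ref 25 4)) (.ref 377 64))))))
 (.one (.play 193 (.both (.ref 106 0) (.both (.ref 53 0) (.ref 44 128))))))))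
 (.seq (.seq (.one (.play 196 (.both (.play 260 (.ref 4 3)) (.play 197 (.ref 166 128)))))
 (.one (.play 321 (.both (.play 193 (.both (.ref 226 0) (.play 192 (.ref 3 192)))) (.play 320 (.ref 1 256))))))
 (.seq (.one (.play 259 (.both (.play 261 (.both (.play 258 (.both (.ref 381 1) (.both (.play 257 (.ref 30 192)) (.play 257 (.ref 10 256))))) (.play 197 (.ref 5 196)))) (.play 195 (.ref 7 195)))))
 (.seq (.one (.play 65 (.both (.play 1 (.both (.play 64 (.ref 1 0)) (.play 68 (.ref 0 1)))) (.play 66 (.ref 1 1)))))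
 (.one (.play 66 (.both (.ref 12 1) (.ref 383 64)))))))))
 (.seq (.seq (.seq (.seq (.one (.play 67 (.both (.ref 384 0) (.both (.play 66 (.ref 34 1)) (.both (.play 66 (.both (.ref 12 1) (.play 132 (.both (.play 65 (.ref 0 65)) (.play 131 (.ref 1 67)))))) (.ref 9 66))))))
 (.one (.play 71 (.both (.ref 385 0) (.play 72 (.ref 29 4))))))
 (.seq (.one (.play 68 (.both (.ref 386 0) (.play 4 (.ref 7 4)))))
 (.seq (.one (.both (.ref 387 0) (.play 6 (.ref 5 5))))
 (.one (.both (.play 1 (.ref 5 0)) (.play 321 (.ref 4 64)))))))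
 (.seq (.seq (.one (.both (.play 0 (.ref 7 0)) (.play 322 (.ref 4 65))))
 (.one (.play 64 (.both (.play 65 (.ref 390 0)) (.play 128 (.ref 7 64))))))
 (.seq (.one (.play 129 (.both (.play 65 (.ref 88 0)) (.both (.play 65 (.ref 25 1)) (.play 64 (.both (.play 128 (.ref 7 64)) (.ref 97 128)))))))
 (.seq (.one (.play 257 (.both (.play 64 (.ref 7 0)) (.ref 303 64))))
 (.one (.play 129 (.both (.play 65 (.ref 88 0)) (.both (.play 65 (.both (.ref 23 1) (.play 256 (.ref 6 64)))) (.play 128 (.both (.play 64 (.ref 7 64)) (.ref 393 128)))))))))))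
 (.seq (.seq (.seq (.one (.play 195 (.both (.ref 172 2) (.play 196 (.ref 57 128)))))
 (.one (.play 65 (.both (.play 64 (.ref 2 0)) (.play 128 (.ref 1 64))))))
 (.seq (.one (.play 194 (.both (.play 257 (.both (.play 258 (.both (.play 67 (.ref 6 2)) (.play 197 (.ref 1 193)))) (.ref 396 128))) (.both (.play 197 (.both (.play 258 (.both (.play 67 (.ref 6 2)) (.play 257 (.ref 1 193)))) (.ref 395 66))) (.play 193 (.ref 49 128))))))
 (.seq (.one (.play 66 (.both (.play 2 (.ref 7 2)) (.play 65 (.ref 224 64)))))
 (.one (.play 321 (.both (.ref 23 1) (.play 385 (.ref 67 128))))))))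
 (.seq (.seq (.one (.play 67 (.both (.play 259 (.both (.ref 399 2) (.play 260 (.both (.play 324 (.ref 4 67)) (.play 193 (.ref 367 192)))))) (.play 3 (.ref 6 2)))))
 (.one (.play 68 (.both (.play 260 (.both (.play 69 (.both (.play 133 (.both (.play 134 (.both (.ref 211 0) (.play 135 (.ref 1 131)))) (.play 324 (.ref 5 68)))) (.play 5 (.ref 5 4)))) (.play 323 (.ref 6 67)))) (.play 4 (.ref 6 3))))))
 (.seq (.one (.play 129 (.both (.play 65 (.both (.ref 23 1) (.play 322 (.ref 4 65)))) (.ref 18 64))))
 (.seq (.one (.play 194 (.both (.play 130 (.ref 156 2)) (.play 261 (.ref 166 192)))))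
 (.one (.play 387 (.both (.play 323 (.both (.ref 222 2) (.both (.ref 403 128) (.both (.ref 402 130) (.both (.play 259 (.ref 88 194)) (.play 322 (.both (.play 324 (.both (.play 260 (.ref 5 259)) (.play 389 (.ref 367 321)))) (.play 258 (.ref 7 258))))))))) (.both (.play 386 (.both (.play 322 (.both (.play 258 (.ref 273 194)) (.play 389 (.both (.play 321 (.ref 3 321)) (.play 390 (.both (.ref 11 322) (.play 391 (.ref 1 387)))))))) (.play 385 (.ref 224 384)))) (.play 324 (.ref 158 259)))))))))))))
 (.seq (.seq (.seq (.seq (.seq (.seq (.one (.play 64 (.both (.play 4 (.ref 2 0)) (.play 132 (.ref 0 64)))))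
 (.one (.play 257 (.both (.ref 16 0) (.play 322 (.both (.play 321 (.both (.play 128 (.ref 7 64)) (.play 386 (.ref 4 129)))) (.play 258 (.ref 4 65))))))))
 (.seq (.one (.both (.ref 194 0) (.play 6 (.ref 1 2))))
 (.seq (.one (.play 194 (.both (.play 258 (.ref 277 2)) (.play 133 (.ref 407 128)))))
 (.one (.play 257 (.both (.play 2 (.ref 5 1)) (.ref 406 64)))))))
 (.seq (.seq (.one (.play 195 (.both (.play 259 (.ref 154 2)) (.ref 294 128))))
 (.one (.play 67 (.both (.play 69 (.both (.play 259 (.both (.ref 134 0) (.play 323 (.ref 6 67)))) (.play 5 (.ref 5 4)))) (.play 3 (.ref 7 3))))))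
 (.seq (.one (.play 196 (.both (.play 132 (.both (.play 68 (.ref 20 3)) (.both (.play 68 (.ref 88 3)) (.both (.play 68 (.ref 24 3)) (.ref 411 64))))) (.play 388 (.ref 4 196)))))
 (.seq (.one (.play 324 (.both (.play 260 (.both (.ref 412 0) (.play 325 (.ref 7 260)))) (.both (.play 260 (.both (.play 388 (.both (.play 196 (.ref 4 196)) (.play 581 (.ref 7 324)))) (.play 325 (.ref 7 260)))) (.both (.play 325 (.both (.play 326 (.both (.play 262 (.ref 5 261)) (.ref 225 322))) (.play 260 (.ref 7 260)))) (.ref 295 324))))))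
 (.one (.play 66 (.both (.play 65 (.ref 34 0)) (.play 134 (.ref 0 66)))))))))
 (.seq (.seq (.seq (.one (.play 67 (.both (.ref 161 0) (.play 135 (.ref 0 67)))))
 (.one (.play 68 (.both (.play 1 (.ref 3 0)) (.play 69 (.ref 33 0))))))
 (.seq (.one (.play 1 (.both (.play 0 (.ref 3 0)) (.ref 416 1))))
 (.seq (.one (.play 130 (.both (.play 66 (.both (.play 65 (.ref 30 0)) (.play 129 (.ref 1 65)))) (.play 131 (.ref 1 66)))))
 (.one (.both (.play 0 (.ref 3 0)) (.play 69 (.ref 1 65)))))))
 (.seq (.seq (.one (.play 129 (.both (.play 65 (.ref 160 1)) (.play 196 (.ref 419 128)))))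
 (.one (.play 195 (.both (.play 258 (.both (.play 194 (.both (.play 261 (.both (.play 260 (.both (.ref 420 3) (.play 193 (.ref 0 193)))) (.play 262 (.ref 0 194)))) (.play 257 (.ref 1 193)))) (.play 259 (.ref 1 194)))) (.both (.ref 161 128) (.both (.ref 418 128) (.both (.play 194 (.ref 34 129)) (.ref 417 130))))))))
 (.seq (.one (.play 197 (.both (.play 196 (.both (.ref 421 0) (.both (.play 199 (.both (.play 260 (.both (.play 132 (.both (.play 261 (.both (.play 68 (.ref 160 4)) (.play 200 (.ref 1 196)))) (.play 131 (.ref 3 131)))) (.play 259 (.ref 1 195)))) (.play 135 (.both (.play 71 (.ref 277 6)) (.play 136 (.ref 2 132)))))) (.both (.ref 415 128) (.both (.play 195 (.ref 105 128)) (.ref 414 129)))))) (.play 133 (.ref 7 133)))))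
 (.seq (.one (.play 68 (.both (.play 4 (.ref 5 3)) (.play 69 (.ref 407 64)))))
 (.one (.play 65 (.both (.play 0 (.ref 7 0)) (.play 1 (.ref 6 0))))))))))
 (.seq (.seq (.seq (.seq (.one (.play 387 (.both (.play 452 (.both (.play 195 (.both (.ref 253 2) (.play 388 (.ref 4 195)))) (.play 451 (.both (.play 515 (.ref 7 258)) (.play 516 (.ref 4 259)))))) (.both (.play 130 (.both (.play 195 (.both (.ref 424 66) (.ref 423 128))) (.play 194 (.ref 4 130)))) (.play 451 (.ref 67 194))))))
 (.one (.play 66 (.both (.ref 11 2) (.play 65 (.ref 224 64))))))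
 (.seq (.one (.play 64 (.both (.play 65 (.both (.play 0 (.ref 7 0)) (.play 258 (.ref 4 65)))) (.play 128 (.ref 7 64)))))
 (.seq (.one (.play 194 (.both (.ref 274 0) (.play 133 (.ref 2 129)))))
 (.one (.play 66 (.both (.play 65 (.both (.play 1 (.ref 6 0)) (.play 2 (.ref 5 1)))) (.play 321 (.both (.play 130 (.ref 5 65)) (.ref 79 128)))))))))
 (.seq (.seq (.one (.play 260 (.both (.ref 429 3) (.play 192 (.ref 3 192)))))
 (.one (.play 193 (.both (.play 130 (.both (.play 66 (.ref 158 1)) (.ref 262 64))) (.play 384 (.ref 6 128))))))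
 (.seq (.one (.play 66 (.both (.play 2 (.ref 7 2)) (.ref 304 64))))
 (.seq (.one (.both (.ref 432 0) (.play 322 (.ref 6 66))))
 (.one (.both (.play 65 (.ref 19 0)) (.play 384 (.ref 6 128))))))))
 (.seq (.seq (.seq (.one (.both (.play 0 (.ref 7 0)) (.play 2 (.ref 5 1))))
 (.one (.play 66 (.both (.play 65 (.ref 34 0)) (.play 6 (.ref 2 2))))))
 (.seq (.one (.play 129 (.both (.play 193 (.ref 4 1)) (.play 128 (.ref 1 64)))))
 (.seq (.one (.play 68 (.both (.play 1 (.ref 3 0)) (.play 69 (.ref 10 64)))))
 (.one (.play 196 (.both (.play 197 (.both (.play 198 (.both (.play 199 (.both (.ref 22 4) (.both (.play 200 (.ref 29 132)) (.both (.ref 334 132) (.both (.play 136 (.both (.play 135 (.ref 2 132)) (.play 200 (.both (.play 133 (.both (.play 132 (.ref 3 132)) (.ref 438 133))) (.play 137 (.ref 2 133)))))) (.play 200 (.both (.play 201 (.ref 30 132)) (.both (.ref 417 132) (.ref 8 196))))))))) (.play 195 (.ref 1 194)))) (.play 260 (.ref 2 193)))) (.play 256 (.ref 2 192))))))))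
 (.seq (.seq (.one (.play 131 (.both (.play 67 (.ref 160 3)) (.ref 432 64))))
 (.one (.play 194 (.both (.play 130 (.ref 144 2)) (.play 261 (.ref 166 192))))))
 (.seq (.one (.play 259 (.both (.play 195 (.both (.ref 441 0) (.play 131 (.ref 4 131)))) (.both (.play 195 (.ref 157 67)) (.ref 262 194)))))
 (.seq (.one (.play 67 (.both (.play 1 (.both (.play 129 (.both (.play 65 (.ref 192 0)) (.play 130 (.ref 1 65)))) (.play 2 (.ref 3 1)))) (.play 6 (.ref 2 2)))))
 (.one (.play 68 (.both (.play 69 (.ref 29 1)) (.play 128 (.ref 1 64)))))))))))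
 (.seq (.seq (.seq (.seq (.seq (.one (.play 68 (.both (.ref 11 0) (.both (.ref 291 1) (.play 69 (.both (.ref 330 2) (.play 130 (.ref 1 65))))))))
 (.one (.play 66 (.both (.ref 12 1) (.play 65 (.both (.ref 9 64) (.play 133 (.ref 0 65))))))))
 (.seq (.one (.play 129 (.both (.play 65 (.ref 160 1)) (.play 128 (.ref 3 128)))))
 (.seq (.one (.play 68 (.both (.play 66 (.both (.play 260 (.both (.ref 40 0) (.play 324 (.ref 4 67)))) (.play 2 (.ref 7 2)))) (.play 4 (.ref 5 3)))))
 (.one (.play 259 (.both (.ref 448 0) (.both (.play 323 (.ref 20 2)) (.play 323 (.ref 25 3)))))))))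
 (.seq (.seq (.one (.play 1 (.both (.play 0 (.ref 0 0)) (.play 64 (.ref 1 0)))))
 (.one (.play 4 (.both (.play 64 (.ref 1 0)) (.ref 8 0)))))
 (.seq (.one (.play 68 (.both (.ref 11 0) (.ref 451 65))))
 (.seq (.one (.play 68 (.both (.ref 452 1) (.play 129 (.ref 1 64)))))
 (.one (.play 68 (.both (.play 66 (.both (.play 129 (.both (.ref 453 1) (.ref 450 64))) (.play 2 (.ref 7 2)))) (.play 4 (.ref 5 3)))))))))
 (.seq (.seq (.seq (.one (.both (.play 321 (.ref 20 0)) (.play 2 (.ref 5 1))))
 (.one (.both (.play 321 (.ref 19 0)) (.play 2 (.ref 5 1)))))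
 (.seq (.one (.play 195 (.both (.ref 408 0) (.both (.play 194 (.both (.play 196 (.both (.play 260 (.ref 4 3)) (.play 133 (.ref 342 129)))) (.play 258 (.ref 6 2)))) (.both (.ref 201 2) (.ref 238 2))))))
 (.seq (.one (.play 259 (.both (.play 67 (.ref 7 2)) (.play 260 (.both (.ref 457 128) (.play 192 (.ref 0 192)))))))
 (.one (.play 67 (.both (.play 66 (.both (.play 129 (.both (.play 65 (.both (.play 4 (.ref 2 1)) (.play 128 (.ref 1 64)))) (.play 130 (.ref 1 65)))) (.ref 12 1))) (.play 135 (.ref 0 67))))))))
 (.seq (.seq (.one (.play 70 (.both (.ref 459 0) (.play 262 (.ref 7 5)))))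
 (.one (.play 69 (.both (.play 65 (.ref 33 0)) (.both (.play 70 (.ref 29 2)) (.play 65 (.ref 10 64)))))))
 (.seq (.one (.play 259 (.both (.play 3 (.ref 17 2)) (.both (.play 323 (.both (.ref 325 64) (.play 130 (.ref 7 66)))) (.both (.play 323 (.both (.ref 323 65) (.play 130 (.ref 7 66)))) (.play 323 (.ref 74 66)))))))
 (.seq (.one (.play 196 (.both (.play 198 (.ref 352 0)) (.play 260 (.ref 6 4)))))
 (.one (.both (.play 256 (.ref 6 0)) (.play 257 (.ref 7 0)))))))))
 (.seq (.seq (.seq (.seq (.one (.play 70 (.both (.ref 459 0) (.play 261 (.ref 6 5)))))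
 (.one (.play 65 (.both (.ref 12 0) (.play 132 (.ref 224 64))))))
 (.seq (.one (.play 67 (.both (.ref 161 0) (.both (.play 66 (.ref 34 1)) (.both (.play 132 (.both (.ref 466 1) (.play 131 (.ref 1 67)))) (.ref 9 66))))))
 (.seq (.one (.both (.ref 291 1) (.play 128 (.ref 1 64))))
 (.one (.both (.play 256 (.ref 6 0)) (.play 258 (.ref 4 1)))))))
 (.seq (.seq (.one (.play 131 (.both (.play 67 (.ref 7 2)) (.play 132 (.ref 2 128)))))
 (.one (.play 262 (.both (.ref 470 3) (.ref 104 128)))))
 (.seq (.one (.play 68 (.both (.ref 11 0) (.play 129 (.ref 256 64)))))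
 (.seq (.one (.play 131 (.both (.play 322 (.ref 147 2)) (.play 132 (.ref 110 128)))))
 (.one (.play 259 (.both (.play 131 (.both (.play 67 (.both (.play 66 (.ref 7 2)) (.ref 174 66))) (.play 132 (.ref 2 128)))) (.play 260 (.ref 0 192)))))))))
 (.seq (.seq (.seq (.one (.play 199 (.both (.play 196 (.both (.ref 474 4) (.both (.ref 385 128) (.play 195 (.ref 10 194))))) (.both (.play 196 (.both (.ref 471 1) (.both (.play 263 (.ref 105 129)) (.both (.play 200 (.ref 29 132)) (.ref 214 132))))) (.both (.ref 444 132) (.play 260 (.ref 113 194)))))))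
 (.one (.play 261 (.both (.ref 475 0) (.play 133 (.ref 5 5))))))
 (.seq (.one (.both (.play 0 (.ref 3 0)) (.play 194 (.ref 7 1))))
 (.seq (.one (.play 193 (.both (.ref 220 0) (.both (.play 129 (.ref 88 64)) (.both (.play 258 (.both (.play 129 (.both (.ref 18 64) (.play 322 (.ref 160 65)))) (.play 194 (.ref 5 193)))) (.ref 23 129))))))
 (.one (.play 457 (.both (.play 648 (.both (.play 647 (.both (.play 518 (.both (.play 521 (.both (.play 454 (.both (.play 390 (.both (.play 326 (.both (.play 262 (.both (.play 325 (.both (.play 198 (.both (.play 134 (.ref 195 5)) (.ref 15 198))) (.play 261 (.ref 7 261)))) (.both (.play 455 (.ref 227 69)) (.ref 18 197)))) (.both (.play 262 (.both (.ref 478 5) (.play 455 (.ref 4 262)))) (.both (.play 262 (.ref 88 197)) (.play 327 (.both (.play 325 (.both (.play 328 (.both (.play 324 (.both (.ref 415 256) (.both (.ref 414 257) (.ref 9 323)))) (.both (.play 329 (.ref 33 260)) (.ref 214 261)))) (.play 261 (.ref 7 261)))) (.play 263 (.ref 5 262)))))))) (.both (.play 326 (.ref 202 197))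 (.play 455 (.ref 477 389))))) (.play 453 (.ref 3 453)))) (.play 585 (.both (.play 649 (.ref 464 456)) (.play 586 (.ref 0 518)))))) (.play 517 (.ref 2 453)))) (.both (.play 583 (.both (.play 455 (.both (.play 454 (.ref 374 260)) (.play 712 (.ref 4 455)))) (.play 711 (.ref 5 455)))) (.both (.play 583 (.both (.play 455 (.both (.play 517 (.both (.play 454 (.both (.ref 274 261) (.ref 450 452))) (.play 518 (.ref 2 453)))) (.play 712 (.ref 4 455)))) (.play 711 (.ref 5 455)))) (.both (.ref 476 450) (.both (.play 649 (.both (.play 646 (.both (.play 712 (.both (.ref 473 454) (.both (.ref 415 578) (.ref 472 582)))) (.both (.ref 471 451) (.both (.ref 467 578) (.play 650 (.ref 33 581)))))) (.both (.play 585 (.both (.play 650 (.both (.ref 309 455) (.both (.play 521 (.ref 469 456)) (.play 711 (.ref 468 582))))) (.both (.ref 458 454) (.both (.play 521 (.ref 464 456)) (.play 646 (.both (.ref 467 578) (.both (.play 713 (.ref 105 579)) (.both (.play 713 (.both (.play 712 (.both (.ref 369 582) (.play 645 (.ref 0 645)))) (.play 714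 (.ref 0 646)))) (.play 650 (.ref 10 645)))))))))) (.both (.play 585 (.both (.ref 465 451) (.both (.ref 460 451) (.both (.play 521 (.ref 464 456)) (.play 646 (.both (.play 586 (.ref 2 582)) (.play 645 (.ref 10 644)))))))) (.both (.play 585 (.both (.ref 465 451) (.both (.play 586 (.both (.play 521 (.both (.play 713 (.ref 7 456)) (.play 518 (.ref 0 518)))) (.play 587 (.ref 109 583)))) (.both (.play 521 (.ref 464 456)) (.play 646 (.both (.play 713 (.ref 105 579)) (.play 586 (.ref 2 582)))))))) (.both (.play 650 (.both (.play 714 (.both (.play 778 (.both (.play 585 (.ref 157 457)) (.both (.play 586 (.both (.play 585 (.both (.play 587 (.both (.ref 291 520) (.play 523 (.ref 5 522)))) (.play 521 (.ref 7 521)))) (.ref 463 581))) (.both (.ref 462 583) (.play 842 (.ref 151 585)))))) (.play 715 (.ref 0 647)))) (.both (.play 651 (.ref 33 582)) (.both (.play 651 (.ref 29 583)) (.play 651 (.ref 10 646)))))) (.both (.ref 461 581) (.both (.ref 40 581) (.both (.ref 271 581) (.play 650 (.both (.play 646 (.ref 29 582)) (.both (.play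 651 (.ref 33 582)) (.play 651 (.ref 10 646)))))))))))))) (.play 649 (.both (.play 646 (.both (.play 711 (.both (.play 583 (.ref 5 455)) (.ref 385 578))) (.play 585 (.both (.play 713 (.both (.play 521 (.ref 7 456)) (.play 714 (.ref 0 646)))) (.play 586 (.ref 2 582)))))) (.both (.play 585 (.both (.ref 460 451) (.both (.ref 458 454) (.play 586 (.ref 110 582))))) (.both (.play 711 (.both (.play 583 (.ref 5 455)) (.play 710 (.ref 112 644)))) (.play 711 (.both (.play 583 (.ref 5 455)) (.ref 444 582))))))))))))) (.both (.play 584 (.both (.play 393 (.ref 5 392)) (.ref 337 453))) (.both (.play 584 (.ref 456 391)) (.both (.play 584 (.ref 455 391)) (.play 584 (.both (.ref 326 453) (.both (.ref 337 453) (.both (.play 712 (.both (.play 521 (.ref 5 456)) (.play 776 (.both (.play 713 (.both (.play 777 (.ref 4 520)) (.play 840 (.both (.ref 454 581) (.both (.play 904 (.ref 20 583)) (.play 904 (.ref 24 583))))))) (.both (.ref 15 520) (.both (.ref 449 581) (.ref 149 583))))))) (.both (.ref 324 454) (.both (.play 712 (.ref 17 455))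 (.both (.ref 42 455) (.ref 45 455))))))))))))) (.both (.play 458 (.both (.play 455 (.both (.play 391 (.both (.play 584 (.ref 275 327)) (.play 390 (.ref 3 390)))) (.ref 426 388))) (.play 459 (.ref 1 455)))) (.both (.play 518 (.ref 293 389)) (.both (.play 458 (.ref 72 451)) (.play 518 (.ref 113 452)))))))))))
 (.seq (.seq (.one (.play 456 (.both (.ref 479 0) (.both (.play 457 (.both (.play 393 (.both (.play 392 (.both (.ref 300 7) (.both (.play 394 (.both (.play 391 (.both (.play 455 (.both (.ref 447 198) (.play 454 (.ref 1 390)))) (.both (.play 390 (.ref 13 325)) (.play 390 (.ref 33 325))))) (.both (.play 391 (.both (.ref 446 324) (.both (.play 390 (.ref 13 325)) (.ref 445 327)))) (.both (.ref 444 327) (.play 455 (.ref 112 389)))))) (.both (.play 328 (.both (.ref 51 197) (.play 583 (.ref 6 327)))) (.play 328 (.ref 433 261)))))) (.both (.play 454 (.both (.play 518 (.both (.play 392 (.both (.ref 300 7) (.both (.ref 440 197) (.both (.play 453 (.both (.play 390 (.both (.play 326 (.ref 202 197)) (.play 391 (.both (.play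 389 (.ref 0 389)) (.play 393 (.ref 1 389)))))) (.play 521 (.ref 3 453)))) (.play 521 (.both (.ref 50 263) (.play 453 (.ref 3 453)))))))) (.play 517 (.ref 2 453)))) (.both (.play 455 (.ref 374 260)) (.both (.play 455 (.both (.ref 162 260) (.play 394 (.ref 2 390)))) (.both (.ref 428 261) (.ref 443 388)))))) (.both (.play 521 (.both (.play 329 (.both (.ref 382 69) (.play 265 (.ref 6 264)))) (.both (.ref 442 133) (.both (.play 392 (.both (.play 328 (.ref 227 135)) (.both (.ref 440 197) (.ref 262 327)))) (.both (.ref 429 264) (.play 328 (.both (.ref 424 264) (.ref 393 328)))))))) (.both (.play 328 (.both (.play 329 (.both (.play 330 (.both (.play 266 (.both (.ref 439 71) (.play 521 (.ref 5 265)))) (.both (.play 263 (.both (.play 327 (.both (.play 262 (.ref 3 262)) (.ref 437 262))) (.ref 311 263))) (.play 521 (.ref 435 264))))) (.play 265 (.ref 6 264)))) (.both (.play 392 (.both (.play 263 (.both (.play 265 (.both (.play 264 (.ref 435 199)) (.play 329 (.ref 5 264)))) (.play 327 (.ref 7 263)))) (.play 583 (.ref 6 327))))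 (.both (.play 392 (.ref 434 199)) (.ref 431 199))))) (.both (.play 328 (.both (.play 329 (.both (.play 330 (.both (.play 266 (.both (.ref 146 137) (.ref 436 261))) (.both (.ref 133 261) (.play 521 (.ref 435 264))))) (.play 265 (.ref 6 264)))) (.both (.play 264 (.ref 157 136)) (.both (.play 392 (.ref 434 199)) (.play 392 (.ref 433 261)))))) (.both (.play 328 (.both (.play 392 (.both (.ref 82 135) (.play 583 (.ref 6 327)))) (.both (.play 392 (.ref 259 135)) (.both (.play 264 (.ref 157 136)) (.both (.ref 431 199) (.play 329 (.both (.play 265 (.ref 6 264)) (.play 521 (.both (.play 264 (.ref 7 264)) (.ref 370 264)))))))))) (.both (.play 518 (.both (.play 454 (.both (.play 390 (.both (.play 326 (.ref 202 197)) (.play 455 (.both (.play 389 (.ref 3 389)) (.play 394 (.ref 2 390)))))) (.both (.ref 430 261) (.play 453 (.ref 130 385))))) (.play 517 (.ref 2 453)))) (.play 518 (.both (.play 454 (.both (.ref 430 261) (.both (.ref 428 261) (.play 453 (.ref 130 385))))) (.play 517 (.ref 2 453)))))))))))) (.both (.play 458 (.both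 (.play 455 (.both (.play 391 (.both (.play 327 (.both (.ref 427 198) (.both (.ref 114 199) (.ref 216 259)))) (.play 390 (.ref 3 390)))) (.both (.ref 426 388) (.play 454 (.both (.ref 12 389) (.play 453 (.ref 224 452))))))) (.play 459 (.ref 1 455)))) (.both (.play 521 (.both (.ref 425 198) (.both (.ref 139 389) (.play 518 (.ref 122 451))))) (.both (.ref 373 389) (.both (.play 458 (.ref 72 451)) (.play 518 (.ref 113 452)))))))) (.both (.play 392 (.both (.play 328 (.both (.play 264 (.both (.ref 359 5) (.play 455 (.ref 6 263)))) (.both (.play 264 (.both (.ref 358 6) (.play 455 (.ref 6 263)))) (.both (.ref 106 135) (.both (.play 264 (.ref 88 199)) (.play 584 (.ref 88 263))))))) (.both (.play 328 (.both (.ref 358 70) (.both (.play 521 (.both (.ref 298 71) (.play 585 (.ref 4 328)))) (.both (.play 521 (.ref 227 135)) (.play 584 (.ref 19 263)))))) (.both (.play 328 (.both (.ref 258 135) (.both (.ref 82 135) (.both (.play 264 (.ref 25 200)) (.play 584 (.ref 25 264)))))) (.both (.play 584 (.both (.ref 422 194) (.both (.play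 648 (.ref 88 327)) (.both (.play 648 (.ref 19 327)) (.play 648 (.ref 25 328)))))) (.both (.ref 378 196) (.both (.ref 371 199) (.both (.ref 394 199) (.play 584 (.both (.play 328 (.ref 19 263)) (.both (.play 648 (.ref 88 327)) (.play 648 (.ref 25 328))))))))))))) (.both (.play 392 (.both (.ref 413 3) (.both (.play 328 (.ref 195 199)) (.both (.play 584 (.both (.play 648 (.ref 24 327)) (.both (.play 648 (.ref 25 328)) (.ref 368 389)))) (.play 583 (.ref 277 327)))))) (.both (.play 518 (.both (.play 584 (.both (.play 585 (.both (.ref 320 71) (.ref 294 518))) (.both (.play 457 (.both (.play 393 (.ref 279 264)) (.ref 285 454))) (.both (.ref 410 390) (.play 457 (.both (.play 648 (.ref 47 391)) (.ref 285 454))))))) (.both (.play 584 (.both (.play 392 (.both (.play 328 (.ref 259 135)) (.both (.play 328 (.ref 24 263)) (.both (.play 648 (.both (.ref 251 263) (.play 712 (.ref 17 455)))) (.ref 152 391))))) (.both (.play 585 (.both (.play 649 (.both (.play 392 (.ref 4 392)) (.play 648 (.both (.play 712 (.both (.play 455 (.ref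 7 455)) (.ref 96 519))) (.both (.play 712 (.both (.play 455 (.ref 7 455)) (.play 776 (.both (.ref 16 519) (.play 840 (.ref 43 583)))))) (.play 713 (.ref 275 456))))))) (.play 517 (.ref 0 517)))) (.both (.ref 410 390) (.ref 313 517))))) (.both (.play 584 (.both (.play 457 (.both (.ref 409 391) (.play 517 (.ref 2 453)))) (.both (.play 648 (.both (.play 647 (.both (.play 649 (.both (.play 713 (.ref 4 456)) (.play 646 (.both (.ref 349 579) (.both (.play 645 (.ref 33 580)) (.play 650 (.both (.ref 11 582) (.both (.ref 332 583) (.ref 331 583))))))))) (.play 711 (.ref 6 455)))) (.both (.play 585 (.both (.ref 408 453) (.both (.play 712 (.both (.ref 16 455) (.play 776 (.both (.play 583 (.ref 7 519)) (.ref 42 583))))) (.ref 294 518)))) (.both (.play 712 (.ref 17 455)) (.both (.ref 406 455) (.ref 75 455)))))) (.ref 405 453)))) (.play 457 (.ref 293 389)))))) (.both (.play 583 (.both (.ref 404 68) (.both (.ref 401 324) (.both (.ref 400 325) (.both (.play 647 (.ref 280 327)) (.play 647 (.both (.play 455 (.both (.ref 398 388)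 (.play 648 (.both (.play 584 (.both (.play 391 (.ref 4 391)) (.ref 397 452))) (.play 712 (.ref 4 455)))))) (.play 711 (.ref 5 455))))))))) (.both (.play 457 (.both (.play 392 (.both (.play 328 (.ref 107 135)) (.both (.ref 394 199) (.both (.ref 392 199) (.both (.play 583 (.ref 280 263)) (.play 391 (.both (.play 584 (.ref 151 327)) (.ref 304 389)))))))) (.both (.play 392 (.both (.play 328 (.both (.ref 391 199) (.both (.play 265 (.both (.play 264 (.ref 389 200)) (.play 329 (.ref 5 264)))) (.play 329 (.ref 388 259))))) (.both (.play 328 (.ref 195 199)) (.both (.play 583 (.ref 280 263)) (.play 584 (.both (.play 518 (.both (.play 454 (.both (.play 390 (.both (.play 391 (.both (.play 327 (.ref 7 327)) (.play 389 (.ref 0 389)))) (.play 583 (.both (.play 326 (.ref 4 326)) (.play 647 (.ref 6 391)))))) (.play 453 (.ref 166 451)))) (.play 517 (.ref 2 453)))) (.both (.play 648 (.ref 20 327)) (.both (.play 648 (.both (.ref 18 327) (.ref 42 455))) (.ref 96 391))))))))) (.both (.play 518 (.ref 293 389)) (.both (.play 458 (.ref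 72 451)) (.play 518 (.ref 113 452))))))) (.both (.play 392 (.both (.play 584 (.both (.ref 382 132) (.ref 380 389))) (.both (.ref 379 135) (.both (.ref 378 196) (.play 583 (.ref 280 263)))))) (.both (.ref 265 133) (.both (.play 392 (.both (.play 328 (.ref 107 135)) (.both (.ref 55 197) (.both (.ref 376 261) (.both (.play 583 (.ref 280 263)) (.ref 369 389)))))) (.both (.play 457 (.both (.play 455 (.both (.play 391 (.both (.ref 375 196) (.both (.play 390 (.both (.play 583 (.both (.play 326 (.ref 7 326)) (.play 647 (.both (.ref 15 391) (.play 710 (.both (.play 646 (.ref 6 454)) (.play 711 (.both (.play 520 (.ref 5 455)) (.play 774 (.ref 6 518)))))))))) (.ref 77 388))) (.play 584 (.ref 275 327))))) (.both (.play 454 (.ref 374 260)) (.play 454 (.both (.ref 250 262) (.play 453 (.ref 224 452))))))) (.both (.ref 373 389) (.both (.play 458 (.ref 72 451)) (.play 518 (.ref 113 452)))))) (.play 392 (.both (.play 328 (.ref 195 199)) (.both (.ref 371 199) (.ref 369 389)))))))))))))))))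
 (.one (.play 66 (.both (.play 65 (.ref 34 0)) (.both (.play 65 (.ref 13 0)) (.play 70 (.ref 33 1)))))))
 (.seq (.one (.play 3 (.both (.play 68 (.ref 0 0)) (.play 4 (.ref 1 0)))))
 (.seq (.one (.play 67 (.both (.ref 446 0) (.play 134 (.ref 0 67)))))
 (.one (.play 134 (.both (.ref 146 5) (.play 195 (.both (.ref 446 128) (.play 135 (.ref 2 131)))))))))))))))
 (.seq (.seq (.seq (.seq (.seq (.seq (.seq (.one (.play 134 (.both (.ref 64 0) (.play 135 (.ref 0 67)))))
 (.one (.play 260 (.both (.ref 102 3) (.both (.play 323 (.both (.play 259 (.both (.ref 485 192) (.play 322 (.ref 1 258)))) (.play 324 (.ref 1 259)))) (.both (.ref 364 192) (.both (.ref 418 193) (.play 259 (.ref 34 194)))))))))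
 (.seq (.one (.play 195 (.both (.play 197 (.both (.play 261 (.ref 4 4)) (.ref 343 128))) (.play 259 (.ref 6 3)))))
 (.seq (.one (.play 257 (.both (.play 321 (.ref 19 0)) (.both (.ref 228 0) (.ref 15 1)))))
 (.one (.play 257 (.both (.ref 16 0) (.both (.play 321 (.ref 24 0)) (.ref 260 0))))))))
 (.seq (.seq (.one (.play 67 (.both (.ref 136 0) (.play 7 (.ref 2 3)))))
 (.one (.play 193 (.both (.play 257 (.ref 197 1)) (.play 132 (.both (.play 133 (.ref 3 65)) (.play 192 (.ref 1 128))))))))
 (.seq (.one (.play 131 (.both (.play 66 (.both (.play 130 (.both (.play 69 (.both (.play 68 (.both (.ref 491 3) (.play 129 (.ref 2 65)))) (.play 70 (.ref 2 66)))) (.play 65 (.ref 3 65)))) (.play 67 (.ref 3 66)))) (.both (.ref 136 64) (.both (.ref 183 64) (.both (.play 130 (.ref 34 65)) (.play 195 (.both (.ref 372 67) (.play 194 (.ref 1 130))))))))))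
 (.seq (.one (.play 197 (.both (.play 196 (.both (.play 199 (.both (.play 263 (.both (.play 327 (.ref 156 6)) (.play 264 (.ref 0 196)))) (.play 132 (.both (.play 260 (.both (.play 133 (.both (.play 324 (.ref 197 68)) (.play 200 (.ref 3 132)))) (.play 259 (.ref 1 195)))) (.play 131 (.ref 3 131)))))) (.both (.ref 492 64) (.both (.ref 490 128) (.both (.play 195 (.ref 122 128)) (.ref 436 129)))))) (.play 261 (.ref 6 5)))))
 (.one (.play 134 (.both (.play 70 (.ref 24 5)) (.both (.play 70 (.ref 25 6)) (.ref 493 128)))))))))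
 (.seq (.seq (.seq (.one (.play 4 (.both (.play 1 (.ref 1 0)) (.play 67 (.ref 2 0)))))
 (.one (.both (.play 64 (.ref 2 0)) (.ref 495 1))))
 (.seq (.one (.play 68 (.both (.play 5 (.ref 2 1)) (.play 69 (.ref 10 64)))))
 (.seq (.one (.play 196 (.both (.play 194 (.both (.play 258 (.ref 6 2)) (.ref 272 128))) (.play 260 (.ref 4 3)))))
 (.one (.play 69 (.both (.play 70 (.ref 204 2)) (.ref 9 64)))))))
 (.seq (.seq (.one (.play 130 (.both (.ref 491 1) (.play 129 (.ref 342 64)))))
 (.one (.play 259 (.both (.play 66 (.ref 273 2)) (.play 260 (.ref 57 192))))))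
 (.seq (.one (.play 257 (.both (.play 0 (.ref 7 0)) (.play 66 (.ref 43 0)))))
 (.seq (.one (.both (.play 0 (.ref 7 0)) (.play 321 (.ref 25 1))))
 (.one (.both (.play 65 (.ref 34 0)) (.play 70 (.ref 29 2)))))))))
 (.seq (.seq (.seq (.seq (.one (.play 197 (.both (.play 132 (.ref 469 3)) (.both (.play 194 (.ref 504 128)) (.ref 481 128)))))
 (.one (.play 257 (.both (.play 130 (.ref 6 1)) (.ref 444 128)))))
 (.seq (.one (.play 4 (.both (.play 3 (.ref 2 0)) (.ref 497 0))))
 (.seq (.one (.both (.play 5 (.ref 2 1)) (.play 128 (.ref 1 64))))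
 (.one (.play 69 (.both (.play 65 (.ref 30 0)) (.both (.play 131 (.both (.ref 466 0) (.play 6 (.both (.play 5 (.ref 2 2)) (.play 70 (.ref 508 2)))))) (.both (.play 70 (.ref 29 2)) (.ref 507 2)))))))))
 (.seq (.seq (.one (.play 259 (.both (.play 323 (.ref 239 2)) (.both (.play 323 (.both (.play 387 (.both (.play 388 (.both (.play 451 (.both (.ref 408 256) (.both (.play 452 (.both (.ref 397 256) (.play 516 (.ref 7 259)))) (.both (.play 515 (.ref 17 258)) (.both (.ref 201 258) (.ref 238 258)))))) (.play 327 (.ref 1 323)))) (.play 386 (.ref 1 322)))) (.play 258 (.ref 3 258)))) (.both (.play 258 (.both (.play 260 (.ref 63 257)) (.play 323 (.ref 3 258)))) (.ref 416 259))))))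
 (.one (.play 68 (.both (.play 0 (.ref 3 0)) (.ref 11 0)))))
 (.seq (.one (.play 67 (.both (.ref 349 0) (.play 134 (.ref 0 67)))))
 (.seq (.one (.play 193 (.both (.ref 248 1) (.ref 444 64))))
 (.one (.play 134 (.both (.ref 308 3) (.both (.ref 513 5) (.both (.play 133 (.both (.play 132 (.both (.ref 268 64) (.both (.ref 70 65) (.ref 9 131)))) (.play 201 (.ref 0 133)))) (.both (.play 137 (.both (.play 201 (.both (.ref 512 66) (.play 202 (.ref 0 134)))) (.both (.play 138 (.ref 29 70)) (.ref 511 70)))) (.play 201 (.ref 57 133))))))))))))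
 (.seq (.seq (.seq (.one (.both (.play 7 (.ref 4 7)) (.ref 514 64)))
 (.one (.both (.play 0 (.ref 7 0)) (.play 320 (.ref 6 64)))))
 (.seq (.one (.play 194 (.both (.play 258 (.ref 6 2)) (.ref 286 128))))
 (.seq (.one (.play 323 (.both (.play 324 (.both (.play 131 (.both (.play 67 (.both (.play 3 (.ref 6 2)) (.ref 23 3))) (.play 388 (.ref 4 131)))) (.both (.play 388 (.ref 273 131)) (.play 325 (.ref 166 256))))) (.play 387 (.ref 67 130)))))
 (.one (.both (.play 257 (.ref 4 0)) (.play 256 (.ref 5 0)))))))
 (.seq (.seq (.one (.play 193 (.both (.ref 402 0) (.play 386 (.ref 4 193)))))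
 (.one (.play 450 (.both (.ref 520 0) (.play 449 (.ref 519 257))))))
 (.seq (.one (.play 259 (.both (.play 67 (.both (.play 258 (.both (.play 194 (.both (.play 3 (.ref 6 2)) (.play 193 (.both (.play 260 (.both (.play 324 (.ref 4 67)) (.ref 311 193))) (.play 192 (.ref 2 128)))))) (.play 322 (.ref 6 66)))) (.play 4 (.ref 5 3)))) (.play 323 (.ref 5 67)))))
 (.seq (.one (.play 67 (.both (.play 195 (.both (.play 259 (.ref 74 2)) (.play 196 (.ref 0 128)))) (.play 68 (.ref 2 64)))))
 (.one (.play 193 (.both (.ref 115 0) (.play 384 (.ref 6 192)))))))))))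
 (.seq (.seq (.seq (.seq (.seq (.one (.play 193 (.both (.ref 402 0) (.play 448 (.ref 6 192)))))
 (.one (.play 195 (.both (.ref 380 0) (.play 259 (.ref 67 2))))))
 (.seq (.one (.play 257 (.both (.play 65 (.ref 5 1)) (.ref 42 64))))
 (.seq (.one (.both (.play 129 (.ref 6 0)) (.play 128 (.ref 5 0))))
 (.one (.play 133 (.both (.ref 354 0) (.play 261 (.ref 5 5))))))))
 (.seq (.seq (.one (.play 133 (.both (.play 69 (.ref 464 4)) (.ref 436 128))))
 (.one (.play 198 (.both (.play 263 (.both (.play 199 (.both (.ref 163 1) (.play 264 (.ref 0 196)))) (.play 262 (.ref 0 195)))) (.both (.ref 179 128) (.both (.play 199 (.ref 29 131)) (.both (.ref 507 131) (.play 263 (.both (.play 199 (.both (.play 200 (.ref 33 131)) (.play 264 (.ref 0 196)))) (.play 262 (.ref 0 195)))))))))))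
 (.seq (.one (.play 197 (.both (.ref 531 0) (.both (.ref 530 0) (.both (.play 198 (.both (.ref 22 3) (.both (.play 199 (.ref 33 130)) (.play 199 (.ref 10 194))))) (.both (.ref 134 128) (.both (.play 194 (.ref 504 128)) (.both (.ref 40 129) (.ref 271 129)))))))))
 (.seq (.one (.play 194 (.both (.play 131 (.ref 469 2)) (.both (.ref 41 128) (.play 197 (.ref 504 128))))))
 (.one (.both (.play 129 (.ref 7 0)) (.play 128 (.ref 4 0))))))))
 (.seq (.seq (.seq (.one (.play 132 (.both (.ref 339 0) (.play 260 (.ref 7 3)))))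
 (.one (.play 69 (.both (.play 65 (.ref 30 0)) (.both (.play 65 (.ref 34 0)) (.play 70 (.ref 29 2)))))))
 (.seq (.one (.play 193 (.both (.ref 82 0) (.play 130 (.ref 5 129)))))
 (.seq (.one (.play 196 (.both (.ref 159 0) (.play 5 (.ref 5 4)))))
 (.one (.play 448 (.both (.play 193 (.both (.ref 402 0) (.play 384 (.ref 6 192)))) (.play 512 (.ref 6 256))))))))
 (.seq (.seq (.one (.play 257 (.both (.ref 539 0) (.play 514 (.ref 4 257)))))
 (.one (.both (.ref 540 0) (.play 513 (.ref 5 257)))))
 (.seq (.one (.play 193 (.both (.ref 54 0) (.both (.play 129 (.ref 24 64)) (.ref 23 129)))))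
 (.seq (.one (.play 193 (.both (.ref 207 0) (.both (.play 129 (.ref 19 64)) (.ref 18 128)))))
 (.one (.play 68 (.both (.play 69 (.both (.ref 311 2) (.both (.play 70 (.both (.play 3 (.ref 3 2)) (.ref 507 3))) (.ref 8 65)))) (.play 128 (.ref 1 64))))))))))
 (.seq (.seq (.seq (.seq (.one (.play 197 (.both (.play 194 (.both (.play 130 (.both (.play 66 (.ref 143 2)) (.play 129 (.ref 3 129)))) (.play 133 (.ref 49 129)))) (.both (.play 198 (.both (.ref 485 128) (.both (.play 199 (.both (.play 134 (.both (.play 133 (.both (.play 194 (.ref 2 130)) (.play 200 (.ref 3 132)))) (.play 135 (.ref 2 131)))) (.both (.ref 11 131) (.ref 311 132)))) (.both (.play 199 (.ref 29 131)) (.ref 241 131))))) (.both (.ref 444 130) (.ref 544 130))))))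
 (.one (.play 68 (.both (.ref 507 1) (.play 128 (.ref 1 64))))))
 (.seq (.one (.play 197 (.both (.ref 531 0) (.both (.play 194 (.both (.play 261 (.both (.play 133 (.both (.ref 87 1) (.play 134 (.ref 2 130)))) (.play 262 (.ref 0 194)))) (.play 130 (.both (.play 66 (.ref 154 2)) (.play 129 (.ref 3 129)))))) (.both (.ref 444 130) (.both (.ref 546 130) (.play 198 (.ref 468 130))))))))
 (.seq (.one (.play 193 (.both (.ref 106 0) (.play 385 (.ref 6 192)))))
 (.one (.both (.ref 548 0) (.play 512 (.ref 5 256)))))))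
 (.seq (.seq (.one (.play 323 (.both (.play 324 (.both (.play 260 (.both (.ref 548 3) (.ref 545 128))) (.both (.play 260 (.ref 549 3)) (.both (.ref 547 128) (.play 260 (.both (.ref 545 128) (.play 515 (.ref 5 259)))))))) (.both (.play 259 (.both (.ref 543 2) (.play 514 (.ref 6 258)))) (.both (.play 259 (.both (.ref 542 2) (.play 514 (.ref 6 258)))) (.both (.play 259 (.ref 107 66)) (.play 259 (.both (.play 515 (.ref 88 194)) (.play 514 (.ref 6 258))))))))))
 (.one (.play 258 (.both (.play 195 (.both (.ref 380 0) (.play 259 (.ref 464 66)))) (.play 194 (.ref 5 2))))))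
 (.seq (.one (.play 324 (.both (.play 260 (.both (.play 197 (.both (.ref 537 3) (.play 261 (.ref 5 196)))) (.both (.ref 543 3) (.both (.ref 233 67) (.both (.play 196 (.ref 88 131)) (.ref 377 192)))))) (.play 516 (.ref 6 323)))))
 (.seq (.one (.play 388 (.both (.ref 552 0) (.play 451 (.ref 5 387)))))
 (.one (.both (.ref 553 0) (.play 707 (.ref 5 451))))))))
 (.seq (.seq (.seq (.one (.play 68 (.both (.play 69 (.ref 3 1)) (.ref 8 64))))
 (.one (.play 195 (.both (.play 196 (.both (.ref 148 0) (.ref 555 129))) (.play 132 (.ref 2 128))))))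
 (.seq (.one (.both (.ref 350 0) (.play 8 (.ref 2 4))))
 (.seq (.one (.play 321 (.both (.play 65 (.ref 19 0)) (.both (.play 385 (.ref 20 64)) (.play 385 (.ref 17 128))))))
 (.one (.play 64 (.both (.play 2 (.ref 1 0)) (.play 66 (.ref 2 0))))))))
 (.seq (.seq (.one (.play 259 (.both (.play 68 (.ref 249 3)) (.play 258 (.ref 112 192)))))
 (.one (.play 197 (.both (.ref 560 2) (.both (.play 261 (.both (.play 133 (.both (.play 70 (.ref 158 5)) (.play 132 (.ref 3 132)))) (.play 260 (.ref 1 196)))) (.both (.play 196 (.both (.ref 490 128) (.both (.ref 436 129) (.ref 12 131)))) (.ref 168 130)))))))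
 (.seq (.one (.both (.play 65 (.ref 88 0)) (.play 385 (.ref 17 128))))
 (.seq (.one (.play 199 (.both (.play 328 (.both (.play 135 (.ref 202 6)) (.ref 436 260))) (.both (.play 135 (.ref 562 6)) (.both (.play 326 (.both (.ref 394 6) (.play 328 (.ref 2 262)))) (.both (.play 391 (.ref 21 70)) (.both (.ref 558 70) (.both (.play 326 (.both (.play 390 (.ref 280 70)) (.play 328 (.ref 2 262)))) (.play 326 (.both (.play 391 (.both (.play 455 (.ref 20 134)) (.both (.play 455 (.ref 19 134)) (.both (.play 390 (.both (.play 392 (.both (.ref 561 192) (.play 456 (.ref 4 199)))) (.play 454 (.ref 6 198)))) (.play 455 (.ref 17 198)))))) (.play 328 (.ref 2 262))))))))))))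
 (.one (.play 387 (.both (.ref 300 2) (.both (.play 579 (.both (.play 578 (.both (.ref 524 130) (.play 642 (.ref 6 386)))) (.both (.play 643 (.ref 17 386)) (.ref 200 387)))) (.both (.ref 375 192) (.both (.play 386 (.both (.play 579 (.ref 151 322)) (.ref 77 384))) (.play 578 (.ref 277 322)))))))))))))))
 (.seq (.seq (.seq (.seq (.seq (.seq (.one (.play 455 (.both (.play 456 (.both (.play 519 (.both (.play 518 (.both (.ref 564 4) (.ref 194 452))) (.both (.play 518 (.both (.ref 564 4) (.play 458 (.ref 1 454)))) (.both (.ref 58 260) (.play 518 (.ref 407 452)))))) (.both (.play 392 (.both (.play 391 (.both (.ref 447 198) (.both (.ref 269 323) (.both (.ref 426 324) (.play 390 (.ref 13 325)))))) (.play 395 (.ref 1 391)))) (.both (.ref 556 263) (.ref 495 391))))) (.both (.play 391 (.both (.ref 563 128) (.both (.play 392 (.both (.play 327 (.ref 99 134)) (.play 331 (.ref 2 327)))) (.both (.ref 443 325) (.ref 559 390))))) (.both (.play 391 (.both (.play 519 (.both (.play 327 (.ref 21 198)) (.both (.play 521 (.both (.play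 518 (.both (.play 582 (.ref 280 262)) (.both (.play 582 (.both (.play 327 (.ref 6 326)) (.play 646 (.both (.play 583 (.ref 6 390)) (.play 710 (.both (.play 518 (.ref 5 454)) (.play 774 (.both (.ref 498 579) (.both (.play 838 (.ref 17 581)) (.both (.play 837 (.both (.play 773 (.ref 6 581)) (.play 838 (.both (.ref 296 581) (.play 901 (.ref 6 645)))))) (.both (.ref 488 581) (.ref 203 581)))))))))))) (.play 520 (.ref 557 450))))) (.play 585 (.ref 5 329)))) (.both (.play 583 (.ref 21 262)) (.both (.play 583 (.both (.play 327 (.ref 20 262)) (.both (.play 327 (.ref 19 262)) (.play 647 (.ref 17 390))))) (.both (.ref 558 262) (.both (.play 583 (.both (.play 647 (.ref 20 326)) (.both (.play 647 (.ref 19 326)) (.both (.ref 493 385) (.play 647 (.ref 17 390)))))) (.play 521 (.both (.play 520 (.both (.play 584 (.both (.play 327 (.ref 4 327)) (.play 329 (.ref 6 328)))) (.play 518 (.ref 557 450)))) (.play 585 (.ref 5 329))))))))))) (.both (.play 392 (.both (.play 390 (.ref 30 325)) (.play 331 (.ref 2 327)))) (.play 392 (.ref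 508 326))))) (.both (.play 456 (.both (.ref 556 263) (.play 454 (.ref 2 390)))) (.play 456 (.ref 496 390))))))))
 (.one (.play 649 (.both (.play 522 (.both (.play 458 (.both (.play 521 (.ref 554 6)) (.both (.ref 552 70) (.both (.ref 548 201) (.ref 527 456))))) (.both (.ref 550 135) (.both (.ref 565 192) (.both (.play 713 (.ref 549 265)) (.play 458 (.ref 280 329))))))) (.both (.play 522 (.both (.play 713 (.ref 554 70)) (.both (.ref 550 135) (.both (.ref 565 192) (.both (.ref 379 265) (.play 713 (.ref 280 393))))))) (.both (.play 522 (.both (.play 713 (.ref 554 70)) (.both (.ref 400 391) (.both (.play 713 (.ref 280 393)) (.play 650 (.both (.play 714 (.both (.ref 423 455) (.play 778 (.both (.ref 15 522) (.play 842 (.ref 7 585)))))) (.both (.play 714 (.both (.ref 423 455) (.ref 152 521))) (.both (.play 651 (.both (.ref 173 517) (.both (.play 652 (.both (.play 715 (.both (.ref 172 522) (.play 716 (.ref 224 648)))) (.play 585 (.ref 204 584)))) (.play 584 (.ref 367 583))))) (.ref 551 519))))))))) (.both (.play 522 (.both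 (.ref 550 135) (.both (.ref 379 265) (.both (.play 713 (.ref 280 393)) (.both (.play 523 (.both (.play 714 (.both (.ref 538 454) (.both (.play 650 (.ref 456 457)) (.both (.play 650 (.both (.play 459 (.ref 5 458)) (.play 779 (.both (.play 777 (.both (.play 713 (.ref 6 521)) (.play 778 (.ref 469 585)))) (.play 715 (.ref 4 522)))))) (.play 713 (.both (.play 712 (.both (.play 776 (.both (.play 775 (.both (.play 774 (.both (.play 773 (.both (.ref 486 512) (.play 776 (.ref 2 709)))) (.play 711 (.ref 1 710)))) (.play 715 (.ref 1 711)))) (.play 521 (.ref 6 520)))) (.both (.play 779 (.both (.play 715 (.both (.ref 470 520) (.play 780 (.ref 0 712)))) (.ref 104 645))) (.play 521 (.ref 469 520))))) (.play 777 (.ref 5 521)))))))) (.both (.play 584 (.ref 293 455)) (.both (.play 524 (.ref 72 517)) (.play 584 (.ref 496 519)))))) (.ref 522 454)))))) (.both (.play 522 (.both (.ref 550 135) (.both (.play 713 (.both (.play 458 (.both (.play 394 (.both (.play 330 (.both (.play 266 (.ref 88 201)) (.both (.play 266 (.ref 19 201)) (.both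 (.play 266 (.ref 25 202)) (.ref 448 263))))) (.play 586 (.ref 6 393)))) (.play 521 (.ref 5 457)))) (.both (.play 521 (.ref 47 456)) (.ref 42 520)))) (.both (.play 458 (.both (.ref 106 265) (.both (.play 650 (.ref 195 329)) (.play 713 (.both (.play 650 (.ref 6 457)) (.ref 345 517)))))) (.both (.play 523 (.both (.play 714 (.both (.play 713 (.ref 541 264)) (.both (.ref 538 454) (.both (.play 778 (.ref 157 457)) (.both (.play 650 (.both (.ref 296 457) (.play 459 (.ref 5 458)))) (.play 650 (.ref 46 457))))))) (.both (.play 584 (.ref 293 455)) (.both (.play 524 (.ref 72 517)) (.play 584 (.ref 496 519)))))) (.both (.play 713 (.both (.ref 537 328) (.play 777 (.ref 5 521)))) (.play 713 (.ref 280 393)))))))) (.both (.play 584 (.both (.play 583 (.both (.play 582 (.both (.play 648 (.both (.play 519 (.both (.play 455 (.both (.ref 226 262) (.both (.play 647 (.ref 202 326)) (.ref 348 453)))) (.play 518 (.ref 3 518)))) (.play 581 (.ref 0 581)))) (.both (.ref 104 515) (.ref 12 517)))) (.both (.ref 100 326) (.both (.play 582 (.both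 (.ref 104 515) (.both (.play 648 (.both (.play 776 (.both (.play 712 (.ref 229 519)) (.both (.play 777 (.both (.play 775 (.both (.ref 421 579) (.both (.play 774 (.ref 32 580)) (.both (.play 711 (.both (.play 647 (.ref 519 583)) (.ref 332 710))) (.both (.ref 134 708) (.both (.ref 188 708) (.both (.ref 40 709) (.ref 536 709)))))))) (.both (.ref 505 581) (.both (.ref 535 581) (.play 713 (.ref 464 584)))))) (.play 777 (.both (.play 775 (.both (.play 774 (.ref 35 580)) (.both (.ref 506 582) (.both (.ref 492 643) (.both (.ref 272 709) (.play 778 (.ref 504 709))))))) (.both (.ref 533 581) (.both (.ref 535 581) (.play 841 (.ref 534 584))))))))) (.play 581 (.ref 0 581)))) (.ref 9 581)))) (.both (.ref 384 516) (.both (.play 582 (.both (.play 517 (.both (.play 581 (.both (.play 516 (.ref 3 516)) (.play 648 (.ref 0 581)))) (.play 518 (.ref 3 517)))) (.ref 9 581))) (.play 582 (.ref 34 517)))))))) (.both (.ref 92 261) (.both (.ref 473 391) (.play 648 (.both (.play 777 (.both (.play 713 (.ref 261 520)) (.both (.play 776 (.both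 (.ref 529 579) (.both (.ref 533 581) (.both (.ref 532 581) (.play 712 (.ref 519 584)))))) (.play 776 (.both (.ref 529 579) (.both (.ref 505 581) (.both (.play 778 (.both (.play 842 (.both (.play 713 (.ref 4 585)) (.ref 414 709))) (.both (.play 779 (.ref 31 583)) (.both (.ref 335 645) (.both (.play 775 (.ref 504 709)) (.ref 343 709)))))) (.play 840 (.ref 528 584))))))))) (.play 647 (.ref 342 582)))))))) (.both (.ref 355 260) (.both (.ref 341 261) (.both (.play 522 (.both (.ref 379 265) (.both (.play 458 (.both (.play 394 (.ref 6 393)) (.ref 527 456))) (.both (.play 713 (.ref 280 393)) (.play 650 (.both (.play 714 (.both (.ref 423 455) (.play 778 (.ref 67 521)))) (.both (.play 651 (.both (.play 715 (.both (.ref 172 522) (.ref 459 581))) (.both (.ref 395 520) (.play 584 (.ref 367 583))))) (.ref 526 519)))))))) (.both (.play 522 (.both (.play 521 (.both (.play 648 (.both (.ref 525 264) (.play 647 (.ref 496 582)))) (.both (.play 712 (.both (.ref 524 264) (.play 713 (.both (.play 776 (.ref 6 520)) (.play 777 (.ref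 5 521)))))) (.both (.ref 521 264) (.play 713 (.both (.play 714 (.both (.play 712 (.both (.play 776 (.ref 6 520)) (.play 715 (.both (.ref 523 584) (.both (.play 716 (.ref 30 647)) (.play 716 (.ref 13 647))))))) (.play 778 (.ref 4 521)))) (.play 777 (.ref 5 521)))))))) (.both (.ref 379 265) (.both (.play 458 (.ref 280 329)) (.both (.ref 400 391) (.ref 522 454)))))) (.both (.play 650 (.both (.play 584 (.both (.play 647 (.both (.play 648 (.both (.play 583 (.both (.play 711 (.both (.ref 521 326) (.play 710 (.ref 1 646)))) (.play 582 (.ref 3 582)))) (.play 587 (.ref 2 583)))) (.both (.play 648 (.ref 49 582)) (.ref 450 582)))) (.both (.ref 500 518) (.play 651 (.ref 367 583))))) (.both (.ref 425 327) (.both (.ref 518 391) (.play 651 (.both (.play 715 (.both (.play 779 (.ref 156 458)) (.ref 414 582))) (.both (.play 716 (.both (.ref 137 581) (.ref 306 585))) (.play 652 (.ref 204 584))))))))) (.both (.play 648 (.both (.play 647 (.both (.play 584 (.both (.play 713 (.both (.play 777 (.both (.play 521 (.both (.play 457 (.ref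 76 392)) (.ref 15 521))) (.play 841 (.ref 7 584)))) (.both (.play 712 (.both (.ref 205 455) (.both (.ref 409 519) (.play 776 (.both (.ref 517 581) (.both (.ref 42 583) (.ref 314 583))))))) (.both (.play 776 (.both (.play 712 (.both (.play 521 (.ref 5 520)) (.play 777 (.both (.play 775 (.both (.play 839 (.ref 6 583)) (.play 710 (.both (.play 774 (.both (.play 709 (.ref 3 709)) (.play 773 (.ref 2 709)))) (.play 778 (.both (.play 711 (.ref 3 710)) (.play 779 (.both (.ref 511 712) (.ref 8 775))))))))) (.play 841 (.ref 4 584)))))) (.both (.play 712 (.ref 197 520)) (.play 777 (.ref 464 584))))) (.both (.play 776 (.both (.play 712 (.both (.play 521 (.ref 5 520)) (.play 775 (.both (.play 839 (.ref 249 583)) (.play 714 (.ref 407 709)))))) (.both (.play 712 (.ref 197 520)) (.play 777 (.ref 464 584))))) (.both (.ref 410 519) (.play 777 (.both (.play 776 (.ref 340 581)) (.both (.play 842 (.both (.play 841 (.ref 390 584)) (.play 778 (.ref 4 585)))) (.play 840 (.both (.play 776 (.ref 6 584)) (.play 841 (.ref 516 584)))))))))))))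 (.play 587 (.ref 1 583)))) (.play 646 (.ref 2 582)))) (.both (.play 776 (.both (.play 712 (.both (.ref 146 456) (.both (.play 521 (.ref 278 456)) (.play 777 (.both (.play 841 (.ref 515 577)) (.both (.ref 336 581) (.both (.play 841 (.ref 273 584)) (.play 841 (.both (.ref 514 641) (.ref 172 648)))))))))) (.both (.play 777 (.both (.play 775 (.both (.ref 510 451) (.both (.ref 60 579) (.both (.play 778 (.both (.ref 474 583) (.both (.play 779 (.ref 33 710)) (.play 779 (.ref 10 774))))) (.both (.ref 133 708) (.both (.play 778 (.ref 504 709)) (.ref 509 709))))))) (.both (.play 778 (.both (.play 840 (.both (.play 713 (.ref 6 584)) (.play 839 (.ref 72 771)))) (.both (.ref 506 583) (.both (.play 842 (.both (.play 713 (.ref 4 585)) (.ref 313 775))) (.ref 40 710))))) (.both (.ref 505 581) (.both (.play 713 (.both (.ref 339 581) (.both (.play 841 (.both (.play 584 (.ref 7 584)) (.ref 380 646))) (.ref 502 584)))) (.both (.play 713 (.both (.play 840 (.ref 6 584)) (.play 841 (.ref 503 584)))) (.play 713 (.both (.play 840 (.ref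 6 584)) (.ref 502 584))))))))) (.both (.play 712 (.ref 279 456)) (.play 840 (.both (.play 777 (.both (.ref 475 579) (.play 713 (.ref 6 584)))) (.play 712 (.ref 5 584)))))))) (.both (.play 650 (.both (.ref 501 455) (.both (.play 651 (.both (.ref 148 455) (.play 652 (.ref 204 584)))) (.play 714 (.both (.play 587 (.both (.play 778 (.ref 47 521)) (.play 647 (.ref 2 583)))) (.both (.play 778 (.both (.play 842 (.both (.play 713 (.both (.play 712 (.both (.play 777 (.both (.play 841 (.ref 6 585)) (.ref 500 646))) (.both (.ref 138 646) (.play 711 (.both (.play 710 (.ref 2 646)) (.ref 499 646)))))) (.play 906 (.ref 7 649)))) (.both (.ref 16 585) (.play 906 (.ref 74 649))))) (.both (.ref 498 583) (.both (.play 842 (.ref 17 585)) (.both (.ref 406 585) (.ref 75 585)))))) (.ref 405 583))))))) (.both (.play 647 (.both (.ref 70 580) (.both (.ref 178 580) (.ref 497 582)))) (.play 647 (.ref 496 582))))))) (.both (.play 713 (.both (.ref 494 387) (.both (.ref 208 391) (.both (.play 522 (.ref 280 393)) (.both (.play 777 (.ref 43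 520)) (.play 777 (.both (.play 521 (.ref 17 520)) (.both (.play 841 (.ref 17 584)) (.both (.ref 489 584) (.ref 488 584)))))))))) (.both (.play 713 (.both (.play 521 (.both (.play 457 (.ref 24 392)) (.both (.play 457 (.ref 25 393)) (.ref 487 517)))) (.both (.play 522 (.ref 280 393)) (.both (.ref 327 518) (.play 777 (.ref 47 520)))))) (.ref 338 390))))))))))))))))))
 (.seq (.one (.play 257 (.both (.play 65 (.ref 7 0)) (.play 321 (.ref 74 64)))))
 (.seq (.one (.play 68 (.both (.play 0 (.ref 3 0)) (.ref 445 1))))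
 (.one (.play 133 (.both (.play 130 (.both (.play 194 (.both (.ref 248 2) (.play 193 (.ref 1 129)))) (.play 197 (.ref 224 129)))) (.both (.play 134 (.both (.ref 184 64) (.both (.play 135 (.both (.ref 291 68) (.both (.play 198 (.both (.play 197 (.both (.play 130 (.ref 0 130)) (.play 136 (.ref 1 132)))) (.play 199 (.ref 0 131)))) (.ref 8 131)))) (.both (.play 135 (.ref 29 67)) (.ref 214 67))))) (.both (.ref 332 66) (.ref 568 66)))))))))
 (.seq (.seq (.one (.play 257 (.both (.play 0 (.ref 4 0)) (.ref 567 64))))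
 (.one (.play 323 (.both (.play 132 (.ref 280 3)) (.both (.play 324 (.both (.ref 336 128) (.both (.play 388 (.both (.play 131 (.ref 4 131)) (.ref 569 192))) (.both (.ref 570 131) (.play 388 (.both (.ref 569 192) (.ref 567 195))))))) (.play 387 (.ref 47 130)))))))
 (.seq (.one (.both (.ref 487 0) (.both (.play 260 (.ref 17 3)) (.both (.play 261 (.both (.play 260 (.both (.ref 318 3) (.play 325 (.ref 4 68)))) (.play 197 (.ref 4 4)))) (.both (.ref 489 3) (.ref 48 3))))))
 (.seq (.one (.both (.ref 54 3) (.both (.play 132 (.ref 20 67)) (.both (.play 132 (.ref 19 67)) (.both (.ref 344 128) (.play 132 (.ref 17 131)))))))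
 (.one (.play 193 (.both (.ref 258 0) (.both (.play 129 (.ref 88 64)) (.both (.play 256 (.both (.play 129 (.both (.play 320 (.ref 76 64)) (.ref 23 65))) (.play 192 (.ref 7 192)))) (.ref 18 128))))))))))
 (.seq (.seq (.seq (.one (.play 196 (.both (.play 197 (.both (.play 389 (.both (.ref 289 0) (.play 453 (.ref 4 196)))) (.play 133 (.ref 5 132)))) (.both (.play 132 (.ref 88 67)) (.both (.play 132 (.ref 19 67)) (.play 132 (.ref 25 68)))))))
 (.one (.play 449 (.both (.play 450 (.both (.ref 520 0) (.play 514 (.ref 4 257)))) (.both (.play 513 (.ref 17 256)) (.play 513 (.both (.ref 16 256) (.play 322 (.ref 5 257)))))))))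
 (.seq (.one (.play 388 (.both (.ref 575 0) (.both (.ref 576 3) (.both (.play 197 (.ref 280 68)) (.play 452 (.ref 47 195)))))))
 (.seq (.one (.play 321 (.both (.play 65 (.ref 20 0)) (.both (.ref 296 64) (.ref 45 128)))))
 (.one (.play 198 (.both (.ref 422 0) (.both (.play 134 (.ref 20 69)) (.both (.play 134 (.ref 88 69)) (.play 134 (.ref 24 69))))))))))
 (.seq (.seq (.one (.play 129 (.both (.play 65 (.ref 160 1)) (.ref 16 128))))
 (.one (.play 197 (.both (.play 261 (.both (.play 325 (.ref 144 4)) (.play 194 (.both (.play 193 (.both (.play 192 (.ref 2 128)) (.ref 9 192))) (.play 262 (.ref 0 194)))))) (.play 198 (.ref 204 130))))))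
 (.seq (.one (.play 65 (.both (.play 2 (.ref 5 1)) (.play 320 (.ref 6 64)))))
 (.seq (.one (.play 66 (.both (.ref 582 0) (.play 130 (.ref 5 65)))))
 (.one (.play 131 (.both (.play 67 (.ref 76 2)) (.both (.ref 429 2) (.ref 551 128))))))))))
 (.seq (.seq (.seq (.seq (.one (.play 129 (.both (.play 321 (.ref 562 0)) (.both (.ref 198 0) (.play 194 (.ref 192 128))))))
 (.one (.play 259 (.both (.play 323 (.ref 20 2)) (.both (.play 323 (.ref 19 2)) (.both (.ref 498 64) (.play 323 (.ref 17 66))))))))
 (.seq (.one (.play 193 (.both (.ref 284 0) (.play 450 (.ref 4 193)))))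
 (.seq (.one (.play 193 (.both (.play 256 (.ref 528 0)) (.both (.play 129 (.ref 464 0)) (.both (.play 257 (.ref 534 0)) (.play 128 (.ref 519 0)))))))
 (.one (.play 196 (.both (.ref 65 1) (.play 128 (.ref 0 128))))))))
 (.seq (.seq (.one (.play 262 (.both (.play 195 (.both (.ref 471 0) (.play 263 (.ref 0 195)))) (.both (.play 134 (.both (.play 70 (.ref 7 5)) (.play 135 (.both (.play 326 (.ref 47 69)) (.play 136 (.ref 109 132)))))) (.ref 589 67)))))
 (.one (.both (.play 3 (.ref 7 3)) (.ref 487 64))))
 (.seq (.one (.play 64 (.both (.play 257 (.ref 151 0)) (.play 130 (.ref 3 64)))))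
 (.seq (.one (.play 386 (.both (.play 387 (.both (.ref 587 1) (.play 388 (.ref 56 320)))) (.play 450 (.ref 464 257)))))
 (.one (.play 449 (.both (.play 450 (.both (.play 193 (.both (.ref 284 0) (.play 386 (.ref 4 193)))) (.play 514 (.ref 4 257)))) (.both (.ref 78 256) (.play 513 (.ref 17 256))))))))))
 (.seq (.seq (.seq (.one (.play 386 (.both (.play 323 (.both (.ref 282 2) (.both (.play 259 (.ref 88 194)) (.ref 423 256)))) (.play 452 (.ref 3 386)))))
 (.one (.play 131 (.both (.play 3 (.both (.play 4 (.ref 2 0)) (.ref 369 0))) (.play 132 (.ref 0 64))))))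
 (.seq (.one (.play 68 (.both (.ref 137 0) (.both (.ref 104 1) (.ref 12 3)))))
 (.seq (.one (.play 649 (.both (.play 647 (.both (.play 583 (.both (.play 648 (.both (.play 650 (.both (.play 522 (.both (.play 459 (.both (.ref 553 7) (.both (.ref 582 393) (.play 714 (.both (.play 523 (.ref 5 458)) (.ref 410 520)))))) (.both (.ref 429 393) (.both (.play 713 (.ref 158 457)) (.ref 551 519))))) (.play 582 (.ref 3 582)))) (.play 646 (.ref 2 582)))) (.both (.play 519 (.both (.ref 595 132) (.both (.ref 579 257) (.both (.play 646 (.both (.play 455 (.ref 195 326)) (.play 584 (.ref 1 582)))) (.play 584 (.ref 192 518)))))) (.both (.play 584 (.both (.ref 597 514) (.both (.play 582 (.ref 30 517)) (.ref 596 519)))) (.ref 559 582))))) (.both (.play 583 (.both (.play 519 (.both (.ref 595 132) (.both (.play 518 (.both (.ref 594 262) (.play 584 (.ref 3 518)))) (.both (.ref 101 326) (.both (.play 711 (.both (.play 455 (.ref 25 391)) (.play 775 (.ref 20 454)))) (.ref 592 454)))))) (.both (.ref 563 320) (.both (.ref 585 390) (.ref 559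 582))))) (.both (.play 648 (.both (.play 650 (.both (.play 583 (.both (.play 519 (.both (.play 455 (.both (.ref 360 132) (.both (.ref 226 262) (.both (.play 391 (.ref 88 326)) (.both (.play 584 (.both (.ref 199 388) (.play 391 (.ref 4 391)))) (.play 711 (.ref 88 390))))))) (.both (.play 455 (.ref 202 326)) (.both (.play 712 (.ref 157 391)) (.play 711 (.both (.ref 212 451) (.both (.play 775 (.ref 25 455)) (.ref 97 518)))))))) (.play 582 (.ref 3 582)))) (.both (.play 777 (.both (.ref 593 328) (.both (.play 522 (.both (.play 458 (.both (.play 394 (.ref 6 393)) (.play 714 (.ref 25 394)))) (.play 713 (.ref 5 521)))) (.both (.play 713 (.ref 197 521)) (.ref 588 585))))) (.play 651 (.ref 30 582))))) (.play 646 (.ref 2 582)))) (.both (.play 650 (.both (.play 583 (.both (.play 519 (.both (.ref 234 260) (.both (.play 455 (.both (.play 391 (.ref 88 326)) (.both (.play 391 (.ref 19 326)) (.play 518 (.both (.ref 423 388) (.play 584 (.ref 3 518))))))) (.both (.play 711 (.ref 562 390)) (.both (.ref 247 451) (.ref 592 454))))))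 (.both (.play 584 (.both (.ref 118 262) (.play 582 (.ref 0 582)))) (.both (.play 711 (.both (.play 519 (.ref 562 390)) (.both (.ref 193 390) (.play 648 (.ref 192 582))))) (.play 582 (.both (.play 648 (.ref 3 582)) (.play 584 (.ref 0 582)))))))) (.both (.ref 584 391) (.play 777 (.both (.play 584 (.both (.play 713 (.ref 591 517)) (.play 583 (.ref 224 582)))) (.both (.play 584 (.both (.play 713 (.ref 229 520)) (.play 651 (.ref 367 583)))) (.both (.play 778 (.both (.play 779 (.both (.ref 590 581) (.both (.play 651 (.both (.play 715 (.both (.play 843 (.ref 151 586)) (.ref 436 710))) (.play 652 (.ref 204 584)))) (.both (.play 651 (.both (.play 843 (.both (.play 715 (.ref 7 586)) (.play 776 (.both (.play 775 (.ref 34 710)) (.both (.play 775 (.both (.ref 12 710) (.play 842 (.ref 0 775)))) (.play 840 (.both (.ref 453 712) (.play 839 (.ref 1 775))))))))) (.play 652 (.ref 204 584)))) (.both (.play 780 (.both (.ref 210 585) (.both (.play 781 (.ref 33 712)) (.both (.play 781 (.ref 29 713)) (.play 781 (.ref 10 776)))))) (.both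 (.ref 134 710) (.both (.play 776 (.ref 504 710)) (.both (.play 776 (.both (.play 775 (.ref 30 710)) (.play 780 (.ref 33 711)))) (.both (.ref 40 711) (.ref 271 711)))))))))) (.both (.ref 505 582) (.both (.ref 535 582) (.play 714 (.ref 464 585)))))) (.ref 588 585)))))))) (.both (.play 583 (.both (.play 584 (.both (.ref 118 262) (.play 650 (.ref 224 582)))) (.both (.play 711 (.both (.play 775 (.both (.play 582 (.both (.play 646 (.both (.play 645 (.both (.play 712 (.both (.ref 587 326) (.ref 294 645))) (.play 644 (.both (.ref 102 387) (.play 643 (.ref 2 579)))))) (.play 839 (.ref 7 582)))) (.play 518 (.ref 7 518)))) (.both (.play 776 (.ref 227 390)) (.both (.play 839 (.ref 19 518)) (.both (.play 582 (.ref 123 518)) (.ref 149 582)))))) (.both (.ref 208 389) (.both (.play 519 (.both (.play 455 (.ref 20 390)) (.both (.play 455 (.ref 88 390)) (.play 710 (.both (.play 712 (.both (.play 776 (.ref 4 519)) (.ref 333 645))) (.play 774 (.ref 6 518))))))) (.both (.play 519 (.ref 562 390)) (.both (.play 519 (.both (.play 455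 (.ref 20 390)) (.both (.play 455 (.ref 88 390)) (.both (.play 455 (.ref 24 390)) (.play 775 (.ref 20 454)))))) (.both (.ref 558 454) (.ref 586 516)))))))) (.both (.ref 585 390) (.play 584 (.both (.play 650 (.ref 224 582)) (.play 646 (.ref 1 582)))))))) (.both (.play 650 (.both (.play 522 (.both (.play 458 (.ref 195 329)) (.both (.ref 371 329) (.play 714 (.both (.play 713 (.both (.play 715 (.both (.play 779 (.ref 4 522)) (.ref 170 645))) (.play 777 (.ref 6 521)))) (.both (.play 778 (.ref 17 521)) (.both (.ref 152 521) (.play 778 (.both (.ref 15 522) (.both (.play 842 (.ref 151 585)) (.play 842 (.both (.play 585 (.ref 7 585)) (.ref 45 649))))))))))))) (.both (.play 648 (.both (.play 583 (.both (.play 711 (.both (.ref 392 390) (.play 710 (.ref 1 646)))) (.play 582 (.ref 3 582)))) (.play 646 (.ref 2 582)))) (.ref 584 391)))) (.play 648 (.both (.play 650 (.both (.play 522 (.both (.play 458 (.ref 76 393)) (.both (.ref 429 393) (.ref 369 519)))) (.ref 499 582))) (.play 646 (.ref 2 582))))))))))) (.both (.play 650 (.both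 (.play 522 (.both (.play 521 (.both (.play 457 (.both (.ref 298 200) (.both (.ref 226 264) (.ref 432 390)))) (.both (.ref 262 456) (.play 714 (.ref 67 457))))) (.both (.play 457 (.both (.play 521 (.both (.ref 441 262) (.play 714 (.ref 4 457)))) (.both (.play 521 (.ref 160 393)) (.ref 424 393)))) (.both (.ref 442 262) (.both (.play 458 (.both (.ref 583 329) (.both (.play 393 (.both (.play 394 (.ref 516 329)) (.play 457 (.ref 7 393)))) (.ref 357 390)))) (.both (.play 457 (.both (.play 521 (.both (.ref 454 390) (.play 714 (.ref 4 457)))) (.both (.play 521 (.ref 160 393)) (.ref 424 393)))) (.play 458 (.both (.play 394 (.ref 6 393)) (.ref 399 393))))))))) (.both (.ref 518 391) (.both (.play 651 (.both (.ref 561 451) (.both (.play 716 (.both (.ref 512 581) (.ref 306 585))) (.play 652 (.ref 204 584))))) (.ref 581 454))))) (.both (.play 522 (.both (.ref 265 199) (.both (.play 713 (.both (.play 521 (.both (.play 520 (.both (.play 519 (.both (.play 648 (.both (.ref 381 262) (.ref 380 518))) (.play 518 (.ref 0 518)))) (.play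 456 (.ref 7 456)))) (.both (.ref 580 328) (.both (.play 457 (.ref 20 392)) (.play 457 (.ref 19 392)))))) (.play 777 (.ref 5 521)))) (.both (.play 458 (.ref 280 329)) (.both (.ref 401 390) (.both (.play 713 (.ref 280 393)) (.ref 522 454))))))) (.both (.play 713 (.both (.ref 579 323) (.both (.play 777 (.ref 21 456)) (.both (.play 777 (.ref 47 520)) (.both (.play 777 (.ref 455 520)) (.play 777 (.ref 456 520))))))) (.both (.play 713 (.both (.ref 579 323) (.both (.play 522 (.ref 280 393)) (.both (.ref 578 456) (.play 777 (.ref 455 520)))))) (.both (.ref 577 325) (.both (.play 713 (.both (.ref 575 325) (.both (.play 777 (.both (.ref 574 328) (.both (.play 778 (.ref 227 392)) (.both (.play 841 (.ref 19 520)) (.ref 149 584))))) (.both (.play 522 (.ref 280 393)) (.both (.ref 376 454) (.play 777 (.ref 43 520))))))) (.both (.play 713 (.both (.play 521 (.both (.play 457 (.ref 20 392)) (.both (.play 457 (.ref 19 392)) (.ref 493 515)))) (.both (.play 777 (.ref 573 389)) (.both (.play 777 (.both (.play 521 (.ref 20 456)) (.both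 (.ref 228 520) (.both (.play 841 (.both (.ref 377 581) (.both (.play 905 (.ref 88 584)) (.both (.play 650 (.ref 43 584)) (.play 648 (.ref 123 584)))))) (.ref 489 584))))) (.both (.ref 376 454) (.both (.play 777 (.ref 21 456)) (.both (.ref 558 456) (.play 777 (.ref 572 581))))))))) (.ref 571 390)))))))))))
 (.one (.play 259 (.both (.ref 448 0) (.both (.play 323 (.ref 88 2)) (.both (.play 323 (.ref 19 2)) (.both (.ref 260 2) (.play 323 (.ref 25 3)))))))))))
 (.seq (.seq (.one (.play 259 (.both (.ref 16 2) (.both (.ref 599 64) (.both (.ref 449 64) (.ref 45 66))))))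
 (.one (.play 257 (.both (.play 64 (.ref 67 0)) (.ref 15 1)))))
 (.seq (.one (.play 257 (.both (.play 64 (.ref 7 0)) (.ref 15 1))))
 (.seq (.one (.play 66 (.both (.play 65 (.ref 34 0)) (.both (.play 2 (.both (.play 1 (.ref 3 1)) (.play 70 (.both (.play 3 (.ref 3 2)) (.ref 452 3))))) (.ref 383 64)))))
 (.one (.play 67 (.both (.ref 414 0) (.both (.ref 603 0) (.both (.play 70 (.both (.play 71 (.ref 33 2)) (.both (.play 71 (.ref 29 3)) (.both (.ref 596 3) (.play 71 (.ref 10 66)))))) (.play 134 (.ref 128 65)))))))))))))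
 (.seq (.seq (.seq (.seq (.seq (.one (.play 195 (.both (.ref 207 2) (.both (.play 131 (.ref 24 66)) (.both (.play 131 (.ref 25 67)) (.both (.ref 347 128) (.play 131 (.ref 17 130))))))))
 (.one (.play 66 (.both (.play 2 (.ref 5 1)) (.ref 314 64)))))
 (.seq (.one (.play 322 (.both (.play 66 (.ref 24 1)) (.both (.ref 323 64) (.both (.play 131 (.ref 43 65)) (.ref 606 65))))))
 (.seq (.one (.play 1 (.both (.play 68 (.ref 3 0)) (.play 194 (.ref 7 1)))))
 (.one (.play 194 (.both (.play 197 (.both (.play 133 (.both (.ref 146 4) (.play 134 (.ref 110 130)))) (.play 130 (.ref 477 129)))) (.both (.play 129 (.both (.play 193 (.both (.play 128 (.ref 3 128)) (.play 192 (.ref 0 192)))) (.ref 608 129))) (.play 193 (.ref 224 192)))))))))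
 (.seq (.seq (.one (.play 196 (.both (.play 195 (.both (.play 387 (.both (.ref 609 0) (.play 451 (.ref 6 195)))) (.play 131 (.ref 7 131)))) (.both (.play 132 (.ref 20 67)) (.both (.play 132 (.ref 88 67)) (.play 132 (.ref 24 67)))))))
 (.one (.play 449 (.both (.play 448 (.both (.play 193 (.both (.ref 284 0) (.play 384 (.ref 6 192)))) (.play 512 (.ref 6 256)))) (.both (.play 513 (.ref 17 256)) (.ref 602 256))))))
 (.seq (.one (.play 260 (.both (.play 324 (.ref 24 3)) (.both (.play 324 (.ref 25 4)) (.both (.ref 487 64) (.play 324 (.ref 17 67)))))))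
 (.seq (.one (.play 257 (.both (.ref 16 0) (.play 66 (.ref 197 1)))))
 (.one (.play 321 (.both (.play 65 (.ref 25 1)) (.both (.ref 318 64) (.ref 149 128)))))))))
 (.seq (.seq (.seq (.one (.play 70 (.both (.ref 426 0) (.play 71 (.ref 1 67)))))
 (.one (.play 195 (.both (.play 198 (.both (.ref 473 3) (.both (.play 134 (.both (.play 262 (.both (.play 325 (.ref 158 69)) (.play 263 (.ref 0 195)))) (.play 135 (.ref 2 131)))) (.both (.ref 452 131) (.play 199 (.both (.ref 444 132) (.both (.ref 546 132) (.ref 8 195)))))))) (.both (.ref 414 128) (.ref 603 128))))))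
 (.seq (.one (.both (.play 0 (.ref 3 0)) (.play 133 (.ref 0 65))))
 (.seq (.one (.both (.play 128 (.ref 156 0)) (.both (.play 129 (.ref 195 0)) (.both (.play 384 (.ref 277 128)) (.play 385 (.ref 151 128))))))
 (.one (.play 385 (.both (.play 260 (.both (.play 196 (.ref 618 3)) (.play 261 (.ref 2 257)))) (.play 384 (.ref 1 320))))))))
 (.seq (.seq (.one (.play 322 (.both (.ref 619 1) (.both (.play 321 (.ref 30 256)) (.both (.play 321 (.ref 34 256)) (.play 321 (.ref 10 320)))))))
 (.one (.play 133 (.both (.play 69 (.ref 20 4)) (.both (.play 69 (.ref 88 4)) (.ref 354 128))))))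
 (.seq (.one (.play 388 (.both (.ref 404 0) (.play 643 (.ref 5 387)))))
 (.seq (.one (.play 517 (.both (.ref 622 2) (.both (.ref 621 256) (.both (.play 580 (.both (.play 644 (.ref 249 388)) (.both (.play 644 (.both (.play 708 (.ref 276 452)) (.ref 444 515))) (.play 583 (.both (.play 647 (.both (.ref 350 512) (.play 648 (.ref 0 580)))) (.both (.play 584 (.ref 13 515)) (.play 584 (.ref 29 516)))))))) (.play 645 (.both (.play 390 (.ref 5 389)) (.ref 517 450))))))))
 (.one (.play 65 (.both (.play 193 (.both (.ref 42 0) (.play 192 (.ref 1 128)))) (.play 64 (.ref 3 64))))))))))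
 (.seq (.seq (.seq (.seq (.one (.play 69 (.both (.play 65 (.ref 33 0)) (.both (.play 3 (.both (.play 65 (.both (.play 4 (.ref 49 0)) (.ref 9 64))) (.play 134 (.both (.play 70 (.ref 617 2)) (.play 133 (.ref 0 66)))))) (.both (.play 70 (.ref 29 2)) (.ref 330 2))))))
 (.one (.both (.play 65 (.ref 25 1)) (.play 384 (.ref 6 128)))))
 (.seq (.one (.play 259 (.both (.play 450 (.both (.ref 319 2) (.play 514 (.ref 6 258)))) (.both (.ref 580 66) (.both (.play 195 (.ref 20 130)) (.ref 398 192))))))
 (.seq (.one (.both (.play 452 (.ref 554 0)) (.both (.play 452 (.both (.ref 553 0) (.both (.ref 627 192) (.both (.ref 548 195) (.play 388 (.both (.play 580 (.ref 6 387)) (.play 451 (.ref 5 387)))))))) (.both (.play 451 (.both (.ref 220 258) (.both (.play 387 (.ref 20 322)) (.ref 315 450)))) (.both (.play 452 (.ref 280 323)) (.play 707 (.ref 43 450)))))))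
 (.one (.play 129 (.both (.play 65 (.ref 143 1)) (.ref 332 128)))))))
 (.seq (.seq (.one (.play 198 (.both (.ref 288 3) (.both (.ref 629 5) (.both (.play 197 (.both (.ref 597 128) (.play 137 (.ref 2 133)))) (.both (.play 201 (.both (.play 137 (.both (.play 197 (.both (.ref 384 130) (.play 136 (.ref 2 133)))) (.play 138 (.ref 2 134)))) (.both (.play 202 (.ref 29 134)) (.ref 451 198)))) (.play 137 (.ref 110 133))))))))
 (.one (.play 68 (.both (.play 66 (.both (.ref 40 0) (.play 2 (.ref 7 2)))) (.play 4 (.ref 5 3))))))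
 (.seq (.one (.play 69 (.both (.ref 188 0) (.both (.play 66 (.ref 504 0)) (.play 132 (.ref 435 3))))))
 (.seq (.one (.play 193 (.both (.play 386 (.ref 227 0)) (.play 448 (.ref 6 192)))))
 (.one (.play 455 (.both (.play 456 (.both (.play 454 (.both (.play 517 (.both (.play 453 (.both (.play 389 (.both (.play 390 (.both (.play 325 (.both (.ref 222 4) (.both (.ref 403 130) (.both (.play 326 (.both (.ref 609 130) (.play 262 (.ref 6 261)))) (.both (.ref 402 132) (.play 261 (.ref 88 196))))))) (.play 457 (.ref 3 389)))) (.play 388 (.ref 3 388)))) (.play 516 (.ref 1 452)))) (.both (.play 453 (.ref 223 68)) (.both (.ref 372 389) (.play 516 (.both (.play 518 (.ref 85 451)) (.play 453 (.ref 1 452)))))))) (.both (.ref 237 66) (.both (.play 457 (.both (.play 393 (.both (.play 521 (.both (.play 585 (.both (.ref 254 136) (.play 584 (.ref 6 392)))) (.play 522 (.ref 0 454)))) (.play 394 (.ref 2 390)))) (.both (.play 458 (.ref 30 389)) (.play 458 (.ref 13 389))))) (.both (.ref 481 387) (.both (.play 457 (.ref 504 388)) (.ref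 625 388))))))) (.both (.play 520 (.both (.ref 633 199) (.both (.play 392 (.ref 626 263)) (.both (.play 392 (.both (.ref 423 325) (.play 647 (.ref 6 391)))) (.ref 356 388))))) (.both (.play 520 (.both (.ref 633 199) (.play 391 (.ref 7 391)))) (.both (.play 520 (.both (.play 392 (.ref 626 263)) (.play 391 (.ref 7 391)))) (.both (.play 457 (.both (.play 391 (.both (.play 390 (.ref 130 322)) (.play 520 (.ref 7 391)))) (.both (.play 393 (.both (.play 394 (.ref 293 326)) (.play 520 (.ref 5 392)))) (.both (.ref 272 389) (.play 391 (.both (.ref 332 390) (.play 520 (.ref 7 391)))))))) (.ref 632 388))))))) (.both (.play 519 (.both (.play 391 (.both (.play 327 (.both (.play 262 (.both (.play 263 (.both (.ref 316 70) (.play 198 (.ref 7 198)))) (.play 326 (.ref 7 262)))) (.both (.ref 542 70) (.both (.ref 264 134) (.both (.play 263 (.ref 88 198)) (.ref 631 260)))))) (.play 583 (.ref 4 391)))) (.play 520 (.ref 7 455)))) (.both (.play 519 (.both (.play 520 (.both (.play 518 (.both (.play 454 (.both (.play 390 (.both (.play 457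 (.both (.play 456 (.both (.play 521 (.both (.play 393 (.both (.ref 106 200) (.play 394 (.ref 2 390)))) (.play 522 (.ref 0 454)))) (.play 389 (.ref 3 389)))) (.both (.play 456 (.ref 419 389)) (.ref 167 454)))) (.play 326 (.ref 4 326)))) (.both (.play 456 (.both (.ref 484 258) (.both (.ref 420 261) (.ref 615 387)))) (.play 453 (.ref 367 452))))) (.both (.play 517 (.ref 329 452)) (.play 517 (.ref 224 516))))) (.play 648 (.ref 7 455)))) (.both (.play 456 (.both (.play 392 (.both (.ref 630 256) (.ref 146 263))) (.both (.play 392 (.both (.ref 630 256) (.play 647 (.ref 5 391)))) (.both (.ref 547 260) (.play 392 (.ref 147 263)))))) (.both (.play 647 (.both (.play 454 (.both (.play 456 (.both (.ref 386 386) (.play 392 (.ref 5 391)))) (.play 390 (.ref 7 390)))) (.play 648 (.ref 4 455)))) (.play 648 (.both (.play 647 (.ref 4 455)) (.play 520 (.ref 7 455)))))))) (.play 519 (.ref 143 391)))))))))))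
 (.seq (.seq (.seq (.one (.play 714 (.both (.play 650 (.both (.ref 634 2) (.both (.play 522 (.both (.ref 220 329) (.both (.play 458 (.ref 19 393)) (.both (.play 521 (.ref 123 457)) (.play 778 (.both (.play 715 (.both (.play 779 (.ref 4 522)) (.ref 613 585))) (.both (.ref 15 522) (.both (.play 842 (.ref 17 585)) (.ref 45 585))))))))) (.both (.ref 594 329) (.play 778 (.ref 123 521)))))) (.both (.play 650 (.both (.ref 634 2) (.both (.play 778 (.ref 219 457)) (.both (.ref 614 457) (.play 778 (.ref 123 521)))))) (.both (.play 650 (.both (.ref 634 2) (.both (.ref 605 327) (.both (.play 522 (.both (.play 715 (.both (.play 713 (.both (.ref 353 457) (.play 777 (.ref 6 521)))) (.play 779 (.ref 4 522)))) (.both (.play 778 (.ref 20 457)) (.play 778 (.ref 25 458))))) (.play 778 (.ref 591 518)))))) (.both (.play 713 (.both (.play 649 (.ref 628 70)) (.both (.play 522 (.both (.play 649 (.ref 554 70)) (.both (.play 458 (.both (.play 394 (.ref 107 201)) (.play 650 (.ref 25 394)))) (.both (.play 650 (.ref 626 393)) (.play 777 (.ref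 528 521)))))) (.both (.ref 623 132) (.both (.play 650 (.both (.play 712 (.both (.play 647 (.both (.play 711 (.both (.play 775 (.both (.play 776 (.both (.play 583 (.ref 227 390)) (.play 715 (.ref 1 711)))) (.play 774 (.ref 1 710)))) (.play 646 (.ref 3 646)))) (.both (.play 646 (.both (.play 645 (.both (.ref 185 448) (.play 648 (.ref 0 645)))) (.play 711 (.ref 3 646)))) (.ref 438 647)))) (.both (.play 775 (.both (.play 715 (.both (.ref 395 584) (.play 776 (.ref 1 711)))) (.both (.play 711 (.ref 508 646)) (.play 774 (.ref 113 708))))) (.both (.play 651 (.both (.play 652 (.both (.play 653 (.ref 3 585)) (.play 715 (.ref 2 648)))) (.play 711 (.ref 2 647)))) (.both (.play 715 (.both (.ref 523 584) (.both (.play 716 (.ref 33 647)) (.play 716 (.ref 10 711))))) (.ref 436 645)))))) (.both (.play 522 (.ref 195 393)) (.play 715 (.both (.play 779 (.both (.play 522 (.ref 4 522)) (.ref 414 646))) (.both (.ref 570 522) (.both (.ref 395 584) (.ref 243 646)))))))) (.both (.play 712 (.both (.ref 240 389) (.both (.play 715 (.both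 (.play 651 (.both (.play 522 (.ref 157 394)) (.play 652 (.ref 2 648)))) (.both (.play 716 (.ref 30 647)) (.play 716 (.ref 13 647))))) (.both (.ref 492 580) (.both (.ref 481 645) (.both (.play 715 (.ref 504 646)) (.ref 625 646))))))) (.play 715 (.both (.ref 492 581) (.both (.ref 335 582) (.both (.play 712 (.both (.ref 624 583) (.both (.play 711 (.ref 34 646)) (.both (.play 711 (.ref 13 646)) (.play 711 (.ref 33 646)))))) (.both (.play 716 (.both (.ref 624 584) (.both (.play 717 (.ref 30 648)) (.play 717 (.ref 29 649))))) (.both (.ref 14 646) (.play 716 (.both (.play 712 (.ref 30 647)) (.both (.play 712 (.ref 13 647)) (.play 717 (.ref 29 649))))))))))))))))) (.both (.play 713 (.both (.ref 623 132) (.both (.play 649 (.both (.ref 622 134) (.both (.play 521 (.ref 202 392)) (.both (.play 778 (.both (.ref 616 517) (.play 521 (.ref 4 521)))) (.play 777 (.both (.play 522 (.ref 5 521)) (.ref 97 584))))))) (.both (.play 649 (.both (.ref 622 134) (.both (.play 521 (.ref 202 392)) (.both (.play 778 (.both (.play 521 (.ref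 4 521)) (.play 777 (.both (.play 776 (.both (.play 840 (.both (.play 904 (.ref 147 584)) (.play 779 (.both (.ref 555 712) (.play 839 (.ref 1 775)))))) (.play 775 (.ref 49 710)))) (.both (.play 842 (.ref 275 585)) (.ref 457 646)))))) (.play 777 (.ref 47 520)))))) (.both (.play 649 (.both (.ref 622 134) (.both (.play 715 (.both (.ref 620 390) (.both (.play 648 (.ref 127 646)) (.both (.ref 461 647) (.play 716 (.both (.play 648 (.ref 3 648)) (.play 717 (.ref 10 712)))))))) (.play 521 (.both (.play 457 (.ref 20 392)) (.play 778 (.ref 4 521))))))) (.both (.play 712 (.both (.ref 510 388) (.both (.play 715 (.both (.ref 619 391) (.both (.play 716 (.ref 33 647)) (.both (.play 716 (.ref 29 648)) (.play 716 (.ref 10 711)))))) (.both (.play 711 (.both (.play 775 (.both (.play 778 (.both (.ref 58 516) (.play 779 (.ref 0 711)))) (.play 774 (.ref 1 710)))) (.both (.play 710 (.ref 30 645)) (.both (.play 710 (.ref 34 645)) (.play 710 (.ref 10 709)))))) (.both (.ref 133 645) (.both (.play 715 (.ref 504 646)) (.ref 509 646)))))))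 (.both (.play 649 (.both (.ref 621 388) (.both (.play 715 (.both (.ref 620 390) (.both (.play 651 (.both (.play 587 (.ref 618 394)) (.play 652 (.ref 110 648)))) (.both (.play 778 (.both (.play 651 (.both (.play 587 (.ref 277 522)) (.ref 436 646))) (.both (.ref 473 520) (.both (.play 648 (.ref 127 646)) (.ref 568 648))))) (.both (.play 780 (.both (.play 712 (.both (.ref 308 581) (.play 779 (.ref 0 712)))) (.both (.play 716 (.ref 617 648)) (.play 781 (.ref 128 712))))) (.ref 332 648)))))) (.both (.play 521 (.ref 202 392)) (.play 712 (.both (.play 521 (.ref 469 520)) (.both (.ref 513 583) (.ref 41 646)))))))) (.both (.play 649 (.both (.play 521 (.both (.play 457 (.ref 20 392)) (.both (.play 457 (.ref 88 392)) (.play 777 (.ref 24 456))))) (.both (.play 521 (.both (.play 458 (.both (.play 457 (.ref 20 392)) (.play 522 (.ref 5 457)))) (.play 778 (.ref 4 521)))) (.both (.play 522 (.both (.play 521 (.ref 389 457)) (.play 777 (.ref 5 521)))) (.both (.play 777 (.ref 47 520)) (.play 778 (.ref 154 521))))))) (.play 778 (.both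 (.play 649 (.ref 515 514)) (.both (.ref 616 517) (.play 649 (.ref 154 521))))))))))))) (.both (.play 778 (.both (.play 521 (.both (.play 649 (.both (.play 457 (.both (.ref 299 136) (.both (.play 393 (.both (.ref 226 200) (.both (.play 522 (.both (.play 523 (.both (.play 458 (.both (.play 459 (.both (.ref 162 263) (.play 460 (.ref 342 456)))) (.play 394 (.ref 5 393)))) (.both (.ref 615 454) (.play 524 (.ref 419 456))))) (.play 329 (.ref 4 329)))) (.ref 23 329)))) (.both (.play 393 (.both (.ref 427 264) (.ref 23 329))) (.both (.play 393 (.ref 88 328)) (.ref 377 389)))))) (.play 713 (.ref 4 521)))) (.play 650 (.ref 7 521)))) (.both (.play 650 (.ref 219 457)) (.both (.play 713 (.both (.play 649 (.ref 515 514)) (.both (.play 649 (.both (.play 521 (.ref 4 521)) (.play 777 (.ref 389 521)))) (.ref 604 645)))) (.both (.play 842 (.both (.play 650 (.both (.play 779 (.both (.play 715 (.both (.play 522 (.ref 4 522)) (.play 716 (.both (.play 781 (.both (.play 713 (.both (.play 712 (.both (.ref 414 645) (.ref 11 648))) (.play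 780 (.ref 3 713)))) (.both (.play 780 (.ref 204 713)) (.ref 482 714)))) (.both (.play 717 (.both (.play 653 (.both (.ref 169 646) (.play 654 (.ref 2 650)))) (.both (.play 718 (.ref 29 650)) (.play 718 (.both (.play 651 (.ref 3 650)) (.ref 8 714)))))) (.both (.play 780 (.both (.ref 139 648) (.play 781 (.ref 367 713)))) (.both (.play 777 (.ref 113 711)) (.play 717 (.ref 113 712))))))))) (.play 843 (.ref 4 586)))) (.play 649 (.ref 7 585)))) (.both (.ref 558 585) (.both (.ref 245 646) (.ref 449 647))))) (.play 650 (.ref 503 521))))))) (.both (.play 650 (.both (.ref 594 329) (.both (.ref 611 329) (.both (.ref 494 388) (.both (.play 522 (.both (.play 458 (.ref 25 394)) (.both (.play 778 (.ref 24 457)) (.play 458 (.ref 17 457))))) (.both (.ref 607 456) (.both (.ref 614 457) (.both (.ref 612 518) (.ref 462 519))))))))) (.both (.play 650 (.both (.play 522 (.both (.ref 220 329) (.both (.play 458 (.ref 88 393)) (.both (.play 651 (.both (.ref 391 393) (.ref 613 521))) (.play 778 (.ref 24 457)))))) (.both (.play 522 (.both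 (.play 458 (.ref 88 393)) (.ref 244 518))) (.both (.ref 55 391) (.both (.play 522 (.ref 562 393)) (.both (.ref 101 393) (.both (.ref 198 457) (.ref 612 518)))))))) (.both (.play 650 (.both (.ref 610 326) (.both (.ref 611 329) (.both (.play 521 (.ref 157 393)) (.play 778 (.ref 151 521)))))) (.both (.play 650 (.both (.ref 610 326) (.both (.play 778 (.both (.ref 478 329) (.both (.play 777 (.ref 107 393)) (.both (.play 842 (.ref 24 521)) (.ref 45 585))))) (.both (.play 521 (.ref 157 393)) (.both (.ref 607 456) (.play 778 (.ref 123 521))))))) (.both (.play 650 (.both (.ref 605 327) (.both (.play 521 (.ref 157 393)) (.play 778 (.both (.play 521 (.ref 7 521)) (.play 842 (.ref 24 521))))))) (.play 778 (.both (.play 713 (.both (.play 649 (.ref 515 514)) (.both (.play 649 (.ref 154 521)) (.ref 604 645)))) (.both (.play 650 (.ref 591 518)) (.both (.play 650 (.both (.play 521 (.ref 7 521)) (.ref 600 583))) (.both (.play 650 (.both (.play 521 (.ref 7 521)) (.ref 602 585))) (.both (.play 650 (.ref 151 521)) (.both (.play 650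 (.both (.play 521 (.ref 7 521)) (.play 842 (.both (.ref 16 585) (.both (.play 777 (.both (.play 841 (.ref 6 585)) (.ref 601 649))) (.both (.play 906 (.ref 17 649)) (.ref 149 649))))))) (.play 842 (.both (.play 650 (.both (.play 649 (.ref 7 585)) (.play 906 (.both (.ref 15 650) (.both (.play 970 (.both (.ref 411 710) (.both (.play 1034 (.ref 20 713)) (.both (.play 1034 (.ref 24 713)) (.both (.play 1034 (.ref 88 713)) (.ref 228 713)))))) (.both (.play 970 (.both (.ref 411 710) (.both (.play 1034 (.ref 20 713)) (.play 1034 (.ref 25 714))))) (.ref 149 713))))))) (.both (.play 650 (.both (.play 649 (.ref 7 585)) (.ref 487 646))) (.both (.play 650 (.both (.play 649 (.ref 7 585)) (.ref 600 647))) (.both (.play 906 (.ref 21 585)) (.both (.ref 558 585) (.both (.play 650 (.ref 74 585)) (.play 906 (.ref 572 710)))))))))))))))))))))))))))))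
 (.one (.both (.ref 627 0) (.play 515 (.ref 5 259)))))
 (.seq (.one (.play 324 (.both (.play 260 (.both (.ref 281 3) (.ref 432 193))) (.both (.play 451 (.both (.ref 525 67) (.both (.play 260 (.ref 434 131)) (.both (.play 450 (.both (.play 453 (.both (.ref 501 258) (.play 390 (.ref 2 386)))) (.play 449 (.ref 2 385)))) (.play 450 (.both (.play 449 (.ref 2 385)) (.ref 497 385))))))) (.both (.play 326 (.both (.play 453 (.both (.play 262 (.both (.play 323 (.both (.ref 288 128) (.play 263 (.ref 2 259)))) (.ref 146 133))) (.ref 526 322))) (.both (.ref 473 131) (.play 327 (.ref 256 323))))) (.both (.ref 440 129) (.play 453 (.both (.ref 51 193) (.both (.play 517 (.ref 67 260)) (.play 322 (.both (.play 323 (.ref 224 321)) (.play 517 (.both (.ref 380 322) (.play 581 (.ref 7 324)))))))))))))))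
 (.seq (.one (.play 390 (.both (.ref 552 2) (.both (.play 453 (.ref 636 130)) (.both (.ref 548 133) (.play 453 (.both (.play 389 (.ref 388 320)) (.play 645 (.ref 5 389)))))))))
 (.one (.play 132 (.both (.play 68 (.ref 20 3)) (.both (.play 68 (.ref 25 4)) (.ref 344 64))))))))
 (.seq (.seq (.one (.play 195 (.both (.play 259 (.both (.play 66 (.ref 4 2)) (.ref 589 64))) (.both (.play 260 (.both (.ref 307 0) (.play 196 (.ref 617 128)))) (.play 196 (.ref 204 128))))))
 (.one (.play 321 (.both (.play 129 (.ref 25 1)) (.play 385 (.ref 67 128))))))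
 (.seq (.one (.play 257 (.both (.play 385 (.both (.play 449 (.both (.ref 116 0) (.play 450 (.ref 4 257)))) (.play 384 (.ref 1 320)))) (.play 256 (.ref 3 256)))))
 (.seq (.one (.play 710 (.both (.play 519 (.both (.play 518 (.both (.play 517 (.both (.play 516 (.both (.play 452 (.both (.play 388 (.both (.ref 361 1) (.both (.play 324 (.ref 202 195)) (.both (.play 581 (.ref 157 260)) (.play 580 (.both (.ref 216 320) (.ref 246 384))))))) (.play 451 (.ref 3 451)))) (.both (.play 515 (.ref 34 450)) (.both (.play 515 (.ref 13 450)) (.play 515 (.ref 33 450)))))) (.both (.play 520 (.both (.ref 642 196) (.both (.play 521 (.ref 30 452)) (.both (.play 521 (.ref 13 452)) (.play 521 (.ref 29 453)))))) (.both (.play 520 (.both (.play 453 (.both (.play 584 (.both (.play 648 (.ref 618 327)) (.play 585 (.ref 0 517)))) (.play 452 (.ref 3 452)))) (.both (.play 516 (.ref 34 451)) (.both (.play 516 (.ref 13 451)) (.play 516 (.ref 33 451)))))) (.both (.ref 481 450) (.both (.play 581 (.both (.play 453 (.both (.play 452 (.ref 128 450))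 (.play 645 (.ref 4 453)))) (.both (.play 520 (.both (.play 521 (.ref 30 452)) (.play 580 (.ref 1 516)))) (.both (.play 645 (.both (.play 709 (.ref 455 452)) (.play 453 (.ref 4 453)))) (.play 580 (.ref 112 514)))))) (.both (.ref 272 451) (.ref 625 451)))))))) (.both (.play 582 (.both (.ref 387 449) (.play 711 (.ref 160 454)))) (.both (.play 517 (.both (.play 520 (.ref 504 451)) (.both (.ref 271 451) (.play 582 (.ref 435 453))))) (.play 582 (.both (.play 454 (.ref 17 453)) (.play 455 (.ref 5 454)))))))) (.both (.play 711 (.both (.play 518 (.both (.play 582 (.both (.play 517 (.both (.play 453 (.both (.ref 412 193) (.play 710 (.ref 7 453)))) (.both (.play 516 (.both (.play 453 (.both (.play 389 (.ref 143 325)) (.play 452 (.ref 204 451)))) (.play 583 (.ref 224 515)))) (.both (.ref 629 324) (.both (.ref 134 450) (.both (.ref 133 450) (.ref 40 451))))))) (.play 775 (.ref 4 518)))) (.both (.ref 632 451) (.play 582 (.ref 160 454))))) (.both (.play 582 (.both (.ref 51 451) (.both (.play 775 (.ref 275 518)) (.play 709 (.both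 (.ref 308 578) (.both (.ref 139 579) (.play 773 (.both (.ref 248 581) (.ref 544 644))))))))) (.both (.play 712 (.both (.play 583 (.both (.ref 631 452) (.play 776 (.ref 4 519)))) (.play 713 (.ref 204 645)))) (.both (.ref 641 454) (.ref 640 517)))))) (.both (.play 455 (.both (.play 518 (.both (.play 517 (.both (.play 520 (.both (.ref 642 196) (.both (.play 521 (.ref 13 452)) (.ref 242 453)))) (.both (.ref 436 450) (.both (.play 520 (.both (.ref 349 450) (.both (.play 516 (.ref 34 451)) (.both (.play 453 (.ref 328 452)) (.play 453 (.both (.ref 437 452) (.ref 311 453))))))) (.play 456 (.ref 113 451)))))) (.play 582 (.ref 5 454)))) (.play 583 (.ref 6 454)))) (.both (.play 518 (.both (.play 582 (.ref 257 389)) (.both (.play 711 (.both (.play 712 (.both (.play 583 (.ref 390 454)) (.play 713 (.ref 204 645)))) (.both (.play 454 (.ref 534 454)) (.play 775 (.both (.play 582 (.ref 4 518)) (.play 839 (.both (.play 838 (.both (.play 840 (.both (.play 904 (.ref 4 647)) (.play 837 (.both (.play 836 (.ref 34 771)) (.both (.play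 836 (.ref 13 771)) (.play 900 (.both (.ref 242 773) (.play 901 (.ref 1 836))))))))) (.play 902 (.ref 6 646)))) (.play 903 (.ref 7 646))))))))) (.both (.play 583 (.both (.play 711 (.both (.play 454 (.ref 7 454)) (.ref 640 517))) (.play 455 (.ref 6 454)))) (.play 455 (.ref 528 454)))))) (.both (.play 518 (.both (.play 582 (.ref 232 389)) (.both (.play 455 (.ref 528 454)) (.both (.play 711 (.both (.play 454 (.ref 534 454)) (.both (.play 582 (.ref 160 454)) (.both (.play 583 (.ref 503 454)) (.ref 641 454))))) (.play 583 (.both (.play 455 (.ref 6 454)) (.play 711 (.ref 503 454)))))))) (.both (.play 583 (.both (.play 711 (.both (.ref 216 451) (.both (.play 775 (.ref 25 455)) (.ref 640 517)))) (.play 455 (.ref 6 454)))) (.play 583 (.both (.play 711 (.both (.ref 399 454) (.both (.ref 606 454) (.both (.play 775 (.ref 25 455)) (.play 712 (.both (.play 776 (.ref 4 519)) (.play 713 (.ref 204 645)))))))) (.play 455 (.ref 6 454))))))))))) (.both (.play 583 (.both (.play 774 (.both (.play 519 (.both (.play 455 (.both (.play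 391 (.both (.play 327 (.both (.play 263 (.ref 573 67)) (.both (.ref 639 131) (.both (.ref 258 134) (.ref 23 263))))) (.both (.play 327 (.both (.ref 605 68) (.both (.play 263 (.both (.play 199 (.ref 20 134)) (.both (.play 199 (.ref 25 135)) (.ref 347 196)))) (.both (.ref 220 134) (.ref 18 262))))) (.both (.ref 574 134) (.both (.ref 478 134) (.both (.play 327 (.ref 88 262)) (.ref 377 323))))))) (.play 647 (.ref 6 454)))) (.play 582 (.ref 5 518)))) (.both (.ref 627 323) (.both (.ref 548 326) (.both (.ref 537 389) (.ref 639 450)))))) (.both (.ref 638 129) (.both (.play 711 (.both (.ref 413 194) (.both (.play 709 (.both (.play 582 (.both (.ref 440 387) (.play 773 (.both (.play 712 (.both (.ref 395 581) (.play 772 (.ref 1 708)))) (.ref 248 581))))) (.both (.ref 560 514) (.play 708 (.ref 49 643))))) (.both (.play 582 (.both (.play 713 (.both (.play 518 (.both (.ref 432 451) (.play 454 (.ref 4 454)))) (.play 712 (.ref 204 645)))) (.both (.play 518 (.ref 160 454)) (.ref 262 517)))) (.both (.play 712 (.both (.play 709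 (.both (.play 776 (.both (.play 840 (.ref 153 583)) (.play 777 (.ref 0 709)))) (.play 772 (.both (.ref 396 643) (.play 773 (.ref 1 708)))))) (.play 713 (.ref 204 645)))) (.ref 526 580)))))) (.both (.ref 404 195) (.both (.play 774 (.both (.play 582 (.both (.play 581 (.both (.play 517 (.both (.play 516 (.both (.ref 120 256) (.play 584 (.ref 3 516)))) (.play 710 (.ref 7 517)))) (.both (.play 516 (.both (.play 580 (.ref 617 515)) (.ref 608 516))) (.play 580 (.ref 224 579))))) (.both (.play 518 (.ref 20 453)) (.ref 463 577)))) (.both (.ref 548 326) (.ref 639 450)))) (.both (.ref 637 258) (.both (.ref 379 326) (.play 582 (.both (.play 581 (.both (.play 584 (.both (.play 517 (.both (.play 453 (.ref 155 389)) (.play 516 (.ref 3 516)))) (.play 521 (.both (.play 520 (.ref 2 517)) (.ref 287 518))))) (.play 580 (.ref 224 579)))) (.both (.play 584 (.both (.play 519 (.both (.play 520 (.both (.play 456 (.ref 158 391)) (.play 581 (.ref 49 516)))) (.play 455 (.ref 6 454)))) (.play 585 (.ref 256 581)))) (.play 711 (.both (.ref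 205 453) (.play 775 (.ref 275 518))))))))))))))) (.both (.play 583 (.both (.ref 638 129) (.both (.ref 637 258) (.both (.play 774 (.ref 280 454)) (.play 711 (.both (.ref 581 515) (.both (.play 774 (.ref 158 518)) (.ref 369 580)))))))) (.both (.play 774 (.ref 628 131)) (.both (.play 583 (.both (.play 519 (.both (.play 455 (.ref 259 262)) (.both (.play 455 (.ref 107 262)) (.both (.play 455 (.ref 195 326)) (.both (.play 454 (.both (.play 455 (.ref 516 390)) (.ref 295 454))) (.ref 599 452)))))) (.both (.play 774 (.ref 636 323)) (.both (.ref 379 326) (.both (.play 774 (.ref 280 454)) (.ref 522 515)))))) (.both (.play 838 (.both (.play 709 (.both (.play 837 (.both (.play 839 (.both (.play 773 (.both (.ref 540 388) (.both (.play 775 (.both (.ref 439 580) (.play 902 (.both (.play 645 (.ref 4 645)) (.play 711 (.ref 6 646)))))) (.ref 332 772)))) (.both (.ref 590 641) (.both (.ref 530 642) (.both (.play 840 (.both (.play 902 (.both (.play 773 (.both (.play 645 (.ref 4 645)) (.play 772 (.ref 3 772)))) (.play 775 (.both (.play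 711 (.ref 6 646)) (.play 841 (.both (.play 842 (.both (.ref 311 775) (.play 903 (.ref 1 838)))) (.ref 8 837))))))) (.both (.play 773 (.both (.play 902 (.both (.play 645 (.ref 4 645)) (.ref 445 773))) (.play 772 (.ref 3 772)))) (.both (.ref 22 645) (.both (.play 841 (.ref 29 773)) (.play 841 (.both (.play 904 (.both (.ref 472 774) (.play 905 (.ref 0 837)))) (.both (.play 842 (.ref 29 774)) (.both (.ref 507 774) (.ref 8 837)))))))))) (.both (.play 836 (.ref 504 770)) (.ref 133 770))))))) (.both (.play 773 (.ref 541 388)) (.both (.play 711 (.both (.play 773 (.both (.play 712 (.both (.ref 145 517) (.play 772 (.ref 1 708)))) (.play 901 (.ref 5 645)))) (.both (.play 712 (.both (.ref 145 517) (.play 713 (.ref 204 645)))) (.both (.play 712 (.both (.play 773 (.both (.play 901 (.ref 5 645)) (.play 772 (.ref 1 708)))) (.play 713 (.ref 204 645)))) (.play 773 (.both (.play 902 (.both (.play 839 (.both (.play 775 (.both (.play 903 (.ref 7 646)) (.play 647 (.ref 6 646)))) (.ref 332 772))) (.play 645 (.ref 4 645)))) (.play 901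 (.ref 5 645)))))))) (.both (.play 773 (.both (.play 836 (.both (.play 900 (.ref 346 640)) (.both (.play 900 (.both (.play 645 (.ref 6 644)) (.ref 444 771))) (.both (.play 900 (.ref 249 644)) (.both (.ref 308 705) (.play 839 (.both (.play 904 (.both (.ref 350 768) (.play 903 (.ref 0 836)))) (.both (.play 840 (.ref 13 771)) (.play 840 (.ref 29 772)))))))))) (.play 901 (.ref 5 645)))) (.both (.ref 476 640) (.ref 532 642))))))) (.both (.play 711 (.both (.ref 593 389) (.play 708 (.ref 122 641)))) (.both (.play 708 (.both (.play 645 (.both (.play 837 (.both (.play 836 (.both (.play 900 (.both (.play 772 (.ref 5 644)) (.play 835 (.both (.play 899 (.both (.play 771 (.both (.ref 457 768) (.play 770 (.ref 3 770)))) (.play 898 (.ref 1 834)))) (.both (.play 834 (.ref 30 769)) (.both (.play 834 (.ref 34 769)) (.play 834 (.ref 10 833)))))))) (.both (.play 900 (.both (.play 772 (.ref 5 644)) (.play 839 (.both (.play 903 (.both (.ref 483 768) (.play 904 (.ref 0 836)))) (.both (.play 840 (.ref 29 772)) (.play 840 (.both (.ref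 11 772) (.play 901 (.ref 1 836))))))))) (.both (.play 900 (.both (.play 772 (.ref 5 644)) (.play 899 (.ref 113 833)))) (.both (.play 772 (.both (.play 900 (.ref 47 643)) (.ref 332 771))) (.both (.ref 134 769) (.both (.ref 133 769) (.ref 536 770)))))))) (.both (.ref 529 640) (.both (.ref 533 642) (.play 773 (.ref 519 645)))))) (.play 648 (.ref 1 644)))) (.play 707 (.ref 2 643)))) (.play 708 (.ref 496 643)))))) (.both (.play 774 (.both (.play 583 (.ref 5 582)) (.ref 487 642))) (.both (.play 774 (.ref 456 581)) (.both (.play 774 (.ref 455 581)) (.play 774 (.ref 572 642))))))) (.both (.play 774 (.both (.play 582 (.both (.ref 258 389) (.both (.play 518 (.ref 88 453)) (.both (.play 709 (.both (.ref 583 453) (.ref 601 581))) (.play 838 (.ref 19 517)))))) (.both (.play 582 (.both (.play 518 (.ref 20 453)) (.both (.play 518 (.ref 88 453)) (.ref 463 577)))) (.both (.ref 208 452) (.both (.ref 89 453) (.both (.play 582 (.ref 562 453)) (.both (.ref 558 517) (.ref 586 579)))))))) (.both (.play 774 (.both (.play 582 (.ref 573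 386)) (.both (.play 839 (.both (.ref 81 453) (.play 838 (.ref 389 582)))) (.both (.play 838 (.ref 47 581)) (.both (.play 838 (.ref 46 581)) (.play 838 (.ref 43 581))))))) (.both (.ref 577 386) (.both (.play 774 (.both (.play 838 (.both (.ref 539 389) (.both (.play 902 (.ref 17 645)) (.ref 95 646)))) (.both (.ref 576 389) (.both (.play 582 (.both (.play 518 (.ref 20 453)) (.both (.play 518 (.ref 19 453)) (.ref 337 579)))) (.both (.play 582 (.both (.play 518 (.ref 20 453)) (.both (.play 518 (.ref 17 517)) (.play 838 (.ref 19 517))))) (.both (.ref 376 515) (.both (.ref 578 517) (.both (.ref 586 579) (.ref 327 579))))))))) (.both (.play 774 (.both (.play 582 (.both (.ref 402 389) (.both (.play 518 (.ref 20 453)) (.ref 315 581)))) (.both (.play 582 (.both (.play 518 (.ref 20 453)) (.both (.play 518 (.ref 24 453)) (.play 583 (.both (.ref 398 515) (.play 519 (.ref 5 518))))))) (.both (.play 583 (.ref 279 454)) (.play 838 (.ref 47 581)))))) (.ref 571 451))))))))))))))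
 (.one (.play 649 (.both (.ref 643 3) (.both (.ref 635 64) (.both (.ref 598 64) (.both (.ref 566 64) (.both (.play 648 (.both (.ref 322 131) (.both (.ref 121 322) (.both (.ref 362 386) (.both (.ref 486 387) (.both (.ref 365 387) (.both (.ref 270 451) (.both (.ref 481 581) (.both (.ref 343 581) (.both (.play 647 (.both (.play 646 (.ref 33 581)) (.both (.play 651 (.ref 34 582)) (.play 651 (.ref 13 582))))) (.play 647 (.both (.play 646 (.ref 13 581)) (.both (.play 651 (.ref 33 582)) (.play 651 (.ref 34 582))))))))))))))) (.both (.play 648 (.both (.ref 322 131) (.both (.ref 283 195) (.both (.play 647 (.both (.play 583 (.both (.play 519 (.both (.play 711 (.both (.play 520 (.both (.play 584 (.both (.play 521 (.both (.play 522 (.both (.ref 189 263) (.play 523 (.ref 1 519)))) (.both (.ref 484 323) (.both (.play 522 (.both (.play 458 (.both (.play 518 (.both (.ref 446 451) (.play 457 (.ref 2 454)))) (.play 459 (.ref 2 455)))) (.both (.play 523 (.ref 29 455)) (.ref 213 519)))) (.play 586 (.both (.ref 483 451) (.ref 482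 519))))))) (.play 775 (.ref 5 519)))) (.play 456 (.ref 5 455)))) (.both (.play 775 (.ref 24 454)) (.play 710 (.both (.play 774 (.ref 6 518)) (.play 649 (.ref 407 644))))))) (.both (.play 455 (.both (.ref 226 262) (.both (.play 391 (.both (.ref 23 327) (.play 584 (.ref 4 391)))) (.both (.play 711 (.ref 88 390)) (.ref 228 390))))) (.both (.ref 221 262) (.both (.play 455 (.ref 227 262)) (.play 455 (.ref 202 326))))))) (.play 582 (.ref 3 582)))) (.both (.play 646 (.ref 34 581)) (.both (.play 646 (.ref 13 581)) (.play 646 (.ref 33 581)))))) (.both (.ref 121 322) (.both (.ref 366 326) (.both (.ref 363 326) (.both (.ref 270 451) (.both (.ref 481 581) (.ref 343 581)))))))))) (.both (.ref 480 130) (.both (.play 648 (.both (.ref 302 135) (.both (.ref 310 325) (.both (.ref 366 326) (.both (.ref 365 387) (.both (.ref 218 388) (.both (.ref 177 390) (.both (.ref 186 450) (.both (.play 647 (.both (.ref 181 451) (.both (.ref 364 579) (.both (.play 646 (.ref 13 581)) (.play 651 (.ref 13 582)))))) (.both (.ref 28 455) (.ref 69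 517))))))))))) (.both (.play 648 (.both (.ref 302 135) (.both (.ref 290 197) (.both (.ref 92 325) (.both (.ref 363 326) (.both (.ref 362 386) (.both (.ref 191 387) (.both (.ref 176 390) (.both (.ref 182 451) (.both (.ref 39 452) (.ref 28 455))))))))))) (.both (.play 648 (.both (.play 584 (.both (.play 520 (.both (.ref 361 133) (.both (.play 456 (.ref 202 327)) (.both (.play 713 (.ref 157 392)) (.play 712 (.both (.ref 357 452) (.both (.play 776 (.ref 25 456)) (.ref 97 519)))))))) (.both (.play 651 (.both (.ref 22 456) (.play 583 (.ref 3 583)))) (.play 583 (.ref 130 515))))) (.both (.ref 302 135) (.both (.ref 283 195) (.both (.ref 108 324) (.both (.ref 142 515) (.ref 69 517))))))) (.both (.play 648 (.both (.ref 302 135) (.both (.play 712 (.both (.ref 355 323) (.both (.ref 341 324) (.both (.ref 338 453) (.play 711 (.ref 72 643)))))) (.both (.ref 92 325) (.both (.ref 270 451) (.ref 124 516)))))) (.both (.play 648 (.both (.ref 322 131) (.both (.play 647 (.both (.ref 266 263) (.both (.play 646 (.ref 33 581)) (.play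 646 (.ref 10 645))))) (.both (.play 647 (.ref 103 389)) (.both (.ref 69 517) (.ref 62 582)))))) (.both (.play 648 (.both (.ref 322 131) (.both (.ref 302 135) (.both (.ref 84 451) (.both (.ref 94 454) (.play 714 (.both (.ref 209 455) (.both (.play 715 (.both (.ref 317 456) (.play 647 (.ref 0 647)))) (.both (.play 715 (.both (.ref 317 456) (.ref 312 648))) (.ref 313 647)))))))))) (.both (.play 648 (.both (.ref 302 135) (.both (.ref 310 325) (.both (.ref 217 388) (.both (.play 651 (.ref 103 390)) (.both (.play 651 (.ref 35 454)) (.both (.ref 69 517) (.ref 62 582)))))))) (.both (.play 648 (.both (.ref 302 135) (.both (.ref 290 197) (.both (.ref 267 260) (.both (.ref 92 325) (.both (.play 651 (.ref 103 390)) (.both (.play 651 (.ref 35 454)) (.ref 62 582)))))))) (.both (.play 648 (.both (.ref 283 195) (.both (.ref 92 325) (.both (.ref 217 388) (.both (.ref 39 452) (.both (.ref 142 515) (.both (.ref 69 517) (.ref 62 582)))))))) (.both (.play 648 (.both (.play 647 (.both (.ref 237 259) (.both (.play 650 (.both (.ref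 236 260) (.both (.play 651 (.ref 13 582)) (.play 651 (.ref 10 646))))) (.both (.play 650 (.ref 187 581)) (.both (.ref 272 581) (.ref 271 581)))))) (.both (.ref 218 388) (.both (.play 651 (.ref 103 390)) (.both (.play 651 (.both (.ref 102 391) (.both (.play 647 (.ref 34 582)) (.both (.play 647 (.ref 13 582)) (.play 647 (.ref 33 582)))))) (.both (.play 647 (.both (.ref 189 391) (.both (.play 651 (.ref 33 582)) (.both (.play 651 (.ref 29 583)) (.play 651 (.ref 10 646)))))) (.both (.play 651 (.both (.ref 102 391) (.ref 189 392))) (.play 647 (.both (.play 651 (.ref 13 582)) (.play 646 (.ref 10 645))))))))))) (.both (.play 648 (.both (.ref 267 260) (.both (.ref 92 325) (.both (.ref 218 388) (.both (.ref 165 451) (.both (.ref 270 451) (.both (.ref 69 517) (.ref 62 582)))))))) (.both (.play 648 (.both (.ref 267 260) (.both (.ref 240 325) (.both (.ref 218 388) (.both (.ref 39 452) (.both (.ref 60 452) (.play 647 (.both (.play 651 (.ref 13 582)) (.both (.play 714 (.both (.play 586 (.both (.ref 61 582) (.play 587 (.ref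 2 583)))) (.play 715 (.ref 0 647)))) (.play 651 (.ref 10 646))))))))))) (.both (.play 648 (.both (.ref 237 260) (.both (.play 647 (.both (.play 711 (.ref 223 262)) (.both (.play 646 (.ref 30 581)) (.play 646 (.ref 10 645))))) (.both (.ref 218 388) (.both (.ref 217 388) (.both (.ref 39 452) (.ref 62 582))))))) (.both (.play 648 (.both (.play 584 (.both (.play 520 (.both (.play 456 (.ref 202 327)) (.both (.play 456 (.both (.play 392 (.ref 88 327)) (.both (.ref 114 328) (.play 455 (.both (.play 391 (.ref 7 391)) (.play 712 (.both (.play 519 (.ref 7 455)) (.ref 201 519)))))))) (.both (.play 712 (.both (.ref 199 453) (.play 713 (.both (.play 711 (.both (.play 775 (.ref 6 519)) (.play 710 (.ref 2 646)))) (.play 777 (.ref 4 520)))))) (.play 713 (.ref 154 456)))))) (.both (.play 712 (.both (.ref 196 389) (.both (.ref 101 391) (.both (.ref 26 455) (.both (.ref 198 455) (.both (.play 711 (.both (.ref 131 515) (.play 651 (.ref 1 647)))) (.play 776 (.both (.play 711 (.both (.play 775 (.ref 76 519)) (.ref 194 645))) (.play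 585 (.ref 197 520)))))))))) (.both (.play 712 (.both (.ref 196 389) (.both (.ref 193 391) (.play 651 (.ref 192 583))))) (.play 583 (.ref 166 581)))))) (.both (.ref 191 387) (.both (.play 647 (.both (.ref 102 390) (.both (.play 646 (.ref 30 581)) (.play 646 (.ref 10 645))))) (.both (.play 651 (.ref 103 390)) (.both (.ref 186 450) (.both (.play 647 (.both (.ref 141 515) (.both (.ref 37 580) (.both (.play 646 (.ref 30 581)) (.play 651 (.ref 30 582)))))) (.both (.ref 134 581) (.both (.ref 188 581) (.play 647 (.ref 187 581))))))))))) (.both (.play 648 (.both (.ref 132 322) (.both (.ref 186 450) (.both (.ref 84 451) (.both (.ref 185 451) (.both (.ref 182 451) (.both (.ref 142 515) (.both (.ref 134 581) (.both (.play 647 (.both (.play 646 (.ref 30 581)) (.both (.play 651 (.ref 34 582)) (.play 651 (.ref 10 646))))) (.both (.ref 133 581) (.play 647 (.both (.play 651 (.ref 34 582)) (.both (.play 651 (.ref 30 582)) (.play 646 (.ref 10 645))))))))))))))) (.both (.play 648 (.both (.ref 132 322) (.both (.ref 177 390) (.both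 (.ref 176 390) (.both (.play 647 (.both (.play 711 (.both (.play 775 (.both (.play 583 (.both (.play 519 (.ref 19 454)) (.both (.play 776 (.both (.play 712 (.both (.play 519 (.ref 4 519)) (.play 777 (.both (.play 778 (.both (.ref 22 583) (.play 779 (.ref 3 711)))) (.both (.ref 173 643) (.both (.play 778 (.both (.play 842 (.both (.play 774 (.both (.ref 168 707) (.play 841 (.ref 0 774)))) (.play 843 (.ref 0 775)))) (.both (.ref 171 711) (.play 779 (.ref 29 711))))) (.ref 170 707))))))) (.play 840 (.ref 4 583)))) (.play 582 (.both (.play 518 (.ref 7 518)) (.play 649 (.ref 166 580))))))) (.both (.play 839 (.both (.ref 54 454) (.both (.play 583 (.ref 17 582)) (.both (.ref 42 646) (.play 903 (.both (.play 712 (.ref 5 647)) (.ref 15 647))))))) (.both (.play 839 (.ref 47 582)) (.both (.play 839 (.ref 46 582)) (.play 839 (.ref 43 582))))))) (.play 710 (.ref 1 646)))) (.both (.play 646 (.ref 30 581)) (.both (.play 646 (.ref 34 581)) (.play 646 (.ref 10 645)))))) (.both (.ref 84 451) (.both (.ref 165 451) (.both (.ref 142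 515) (.both (.ref 134 581) (.ref 133 581)))))))))) (.both (.play 648 (.both (.ref 132 322) (.both (.play 651 (.both (.play 584 (.both (.play 712 (.ref 125 327)) (.play 583 (.ref 3 583)))) (.ref 22 456))) (.both (.play 647 (.ref 35 453)) (.both (.ref 94 454) (.ref 124 516)))))) (.both (.play 648 (.both (.ref 121 322) (.both (.ref 108 324) (.both (.play 647 (.ref 103 389)) (.both (.play 651 (.both (.ref 100 391) (.ref 22 456))) (.ref 94 454)))))) (.both (.play 648 (.both (.ref 92 325) (.both (.ref 84 451) (.both (.play 647 (.ref 35 453)) (.both (.ref 69 517) (.ref 62 582)))))) (.play 648 (.both (.play 647 (.both (.ref 60 451) (.both (.play 650 (.both (.ref 59 452) (.both (.play 651 (.ref 13 582)) (.play 651 (.ref 10 646))))) (.both (.ref 41 581) (.both (.ref 40 581) (.play 650 (.both (.play 646 (.ref 34 581)) (.both (.play 651 (.ref 33 582)) (.play 651 (.ref 13 582)))))))))) (.both (.ref 39 452) (.both (.play 651 (.ref 35 454)) (.both (.play 651 (.ref 32 454)) (.both (.play 647 (.ref 31 454)) (.both (.ref 28 455)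 (.ref 14 581))))))))))))))))))))))))))))))))))))))))))))))
    (by decide +kernel)

theorem Cert_L8 : PW ⟨10, nat_lit 17087896287367280659160173649356416916871852992736315605687019177963419137573943243739408971595776, nat_lit 268156158598851942174643858486609858978025025573509207932599217328431494751059749353709719727999538561944633006427368143317739356233887796700647611021918224, 9, nat_lit 268156158598851942174643858486609858978025025573509207932599217328431494751059749353709719727999538561944633006427368143317739356233887796700647611021918224⟩ :=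
  sound2 baseTbl baseTbl_ok
    (.seq (.seq (.seq (.seq (.one (.play 4 (.both (.play 3 (.ref 2 0)) (.play 5 (.ref 2 1)))))
 (.one (.play 1 (.both (.play 0 (.ref 3 0)) (.play 2 (.ref 3 1))))))
 (.seq (.one (.both (.ref 9 0) (.ref 8 1)))
 (.one (.play 68 (.both (.play 67 (.ref 0 0)) (.play 69 (.ref 0 1)))))))
 (.seq (.seq (.one (.play 68 (.both (.ref 8 0) (.ref 11 64))))
 (.one (.play 196 (.both (.play 194 (.both (.play 258 (.ref 6 2)) (.play 197 (.both (.play 193 (.ref 10 128)) (.both (.play 198 (.both (.ref 9 129) (.ref 11 194))) (.both (.play 198 (.ref 10 129)) (.both (.ref 12 130) (.play 262 (.both (.play 198 (.both (.play 199 (.ref 10 130)) (.play 263 (.ref 0 195)))) (.play 261 (.ref 0 194))))))))))) (.play 260 (.ref 4 3))))))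
 (.seq (.one (.play 257 (.both (.play 193 (.ref 4 0)) (.play 321 (.ref 4 64)))))
 (.one (.play 64 (.both (.play 0 (.ref 7 0)) (.play 128 (.ref 7 64))))))))
 (.seq (.seq (.seq (.one (.both (.ref 15 0) (.ref 14 65)))
 (.one (.play 256 (.both (.play 192 (.ref 6 0)) (.play 320 (.ref 6 64))))))
 (.seq (.one (.play 321 (.both (.ref 15 0) (.ref 17 64))))
 (.one (.play 65 (.both (.play 129 (.both (.play 67 (.both (.play 68 (.both (.play 69 (.both (.ref 12 2) (.play 130 (.ref 1 65)))) (.play 128 (.ref 1 64)))) (.play 3 (.ref 5 2)))) (.play 322 (.ref 7 65)))) (.play 1 (.ref 7 1)))))))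
 (.seq (.seq (.one (.play 65 (.both (.play 1 (.ref 5 0)) (.play 129 (.ref 5 64)))))
 (.one (.play 65 (.both (.ref 20 1) (.ref 17 64)))))
 (.seq (.one (.play 64 (.both (.ref 20 0) (.ref 14 64))))
 (.one (.play 259 (.both (.play 131 (.both (.ref 21 2) (.both (.ref 22 3) (.ref 13 128)))) (.both (.play 131 (.both (.ref 22 3) (.both (.ref 19 65) (.play 387 (.ref 16 66))))) (.both (.play 131 (.both (.ref 21 2) (.both (.ref 19 65) (.ref 18 66)))) (.both (.play 387 (.both (.play 131 (.ref 16 66)) (.both (.ref 18 130) (.play 451 (.both (.ref 17 194) (.ref 14 195)))))) (.play 387 (.both (.ref 18 130) (.both (.play 451 (.ref 16 130)) (.ref 13 192))))))))))))))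
    (by decide +kernel)

theorem Cert_L9 : PW ⟨11, nat_lit 17087896287367280659160173649356416916871852992736315605687019177963419137573943243739408971595776, nat_lit 1683243488495479522444865099815062639105481453907216928158677597053441661045509031836506611022127080228982234654837380178883523038147987421776580184586124146131321395985747400905284890991713770271918516638647844868, 8, nat_lit 1683243488495479522444865099815062639105481453907216928158677597053441661045509031836506611022127080228982234654837380178883523038147987421776580184586124146131321395985747400905284890991713770271918516638647844868⟩ :=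
  sound2 baseTbl baseTbl_ok
    (.seq (.seq (.seq (.seq (.one (.play 257 (.both (.play 193 (.ref 4 0)) (.play 321 (.ref 4 64)))))
 (.one (.play 256 (.both (.play 192 (.ref 6 0)) (.play 320 (.ref 6 64))))))
 (.seq (.one (.both (.ref 9 0) (.ref 8 1)))
 (.one (.play 68 (.both (.play 67 (.ref 0 0)) (.play 69 (.ref 0 1)))))))
 (.seq (.seq (.one (.play 4 (.both (.play 3 (.ref 2 0)) (.play 5 (.ref 2 1)))))
 (.one (.play 68 (.both (.ref 12 0) (.ref 11 64)))))
 (.seq (.one (.play 1 (.both (.play 0 (.ref 3 0)) (.play 2 (.ref 3 1)))))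
 (.seq (.one (.both (.ref 14 0) (.ref 12 1)))
 (.one (.play 69 (.both (.play 65 (.ref 15 0)) (.both (.play 70 (.both (.ref 14 1) (.ref 11 66))) (.both (.play 70 (.ref 15 1)) (.ref 13 2))))))))))
 (.seq (.seq (.seq (.one (.play 64 (.both (.play 0 (.ref 7 0)) (.play 128 (.ref 7 64)))))
 (.one (.both (.ref 17 0) (.ref 9 64))))
 (.seq (.one (.both (.ref 17 0) (.ref 8 65)))
 (.seq (.one (.play 320 (.both (.play 65 (.both (.play 1 (.ref 5 0)) (.play 129 (.ref 5 64)))) (.ref 8 64))))
 (.one (.play 258 (.both (.play 257 (.both (.play 321 (.ref 18 0)) (.play 322 (.ref 4 65)))) (.play 194 (.ref 4 1))))))))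
 (.seq (.seq (.one (.both (.play 0 (.ref 7 0)) (.play 321 (.both (.play 128 (.ref 7 64)) (.play 385 (.ref 10 128))))))
 (.one (.play 256 (.both (.play 192 (.both (.play 1 (.ref 6 0)) (.play 385 (.ref 22 128)))) (.play 320 (.ref 6 64))))))
 (.seq (.one (.play 321 (.both (.ref 23 0) (.both (.ref 9 64) (.both (.play 385 (.ref 10 128)) (.ref 21 128))))))
 (.seq (.one (.play 256 (.both (.play 192 (.ref 6 0)) (.play 257 (.both (.ref 20 1) (.play 320 (.ref 6 64)))))))
 (.one (.play 259 (.both (.play 131 (.both (.play 67 (.ref 18 2)) (.both (.play 67 (.ref 19 2)) (.play 324 (.both (.play 322 (.both (.play 386 (.ref 6 130)) (.ref 16 256))) (.play 388 (.ref 4 131))))))) (.both (.play 387 (.both (.play 131 (.both (.play 67 (.ref 18 2)) (.both (.ref 17 66) (.ref 23 66)))) (.both (.play 131 (.ref 18 66)) (.both (.play 194 (.ref 22 130)) (.ref 24 130))))) (.both (.play 387 (.both (.play 131 (.ref 18 66)) (.both (.play 131 (.ref 19 66)) (.play 451 (.ref 10 194))))) (.both (.play 387 (.both (.play 131 (.ref 19 66)) (.both (.play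 194 (.both (.play 130 (.ref 7 130)) (.play 451 (.both (.play 258 (.ref 7 194)) (.ref 25 258))))) (.both (.play 194 (.ref 22 130)) (.play 451 (.both (.play 388 (.both (.play 324 (.both (.play 131 (.ref 4 131)) (.play 515 (.both (.play 260 (.ref 5 259)) (.play 579 (.both (.play 388 (.ref 5 323)) (.play 643 (.ref 10 386)))))))) (.play 452 (.ref 4 195)))) (.both (.ref 8 195) (.both (.play 515 (.ref 10 258)) (.ref 25 258))))))))) (.both (.play 387 (.both (.play 388 (.both (.play 131 (.both (.ref 23 66) (.play 324 (.ref 4 131)))) (.play 452 (.ref 4 195)))) (.both (.play 131 (.ref 10 130)) (.both (.ref 24 130) (.both (.play 451 (.ref 10 194)) (.both (.ref 21 194) (.play 450 (.both (.play 386 (.ref 6 194)) (.play 451 (.both (.play 258 (.both (.play 194 (.ref 7 194)) (.play 515 (.both (.play 322 (.ref 7 258)) (.ref 20 259))))) (.play 514 (.ref 6 258)))))))))))) (.play 387 (.both (.play 451 (.ref 18 130)) (.both (.play 451 (.ref 19 130)) (.both (.play 388 (.both (.play 386 (.both (.play 450 (.both (.play 195 (.ref 6 194))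 (.play 389 (.both (.ref 13 322) (.play 449 (.ref 1 385)))))) (.both (.play 450 (.both (.play 514 (.both (.play 322 (.both (.play 258 (.ref 18 193)) (.play 259 (.ref 5 258)))) (.play 578 (.ref 5 322)))) (.play 195 (.ref 6 194)))) (.ref 16 320)))) (.play 452 (.ref 4 195)))) (.play 451 (.ref 10 194))))))))))))))))))
    (by decide +kernel)

theorem Cert_L10 : PW ⟨13, nat_lit 68351585149469122636640694597425667667487411970945262422748076711853676550295772974957635886383104, nat_lit 91248812352443904379748683355252753452792159063076038865819920111915619173714637865581651489129908157503270176616405251930707438356233413833798659539456364093438697006230712257596968505788334160, 9, nat_lit 91248812352443904379748683355252753452792159063076038865819920111915619173714637865581651489129908157503270176616405251930707438356233413833798659539456364093438697006230712257596968505788334160⟩ :=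
  sound2 baseTbl baseTbl_ok
    (.seq (.seq (.seq (.seq (.one (.play 257 (.both (.play 193 (.ref 4 0)) (.play 321 (.ref 4 64)))))
 (.one (.play 256 (.both (.play 192 (.ref 6 0)) (.play 320 (.ref 6 64))))))
 (.seq (.one (.play 257 (.both (.ref 9 0) (.ref 8 1))))
 (.one (.play 64 (.both (.play 0 (.ref 7 0)) (.play 128 (.ref 7 64)))))))
 (.seq (.seq (.one (.play 321 (.both (.ref 11 0) (.ref 8 65))))
 (.one (.both (.ref 11 0) (.ref 9 64))))
 (.seq (.one (.play 65 (.both (.play 64 (.ref 1 0)) (.play 66 (.ref 1 1)))))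
 (.one (.play 4 (.both (.play 3 (.ref 2 0)) (.play 5 (.ref 2 1))))))))
 (.seq (.seq (.seq (.one (.play 65 (.both (.ref 15 1) (.ref 14 64))))
 (.one (.play 1 (.both (.play 0 (.ref 3 0)) (.play 2 (.ref 3 1))))))
 (.seq (.one (.both (.ref 17 0) (.ref 15 1)))
 (.one (.play 65 (.both (.ref 17 0) (.ref 14 64))))))
 (.seq (.seq (.one (.play 65 (.both (.play 1 (.ref 5 0)) (.play 129 (.ref 5 64)))))
 (.one (.play 65 (.both (.ref 20 1) (.ref 9 64)))))
 (.seq (.one (.play 65 (.both (.ref 11 0) (.ref 20 1))))
 (.seq (.one (.play 64 (.both (.ref 20 0) (.ref 8 64))))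
 (.one (.play 261 (.both (.play 133 (.both (.ref 21 4) (.both (.ref 23 5) (.play 326 (.both (.play 324 (.both (.play 388 (.ref 6 132)) (.play 323 (.both (.play 386 (.both (.play 322 (.both (.play 321 (.ref 18 256)) (.play 385 (.ref 1 321)))) (.play 387 (.ref 1 322)))) (.both (.ref 19 257) (.both (.play 322 (.ref 18 257)) (.both (.ref 16 257) (.play 327 (.ref 18 258))))))))) (.play 390 (.ref 4 133))))))) (.both (.play 133 (.both (.ref 22 4) (.both (.ref 23 5) (.ref 12 68)))) (.both (.play 133 (.both (.play 69 (.ref 13 4)) (.both (.ref 22 4) (.both (.ref 21 4) (.play 389 (.ref 13 68)))))) (.play 389 (.both (.play 390 (.both (.play 388 (.both (.play 196 (.both (.play 132 (.ref 7 132)) (.play 387 (.both (.play 323 (.both (.play 324 (.both (.play 451 (.both (.play 515 (.both (.play 260 (.ref 5 259)) (.ref 10 322))) (.play 450 (.ref 1 386)))) (.play 391 (.ref 3 323)))) (.play 322 (.ref 3 322)))) (.both (.ref 19 321) (.both (.play 386 (.ref 18 321)) (.ref 16 321))))))) (.play 452 (.ref 6 196)))) (.play 454 (.ref 4 197))))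 (.both (.play 453 (.ref 13 132)) (.both (.ref 12 132) (.ref 10 196)))))))))))))))
    (by decide +kernel)

end Crest.Agent.Snaky
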