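import Crest.Agent.Lib_Snaky.Root

set_option autoImplicit false
set_option linter.all false
set_option maxRecDepth 1000000

namespace Crest.Agent.Snaky

theorem Cert_L11 : PW ⟨15, nat_lit 68351585149469122636640694597425667667487411970945262422748076711853676550295772974957635886383104, nat_lit 364995249409775617740602773140912676337959892161071299881083920519281117020332935178208286016918494773646299941316200506715115780117290830278431438917895453094620552642277414192365191471692776792, 13, nat_lit 364995249409775617740602773140912676337959892161071299881083920519281117020332935178208286016918494773646299941316200506715115780117290830278431438917895453094620552642277414192365191471692776792⟩ :=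
  sound2 baseTbl baseTbl_ok
    (.seq (.seq (.seq (.seq (.seq (.seq (.one (.play 65 (.both (.play 64 (.ref 1 0)) (.play 66 (.ref 1 1)))))
 (.seq (.one (.play 69 (.both (.play 1 (.both (.ref 8 0) (.play 68 (.ref 0 1)))) (.play 70 (.ref 0 2)))))
 (.one (.play 68 (.both (.play 67 (.ref 0 0)) (.play 69 (.ref 0 1)))))))
 (.seq (.seq (.one (.play 4 (.both (.play 3 (.ref 2 0)) (.play 68 (.both (.play 5 (.ref 2 1)) (.ref 10 64))))))
 (.one (.play 65 (.both (.play 4 (.ref 2 1)) (.ref 8 64)))))
 (.seq (.one (.play 5 (.both (.ref 12 0) (.play 6 (.ref 2 2)))))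
 (.one (.both (.ref 13 0) (.both (.ref 11 2) (.ref 9 64)))))))
 (.seq (.seq (.seq (.one (.play 4 (.both (.play 3 (.ref 2 0)) (.play 5 (.ref 2 1)))))
 (.one (.both (.play 0 (.ref 0 0)) (.play 7 (.ref 1 3)))))
 (.seq (.one (.play 6 (.both (.play 70 (.both (.play 7 (.ref 2 3)) (.play 131 (.both (.play 132 (.ref 16 64)) (.play 130 (.ref 1 66)))))) (.play 5 (.ref 2 2)))))
 (.one (.play 69 (.both (.ref 17 0) (.both (.ref 11 2) (.ref 10 65)))))))
 (.seq (.seq (.one (.play 64 (.both (.play 3 (.ref 2 0)) (.play 131 (.ref 0 64)))))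
 (.one (.play 132 (.both (.play 4 (.both (.ref 19 0) (.play 5 (.ref 2 1)))) (.play 133 (.ref 0 65))))))
 (.seq (.one (.play 129 (.both (.play 69 (.both (.ref 11 2) (.play 130 (.ref 1 65)))) (.play 128 (.ref 1 64)))))
 (.one (.play 1 (.both (.play 65 (.both (.play 0 (.ref 3 0)) (.ref 8 64))) (.play 2 (.ref 3 1)))))))))
 (.seq (.seq (.seq (.one (.play 66 (.both (.ref 22 0) (.play 5 (.ref 2 2)))))
 (.seq (.one (.play 1 (.both (.play 65 (.both (.play 0 (.ref 3 0)) (.play 132 (.both (.play 131 (.ref 16 64)) (.play 133 (.ref 0 65)))))) (.play 2 (.ref 3 1)))))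
 (.one (.play 66 (.both (.ref 24 0) (.play 5 (.ref 2 2)))))))
 (.seq (.seq (.one (.play 6 (.both (.ref 23 0) (.play 7 (.ref 2 3)))))
 (.one (.play 129 (.both (.play 69 (.both (.ref 15 1) (.play 130 (.ref 1 65)))) (.play 128 (.ref 1 64))))))
 (.seq (.one (.play 1 (.both (.play 0 (.ref 3 0)) (.play 2 (.ref 3 1)))))
 (.one (.play 130 (.both (.play 66 (.both (.play 1 (.both (.play 65 (.both (.play 0 (.ref 3 0)) (.ref 10 65))) (.play 2 (.ref 3 1)))) (.play 129 (.ref 1 65)))) (.play 131 (.ref 1 66))))))))
 (.seq (.seq (.seq (.one (.play 134 (.both (.play 66 (.both (.ref 22 0) (.play 133 (.ref 0 66)))) (.play 135 (.ref 0 67)))))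
 (.one (.play 4 (.both (.play 65 (.ref 1 0)) (.ref 10 0)))))
 (.seq (.one (.play 65 (.both (.play 64 (.ref 1 0)) (.ref 31 1))))
 (.one (.both (.play 0 (.ref 7 0)) (.play 321 (.ref 7 64))))))
 (.seq (.seq (.one (.play 196 (.both (.play 260 (.ref 4 3)) (.play 129 (.ref 0 128)))))
 (.one (.play 193 (.both (.play 196 (.both (.play 68 (.both (.play 260 (.both (.play 259 (.both (.play 195 (.both (.play 4 (.ref 6 3)) (.ref 34 65))) (.play 323 (.ref 6 67)))) (.play 67 (.ref 33 3)))) (.play 69 (.ref 2 65)))) (.play 197 (.ref 0 129)))) (.play 192 (.ref 1 128))))))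
 (.seq (.one (.both (.play 0 (.ref 0 0)) (.play 69 (.ref 0 1))))
 (.one (.play 193 (.both (.play 257 (.ref 6 1)) (.play 192 (.ref 2 128))))))))))
 (.seq (.seq (.seq (.seq (.one (.both (.play 1 (.ref 6 0)) (.play 320 (.ref 5 64))))
 (.seq (.one (.play 195 (.both (.play 259 (.ref 38 3)) (.play 128 (.ref 0 128)))))
 (.one (.play 68 (.both (.play 196 (.both (.ref 39 0) (.play 197 (.ref 0 129)))) (.play 69 (.ref 2 65)))))))
 (.seq (.seq (.one (.play 132 (.both (.play 68 (.both (.ref 27 0) (.play 133 (.ref 0 65)))) (.play 131 (.ref 0 64)))))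
 (.one (.play 4 (.both (.play 3 (.ref 2 0)) (.play 68 (.both (.play 5 (.ref 2 1)) (.ref 32 64)))))))
 (.seq (.one (.both (.play 64 (.ref 1 0)) (.play 5 (.ref 1 1))))
 (.one (.both (.play 0 (.ref 4 0)) (.play 321 (.ref 7 64)))))))
 (.seq (.seq (.seq (.one (.play 132 (.both (.play 131 (.both (.play 260 (.both (.play 67 (.ref 44 3)) (.play 261 (.ref 0 193)))) (.play 192 (.ref 2 128)))) (.play 133 (.ref 2 129)))))
 (.one (.play 199 (.both (.play 263 (.both (.play 195 (.both (.play 134 (.both (.play 194 (.both (.play 6 (.both (.play 70 (.ref 4 6)) (.ref 22 128))) (.play 133 (.ref 2 130)))) (.play 135 (.ref 2 131)))) (.play 262 (.ref 0 195)))) (.play 264 (.ref 0 196)))) (.both (.ref 45 3) (.both (.play 135 (.both (.play 195 (.both (.play 134 (.ref 2 131)) (.play 262 (.both (.play 261 (.both (.play 194 (.ref 0 194)) (.play 200 (.ref 43 196)))) (.play 263 (.ref 0 195)))))) (.play 136 (.ref 2 132)))) (.both (.ref 20 131) (.both (.ref 42 132) (.ref 41 132)))))))))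
 (.seq (.one (.play 257 (.both (.play 193 (.ref 4 0)) (.play 321 (.ref 4 64)))))
 (.one (.play 193 (.both (.play 256 (.ref 6 0)) (.play 257 (.both (.play 0 (.ref 7 0)) (.ref 47 1))))))))
 (.seq (.seq (.one (.both (.play 192 (.ref 4 0)) (.play 65 (.ref 7 0))))
 (.one (.play 68 (.both (.play 1 (.ref 3 0)) (.ref 15 0)))))
 (.seq (.one (.play 1 (.both (.play 0 (.ref 3 0)) (.ref 50 1))))
 (.one (.play 68 (.both (.ref 51 0) (.ref 10 64))))))))
 (.seq (.seq (.seq (.one (.play 257 (.both (.play 128 (.both (.play 0 (.ref 4 0)) (.play 129 (.ref 3 128)))) (.play 256 (.ref 1 192)))))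
 (.seq (.one (.play 260 (.both (.play 196 (.both (.ref 53 0) (.play 261 (.ref 0 193)))) (.play 259 (.ref 0 192)))))
 (.one (.both (.play 0 (.ref 4 0)) (.play 321 (.ref 4 64))))))
 (.seq (.seq (.one (.both (.play 65 (.ref 3 0)) (.play 69 (.ref 3 1))))
 (.one (.both (.play 0 (.ref 0 0)) (.play 69 (.ref 56 1)))))
 (.seq (.one (.play 128 (.both (.play 0 (.ref 4 0)) (.play 129 (.ref 7 64)))))
 (.one (.play 128 (.both (.play 257 (.both (.play 0 (.ref 4 0)) (.play 256 (.ref 1 192)))) (.play 129 (.ref 3 128))))))))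
 (.seq (.seq (.seq (.one (.play 67 (.both (.play 258 (.ref 38 2)) (.play 68 (.ref 2 64)))))
 (.one (.both (.ref 60 1) (.play 128 (.ref 0 128)))))
 (.seq (.one (.play 196 (.both (.play 195 (.ref 61 0)) (.play 197 (.ref 0 129)))))
 (.one (.play 132 (.both (.play 196 (.both (.ref 53 0) (.play 133 (.ref 2 129)))) (.play 131 (.ref 2 128)))))))
 (.seq (.seq (.one (.play 4 (.both (.play 132 (.both (.ref 19 0) (.play 133 (.ref 0 65)))) (.play 5 (.ref 2 1)))))
 (.one (.play 68 (.both (.play 1 (.ref 3 0)) (.ref 10 64)))))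
 (.seq (.one (.play 1 (.both (.play 0 (.ref 3 0)) (.ref 65 1))))
 (.one (.play 68 (.both (.ref 15 0) (.ref 66 0))))))))))
 (.seq (.seq (.seq (.seq (.seq (.one (.both (.play 1 (.ref 5 0)) (.play 320 (.ref 5 64))))
 (.seq (.one (.play 65 (.both (.play 1 (.ref 6 0)) (.play 257 (.ref 6 64)))))
 (.one (.play 320 (.both (.ref 69 0) (.play 384 (.ref 5 128)))))))
 (.seq (.seq (.one (.play 196 (.both (.play 132 (.both (.play 259 (.both (.ref 70 3) (.both (.play 131 (.both (.play 323 (.ref 68 67)) (.play 192 (.ref 2 128)))) (.play 192 (.both (.play 131 (.ref 2 128)) (.play 260 (.ref 0 192))))))) (.play 133 (.ref 2 129)))) (.both (.ref 40 64) (.both (.play 260 (.both (.play 131 (.both (.play 259 (.both (.play 324 (.ref 44 67)) (.play 192 (.ref 0 192)))) (.both (.play 324 (.both (.play 132 (.both (.play 67 (.ref 7 67)) (.play 192 (.ref 2 128)))) (.play 388 (.ref 7 131)))) (.both (.play 324 (.both (.play 67 (.ref 49 67)) (.play 388 (.ref 7 131)))) (.play 192 (.both (.play 132 (.ref 2 128)) (.play 259 (.ref 0 192))))))))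 (.play 261 (.ref 0 193)))) (.both (.ref 64 128) (.both (.ref 67 129) (.ref 52 129))))))))
 (.one (.play 68 (.both (.play 0 (.ref 0 0)) (.play 69 (.ref 3 1))))))
 (.seq (.one (.both (.play 64 (.ref 2 0)) (.play 5 (.ref 1 1))))
 (.one (.play 195 (.both (.play 131 (.both (.ref 60 0) (.play 132 (.ref 73 128)))) (.play 196 (.ref 3 128))))))))
 (.seq (.seq (.seq (.one (.both (.play 0 (.ref 4 0)) (.play 321 (.both (.play 256 (.ref 4 64)) (.play 385 (.ref 7 128))))))
 (.one (.play 65 (.both (.play 1 (.ref 5 0)) (.play 129 (.ref 5 64))))))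
 (.seq (.one (.play 64 (.both (.play 65 (.both (.play 0 (.ref 7 0)) (.ref 76 1))) (.play 128 (.ref 7 64)))))
 (.one (.both (.play 1 (.ref 6 0)) (.play 320 (.ref 6 64))))))
 (.seq (.seq (.one (.play 262 (.both (.play 263 (.both (.play 199 (.both (.play 198 (.both (.play 325 (.both (.play 196 (.both (.play 135 (.both (.play 71 (.ref 78 6)) (.play 197 (.both (.play 131 (.ref 3 131)) (.play 136 (.ref 2 132)))))) (.play 68 (.ref 4 68)))) (.both (.ref 70 69) (.play 389 (.both (.play 196 (.ref 49 132)) (.play 453 (.ref 5 197))))))) (.play 259 (.ref 2 195)))) (.play 200 (.ref 2 196)))) (.both (.ref 63 68) (.both (.play 264 (.both (.ref 53 68) (.both (.ref 66 196) (.ref 32 260)))) (.both (.ref 42 196) (.ref 67 196)))))) (.both (.play 263 (.both (.play 199 (.both (.play 327 (.both (.play 391 (.both (.play 390 (.both (.play 135 (.both (.play 456 (.both (.play 455 (.both (.ref 77 6) (.play 520 (.ref 4 263)))) (.play 392 (.ref 4 199)))) (.play 326 (.ref 6 134)))) (.play 454 (.ref 6 198)))) (.both (.play 198 (.both (.play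 390 (.both (.play 135 (.both (.play 71 (.both (.play 7 (.ref 6 6)) (.ref 76 7))) (.play 326 (.ref 6 134)))) (.play 454 (.ref 6 198)))) (.play 134 (.ref 7 134)))) (.both (.play 198 (.ref 33 134)) (.play 390 (.both (.play 326 (.both (.play 135 (.ref 6 134)) (.play 455 (.ref 33 198)))) (.play 454 (.ref 6 198)))))))) (.play 328 (.ref 0 260)))) (.play 200 (.ref 2 196)))) (.both (.ref 54 68) (.both (.ref 63 68) (.ref 11 196))))) (.both (.ref 46 64) (.both (.play 325 (.both (.play 196 (.both (.play 68 (.ref 4 68)) (.play 326 (.both (.ref 74 132) (.both (.play 259 (.both (.play 199 (.both (.play 198 (.ref 2 195)) (.play 263 (.both (.play 200 (.ref 2 196)) (.play 264 (.ref 43 260)))))) (.play 258 (.ref 0 258)))) (.ref 72 259)))))) (.both (.play 196 (.both (.play 68 (.ref 4 68)) (.play 389 (.both (.play 326 (.both (.play 198 (.both (.play 134 (.ref 6 133)) (.play 259 (.both (.play 199 (.ref 2 195)) (.play 258 (.ref 0 258)))))) (.both (.play 263 (.both (.play 199 (.both (.play 390 (.both (.play 198 (.both (.play 134 (.ref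 6 133)) (.play 135 (.ref 5 134)))) (.play 454 (.ref 5 198)))) (.play 200 (.ref 2 196)))) (.play 328 (.both (.play 327 (.ref 0 260)) (.play 264 (.both (.play 329 (.ref 0 261)) (.play 265 (.ref 1 261)))))))) (.ref 72 259)))) (.play 453 (.ref 7 196)))))) (.both (.play 196 (.ref 75 68)) (.play 326 (.both (.play 259 (.ref 61 130)) (.both (.ref 74 132) (.ref 72 259)))))))) (.both (.ref 71 67) (.both (.play 263 (.both (.ref 54 68) (.both (.ref 63 68) (.ref 64 195)))) (.both (.play 263 (.both (.ref 54 68) (.both (.ref 63 68) (.ref 62 131)))) (.both (.play 263 (.both (.ref 45 67) (.both (.play 328 (.both (.play 264 (.both (.ref 59 68) (.play 329 (.ref 0 261)))) (.play 327 (.ref 0 260)))) (.play 200 (.both (.play 264 (.both (.ref 59 68) (.play 201 (.ref 2 197)))) (.play 199 (.ref 2 196))))))) (.both (.play 263 (.both (.play 327 (.both (.play 326 (.both (.play 198 (.both (.play 391 (.both (.play 325 (.both (.play 389 (.both (.ref 58 68) (.play 453 (.ref 5 197)))) (.play 392 (.ref 57 324)))) (.play 455 (.ref 7 198)))) (.both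 (.play 134 (.both (.play 70 (.ref 4 70)) (.play 389 (.both (.play 325 (.ref 6 133)) (.play 390 (.both (.play 453 (.ref 6 197)) (.play 454 (.both (.play 197 (.ref 7 197)) (.play 518 (.ref 5 262)))))))))) (.play 134 (.ref 55 70))))) (.play 259 (.ref 0 259)))) (.play 328 (.ref 0 260)))) (.both (.ref 54 68) (.both (.play 264 (.both (.ref 53 68) (.both (.ref 51 196) (.ref 27 196)))) (.both (.ref 41 196) (.ref 52 196)))))) (.play 259 (.both (.play 198 (.both (.play 326 (.both (.play 389 (.both (.play 325 (.both (.play 196 (.ref 49 132)) (.play 134 (.ref 6 133)))) (.both (.play 325 (.ref 38 133)) (.ref 48 197)))) (.play 327 (.ref 0 259)))) (.play 199 (.ref 2 195)))) (.both (.ref 30 192) (.both (.ref 26 192) (.play 198 (.both (.play 258 (.both (.play 197 (.ref 2 194)) (.ref 10 258))) (.play 199 (.ref 2 195)))))))))))))))))))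
 (.one (.play 132 (.both (.play 68 (.both (.ref 15 0) (.play 133 (.ref 0 65)))) (.play 131 (.ref 0 64))))))
 (.seq (.one (.play 257 (.both (.play 258 (.both (.play 129 (.ref 55 1)) (.play 197 (.ref 1 193)))) (.play 256 (.ref 1 192)))))
 (.one (.play 131 (.both (.play 67 (.ref 44 3)) (.play 192 (.ref 2 128)))))))))
 (.seq (.seq (.seq (.one (.both (.play 1 (.ref 6 0)) (.play 320 (.both (.play 257 (.ref 6 64)) (.play 384 (.ref 5 128))))))
 (.seq (.one (.play 257 (.both (.play 130 (.ref 83 1)) (.play 256 (.ref 1 192)))))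
 (.one (.play 1 (.both (.ref 8 0) (.play 69 (.ref 0 1)))))))
 (.seq (.seq (.one (.play 4 (.both (.play 67 (.ref 2 0)) (.play 5 (.ref 1 1)))))
 (.one (.play 324 (.both (.play 133 (.both (.play 69 (.both (.play 5 (.ref 6 4)) (.play 134 (.both (.play 194 (.ref 2 130)) (.ref 86 131))))) (.both (.ref 69 4) (.play 194 (.both (.play 134 (.ref 2 130)) (.ref 85 192)))))) (.play 388 (.ref 7 131))))))
 (.seq (.one (.both (.ref 87 0) (.play 3 (.ref 4 3))))
 (.one (.play 256 (.both (.play 192 (.ref 6 0)) (.play 320 (.ref 6 64))))))))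
 (.seq (.seq (.seq (.one (.play 1 (.both (.play 256 (.ref 6 0)) (.play 194 (.ref 4 1)))))
 (.one (.play 65 (.both (.ref 76 1) (.play 320 (.ref 6 64))))))
 (.seq (.one (.play 324 (.both (.play 323 (.both (.play 195 (.both (.play 131 (.both (.ref 91 2) (.both (.play 196 (.both (.play 132 (.ref 68 67)) (.ref 86 193))) (.ref 90 66)))) (.both (.play 131 (.both (.ref 91 2) (.play 388 (.ref 4 131)))) (.both (.play 131 (.both (.ref 90 66) (.play 388 (.ref 4 131)))) (.play 387 (.both (.play 196 (.both (.play 132 (.ref 5 131)) (.ref 86 193))) (.play 451 (.both (.ref 89 194) (.ref 47 195))))))))) (.play 256 (.ref 0 256)))) (.both (.play 260 (.both (.play 196 (.both (.ref 82 64) (.play 197 (.ref 2 193)))) (.play 325 (.ref 0 257)))) (.both (.play 323 (.both (.play 256 (.ref 0 256)) (.play 325 (.both (.play 260 (.ref 0 257)) (.play 326 (.ref 3 258)))))) (.both (.play 323 (.ref 57 256)) (.play 325 (.both (.play 260 (.ref 0 257)) (.play 323 (.ref 56 257))))))))))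
 (.one (.play 256 (.both (.play 1 (.ref 5 0)) (.ref 47 0))))))
 (.seq (.seq (.one (.play 256 (.both (.play 192 (.ref 6 0)) (.play 257 (.both (.play 320 (.ref 6 64)) (.ref 93 65))))))
 (.one (.play 258 (.both (.play 194 (.ref 4 1)) (.play 257 (.both (.play 321 (.both (.ref 89 64) (.play 66 (.ref 5 65)))) (.play 322 (.ref 4 65))))))))
 (.seq (.one (.play 194 (.both (.play 258 (.ref 6 2)) (.play 133 (.both (.play 193 (.both (.play 192 (.ref 2 128)) (.play 196 (.ref 2 129)))) (.play 134 (.ref 1 130)))))))
 (.one (.both (.play 64 (.ref 2 0)) (.play 5 (.ref 2 1)))))))))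
 (.seq (.seq (.seq (.seq (.one (.play 195 (.both (.play 259 (.ref 33 2)) (.play 196 (.ref 0 128)))))
 (.seq (.one (.play 65 (.both (.play 1 (.ref 6 0)) (.play 128 (.ref 5 64)))))
 (.one (.play 64 (.both (.play 0 (.ref 7 0)) (.play 128 (.ref 7 64)))))))
 (.seq (.seq (.one (.play 65 (.both (.ref 100 0) (.play 258 (.ref 4 65)))))
 (.one (.play 129 (.both (.ref 101 0) (.play 386 (.ref 4 129))))))
 (.seq (.one (.play 66 (.both (.play 68 (.both (.play 4 (.ref 5 3)) (.play 130 (.both (.play 129 (.ref 73 64)) (.play 323 (.ref 7 66)))))) (.play 2 (.ref 7 2)))))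
 (.one (.play 64 (.both (.ref 76 0) (.play 257 (.ref 4 64))))))))
 (.seq (.seq (.seq (.one (.play 5 (.both (.play 65 (.both (.play 64 (.ref 2 0)) (.play 2 (.ref 1 1)))) (.play 6 (.ref 1 2)))))
 (.one (.play 64 (.both (.play 0 (.ref 7 0)) (.play 321 (.both (.play 128 (.ref 7 64)) (.ref 89 64)))))))
 (.seq (.one (.play 256 (.both (.play 192 (.ref 6 0)) (.play 257 (.both (.ref 47 1) (.play 320 (.ref 6 64)))))))
 (.one (.play 68 (.both (.play 69 (.ref 3 1)) (.ref 10 64))))))
 (.seq (.seq (.one (.play 67 (.both (.ref 103 0) (.play 324 (.ref 4 67)))))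
 (.one (.play 257 (.both (.play 2 (.ref 5 1)) (.play 321 (.both (.ref 89 64) (.play 130 (.ref 5 65))))))))
 (.seq (.one (.play 257 (.both (.play 130 (.both (.play 2 (.ref 6 1)) (.play 261 (.both (.play 197 (.both (.ref 50 130) (.play 262 (.ref 0 194)))) (.play 260 (.ref 0 193)))))) (.play 256 (.ref 1 192)))))
 (.one (.play 4 (.both (.play 65 (.ref 97 0)) (.play 71 (.ref 3 3)))))))))
 (.seq (.seq (.seq (.one (.play 134 (.both (.play 70 (.both (.ref 112 0) (.play 135 (.ref 0 67)))) (.play 133 (.ref 0 66)))))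
 (.seq (.one (.play 256 (.both (.play 64 (.both (.play 0 (.ref 7 0)) (.play 321 (.both (.play 128 (.ref 7 64)) (.play 385 (.both (.ref 47 129) (.play 449 (.ref 7 192)))))))) (.play 320 (.ref 6 64)))))
 (.one (.play 128 (.both (.play 192 (.both (.play 65 (.ref 78 0)) (.play 385 (.ref 7 128)))) (.play 64 (.ref 7 64)))))))
 (.seq (.seq (.one (.play 129 (.both (.ref 77 0) (.play 386 (.ref 4 129)))))
 (.one (.play 257 (.both (.ref 116 0) (.play 258 (.ref 3 257))))))
 (.seq (.one (.both (.ref 77 0) (.play 384 (.ref 6 128))))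
 (.one (.play 257 (.both (.play 65 (.ref 7 0)) (.play 321 (.ref 7 64))))))))
 (.seq (.seq (.seq (.one (.play 326 (.both (.play 323 (.both (.play 386 (.both (.play 322 (.both (.play 257 (.both (.play 321 (.both (.play 260 (.both (.ref 116 3) (.play 261 (.ref 2 257)))) (.play 256 (.ref 3 256)))) (.play 258 (.ref 3 257)))) (.play 385 (.ref 1 321)))) (.play 387 (.ref 1 322)))) (.both (.ref 111 130) (.both (.play 391 (.both (.play 327 (.both (.play 264 (.both (.play 328 (.both (.play 260 (.both (.play 132 (.both (.play 387 (.ref 6 131)) (.play 389 (.ref 4 132)))) (.play 261 (.ref 3 260)))) (.play 265 (.ref 2 261)))) (.play 263 (.ref 2 260)))) (.play 392 (.ref 0 324)))) (.play 390 (.ref 0 323)))) (.both (.ref 30 256) (.ref 9 321)))))) (.both (.play 260 (.both (.play 132 (.both (.ref 101 3) (.both (.play 323 (.ref 118 3)) (.play 323 (.both (.play 387 (.ref 6 131)) (.ref 26 256)))))) (.both (.play 389 (.both (.ref 87 129) (.both (.ref 119 196) (.play 323 (.both (.ref 13 257) (.both (.play 263 (.both (.play 262 (.ref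 2 259)) (.play 327 (.both (.play 264 (.ref 2 260)) (.play 328 (.both (.play 261 (.ref 3 260)) (.ref 31 325))))))) (.ref 85 321))))))) (.both (.play 389 (.ref 88 129)) (.play 389 (.both (.play 132 (.ref 4 132)) (.ref 119 196))))))) (.both (.play 260 (.both (.play 132 (.both (.ref 101 3) (.both (.play 323 (.ref 118 3)) (.play 323 (.both (.play 387 (.ref 6 131)) (.ref 113 257)))))) (.both (.ref 102 3) (.both (.play 132 (.both (.play 323 (.ref 118 3)) (.play 389 (.ref 4 132)))) (.play 327 (.both (.play 391 (.both (.play 323 (.both (.play 386 (.both (.play 322 (.both (.play 261 (.ref 97 257)) (.play 385 (.ref 1 321)))) (.play 387 (.ref 1 322)))) (.play 390 (.ref 0 323)))) (.play 392 (.ref 0 324)))) (.both (.play 328 (.both (.ref 17 259) (.play 261 (.ref 3 260)))) (.both (.ref 18 259) (.both (.ref 65 260) (.play 328 (.both (.play 261 (.ref 3 260)) (.ref 11 261)))))))))))) (.both (.play 260 (.both (.ref 102 3) (.both (.ref 116 3) (.play 327 (.both (.ref 45 131) (.both (.play 263 (.both (.play 261 (.both (.play 262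 (.both (.play 195 (.ref 3 195)) (.play 323 (.ref 2 259)))) (.play 328 (.ref 3 260)))) (.play 264 (.ref 2 260)))) (.ref 65 260))))))) (.both (.play 327 (.both (.play 392 (.both (.play 328 (.both (.ref 117 3) (.play 393 (.ref 0 325)))) (.play 391 (.ref 0 324)))) (.both (.play 264 (.both (.play 328 (.both (.ref 117 3) (.play 265 (.ref 2 261)))) (.play 263 (.ref 2 260)))) (.both (.play 263 (.both (.play 391 (.both (.play 199 (.both (.play 198 (.both (.play 455 (.both (.play 136 (.both (.play 135 (.both (.play 72 (.ref 5 71)) (.ref 107 262))) (.play 200 (.ref 5 135)))) (.play 262 (.ref 7 198)))) (.play 134 (.ref 7 134)))) (.both (.ref 115 70) (.both (.play 390 (.ref 78 134)) (.ref 114 134))))) (.play 392 (.ref 0 324)))) (.play 264 (.ref 2 260)))) (.ref 11 260))))) (.both (.ref 92 67) (.both (.play 323 (.both (.play 262 (.both (.play 390 (.both (.play 453 (.both (.play 389 (.both (.ref 58 132) (.play 198 (.ref 6 197)))) (.both (.play 389 (.ref 38 197)) (.ref 48 261)))) (.play 391 (.ref 0 323)))) (.play 263 (.ref 2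 259)))) (.both (.ref 40 194) (.both (.ref 13 257) (.ref 9 321))))) (.both (.play 323 (.both (.play 387 (.both (.play 260 (.both (.play 132 (.ref 6 131)) (.ref 113 257))) (.play 386 (.ref 1 322)))) (.both (.ref 111 130) (.both (.ref 13 257) (.ref 11 259))))) (.play 323 (.ref 14 257))))))))))))
 (.one (.play 68 (.both (.ref 51 0) (.play 128 (.ref 1 64))))))
 (.seq (.one (.play 68 (.both (.play 4 (.both (.play 5 (.ref 2 1)) (.play 131 (.ref 5 3)))) (.play 128 (.ref 1 64)))))
 (.one (.play 132 (.both (.play 195 (.both (.play 4 (.ref 6 3)) (.play 256 (.ref 2 192)))) (.play 3 (.ref 7 3)))))))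
 (.seq (.seq (.one (.play 68 (.both (.play 4 (.ref 5 3)) (.play 132 (.ref 36 64)))))
 (.one (.play 131 (.both (.ref 124 0) (.play 2 (.ref 7 2))))))
 (.seq (.one (.play 327 (.both (.play 324 (.both (.play 263 (.both (.play 133 (.both (.play 134 (.both (.play 323 (.both (.play 258 (.both (.play 322 (.both (.play 194 (.both (.play 195 (.both (.play 131 (.both (.ref 99 2) (.play 132 (.ref 1 130)))) (.play 196 (.ref 2 130)))) (.both (.play 385 (.both (.play 321 (.both (.play 130 (.ref 6 129)) (.play 384 (.ref 1 320)))) (.play 386 (.ref 1 321)))) (.play 386 (.both (.play 195 (.both (.play 131 (.ref 5 130)) (.play 196 (.ref 2 130)))) (.play 385 (.ref 1 321))))))) (.play 257 (.ref 3 257)))) (.play 259 (.ref 3 258)))) (.play 262 (.ref 2 259)))) (.both (.play 135 (.both (.play 199 (.both (.play 132 (.both (.play 195 (.both (.play 131 (.both (.ref 28 66) (.play 194 (.ref 1 130)))) (.play 196 (.ref 1 131)))) (.play 200 (.ref 0 132)))) (.play 70 (.ref 7 70)))) (.both (.ref 122 68) (.both (.ref 125 68) (.ref 121 68))))) (.both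 (.play 135 (.both (.ref 123 67) (.both (.play 323 (.both (.play 136 (.both (.play 72 (.both (.play 132 (.both (.ref 28 67) (.play 71 (.ref 2 68)))) (.play 73 (.ref 2 69)))) (.both (.ref 66 68) (.play 137 (.both (.ref 15 69) (.ref 10 133)))))) (.play 262 (.ref 2 259)))) (.both (.play 262 (.both (.play 199 (.both (.ref 124 68) (.play 71 (.ref 6 70)))) (.play 323 (.ref 2 259)))) (.ref 125 68))))) (.play 135 (.both (.ref 123 67) (.both (.ref 122 68) (.ref 121 68)))))))) (.both (.play 261 (.both (.play 262 (.both (.play 69 (.ref 4 69)) (.play 323 (.ref 2 259)))) (.play 388 (.ref 6 132)))) (.play 261 (.both (.play 132 (.both (.play 134 (.both (.play 70 (.ref 5 69)) (.play 196 (.both (.play 135 (.ref 43 131)) (.play 389 (.ref 7 132)))))) (.play 68 (.ref 7 68)))) (.play 388 (.ref 6 132))))))) (.play 264 (.ref 2 260)))) (.both (.ref 84 131) (.ref 26 257)))) (.both (.play 328 (.both (.play 389 (.both (.play 265 (.both (.play 329 (.both (.play 262 (.both (.play 201 (.both (.play 263 (.both (.play 199 (.both (.play 200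 (.both (.play 136 (.both (.play 72 (.both (.play 8 (.ref 4 8)) (.play 135 (.ref 5 71)))) (.play 391 (.ref 5 135)))) (.play 202 (.ref 1 198)))) (.both (.play 135 (.both (.play 71 (.ref 6 70)) (.play 392 (.ref 4 135)))) (.play 200 (.both (.play 391 (.both (.play 136 (.ref 5 135)) (.play 456 (.both (.play 392 (.ref 4 199)) (.play 455 (.both (.play 519 (.ref 7 262)) (.play 520 (.ref 4 263)))))))) (.play 202 (.ref 1 198))))))) (.play 330 (.ref 3 262)))) (.both (.play 330 (.both (.ref 116 8) (.play 263 (.ref 3 262)))) (.both (.play 137 (.ref 118 8)) (.play 137 (.both (.play 330 (.both (.play 394 (.ref 4 137)) (.play 263 (.ref 3 262)))) (.play 392 (.ref 6 136)))))))) (.play 261 (.ref 3 261)))) (.play 266 (.ref 2 262)))) (.play 264 (.ref 2 261)))) (.play 388 (.ref 1 324)))) (.both (.play 264 (.both (.play 392 (.both (.play 389 (.both (.play 200 (.both (.play 199 (.both (.play 456 (.both (.play 137 (.both (.play 136 (.both (.play 73 (.ref 5 72)) (.play 521 (.both (.play 520 (.both (.ref 89 263) (.play 585 (.ref 4 328))))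 (.play 457 (.ref 4 264)))))) (.play 201 (.ref 5 136)))) (.play 263 (.ref 7 199)))) (.play 135 (.ref 7 135)))) (.both (.ref 115 71) (.both (.play 391 (.ref 78 135)) (.ref 114 135))))) (.play 388 (.ref 1 324)))) (.play 393 (.ref 0 325)))) (.play 265 (.ref 2 261)))) (.both (.play 389 (.both (.play 329 (.both (.play 262 (.both (.play 261 (.ref 3 261)) (.play 330 (.both (.play 263 (.ref 3 262)) (.ref 80 263))))) (.both (.play 262 (.both (.play 261 (.ref 3 261)) (.play 330 (.both (.play 392 (.both (.play 331 (.both (.ref 15 263) (.play 391 (.ref 1 327)))) (.play 393 (.ref 0 325)))) (.play 263 (.ref 3 262)))))) (.ref 10 325)))) (.play 388 (.ref 1 324)))) (.both (.ref 11 261) (.play 265 (.both (.play 264 (.ref 2 261)) (.play 329 (.both (.play 394 (.both (.play 330 (.both (.ref 28 261) (.play 395 (.ref 0 327)))) (.play 393 (.ref 0 326)))) (.play 266 (.ref 2 262))))))))))) (.both (.play 328 (.both (.play 388 (.both (.play 324 (.both (.play 261 (.both (.play 133 (.ref 6 132)) (.ref 112 258))) (.play 387 (.ref 1 323))))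 (.play 389 (.ref 1 324)))) (.both (.ref 52 261) (.ref 9 323)))) (.both (.play 328 (.both (.play 388 (.both (.play 324 (.both (.play 261 (.both (.play 133 (.ref 6 132)) (.ref 50 261))) (.play 387 (.ref 1 323)))) (.play 389 (.ref 1 324)))) (.both (.play 392 (.both (.play 264 (.both (.ref 39 196) (.play 265 (.ref 2 261)))) (.play 393 (.ref 0 325)))) (.both (.play 388 (.both (.ref 80 261) (.play 389 (.ref 1 324)))) (.play 388 (.both (.play 324 (.both (.play 387 (.ref 1 323)) (.ref 10 324))) (.play 389 (.ref 1 324)))))))) (.both (.ref 71 132) (.play 328 (.ref 14 259)))))))))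
 (.one (.play 326 (.both (.ref 126 0) (.both (.ref 120 1) (.both (.play 261 (.both (.ref 102 4) (.both (.play 389 (.both (.play 132 (.both (.play 133 (.both (.ref 104 5) (.play 68 (.ref 7 68)))) (.play 196 (.ref 7 132)))) (.both (.play 388 (.both (.play 133 (.both (.ref 100 68) (.play 324 (.ref 6 132)))) (.play 452 (.ref 6 196)))) (.ref 94 196)))) (.both (.ref 109 66) (.play 389 (.both (.play 388 (.both (.play 390 (.both (.play 454 (.ref 4 197)) (.play 387 (.both (.play 386 (.ref 2 322)) (.play 391 (.both (.play 323 (.both (.play 322 (.ref 3 322)) (.play 324 (.ref 0 323)))) (.ref 108 324))))))) (.play 452 (.ref 6 196)))) (.both (.ref 94 196) (.both (.play 453 (.both (.ref 47 197) (.both (.ref 110 260) (.ref 93 261)))) (.play 453 (.both (.ref 89 196) (.both (.play 517 (.both (.play 581 (.both (.play 388 (.both (.play 452 (.ref 6 196)) (.play 324 (.ref 7 324)))) (.play 390 (.ref 5 325)))) (.play 262 (.ref 5 261)))) (.ref 110 260)))))))))))) (.both (.play 261 (.both (.ref 102 4) (.both (.play 133 (.both (.ref 101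 4) (.both (.ref 104 5) (.ref 106 68)))) (.both (.play 133 (.both (.ref 104 5) (.play 390 (.ref 4 133)))) (.both (.ref 109 66) (.play 389 (.both (.play 454 (.both (.play 453 (.both (.play 262 (.both (.play 196 (.both (.play 132 (.ref 7 132)) (.play 263 (.both (.play 324 (.both (.play 195 (.both (.play 194 (.ref 0 194)) (.play 327 (.both (.play 328 (.both (.play 329 (.ref 3 261)) (.play 388 (.ref 1 324)))) (.both (.ref 108 260) (.play 391 (.both (.play 455 (.both (.play 456 (.both (.play 520 (.ref 4 263)) (.play 388 (.ref 3 388)))) (.play 519 (.ref 7 262)))) (.play 392 (.ref 0 324))))))))) (.play 323 (.ref 2 259)))) (.play 264 (.ref 3 196)))))) (.play 517 (.ref 5 261)))) (.play 518 (.ref 4 261)))) (.play 390 (.ref 4 197)))) (.both (.play 390 (.both (.play 388 (.both (.play 452 (.ref 6 196)) (.play 327 (.both (.play 324 (.both (.play 323 (.both (.ref 15 259) (.play 322 (.ref 0 322)))) (.both (.play 391 (.both (.play 263 (.both (.play 264 (.ref 2 260)) (.ref 98 260))) (.play 392 (.ref 0 324)))) (.play 391 (.ref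 36 323))))) (.play 328 (.ref 1 324)))))) (.play 454 (.ref 4 197)))) (.both (.ref 107 196) (.both (.ref 95 196) (.both (.ref 94 196) (.play 452 (.both (.play 388 (.ref 6 196)) (.play 453 (.both (.play 516 (.ref 6 260)) (.play 517 (.both (.play 262 (.ref 5 261)) (.play 581 (.both (.play 390 (.ref 5 325)) (.ref 47 325)))))))))))))))))))) (.both (.play 261 (.both (.ref 102 4) (.both (.play 133 (.both (.ref 101 4) (.both (.ref 104 5) (.play 388 (.both (.play 389 (.both (.ref 100 68) (.play 452 (.ref 6 196)))) (.play 324 (.ref 6 132))))))) (.both (.play 133 (.both (.ref 106 68) (.play 390 (.ref 4 133)))) (.play 389 (.both (.ref 96 194) (.both (.play 388 (.both (.play 452 (.ref 6 196)) (.ref 105 322))) (.both (.play 388 (.both (.play 390 (.both (.play 454 (.ref 4 197)) (.play 327 (.ref 73 323)))) (.both (.play 454 (.both (.play 390 (.ref 4 197)) (.play 453 (.both (.play 517 (.both (.play 262 (.ref 5 261)) (.play 581 (.both (.play 324 (.ref 7 324)) (.ref 89 324))))) (.play 518 (.ref 4 261)))))) (.ref 105 322)))) (.ref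 95 196))))))))) (.both (.play 261 (.both (.play 133 (.both (.ref 101 4) (.both (.ref 104 5) (.ref 103 66)))) (.both (.ref 102 4) (.both (.play 389 (.both (.play 390 (.both (.play 391 (.both (.play 327 (.both (.play 328 (.both (.play 264 (.both (.play 455 (.both (.ref 99 135) (.play 519 (.ref 5 263)))) (.play 265 (.ref 2 261)))) (.play 329 (.ref 1 325)))) (.both (.play 388 (.both (.ref 98 260) (.play 387 (.ref 2 323)))) (.play 328 (.ref 73 324))))) (.both (.play 392 (.both (.play 328 (.both (.play 327 (.both (.ref 60 197) (.play 388 (.ref 2 324)))) (.play 329 (.ref 2 325)))) (.play 393 (.ref 3 325)))) (.both (.play 392 (.both (.ref 45 196) (.play 393 (.ref 3 325)))) (.both (.play 392 (.both (.play 328 (.both (.play 456 (.both (.play 264 (.both (.play 265 (.both (.play 201 (.ref 5 200)) (.play 327 (.ref 2 261)))) (.play 455 (.ref 78 199)))) (.play 457 (.ref 0 389)))) (.play 329 (.ref 2 325)))) (.play 393 (.ref 3 325)))) (.both (.play 392 (.both (.play 456 (.both (.play 455 (.both (.play 328 (.both (.play 519 (.both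 (.play 264 (.ref 6 263)) (.play 583 (.ref 7 326)))) (.play 329 (.ref 2 325)))) (.play 388 (.ref 0 388)))) (.play 457 (.ref 0 389)))) (.play 393 (.ref 3 325)))) (.play 392 (.both (.play 456 (.both (.play 388 (.both (.play 387 (.ref 97 322)) (.play 455 (.ref 0 388)))) (.play 457 (.ref 0 389)))) (.play 393 (.ref 3 325)))))))))) (.play 454 (.ref 4 197)))) (.both (.ref 96 194) (.both (.ref 95 196) (.ref 94 196))))) (.play 390 (.ref 75 133)))))) (.both (.play 327 (.both (.ref 92 68) (.both (.play 324 (.both (.play 388 (.both (.play 261 (.both (.play 133 (.ref 6 132)) (.play 389 (.both (.play 452 (.ref 6 196)) (.play 328 (.ref 1 324)))))) (.play 387 (.ref 1 323)))) (.both (.play 391 (.both (.play 390 (.both (.play 261 (.ref 75 133)) (.play 323 (.ref 0 323)))) (.play 392 (.ref 0 324)))) (.ref 30 257)))) (.both (.play 390 (.both (.play 261 (.both (.play 133 (.ref 4 133)) (.play 389 (.both (.ref 37 195) (.play 328 (.both (.play 264 (.both (.play 324 (.both (.play 263 (.ref 2 260)) (.play 323 (.ref 36 322)))) (.play 265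 (.ref 2 261)))) (.play 329 (.ref 1 325)))))))) (.both (.play 261 (.ref 88 130)) (.both (.play 328 (.both (.play 264 (.both (.play 263 (.both (.play 199 (.ref 83 134)) (.play 324 (.ref 2 260)))) (.play 265 (.ref 2 261)))) (.play 389 (.ref 43 324)))) (.play 261 (.ref 75 133)))))) (.both (.play 324 (.both (.ref 84 131) (.ref 62 195))) (.both (.play 328 (.both (.play 264 (.both (.play 392 (.both (.ref 82 132) (.play 393 (.ref 0 325)))) (.play 265 (.ref 2 261)))) (.ref 81 132))) (.both (.play 328 (.both (.ref 81 132) (.both (.ref 35 196) (.ref 80 261)))) (.play 328 (.ref 14 259))))))))) (.both (.ref 79 65) (.play 327 (.both (.ref 46 129) (.both (.play 324 (.both (.ref 40 195) (.both (.play 263 (.both (.play 391 (.both (.play 388 (.both (.play 390 (.both (.play 454 (.ref 38 198)) (.play 455 (.both (.ref 34 260) (.play 519 (.ref 33 262)))))) (.play 387 (.ref 1 323)))) (.play 392 (.ref 0 324)))) (.play 264 (.ref 2 260)))) (.both (.ref 13 258) (.ref 9 322))))) (.both (.play 328 (.both (.play 389 (.both (.play 390 (.both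 (.play 391 (.both (.play 454 (.both (.play 263 (.both (.play 199 (.ref 6 198)) (.play 455 (.both (.play 456 (.both (.play 520 (.ref 4 263)) (.play 457 (.ref 3 389)))) (.play 519 (.ref 33 262)))))) (.both (.play 518 (.both (.play 519 (.both (.play 455 (.both (.play 262 (.ref 7 262)) (.play 456 (.both (.ref 37 324) (.play 457 (.ref 3 389)))))) (.play 583 (.ref 4 326)))) (.play 582 (.ref 7 325)))) (.play 518 (.both (.play 263 (.ref 5 262)) (.play 582 (.ref 7 325))))))) (.play 324 (.ref 36 323)))) (.play 329 (.ref 1 325)))) (.play 388 (.ref 1 324)))) (.both (.ref 18 260) (.both (.ref 21 260) (.ref 9 323))))) (.both (.play 328 (.both (.ref 35 196) (.both (.ref 27 260) (.both (.ref 11 261) (.ref 32 324))))) (.both (.play 324 (.both (.ref 29 257) (.both (.ref 30 257) (.both (.ref 21 259) (.both (.play 392 (.both (.play 328 (.both (.play 265 (.both (.play 329 (.both (.play 266 (.ref 2 262)) (.ref 8 324))) (.play 264 (.ref 2 261)))) (.play 393 (.ref 0 325)))) (.play 391 (.ref 0 324)))) (.ref 9 322)))))) (.both (.play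 324 (.both (.ref 29 257) (.both (.play 263 (.both (.play 323 (.both (.play 390 (.both (.play 322 (.both (.ref 28 257) (.play 389 (.ref 0 322)))) (.play 391 (.ref 0 323)))) (.play 262 (.ref 2 259)))) (.play 264 (.ref 2 260)))) (.both (.ref 13 258) (.ref 27 259))))) (.both (.play 324 (.both (.play 263 (.both (.ref 25 257) (.play 264 (.ref 2 260)))) (.both (.ref 26 257) (.both (.play 263 (.both (.ref 25 257) (.both (.play 323 (.both (.ref 22 257) (.both (.ref 24 257) (.ref 8 322)))) (.both (.ref 23 257) (.both (.ref 12 258) (.play 388 (.both (.play 328 (.both (.play 393 (.both (.play 329 (.both (.play 330 (.both (.play 262 (.ref 3 262)) (.ref 15 262))) (.play 394 (.ref 0 326)))) (.play 392 (.ref 0 325)))) (.play 389 (.ref 1 324)))) (.play 387 (.ref 1 323))))))))) (.both (.ref 13 258) (.ref 21 259)))))) (.both (.play 328 (.both (.play 392 (.both (.play 324 (.both (.ref 13 258) (.play 391 (.ref 0 324)))) (.play 393 (.ref 0 325)))) (.both (.play 264 (.both (.play 324 (.both (.play 263 (.ref 2 260)) (.ref 9 322)))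 (.play 265 (.ref 2 261)))) (.both (.ref 20 260) (.both (.ref 18 260) (.both (.play 329 (.both (.play 394 (.both (.play 330 (.both (.play 263 (.both (.play 264 (.both (.play 324 (.ref 2 260)) (.play 331 (.ref 3 263)))) (.play 262 (.ref 3 262)))) (.play 395 (.ref 0 327)))) (.play 393 (.ref 0 326)))) (.both (.ref 15 261) (.ref 11 262)))) (.ref 11 261))))))) (.play 328 (.ref 14 259))))))))))))))))))))))))))))
    (by decide +kernel)

theorem Cert_L12 : PW ⟨18, nat_lit 136703170298938245273281389194851335334974823941890524845496153423707353100591545949915271772766208, nat_lit 2919961995278204940151957867368088110669120978743103585626280623840565675328649574130863498791093801539521079441459790036502215835374422337120123130529071456965330980403876770864664263964032503712, 15, nat_lit 2919961995278204940151957867368088110669120978743103585626280623840565675328649574130863498791093801539521079441459790036502215835374422337120123130529071456965330980403876770864664263964032503712⟩ :=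
  sound2 baseTbl baseTbl_ok
    (.seq (.seq (.seq (.seq (.one (.play 257 (.both (.play 193 (.ref 4 0)) (.play 321 (.ref 4 64)))))
 (.seq (.one (.play 256 (.both (.play 192 (.ref 6 0)) (.play 320 (.ref 6 64)))))
 (.one (.play 257 (.both (.ref 9 0) (.ref 8 1))))))
 (.seq (.one (.play 64 (.both (.play 0 (.ref 7 0)) (.play 128 (.ref 7 64)))))
 (.seq (.one (.both (.ref 11 0) (.ref 9 64)))
 (.one (.both (.ref 11 0) (.ref 8 65))))))
 (.seq (.seq (.one (.play 65 (.both (.play 1 (.ref 5 0)) (.play 129 (.ref 5 64)))))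
 (.seq (.one (.play 65 (.both (.ref 14 1) (.ref 9 64))))
 (.one (.play 65 (.both (.ref 11 0) (.ref 14 1))))))
 (.seq (.seq (.one (.play 129 (.both (.play 65 (.ref 12 0)) (.both (.ref 16 0) (.both (.ref 15 0) (.play 385 (.ref 12 64)))))))
 (.one (.play 64 (.both (.ref 14 0) (.ref 8 64)))))
 (.seq (.one (.play 68 (.both (.play 67 (.ref 0 0)) (.play 69 (.ref 0 1)))))
 (.one (.play 4 (.both (.play 3 (.ref 2 0)) (.play 5 (.ref 2 1)))))))))
 (.seq (.seq (.seq (.one (.play 68 (.both (.ref 20 0) (.ref 19 64))))
 (.seq (.one (.play 1 (.both (.play 0 (.ref 3 0)) (.play 2 (.ref 3 1)))))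
 (.one (.play 69 (.both (.ref 22 0) (.ref 19 65))))))
 (.seq (.one (.both (.ref 22 0) (.ref 20 1)))
 (.seq (.one (.play 257 (.both (.play 64 (.ref 7 0)) (.ref 10 64))))
 (.one (.play 65 (.both (.play 64 (.ref 1 0)) (.play 66 (.ref 1 1))))))))
 (.seq (.seq (.one (.both (.ref 26 0) (.ref 19 1)))
 (.seq (.one (.play 69 (.both (.play 66 (.both (.play 1 (.ref 3 1)) (.play 65 (.ref 27 64)))) (.play 70 (.ref 3 2)))))
 (.one (.both (.play 0 (.ref 0 0)) (.play 69 (.both (.play 66 (.ref 3 1)) (.play 70 (.both (.play 3 (.ref 3 2)) (.ref 21 3)))))))))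
 (.seq (.seq (.one (.play 65 (.both (.ref 22 0) (.ref 26 64))))
 (.one (.play 66 (.both (.ref 30 0) (.play 133 (.ref 0 66))))))
 (.seq (.one (.both (.ref 31 0) (.play 135 (.ref 0 67))))
 (.one (.play 262 (.both (.play 390 (.both (.play 389 (.both (.play 263 (.both (.play 264 (.both (.play 455 (.both (.play 329 (.both (.play 201 (.both (.play 265 (.both (.play 328 (.both (.play 137 (.both (.ref 16 8) (.play 392 (.ref 6 136)))) (.play 261 (.ref 0 261)))) (.play 202 (.ref 2 198)))) (.both (.play 202 (.both (.play 203 (.both (.play 204 (.both (.play 268 (.both (.play 140 (.both (.play 332 (.both (.play 76 (.ref 12 11)) (.both (.play 396 (.ref 13 75)) (.ref 10 139)))) (.play 141 (.ref 2 137)))) (.play 269 (.ref 0 201)))) (.both (.ref 23 136) (.play 205 (.ref 24 136))))) (.play 200 (.ref 1 199)))) (.play 265 (.ref 2 198)))) (.play 261 (.both (.play 328 (.ref 32 194)) (.play 200 (.ref 2 197))))))) (.both (.play 330 (.both (.play 331 (.both (.play 332 (.both (.play 268 (.both (.play 396 (.both (.ref 17 75) (.play 397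 (.ref 0 329)))) (.play 269 (.ref 2 265)))) (.both (.play 333 (.both (.ref 20 265) (.ref 26 328))) (.play 333 (.ref 27 328))))) (.play 328 (.ref 3 263)))) (.play 265 (.ref 0 262)))) (.both (.play 265 (.both (.play 201 (.both (.play 200 (.both (.play 393 (.both (.play 136 (.ref 7 136)) (.ref 10 200))) (.play 261 (.ref 2 197)))) (.play 202 (.ref 2 198)))) (.play 330 (.ref 0 262)))) (.play 328 (.ref 29 261)))))) (.play 391 (.ref 4 198)))) (.both (.play 328 (.both (.play 200 (.both (.play 392 (.both (.play 391 (.both (.play 136 (.both (.ref 16 7) (.play 327 (.ref 6 135)))) (.play 455 (.ref 6 199)))) (.both (.play 457 (.both (.play 393 (.ref 4 200)) (.play 456 (.both (.play 520 (.both (.play 327 (.ref 7 263)) (.play 519 (.both (.play 583 (.ref 6 327)) (.play 518 (.both (.play 458 (.both (.play 459 (.both (.ref 21 392) (.play 520 (.ref 1 455)))) (.play 455 (.ref 1 454)))) (.play 517 (.ref 2 453)))))))) (.play 521 (.ref 4 264)))))) (.both (.play 456 (.both (.play 327 (.both (.play 393 (.both (.play 457 (.ref 4 200))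 (.play 326 (.ref 29 325)))) (.play 520 (.ref 7 263)))) (.both (.ref 8 200) (.ref 25 263)))) (.ref 10 199))))) (.both (.play 201 (.both (.play 392 (.both (.play 137 (.ref 5 136)) (.ref 10 199))) (.play 261 (.ref 2 197)))) (.play 261 (.both (.ref 31 194) (.play 201 (.ref 2 197))))))) (.both (.play 261 (.ref 32 194)) (.both (.play 391 (.both (.play 455 (.ref 4 198)) (.play 392 (.both (.ref 23 324) (.play 329 (.ref 2 325)))))) (.play 329 (.both (.play 261 (.ref 0 261)) (.ref 28 261))))))) (.both (.play 265 (.both (.ref 21 198) (.play 325 (.ref 1 261)))) (.play 325 (.both (.play 324 (.both (.play 323 (.both (.ref 30 257) (.play 262 (.ref 2 259)))) (.play 327 (.ref 2 260)))) (.play 265 (.ref 1 261)))))))) (.both (.play 197 (.both (.play 133 (.ref 7 133)) (.play 264 (.both (.play 261 (.both (.play 260 (.both (.play 259 (.ref 32 192)) (.both (.play 259 (.both (.ref 30 193) (.play 327 (.ref 0 259)))) (.ref 26 259)))) (.play 196 (.ref 3 196)))) (.play 265 (.ref 3 197)))))) (.both (.play 197 (.both (.play 133 (.ref 7 133))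 (.play 196 (.ref 29 195)))) (.both (.play 197 (.both (.play 133 (.ref 7 133)) (.ref 28 195))) (.play 391 (.both (.play 133 (.both (.play 197 (.ref 7 133)) (.play 392 (.both (.play 456 (.both (.play 328 (.both (.ref 25 263) (.play 329 (.ref 2 325)))) (.play 457 (.ref 0 389)))) (.both (.ref 23 324) (.both (.play 393 (.ref 24 324)) (.ref 21 325))))))) (.play 455 (.ref 4 198))))))))) (.play 453 (.ref 6 197)))) (.both (.play 454 (.ref 12 133)) (.both (.play 454 (.ref 13 133)) (.ref 10 197))))) (.both (.play 134 (.both (.ref 15 5) (.both (.ref 18 6) (.play 327 (.both (.play 325 (.both (.play 389 (.ref 6 133)) (.play 328 (.both (.play 324 (.ref 24 259)) (.both (.ref 23 260) (.ref 21 261)))))) (.play 391 (.ref 4 134))))))) (.both (.play 134 (.both (.ref 16 5) (.both (.ref 18 6) (.play 390 (.ref 13 69))))) (.both (.ref 17 5) (.play 390 (.both (.play 134 (.ref 13 69)) (.both (.play 454 (.ref 12 133)) (.ref 10 197)))))))))))))))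
    (by decide +kernel)

theorem Cert_L13 : PW ⟨10, nat_lit 136703170298938245273281389194851335334974823941890524845496153423707353100591545949915271772766208, nat_lit 364995249409775617518994733421011013809452436837271503035633185399027086009173089011896141061610529733691260542052764128662746032842931412364888575698610828931108806546804340778087149592270340256, 12, nat_lit 364995249409775617518994733421011013809452436837271503035633185399027086009173089011896141061610529733691260542052764128662746032842931412364888575698610828931108806546804340778087149592270340256⟩ :=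
  sound2 baseTbl baseTbl_ok
    (.seq (.seq (.seq (.seq (.one (.play 68 (.both (.play 67 (.ref 0 0)) (.play 69 (.ref 0 1)))))
 (.one (.play 4 (.both (.play 3 (.ref 2 0)) (.play 5 (.ref 2 1))))))
 (.seq (.one (.both (.ref 9 0) (.ref 8 64)))
 (.seq (.one (.play 1 (.both (.play 0 (.ref 3 0)) (.play 2 (.ref 3 1)))))
 (.one (.play 69 (.both (.ref 11 0) (.ref 8 65)))))))
 (.seq (.seq (.one (.play 257 (.both (.play 193 (.ref 4 0)) (.play 321 (.ref 4 64)))))
 (.one (.play 64 (.both (.play 0 (.ref 7 0)) (.play 128 (.ref 7 64))))))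
 (.seq (.one (.play 321 (.both (.ref 14 0) (.ref 13 65))))
 (.seq (.one (.play 256 (.both (.play 192 (.ref 6 0)) (.play 320 (.ref 6 64)))))
 (.one (.play 321 (.both (.ref 14 0) (.ref 16 64))))))))
 (.seq (.seq (.seq (.one (.play 65 (.both (.play 1 (.ref 5 0)) (.play 129 (.ref 5 64)))))
 (.one (.play 64 (.both (.ref 18 0) (.ref 13 64)))))
 (.seq (.one (.play 65 (.both (.ref 14 0) (.ref 18 1))))
 (.seq (.one (.play 257 (.both (.ref 16 0) (.ref 13 1))))
 (.one (.play 65 (.both (.ref 18 1) (.ref 16 64)))))))
 (.seq (.seq (.one (.play 68 (.both (.play 0 (.ref 3 0)) (.play 69 (.ref 10 1)))))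
 (.one (.play 65 (.both (.play 64 (.ref 1 0)) (.play 66 (.ref 1 1))))))
 (.seq (.one (.play 65 (.both (.ref 9 1) (.ref 24 64))))
 (.seq (.one (.play 1 (.both (.ref 24 0) (.ref 8 1))))
 (.one (.play 262 (.both (.play 327 (.both (.play 325 (.both (.play 134 (.both (.ref 20 5) (.play 389 (.ref 6 133)))) (.play 324 (.both (.play 323 (.both (.play 322 (.both (.play 321 (.both (.ref 11 256) (.ref 24 320))) (.play 261 (.ref 2 258)))) (.play 263 (.ref 2 259)))) (.both (.ref 25 258) (.both (.play 323 (.both (.play 261 (.both (.play 322 (.ref 2 258)) (.ref 23 260))) (.ref 24 322))) (.play 264 (.both (.play 263 (.ref 2 260)) (.play 328 (.both (.ref 12 260) (.play 265 (.ref 2 261)))))))))))) (.both (.play 134 (.both (.ref 20 5) (.play 391 (.ref 4 134)))) (.play 328 (.both (.play 325 (.both (.play 389 (.both (.play 453 (.both (.play 261 (.ref 5 197)) (.play 517 (.both (.play 326 (.ref 5 261)) (.ref 21 324))))) (.play 388 (.ref 1 324)))) (.both (.ref 25 259) (.play 324 (.ref 10 260))))) (.both (.play 325 (.both (.ref 25 259)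 (.both (.play 329 (.ref 10 261)) (.ref 26 323)))) (.both (.play 261 (.both (.play 325 (.both (.play 260 (.ref 3 260)) (.ref 26 323))) (.play 329 (.ref 3 261)))) (.both (.play 261 (.both (.play 325 (.both (.ref 25 259) (.play 260 (.ref 3 260)))) (.play 329 (.ref 3 261)))) (.ref 23 261))))))))) (.both (.play 134 (.both (.ref 20 5) (.both (.ref 22 5) (.ref 17 69)))) (.both (.play 134 (.both (.ref 22 5) (.both (.ref 19 6) (.ref 21 133)))) (.both (.play 134 (.both (.ref 20 5) (.both (.ref 19 6) (.ref 15 69)))) (.play 390 (.both (.ref 17 133) (.both (.ref 15 133) (.play 391 (.both (.play 389 (.both (.play 453 (.ref 6 197)) (.play 392 (.both (.play 388 (.both (.ref 11 323) (.ref 9 324))) (.both (.ref 12 324) (.play 393 (.ref 10 325))))))) (.play 455 (.ref 4 198))))))))))))))))))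
    (by decide +kernel)

theorem Cert_L14 : PW ⟨17, nat_lit 273406340597876490546562778389702670669949647883781049690992306847414706201183091899830543545532416, nat_lit 84527124981706439474110395886288178832688778813107032544570601775560601395409826070939266733268845370740080587409883189503042348816400277088618805876248528881322051200583246451423818197499762213122766536660710242070208730305627993818729203460036532972136736883319561519424, 11, nat_lit 84527124981706439474110395886288178832688778813107032544570601775560601395409826070939266733268845370740080587409883189503042348816400277088618805876248528881322051200583246451423818197499762213122766536660710242070208730305627993818729203460036532972136736883319561519424⟩ :=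
  sound2 baseTbl baseTbl_ok
    (.seq (.seq (.seq (.seq (.one (.play 257 (.both (.play 193 (.ref 4 0)) (.play 321 (.ref 4 64)))))
 (.one (.play 256 (.both (.play 192 (.ref 6 0)) (.play 320 (.ref 6 64))))))
 (.seq (.one (.play 257 (.both (.ref 9 0) (.ref 8 1))))
 (.one (.play 64 (.both (.play 0 (.ref 7 0)) (.play 128 (.ref 7 64)))))))
 (.seq (.seq (.one (.both (.ref 11 0) (.ref 8 65)))
 (.one (.both (.ref 11 0) (.ref 9 64))))
 (.seq (.one (.play 65 (.both (.play 64 (.ref 1 0)) (.play 66 (.ref 1 1)))))
 (.seq (.one (.play 1 (.both (.play 0 (.ref 3 0)) (.play 2 (.ref 3 1)))))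
 (.one (.play 65 (.both (.ref 15 0) (.ref 14 64))))))))
 (.seq (.seq (.seq (.one (.play 4 (.both (.play 3 (.ref 2 0)) (.play 5 (.ref 2 1)))))
 (.one (.both (.ref 15 0) (.ref 17 1))))
 (.seq (.one (.play 68 (.both (.play 67 (.ref 0 0)) (.play 69 (.ref 0 1)))))
 (.seq (.one (.play 68 (.both (.ref 17 0) (.ref 19 64))))
 (.one (.play 65 (.both (.play 1 (.ref 5 0)) (.play 129 (.ref 5 64))))))))
 (.seq (.seq (.one (.both (.ref 21 0) (.ref 8 64)))
 (.one (.both (.ref 21 1) (.ref 9 64))))
 (.seq (.one (.play 259 (.both (.play 194 (.ref 4 2)) (.play 323 (.both (.play 131 (.ref 7 66)) (.play 387 (.both (.play 451 (.ref 23 130)) (.both (.play 451 (.ref 22 131)) (.play 386 (.both (.play 388 (.both (.play 452 (.ref 4 195)) (.play 389 (.both (.play 385 (.ref 18 320)) (.both (.play 390 (.both (.ref 15 321) (.ref 19 386))) (.ref 20 322)))))) (.play 450 (.ref 6 194))))))))))))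
 (.seq (.one (.play 65 (.both (.ref 11 0) (.ref 21 1))))
 (.one (.play 263 (.both (.play 135 (.both (.play 71 (.ref 13 6)) (.both (.play 71 (.ref 12 6)) (.play 328 (.both (.play 326 (.both (.play 390 (.ref 6 134)) (.play 325 (.both (.ref 16 259) (.both (.play 324 (.both (.ref 17 260) (.ref 14 323))) (.play 329 (.ref 18 260))))))) (.play 392 (.ref 4 135))))))) (.both (.play 135 (.both (.ref 25 6) (.both (.play 71 (.ref 23 6)) (.play 391 (.ref 13 70))))) (.both (.play 135 (.both (.play 71 (.ref 23 6)) (.both (.play 71 (.ref 22 7)) (.ref 10 134)))) (.both (.play 135 (.both (.ref 25 6) (.both (.play 71 (.ref 22 7)) (.play 391 (.ref 12 70))))) (.play 391 (.both (.play 390 (.both (.play 198 (.both (.play 134 (.ref 7 134)) (.play 389 (.both (.play 453 (.both (.play 517 (.both (.play 325 (.both (.play 261 (.ref 13 196)) (.both (.play 261 (.ref 23 196)) (.play 324 (.both (.play 326 (.both (.play 323 (.both (.ref 16 257) (.play 391 (.ref 0 323)))) (.play 262 (.ref 5 261)))) (.play 260 (.ref 7 260))))))) (.both (.play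 582 (.both (.play 325 (.both (.play 261 (.ref 13 196)) (.play 518 (.ref 4 325)))) (.both (.play 581 (.both (.play 580 (.both (.play 516 (.both (.play 325 (.ref 6 324)) (.play 583 (.both (.play 515 (.ref 3 515)) (.ref 20 516))))) (.play 644 (.ref 6 388)))) (.play 646 (.ref 4 389)))) (.ref 24 387)))) (.both (.play 582 (.both (.play 325 (.both (.play 324 (.both (.play 323 (.both (.play 322 (.both (.ref 16 256) (.play 389 (.ref 0 322)))) (.play 326 (.ref 0 323)))) (.play 260 (.ref 7 260)))) (.play 518 (.ref 4 325)))) (.both (.play 581 (.both (.play 326 (.ref 5 325)) (.play 646 (.ref 4 389)))) (.ref 24 387)))) (.play 581 (.both (.play 326 (.ref 5 325)) (.ref 10 388))))))) (.both (.play 392 (.both (.play 456 (.ref 4 199)) (.play 452 (.ref 1 388)))) (.play 262 (.both (.play 325 (.both (.play 261 (.ref 5 197)) (.play 324 (.both (.play 517 (.both (.play 260 (.ref 7 260)) (.ref 10 324))) (.play 392 (.ref 3 324)))))) (.play 326 (.ref 6 197))))))) (.both (.play 392 (.both (.play 456 (.ref 4 199)) (.ref 16 323))) (.both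 (.play 328 (.both (.play 329 (.both (.play 326 (.both (.play 325 (.ref 18 260)) (.play 389 (.ref 1 325)))) (.play 330 (.ref 1 326)))) (.play 388 (.ref 2 324)))) (.play 388 (.both (.ref 16 322) (.play 328 (.ref 2 324)))))))))) (.play 454 (.ref 6 198)))) (.both (.play 455 (.ref 13 134)) (.both (.play 455 (.ref 12 134)) (.ref 10 198))))))))))))))))
    (by decide +kernel)

theorem Cert_L15 : PW ⟨14, nat_lit 273406340597876490546562778389702670669949647883781049690992306847414706201183091899830543545532416, nat_lit 158291456942786901825322704385580314270992801596753322665273220858140618349580166783314885416254802121232884492386334314485578017117286190633288475079996249307873358930761483584, 12, nat_lit 158291456942786901825322704385580314270992801596753322665273220858140618349580166783314885416254802121232884492386334314485578017117286190633288475079996249307873358930761483584⟩ :=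
  sound2 baseTbl baseTbl_ok
    (.seq (.seq (.seq (.seq (.one (.play 68 (.both (.play 67 (.ref 0 0)) (.play 69 (.ref 0 1)))))
 (.one (.play 4 (.both (.play 3 (.ref 2 0)) (.play 5 (.ref 2 1))))))
 (.seq (.one (.play 68 (.both (.ref 9 0) (.ref 8 64))))
 (.seq (.one (.play 1 (.both (.play 0 (.ref 3 0)) (.play 2 (.ref 3 1)))))
 (.one (.play 257 (.both (.play 193 (.ref 4 0)) (.play 321 (.ref 4 64))))))))
 (.seq (.seq (.one (.play 64 (.both (.play 0 (.ref 7 0)) (.play 128 (.ref 7 64)))))
 (.one (.play 321 (.both (.ref 13 0) (.ref 12 65)))))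
 (.seq (.one (.play 256 (.both (.play 192 (.ref 6 0)) (.play 320 (.ref 6 64)))))
 (.seq (.one (.play 321 (.both (.ref 13 0) (.ref 15 64))))
 (.one (.play 65 (.both (.play 1 (.ref 5 0)) (.play 129 (.ref 5 64)))))))))
 (.seq (.seq (.seq (.one (.play 64 (.both (.ref 17 0) (.ref 12 64))))
 (.one (.play 65 (.both (.ref 13 0) (.ref 17 1)))))
 (.seq (.one (.play 257 (.both (.ref 15 0) (.ref 12 1))))
 (.seq (.one (.play 65 (.both (.ref 17 1) (.ref 15 64))))
 (.one (.play 65 (.both (.play 64 (.ref 1 0)) (.play 66 (.ref 1 1))))))))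
 (.seq (.seq (.one (.play 65 (.both (.ref 11 0) (.ref 22 64))))
 (.seq (.one (.play 66 (.both (.ref 23 0) (.play 6 (.ref 2 2)))))
 (.one (.play 66 (.both (.ref 23 0) (.play 5 (.ref 2 2)))))))
 (.seq (.one (.both (.ref 22 0) (.ref 8 1)))
 (.seq (.one (.play 129 (.both (.ref 19 0) (.play 386 (.ref 4 129)))))
 (.one (.play 263 (.both (.play 326 (.both (.play 325 (.both (.play 324 (.both (.play 388 (.both (.play 328 (.both (.ref 27 6) (.play 389 (.ref 1 324)))) (.play 387 (.ref 1 323)))) (.play 259 (.both (.play 323 (.both (.play 258 (.ref 3 258)) (.play 262 (.ref 2 259)))) (.play 260 (.ref 3 259)))))) (.both (.play 328 (.both (.play 265 (.both (.play 329 (.both (.play 330 (.both (.play 394 (.both (.play 458 (.both (.play 201 (.both (.play 137 (.both (.ref 19 8) (.play 330 (.ref 4 137)))) (.play 393 (.ref 4 201)))) (.play 522 (.ref 7 265)))) (.play 395 (.ref 0 327)))) (.play 262 (.ref 3 262)))) (.play 266 (.ref 2 262)))) (.play 264 (.ref 2 261)))) (.both (.ref 27 6) (.ref 10 261)))) (.ref 24 258)))) (.both (.play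 135 (.both (.ref 19 6) (.play 390 (.ref 6 134)))) (.play 325 (.both (.play 324 (.both (.play 388 (.both (.play 389 (.both (.play 260 (.both (.ref 27 67) (.play 259 (.ref 3 259)))) (.play 328 (.ref 1 324)))) (.play 387 (.ref 1 323)))) (.both (.play 323 (.both (.play 258 (.both (.play 322 (.both (.play 257 (.ref 3 257)) (.play 321 (.ref 26 320)))) (.play 259 (.ref 3 258)))) (.play 262 (.ref 2 259)))) (.both (.ref 25 257) (.play 323 (.both (.play 262 (.ref 2 259)) (.ref 22 322))))))) (.both (.play 328 (.both (.play 392 (.both (.play 264 (.both (.play 456 (.both (.play 199 (.ref 7 199)) (.ref 20 263))) (.play 265 (.ref 2 261)))) (.play 393 (.ref 0 325)))) (.both (.play 329 (.both (.ref 9 261) (.ref 22 324))) (.play 329 (.ref 26 324))))) (.both (.play 324 (.both (.ref 25 257) (.play 264 (.ref 2 260)))) (.ref 24 258)))))))) (.both (.play 135 (.both (.ref 19 6) (.both (.ref 21 6) (.ref 16 70)))) (.both (.play 135 (.both (.ref 21 6) (.both (.ref 18 7) (.ref 20 134)))) (.both (.play 135 (.both (.ref 19 6) (.both (.ref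 18 7) (.ref 14 70)))) (.play 391 (.both (.ref 16 134) (.both (.ref 14 134) (.play 392 (.both (.play 390 (.both (.play 454 (.ref 6 198)) (.play 393 (.both (.play 389 (.both (.ref 11 324) (.ref 9 325))) (.both (.play 394 (.both (.ref 11 325) (.ref 8 390))) (.ref 10 326)))))) (.play 456 (.ref 4 199))))))))))))))))))
    (by decide +kernel)

theorem Cert_L16 : PW ⟨16, nat_lit 273406340597876490546562778389702670669949647883781049690992306847414706201183091899830543545532416, nat_lit 13465947907963836179558920798520501112909146857246635022285581127482336591700987194016227707611059816489616766804119241765185199399376988946985088009942220732430241126896282644146467128758088464701600412405577286000, 13, nat_lit 13465947907963836179558920798520501112909146857246635022285581127482336591700987194016227707611059816489616766804119241765185199399376988946985088009942220732430241126896282644146467128758088464701600412405577286000⟩ :=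
  sound2 baseTbl baseTbl_ok
    (.seq (.seq (.seq (.seq (.seq (.seq (.seq (.one (.both (.play 64 (.ref 5 0)) (.play 320 (.ref 5 64))))
 (.one (.both (.play 1 (.ref 6 0)) (.play 320 (.ref 8 64)))))
 (.seq (.one (.both (.play 193 (.ref 6 0)) (.play 320 (.ref 5 64))))
 (.seq (.one (.both (.play 1 (.ref 6 0)) (.play 320 (.ref 10 64))))
 (.one (.play 256 (.both (.play 192 (.ref 6 0)) (.play 320 (.ref 6 64))))))))
 (.seq (.seq (.one (.play 258 (.both (.play 1 (.both (.ref 12 0) (.play 194 (.ref 4 1)))) (.play 322 (.ref 4 65)))))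
 (.seq (.one (.play 257 (.both (.ref 13 0) (.play 66 (.ref 5 1)))))
 (.one (.both (.play 0 (.ref 0 0)) (.play 69 (.ref 3 1))))))
 (.seq (.one (.both (.play 64 (.ref 2 0)) (.play 68 (.ref 2 1))))
 (.seq (.one (.both (.play 65 (.ref 16 0)) (.play 6 (.ref 1 2))))
 (.one (.both (.play 0 (.ref 4 0)) (.play 321 (.ref 4 64))))))))
 (.seq (.seq (.seq (.one (.both (.play 64 (.ref 1 0)) (.play 5 (.ref 1 1))))
 (.one (.play 67 (.both (.play 258 (.both (.play 194 (.both (.play 3 (.ref 6 2)) (.play 197 (.ref 19 193)))) (.play 322 (.ref 6 66)))) (.both (.play 260 (.ref 18 3)) (.play 258 (.both (.play 322 (.ref 6 66)) (.play 197 (.ref 17 192)))))))))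
 (.seq (.one (.play 258 (.both (.play 257 (.both (.ref 12 0) (.play 322 (.ref 4 65)))) (.play 194 (.ref 4 1)))))
 (.seq (.one (.both (.play 0 (.ref 0 0)) (.play 66 (.ref 3 1))))
 (.one (.both (.play 1 (.ref 22 0)) (.play 70 (.ref 3 2)))))))
 (.seq (.seq (.one (.play 66 (.both (.play 2 (.ref 7 2)) (.play 133 (.ref 23 64)))))
 (.seq (.one (.play 259 (.both (.ref 24 0) (.ref 21 66))))
 (.one (.play 64 (.both (.play 1 (.ref 5 0)) (.play 257 (.ref 18 0)))))))
 (.seq (.one (.play 1 (.both (.play 192 (.ref 6 0)) (.play 258 (.ref 4 1)))))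
 (.seq (.one (.play 131 (.both (.play 67 (.both (.play 258 (.both (.ref 27 2) (.play 322 (.ref 6 66)))) (.play 4 (.ref 5 3)))) (.both (.ref 26 3) (.ref 25 64)))))
 (.one (.play 4 (.both (.play 3 (.ref 2 0)) (.play 5 (.ref 2 1))))))))))
 (.seq (.seq (.seq (.seq (.one (.play 68 (.both (.ref 29 0) (.play 129 (.ref 1 64)))))
 (.one (.both (.ref 30 1) (.play 128 (.ref 1 64)))))
 (.seq (.one (.play 196 (.both (.play 129 (.both (.play 2 (.both (.play 65 (.ref 5 1)) (.play 130 (.ref 6 1)))) (.play 128 (.ref 3 128)))) (.ref 30 129))))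
 (.seq (.one (.play 65 (.both (.play 64 (.ref 1 0)) (.play 66 (.ref 1 1)))))
 (.one (.play 1 (.both (.play 0 (.ref 3 0)) (.play 2 (.ref 3 1))))))))
 (.seq (.seq (.one (.play 65 (.both (.ref 34 0) (.ref 33 64))))
 (.seq (.one (.both (.play 0 (.ref 4 0)) (.play 1 (.ref 5 0))))
 (.one (.both (.play 64 (.ref 2 0)) (.play 5 (.ref 2 1))))))
 (.seq (.one (.both (.play 0 (.ref 3 0)) (.play 69 (.ref 3 1))))
 (.seq (.one (.play 68 (.both (.play 0 (.ref 3 0)) (.play 129 (.ref 1 64)))))
 (.one (.play 1 (.both (.play 65 (.both (.play 0 (.ref 3 0)) (.ref 29 1))) (.play 2 (.ref 3 1)))))))))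
 (.seq (.seq (.seq (.one (.both (.play 0 (.ref 0 0)) (.play 69 (.ref 0 1))))
 (.one (.play 2 (.both (.play 66 (.both (.play 1 (.ref 3 1)) (.play 65 (.ref 41 64)))) (.play 3 (.ref 3 2))))))
 (.seq (.one (.both (.play 0 (.ref 7 0)) (.play 130 (.ref 3 64))))
 (.seq (.one (.play 65 (.both (.play 64 (.ref 43 0)) (.play 1 (.ref 4 1)))))
 (.one (.play 68 (.both (.play 67 (.ref 0 0)) (.play 69 (.ref 0 1))))))))
 (.seq (.seq (.one (.play 4 (.both (.play 65 (.ref 1 0)) (.ref 45 0))))
 (.seq (.one (.play 4 (.both (.play 64 (.ref 1 0)) (.ref 46 1))))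
 (.one (.play 69 (.both (.ref 40 0) (.play 129 (.ref 1 65)))))))
 (.seq (.one (.both (.play 4 (.ref 2 0)) (.ref 46 64)))
 (.seq (.one (.play 4 (.both (.play 3 (.ref 2 0)) (.play 68 (.ref 49 1)))))
 (.one (.both (.play 64 (.both (.play 0 (.ref 4 0)) (.play 129 (.ref 7 64)))) (.play 385 (.ref 7 128))))))))))
 (.seq (.seq (.seq (.seq (.seq (.one (.play 129 (.both (.play 322 (.ref 51 1)) (.play 128 (.ref 3 128)))))
 (.one (.play 65 (.both (.ref 34 0) (.play 133 (.ref 0 65))))))
 (.seq (.one (.both (.play 1 (.ref 6 0)) (.play 320 (.ref 5 64))))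
 (.seq (.one (.play 194 (.both (.play 258 (.ref 6 2)) (.play 193 (.ref 37 128)))))
 (.one (.both (.play 0 (.ref 4 0)) (.play 321 (.ref 7 64)))))))
 (.seq (.seq (.one (.play 193 (.both (.play 258 (.ref 56 1)) (.play 192 (.ref 1 128)))))
 (.seq (.one (.play 68 (.both (.play 65 (.ref 3 0)) (.play 69 (.ref 3 1)))))
 (.one (.play 1 (.both (.play 0 (.ref 0 0)) (.ref 58 1))))))
 (.seq (.one (.both (.play 0 (.ref 7 0)) (.ref 21 64)))
 (.seq (.one (.play 67 (.both (.play 66 (.both (.play 2 (.ref 7 2)) (.play 130 (.both (.play 323 (.ref 7 66)) (.ref 59 128))))) (.play 4 (.ref 5 3)))))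
 (.one (.play 131 (.both (.ref 61 0) (.both (.ref 26 3) (.play 130 (.both (.play 323 (.ref 60 66)) (.ref 59 128)))))))))))
 (.seq (.seq (.seq (.one (.play 257 (.both (.play 193 (.ref 4 0)) (.play 321 (.ref 4 64)))))
 (.one (.play 256 (.both (.play 192 (.ref 6 0)) (.play 257 (.both (.ref 63 1) (.play 320 (.ref 6 64))))))))
 (.seq (.one (.play 257 (.both (.play 64 (.ref 7 0)) (.ref 12 0))))
 (.seq (.one (.play 64 (.both (.play 0 (.ref 7 0)) (.ref 65 64))))
 (.one (.play 65 (.both (.ref 66 0) (.play 2 (.ref 5 1))))))))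
 (.seq (.seq (.one (.both (.play 64 (.ref 2 0)) (.play 5 (.ref 1 1))))
 (.seq (.one (.play 258 (.both (.play 194 (.both (.play 3 (.ref 6 2)) (.play 257 (.ref 68 192)))) (.play 322 (.ref 6 66)))))
 (.one (.play 67 (.both (.ref 69 0) (.play 4 (.ref 5 3)))))))
 (.seq (.one (.play 131 (.both (.ref 70 0) (.both (.ref 61 0) (.both (.ref 67 2) (.play 130 (.both (.play 323 (.both (.play 66 (.ref 7 66)) (.ref 64 130))) (.play 197 (.ref 23 128)))))))))
 (.seq (.one (.play 257 (.both (.play 0 (.ref 7 0)) (.ref 63 1))))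
 (.one (.play 257 (.both (.ref 12 0) (.play 66 (.ref 5 1))))))))))
 (.seq (.seq (.seq (.seq (.one (.play 258 (.both (.play 194 (.ref 4 1)) (.play 257 (.both (.ref 73 64) (.play 322 (.ref 4 65)))))))
 (.one (.play 66 (.both (.play 65 (.both (.play 5 (.ref 2 1)) (.ref 33 64))) (.play 1 (.ref 3 1))))))
 (.seq (.one (.play 257 (.both (.ref 66 0) (.play 66 (.ref 5 1)))))
 (.seq (.one (.both (.play 0 (.ref 7 0)) (.play 66 (.ref 5 1))))
 (.one (.play 4 (.both (.play 67 (.ref 2 0)) (.play 5 (.ref 1 1))))))))
 (.seq (.seq (.one (.play 65 (.both (.play 64 (.ref 2 0)) (.ref 78 1))))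
 (.seq (.one (.both (.play 0 (.ref 7 0)) (.play 321 (.both (.play 128 (.ref 7 64)) (.ref 63 65)))))
 (.one (.play 132 (.both (.play 68 (.both (.play 259 (.both (.play 67 (.both (.play 131 (.both (.play 195 (.both (.play 4 (.ref 6 3)) (.play 130 (.both (.play 258 (.both (.play 322 (.ref 6 66)) (.play 257 (.ref 2 193)))) (.play 129 (.ref 0 129)))))) (.play 324 (.ref 7 67)))) (.play 3 (.ref 7 3)))) (.play 323 (.ref 6 67)))) (.play 5 (.ref 5 4)))) (.both (.ref 26 4) (.play 324 (.both (.play 131 (.both (.play 325 (.both (.play 323 (.both (.play 130 (.both (.play 259 (.both (.play 195 (.both (.play 66 (.ref 7 66)) (.ref 55 128))) (.play 258 (.ref 15 257)))) (.play 129 (.ref 0 129)))) (.play 387 (.ref 6 131)))) (.play 389 (.ref 4 132)))) (.play 67 (.ref 7 67)))) (.both (.ref 66 67) (.both (.play 131 (.ref 80 67)) (.ref 21 131)))))))))))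
 (.seq (.one (.play 65 (.both (.ref 34 0) (.play 4 (.ref 2 1)))))
 (.seq (.one (.play 69 (.both (.play 5 (.both (.play 134 (.both (.play 70 (.both (.ref 82 0) (.play 135 (.ref 0 67)))) (.play 133 (.ref 0 66)))) (.play 6 (.ref 2 2)))) (.play 129 (.ref 1 65)))))
 (.one (.play 68 (.both (.play 1 (.ref 3 0)) (.ref 29 0))))))))
 (.seq (.seq (.seq (.one (.play 1 (.both (.play 0 (.ref 3 0)) (.ref 84 1))))
 (.one (.play 1 (.both (.ref 33 0) (.play 69 (.ref 0 1))))))
 (.seq (.one (.play 66 (.both (.ref 34 1) (.ref 86 64))))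
 (.seq (.one (.play 67 (.both (.ref 87 0) (.both (.ref 85 2) (.ref 50 3)))))
 (.one (.play 65 (.both (.ref 34 0) (.play 132 (.ref 0 65))))))))
 (.seq (.seq (.one (.play 67 (.both (.play 66 (.both (.ref 89 0) (.play 134 (.ref 0 66)))) (.both (.ref 86 65) (.ref 33 66)))))
 (.seq (.one (.both (.play 2 (.ref 5 1)) (.play 320 (.ref 6 64))))
 (.one (.play 4 (.both (.play 3 (.ref 2 0)) (.play 68 (.both (.play 5 (.ref 2 1)) (.ref 45 64))))))))
 (.seq (.one (.play 2 (.both (.play 66 (.both (.play 1 (.ref 3 1)) (.ref 86 64))) (.play 3 (.ref 3 2)))))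
 (.seq (.one (.play 64 (.both (.play 0 (.ref 4 0)) (.play 256 (.ref 4 64)))))
 (.one (.play 199 (.both (.play 196 (.both (.play 132 (.both (.play 325 (.both (.ref 94 4) (.play 389 (.ref 7 132)))) (.play 131 (.ref 3 131)))) (.both (.play 135 (.both (.ref 90 128) (.play 136 (.ref 2 132)))) (.ref 93 129)))) (.both (.play 200 (.both (.play 136 (.both (.play 196 (.both (.ref 93 129) (.play 135 (.ref 2 132)))) (.play 137 (.ref 2 133)))) (.both (.ref 30 133) (.both (.ref 92 133) (.ref 46 197))))) (.both (.play 200 (.both (.ref 92 133) (.play 260 (.ref 1 196)))) (.play 260 (.ref 17 194))))))))))))))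
 (.seq (.seq (.seq (.seq (.seq (.seq (.one (.play 261 (.both (.ref 95 0) (.both (.play 199 (.both (.play 196 (.both (.play 133 (.both (.play 69 (.both (.play 260 (.both (.play 5 (.ref 6 4)) (.play 324 (.ref 6 68)))) (.play 6 (.ref 5 5)))) (.both (.ref 26 5) (.play 195 (.both (.ref 53 129) (.both (.play 194 (.both (.play 193 (.both (.play 132 (.ref 2 129)) (.play 260 (.ref 0 193)))) (.play 262 (.ref 0 194)))) (.ref 34 130))))))) (.both (.play 260 (.both (.play 132 (.both (.play 68 (.both (.play 4 (.ref 4 4)) (.play 69 (.both (.play 5 (.ref 5 4)) (.play 133 (.ref 91 4)))))) (.play 131 (.ref 3 131)))) (.play 259 (.ref 1 195)))) (.both (.ref 90 128) (.ref 87 129))))) (.both (.ref 88 129) (.both (.ref 83 131) (.play 200 (.ref 31 132)))))) (.both (.ref 81 1) (.both (.play 133 (.both (.ref 70 2) (.both (.ref 26 5) (.play 325 (.both (.play 326 (.both (.play 324 (.both (.play 388 (.ref 6 132)) (.play 259 (.both (.play 260 (.both (.ref 78 195) (.play 327 (.ref 3 259)))) (.both (.ref 75 257) (.play 260 (.ref 15 258)))))))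 (.play 390 (.ref 4 133)))) (.both (.play 388 (.both (.play 324 (.ref 6 132)) (.play 389 (.both (.play 260 (.both (.ref 79 194) (.both (.play 259 (.both (.play 258 (.ref 2 194)) (.play 196 (.both (.play 199 (.ref 1 195)) (.play 453 (.ref 7 196)))))) (.play 453 (.ref 77 196))))) (.play 452 (.ref 6 196)))))) (.both (.ref 21 132) (.both (.ref 74 132) (.play 390 (.both (.play 326 (.ref 4 133)) (.play 389 (.both (.ref 76 196) (.play 454 (.ref 4 197)))))))))))))) (.both (.play 133 (.both (.ref 67 4) (.both (.ref 26 5) (.play 325 (.both (.play 132 (.both (.play 68 (.ref 7 68)) (.play 326 (.both (.play 199 (.both (.play 324 (.both (.play 388 (.ref 6 132)) (.play 259 (.both (.play 260 (.both (.play 262 (.ref 2 195)) (.play 327 (.ref 3 259)))) (.both (.ref 75 257) (.play 260 (.ref 15 258))))))) (.play 200 (.ref 3 132)))) (.play 390 (.ref 4 133)))))) (.both (.play 132 (.both (.play 68 (.ref 7 68)) (.play 199 (.both (.play 260 (.both (.play 259 (.both (.play 326 (.both (.play 390 (.ref 4 133)) (.ref 58 259))) (.play 258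 (.ref 2 194)))) (.both (.play 390 (.both (.play 326 (.ref 4 133)) (.play 389 (.both (.play 453 (.both (.play 262 (.ref 5 197)) (.ref 65 260))) (.play 454 (.ref 4 197)))))) (.play 259 (.ref 16 194))))) (.play 200 (.ref 3 132)))))) (.both (.play 132 (.both (.play 68 (.ref 7 68)) (.ref 74 132))) (.both (.play 132 (.both (.play 68 (.ref 7 68)) (.play 199 (.both (.play 200 (.ref 3 132)) (.play 389 (.both (.ref 12 132) (.both (.play 453 (.both (.play 324 (.both (.play 388 (.ref 6 132)) (.ref 72 260))) (.play 262 (.ref 5 197)))) (.play 453 (.both (.play 262 (.ref 5 197)) (.ref 64 260)))))))))) (.ref 21 132))))))))) (.both (.ref 28 2) (.both (.ref 71 2) (.ref 62 2))))))))))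
 (.one (.both (.play 65 (.both (.play 64 (.ref 2 0)) (.play 2 (.ref 1 1)))) (.play 6 (.ref 1 2)))))
 (.seq (.one (.play 257 (.both (.play 66 (.ref 54 1)) (.play 256 (.ref 1 192)))))
 (.seq (.one (.play 65 (.both (.play 258 (.ref 56 1)) (.play 64 (.ref 3 64)))))
 (.one (.play 259 (.both (.play 198 (.both (.play 195 (.both (.play 134 (.both (.play 131 (.both (.play 67 (.both (.play 68 (.both (.play 4 (.ref 5 3)) (.play 66 (.ref 0 66)))) (.play 3 (.ref 4 3)))) (.play 130 (.ref 3 130)))) (.play 135 (.ref 2 131)))) (.both (.ref 42 128) (.play 134 (.ref 37 130))))) (.play 199 (.ref 1 195)))) (.both (.play 258 (.both (.play 261 (.both (.play 325 (.both (.play 389 (.both (.play 322 (.both (.play 68 (.both (.play 4 (.ref 7 4)) (.play 388 (.both (.play 390 (.both (.play 387 (.both (.play 450 (.both (.play 386 (.both (.play 195 (.ref 5 194)) (.play 449 (.ref 1 385)))) (.play 451 (.ref 1 386)))) (.play 323 (.ref 3 322)))) (.play 454 (.ref 4 197)))) (.play 452 (.ref 6 196)))))) (.play 321 (.ref 1 257)))) (.play 453 (.ref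 7 196)))) (.play 326 (.ref 0 258)))) (.both (.play 194 (.both (.play 195 (.both (.ref 99 65) (.play 134 (.ref 2 130)))) (.play 193 (.ref 3 193)))) (.both (.play 325 (.both (.play 194 (.both (.play 389 (.both (.play 195 (.both (.ref 98 65) (.play 134 (.ref 2 130)))) (.play 453 (.ref 7 196)))) (.play 193 (.ref 3 193)))) (.play 326 (.ref 0 258)))) (.play 194 (.both (.play 193 (.ref 3 193)) (.play 325 (.both (.play 389 (.both (.play 322 (.both (.play 388 (.both (.play 390 (.both (.play 387 (.both (.play 451 (.both (.play 386 (.ref 4 194)) (.play 450 (.ref 1 386)))) (.play 323 (.ref 3 322)))) (.play 454 (.ref 4 197)))) (.play 452 (.ref 6 196)))) (.play 321 (.ref 1 257)))) (.play 453 (.ref 7 196)))) (.play 326 (.ref 0 258)))))))))) (.play 257 (.ref 2 193)))) (.both (.play 198 (.ref 97 193)) (.ref 79 193)))))))))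
 (.seq (.seq (.one (.play 129 (.both (.play 65 (.both (.ref 34 0) (.play 128 (.ref 1 64)))) (.play 130 (.ref 1 65)))))
 (.seq (.one (.play 66 (.both (.ref 101 0) (.play 6 (.ref 2 2)))))
 (.one (.play 130 (.both (.play 66 (.both (.ref 89 0) (.play 129 (.ref 1 65)))) (.play 131 (.ref 1 66)))))))
 (.seq (.one (.play 65 (.both (.play 1 (.ref 4 1)) (.play 64 (.ref 3 64)))))
 (.seq (.one (.play 132 (.both (.play 68 (.both (.ref 84 1) (.play 133 (.ref 0 65)))) (.play 131 (.ref 0 64)))))
 (.one (.play 132 (.both (.play 68 (.both (.ref 29 0) (.play 133 (.ref 0 65)))) (.play 131 (.ref 0 64)))))))))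
 (.seq (.seq (.seq (.one (.play 129 (.both (.play 130 (.both (.ref 94 2) (.play 197 (.ref 3 129)))) (.play 128 (.ref 3 128)))))
 (.one (.play 196 (.both (.play 195 (.both (.ref 107 2) (.both (.play 258 (.both (.play 194 (.both (.play 260 (.both (.play 132 (.both (.play 68 (.ref 4 68)) (.play 199 (.both (.play 131 (.ref 3 131)) (.play 200 (.ref 1 196)))))) (.play 193 (.ref 0 193)))) (.play 257 (.ref 1 193)))) (.play 259 (.ref 1 194)))) (.both (.ref 103 128) (.ref 101 129))))) (.both (.play 195 (.both (.ref 107 2) (.play 135 (.ref 2 131)))) (.both (.play 199 (.both (.play 200 (.both (.play 132 (.both (.play 135 (.both (.play 68 (.both (.play 4 (.ref 4 4)) (.play 201 (.both (.play 202 (.ref 3 134)) (.ref 45 197))))) (.play 136 (.ref 2 132)))) (.play 131 (.ref 3 131)))) (.both (.play 132 (.both (.play 131 (.ref 3 131)) (.ref 106 133))) (.both (.play 132 (.both (.play 131 (.ref 3 131)) (.ref 105 133))) (.ref 29 132))))) (.both (.play 260 (.both (.ref 104 67) (.play 259 (.ref 1 195)))) (.play 260 (.ref 19 195)))))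 (.both (.play 195 (.both (.ref 103 128) (.play 135 (.ref 2 131)))) (.ref 102 129))))))))
 (.seq (.one (.play 325 (.both (.ref 108 0) (.play 262 (.ref 6 69)))))
 (.seq (.one (.play 325 (.both (.ref 108 0) (.play 389 (.ref 5 133)))))
 (.one (.play 134 (.both (.ref 110 0) (.play 6 (.ref 6 5))))))))
 (.seq (.seq (.one (.play 66 (.both (.play 65 (.ref 68 0)) (.play 259 (.ref 7 2)))))
 (.seq (.one (.both (.play 0 (.ref 7 0)) (.play 128 (.ref 7 64))))
 (.one (.play 322 (.both (.play 65 (.both (.play 64 (.ref 113 0)) (.play 258 (.ref 4 65)))) (.play 386 (.ref 4 129)))))))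
 (.seq (.one (.play 66 (.both (.play 2 (.ref 7 2)) (.play 65 (.ref 22 64)))))
 (.seq (.one (.both (.play 0 (.ref 3 0)) (.play 128 (.ref 1 64))))
 (.one (.play 129 (.both (.play 65 (.both (.play 1 (.ref 4 1)) (.play 128 (.ref 5 64)))) (.play 384 (.ref 5 128))))))))))
 (.seq (.seq (.seq (.seq (.one (.play 66 (.both (.play 65 (.both (.play 2 (.ref 5 1)) (.play 128 (.both (.play 64 (.ref 7 64)) (.play 67 (.ref 1 64)))))) (.play 130 (.ref 5 65)))))
 (.one (.play 65 (.both (.play 64 (.ref 113 0)) (.play 256 (.ref 6 64))))))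
 (.seq (.one (.play 320 (.both (.ref 119 0) (.play 384 (.ref 6 128)))))
 (.seq (.one (.play 129 (.both (.ref 120 0) (.both (.ref 118 0) (.play 130 (.both (.play 66 (.ref 5 65)) (.ref 73 128)))))))
 (.one (.play 65 (.both (.play 1 (.ref 5 0)) (.play 129 (.ref 5 64))))))))
 (.seq (.seq (.one (.play 65 (.both (.ref 122 1) (.play 256 (.ref 6 64)))))
 (.seq (.one (.both (.ref 123 0) (.play 384 (.ref 6 128))))
 (.one (.play 320 (.both (.play 129 (.ref 124 0)) (.play 258 (.ref 1 256)))))))
 (.seq (.one (.both (.play 0 (.both (.play 192 (.ref 4 0)) (.play 65 (.ref 7 0)))) (.play 321 (.ref 7 64))))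
 (.seq (.one (.play 129 (.both (.play 320 (.ref 124 0)) (.both (.play 128 (.both (.play 66 (.both (.play 65 (.both (.play 2 (.ref 5 1)) (.play 67 (.ref 1 64)))) (.play 130 (.ref 5 65)))) (.play 64 (.ref 7 64)))) (.ref 66 64)))))
 (.one (.play 324 (.both (.play 69 (.both (.play 196 (.both (.play 262 (.both (.play 322 (.both (.play 194 (.both (.play 258 (.both (.play 130 (.both (.ref 120 1) (.both (.play 321 (.ref 124 1)) (.both (.ref 118 1) (.play 321 (.both (.play 129 (.both (.play 195 (.both (.play 131 (.both (.play 67 (.ref 5 66)) (.play 128 (.ref 0 128)))) (.play 193 (.ref 0 193)))) (.play 65 (.ref 7 65)))) (.play 385 (.ref 6 129)))))))) (.both (.play 193 (.both (.play 129 (.ref 51 1)) (.play 195 (.ref 0 193)))) (.both (.play 195 (.both (.ref 117 2) (.play 193 (.ref 0 193)))) (.both (.ref 127 1) (.both (.ref 121 1) (.play 193 (.both (.play 386 (.ref 80 129)) (.play 195 (.ref 0 193)))))))))) (.both (.play 258 (.both (.ref 125 1) (.both (.ref 127 1) (.both (.play 193 (.both (.play 129 (.ref 126 65)) (.play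 259 (.ref 3 193)))) (.play 259 (.ref 116 193)))))) (.both (.play 258 (.both (.ref 125 1) (.both (.ref 121 1) (.both (.play 195 (.both (.ref 117 2) (.play 259 (.ref 3 194)))) (.play 259 (.both (.play 195 (.ref 3 194)) (.play 321 (.ref 1 257)))))))) (.play 195 (.ref 22 193)))))) (.both (.play 323 (.ref 16 257)) (.play 323 (.both (.play 259 (.ref 1 258)) (.play 325 (.ref 2 258))))))) (.both (.play 263 (.ref 116 195)) (.both (.play 263 (.both (.play 195 (.ref 3 195)) (.ref 46 260))) (.ref 47 259))))) (.play 132 (.ref 5 68)))) (.play 197 (.ref 6 68)))) (.both (.play 323 (.both (.play 262 (.both (.play 196 (.both (.play 132 (.ref 91 67)) (.both (.play 132 (.both (.ref 27 67) (.play 69 (.ref 5 68)))) (.play 388 (.both (.ref 115 129) (.play 387 (.both (.play 451 (.ref 6 195)) (.play 453 (.both (.play 389 (.ref 4 196)) (.play 452 (.both (.play 516 (.both (.play 325 (.ref 5 260)) (.play 580 (.ref 7 323)))) (.play 517 (.ref 4 260))))))))))))) (.play 263 (.ref 1 259)))) (.both (.play 322 (.both (.play 325 (.both (.play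 258 (.both (.play 386 (.both (.play 387 (.both (.ref 44 129) (.both (.play 451 (.both (.play 196 (.both (.play 132 (.ref 6 131)) (.play 388 (.ref 6 195)))) (.play 515 (.ref 7 258)))) (.play 451 (.ref 56 194))))) (.play 385 (.ref 1 321)))) (.play 257 (.ref 3 257)))) (.both (.play 389 (.both (.play 196 (.ref 56 132)) (.play 390 (.ref 0 322)))) (.play 258 (.both (.play 257 (.ref 3 257)) (.play 386 (.both (.play 389 (.both (.play 453 (.both (.play 452 (.both (.play 454 (.both (.play 518 (.ref 4 261)) (.play 387 (.both (.play 451 (.ref 3 386)) (.play 388 (.ref 0 386)))))) (.play 516 (.ref 6 260)))) (.play 517 (.ref 7 260)))) (.play 390 (.ref 0 322)))) (.play 385 (.ref 1 321))))))))) (.play 321 (.ref 2 257)))) (.both (.play 262 (.ref 97 257)) (.ref 79 257))))) (.both (.play 197 (.ref 11 68)) (.both (.play 197 (.ref 9 68)) (.play 388 (.both (.play 452 (.both (.ref 114 131) (.both (.play 516 (.both (.play 259 (.ref 113 195)) (.play 325 (.ref 5 260)))) (.play 453 (.both (.play 389 (.both (.play 196 (.ref 4 196)) (.play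 516 (.both (.ref 12 259) (.play 325 (.ref 6 260)))))) (.play 517 (.ref 4 260))))))) (.both (.play 197 (.both (.play 325 (.ref 6 132)) (.play 196 (.ref 5 132)))) (.play 452 (.both (.play 259 (.both (.play 195 (.ref 7 195)) (.ref 112 257))) (.play 197 (.ref 5 196)))))))))))))))))
 (.seq (.seq (.seq (.one (.play 4 (.both (.play 133 (.both (.play 69 (.both (.play 3 (.both (.play 64 (.ref 2 0)) (.play 70 (.ref 38 2)))) (.play 134 (.ref 0 66)))) (.play 132 (.ref 0 65)))) (.play 5 (.ref 2 1)))))
 (.one (.play 65 (.both (.play 66 (.both (.play 257 (.ref 5 1)) (.play 133 (.ref 3 65)))) (.play 64 (.ref 3 64))))))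
 (.seq (.one (.play 134 (.both (.play 131 (.both (.play 67 (.both (.play 260 (.ref 126 3)) (.play 66 (.ref 3 66)))) (.both (.play 67 (.both (.play 260 (.both (.play 68 (.ref 77 3)) (.play 324 (.ref 7 67)))) (.play 66 (.ref 3 66)))) (.both (.play 195 (.both (.play 70 (.both (.play 69 (.both (.play 260 (.ref 8 4)) (.play 130 (.ref 2 66)))) (.play 71 (.ref 2 67)))) (.play 194 (.ref 1 130)))) (.play 195 (.both (.play 70 (.both (.play 130 (.both (.play 129 (.both (.ref 34 64) (.play 128 (.ref 0 128)))) (.play 69 (.ref 2 66)))) (.play 71 (.ref 2 67)))) (.play 194 (.ref 1 130)))))))) (.both (.play 135 (.both (.ref 130 3) (.both (.ref 40 66) (.ref 129 67)))) (.both (.play 135 (.both (.ref 130 3) (.play 195 (.ref 1 131)))) (.both (.ref 48 66) (.play 135 (.both (.ref 129 67) (.play 195 (.ref 1 131))))))))))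
 (.seq (.one (.both (.play 132 (.ref 6 3)) (.play 258 (.ref 97 192))))
 (.one (.play 4 (.both (.play 131 (.both (.play 67 (.ref 5 3)) (.play 130 (.ref 23 128)))) (.play 132 (.ref 6 3))))))))
 (.seq (.seq (.one (.both (.ref 82 0) (.play 6 (.ref 2 2))))
 (.seq (.one (.both (.play 0 (.ref 7 0)) (.play 321 (.ref 7 64))))
 (.one (.both (.play 0 (.ref 4 0)) (.play 256 (.ref 5 0))))))
 (.seq (.one (.play 67 (.both (.play 66 (.both (.play 68 (.both (.play 4 (.ref 5 3)) (.ref 112 64))) (.play 2 (.ref 7 2)))) (.play 322 (.ref 6 66)))))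
 (.seq (.one (.play 131 (.both (.ref 119 2) (.both (.ref 123 2) (.play 130 (.both (.play 194 (.both (.play 132 (.both (.play 68 (.ref 5 67)) (.play 193 (.ref 68 128)))) (.play 387 (.ref 7 130)))) (.play 66 (.ref 7 66))))))))
 (.one (.play 322 (.both (.play 321 (.both (.play 66 (.both (.play 67 (.both (.play 68 (.ref 3 0)) (.ref 65 128))) (.play 130 (.ref 5 65)))) (.play 386 (.ref 4 129)))) (.play 258 (.ref 4 65)))))))))))
 (.seq (.seq (.seq (.seq (.seq (.one (.play 68 (.both (.play 1 (.ref 3 0)) (.play 129 (.ref 1 64)))))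
 (.one (.play 1 (.both (.play 0 (.ref 3 0)) (.play 129 (.both (.ref 140 1) (.play 128 (.ref 1 64))))))))
 (.seq (.one (.play 65 (.both (.ref 141 0) (.play 5 (.ref 2 1)))))
 (.seq (.one (.play 193 (.both (.play 257 (.ref 5 1)) (.play 192 (.ref 1 128)))))
 (.one (.play 194 (.both (.play 193 (.both (.play 131 (.both (.play 67 (.ref 135 3)) (.play 192 (.ref 2 128)))) (.play 133 (.ref 2 129)))) (.both (.play 67 (.both (.play 131 (.both (.play 193 (.both (.play 129 (.both (.play 130 (.both (.play 258 (.both (.ref 104 0) (.play 322 (.ref 5 66)))) (.play 197 (.ref 0 129)))) (.play 128 (.ref 3 128)))) (.play 192 (.ref 2 128)))) (.play 324 (.ref 7 67)))) (.play 3 (.ref 7 3)))) (.both (.play 67 (.both (.play 3 (.ref 7 3)) (.play 131 (.both (.play 134 (.both (.play 197 (.both (.play 130 (.both (.ref 143 65) (.play 129 (.ref 0 129)))) (.both (.play 130 (.ref 15 129)) (.play 198 (.both (.play 199 (.ref 3 131)) (.play 135 (.ref 2 131))))))) (.play 133 (.ref 1 130)))) (.play 324 (.ref 7 67)))))) (.ref 142 128)))))))))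
 (.seq (.seq (.one (.play 3 (.both (.play 4 (.ref 2 0)) (.play 70 (.ref 3 2)))))
 (.seq (.one (.play 68 (.both (.ref 29 0) (.both (.play 133 (.both (.play 69 (.both (.ref 145 0) (.play 134 (.ref 0 66)))) (.play 132 (.ref 0 65)))) (.both (.ref 106 1) (.ref 105 1))))))
 (.one (.play 197 (.both (.play 262 (.both (.play 261 (.both (.ref 101 0) (.play 326 (.ref 4 69)))) (.play 198 (.ref 4 5)))) (.play 260 (.ref 6 4)))))))
 (.seq (.one (.play 129 (.both (.play 324 (.both (.play 389 (.both (.play 388 (.both (.play 322 (.both (.play 258 (.ref 51 1)) (.play 321 (.ref 0 321)))) (.play 453 (.ref 4 196)))) (.play 325 (.ref 4 132)))) (.play 387 (.ref 6 131)))) (.play 128 (.ref 3 128)))))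
 (.seq (.one (.play 1 (.both (.play 0 (.ref 3 0)) (.play 69 (.both (.play 2 (.ref 3 1)) (.ref 33 64))))))
 (.one (.play 65 (.both (.play 4 (.ref 2 1)) (.ref 33 64))))))))
 (.seq (.seq (.seq (.one (.both (.ref 150 0) (.play 6 (.ref 2 2))))
 (.one (.play 4 (.both (.play 3 (.ref 2 0)) (.play 68 (.both (.play 1 (.ref 38 0)) (.play 5 (.ref 2 1))))))))
 (.seq (.one (.both (.play 258 (.ref 6 2)) (.play 196 (.ref 3 128))))
 (.seq (.one (.play 261 (.both (.play 133 (.both (.ref 119 4) (.both (.play 68 (.both (.play 69 (.both (.play 4 (.ref 7 4)) (.ref 122 5))) (.play 132 (.ref 7 68)))) (.both (.ref 123 4) (.play 132 (.both (.play 196 (.both (.play 134 (.both (.play 135 (.both (.play 71 (.both (.play 199 (.both (.play 323 (.both (.play 262 (.both (.play 263 (.ref 153 68)) (.play 322 (.ref 2 258)))) (.both (.play 263 (.both (.play 326 (.both (.play 264 (.both (.play 328 (.ref 4 71)) (.play 327 (.ref 2 260)))) (.play 387 (.both (.play 260 (.ref 6 131)) (.play 386 (.ref 1 322)))))) (.both (.play 262 (.both (.play 326 (.ref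 6 70)) (.play 260 (.ref 1 259)))) (.both (.play 262 (.ref 153 68)) (.play 262 (.both (.play 264 (.ref 3 196)) (.play 260 (.ref 1 259)))))))) (.both (.play 387 (.ref 132 128)) (.play 387 (.both (.play 260 (.ref 6 131)) (.play 322 (.both (.play 258 (.both (.ref 57 193) (.play 257 (.ref 3 257)))) (.play 262 (.ref 2 258)))))))))) (.play 200 (.ref 0 132)))) (.play 72 (.ref 2 68)))) (.play 136 (.ref 1 132)))) (.play 70 (.ref 5 69)))) (.play 389 (.ref 7 132)))) (.play 68 (.ref 7 68)))))))) (.both (.play 452 (.both (.play 389 (.both (.play 323 (.both (.play 326 (.both (.play 259 (.both (.play 263 (.both (.play 387 (.both (.play 451 (.both (.play 196 (.both (.play 132 (.ref 7 132)) (.play 260 (.ref 5 195)))) (.play 516 (.ref 4 259)))) (.play 386 (.ref 1 322)))) (.play 262 (.ref 2 259)))) (.play 258 (.ref 3 258)))) (.both (.play 259 (.both (.play 260 (.both (.play 196 (.both (.play 132 (.ref 7 132)) (.ref 143 194))) (.play 327 (.ref 3 259)))) (.play 258 (.ref 3 258)))) (.both (.ref 152 259) (.ref 146 259))))) (.both (.play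 322 (.ref 151 256)) (.both (.play 322 (.ref 134 256)) (.both (.play 322 (.both (.ref 150 256) (.both (.ref 82 256) (.ref 149 257)))) (.ref 142 257)))))) (.both (.play 323 (.both (.play 322 (.both (.ref 148 129) (.both (.ref 147 256) (.both (.ref 141 257) (.play 453 (.both (.play 386 (.both (.play 454 (.both (.play 518 (.ref 4 261)) (.play 387 (.both (.play 326 (.ref 1 322)) (.play 451 (.ref 3 386)))))) (.play 385 (.ref 1 321)))) (.play 516 (.ref 6 260)))))))) (.both (.play 322 (.both (.ref 148 129) (.play 262 (.ref 2 258)))) (.both (.play 322 (.both (.ref 147 256) (.play 262 (.ref 2 258)))) (.both (.ref 142 257) (.both (.play 322 (.both (.play 453 (.both (.play 386 (.both (.play 387 (.both (.play 454 (.both (.play 518 (.ref 4 261)) (.play 451 (.ref 3 386)))) (.play 326 (.ref 1 322)))) (.play 385 (.ref 1 321)))) (.play 516 (.ref 6 260)))) (.play 262 (.ref 2 258)))) (.play 326 (.both (.play 516 (.both (.play 387 (.both (.play 259 (.both (.play 258 (.ref 3 258)) (.play 451 (.ref 4 259)))) (.play 386 (.ref 1 322))))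 (.play 453 (.ref 6 260)))) (.both (.ref 146 259) (.play 453 (.both (.play 262 (.both (.play 263 (.ref 2 259)) (.play 517 (.ref 5 261)))) (.play 516 (.ref 6 260))))))))))))) (.both (.ref 144 129) (.play 453 (.both (.play 260 (.ref 135 196)) (.play 516 (.ref 6 260)))))))) (.both (.play 389 (.both (.ref 144 129) (.play 388 (.ref 6 196)))) (.both (.play 388 (.ref 10 196)) (.play 388 (.ref 8 196)))))) (.both (.play 388 (.ref 11 132)) (.play 388 (.ref 9 132)))))))
 (.one (.play 257 (.both (.ref 12 0) (.play 321 (.ref 5 65))))))))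
 (.seq (.seq (.one (.play 258 (.both (.play 194 (.both (.play 1 (.ref 4 1)) (.ref 155 64))) (.play 322 (.ref 4 65)))))
 (.seq (.one (.play 260 (.both (.play 196 (.both (.play 389 (.both (.play 195 (.both (.play 194 (.both (.play 261 (.both (.play 258 (.both (.play 259 (.both (.play 322 (.both (.play 130 (.both (.play 66 (.ref 18 2)) (.play 129 (.ref 3 129)))) (.play 321 (.ref 1 257)))) (.play 326 (.ref 0 258)))) (.play 257 (.ref 1 193)))) (.play 262 (.ref 0 194)))) (.both (.ref 101 128) (.play 261 (.ref 41 193))))) (.play 131 (.ref 7 131)))) (.play 453 (.ref 4 196)))) (.both (.play 131 (.both (.play 132 (.both (.play 130 (.both (.play 259 (.both (.play 258 (.both (.play 323 (.both (.play 68 (.ref 6 67)) (.play 326 (.ref 3 258)))) (.play 257 (.ref 0 257)))) (.both (.play 68 (.both (.play 323 (.ref 6 67)) (.play 261 (.ref 4 68)))) (.play 258 (.both (.play 257 (.ref 0 257)) (.play 326 (.both (.play 261 (.ref 0 258)) (.play 327 (.ref 3 259))))))))) (.play 129 (.ref 0 129)))) (.play 67 (.ref 7 67)))) (.play 195 (.ref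 7 131)))) (.play 389 (.ref 18 132))))) (.both (.play 452 (.both (.play 259 (.both (.play 195 (.ref 7 195)) (.ref 59 257))) (.ref 156 195))) (.both (.ref 76 195) (.play 452 (.both (.ref 156 195) (.play 261 (.ref 5 196)))))))))
 (.one (.play 1 (.both (.play 0 (.ref 3 0)) (.ref 140 1))))))
 (.seq (.one (.both (.play 64 (.ref 5 0)) (.play 258 (.ref 7 1))))
 (.seq (.one (.play 1 (.both (.play 65 (.both (.play 0 (.ref 3 0)) (.ref 33 64))) (.play 2 (.ref 3 1)))))
 (.one (.both (.play 0 (.ref 7 0)) (.play 131 (.ref 3 64)))))))))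
 (.seq (.seq (.seq (.seq (.one (.play 129 (.both (.play 130 (.both (.ref 98 0) (.play 197 (.ref 3 129)))) (.play 128 (.ref 3 128)))))
 (.one (.play 66 (.both (.ref 160 0) (.both (.play 129 (.both (.play 65 (.both (.play 4 (.both (.play 3 (.both (.play 64 (.ref 2 0)) (.play 71 (.ref 3 3)))) (.play 5 (.ref 2 1)))) (.play 128 (.ref 1 64)))) (.play 130 (.ref 1 65)))) (.ref 34 1))))))
 (.seq (.one (.play 194 (.both (.ref 99 0) (.play 133 (.ref 1 129)))))
 (.seq (.one (.play 257 (.both (.ref 63 1) (.play 321 (.ref 7 64)))))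
 (.one (.play 259 (.both (.play 131 (.both (.play 67 (.both (.play 3 (.ref 6 2)) (.play 68 (.both (.play 323 (.both (.play 66 (.both (.play 2 (.ref 7 2)) (.ref 165 130))) (.play 132 (.ref 5 67)))) (.play 4 (.ref 5 3)))))) (.both (.play 322 (.both (.play 323 (.both (.play 132 (.both (.play 68 (.ref 5 67)) (.play 193 (.both (.play 192 (.ref 2 128)) (.play 324 (.both (.play 325 (.both (.play 389 (.both (.play 261 (.ref 7 132)) (.play 390 (.ref 0 322)))) (.play 326 (.ref 3 258)))) (.play 388 (.ref 4 131)))))))) (.both (.play 387 (.both (.play 132 (.ref 5 131)) (.play 451 (.ref 7 194)))) (.ref 165 130)))) (.play 386 (.ref 5 130)))) (.play 322 (.ref 54 66))))) (.play 198 (.ref 1 194))))))))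
 (.seq (.seq (.one (.play 258 (.both (.ref 166 0) (.play 257 (.ref 1 193)))))
 (.seq (.one (.play 66 (.both (.play 2 (.ref 5 1)) (.play 321 (.both (.play 130 (.ref 6 65)) (.ref 155 128))))))
 (.one (.play 193 (.both (.play 129 (.both (.play 130 (.both (.play 385 (.both (.play 64 (.both (.play 65 (.ref 161 0)) (.play 128 (.ref 7 64)))) (.play 194 (.ref 5 129)))) (.play 66 (.ref 5 65)))) (.both (.play 322 (.both (.ref 168 64) (.play 386 (.ref 4 129)))) (.play 322 (.ref 18 65))))) (.play 192 (.ref 3 192)))))))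
 (.seq (.one (.play 196 (.both (.play 195 (.both (.play 68 (.both (.play 67 (.both (.play 3 (.ref 7 3)) (.play 131 (.both (.play 322 (.ref 6 66)) (.play 324 (.ref 7 67)))))) (.play 4 (.ref 6 3)))) (.play 256 (.ref 2 192)))) (.play 197 (.ref 2 193)))))
 (.seq (.one (.both (.play 1 (.ref 5 0)) (.play 320 (.ref 5 64))))
 (.one (.play 4 (.both (.play 3 (.ref 2 0)) (.play 68 (.ref 5 3)))))))))
 (.seq (.seq (.seq (.one (.play 324 (.both (.play 327 (.both (.play 260 (.both (.play 262 (.both (.play 133 (.both (.play 132 (.both (.play 134 (.both (.play 71 (.both (.play 70 (.both (.play 7 (.ref 5 6)) (.play 131 (.ref 2 67)))) (.play 135 (.ref 5 70)))) (.play 69 (.ref 7 69)))) (.both (.play 131 (.both (.play 134 (.both (.ref 35 65) (.ref 172 67))) (.both (.play 67 (.both (.play 134 (.both (.play 66 (.ref 3 66)) (.ref 172 67))) (.play 196 (.ref 7 67)))) (.both (.play 388 (.both (.play 195 (.both (.play 134 (.both (.ref 172 67) (.play 194 (.ref 1 130)))) (.play 196 (.ref 7 131)))) (.play 387 (.ref 1 323)))) (.play 388 (.both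 (.play 196 (.ref 113 67)) (.play 387 (.ref 1 323)))))))) (.both (.play 196 (.both (.play 388 (.both (.play 131 (.ref 113 67)) (.play 387 (.ref 1 323)))) (.play 69 (.ref 5 68)))) (.play 69 (.both (.play 196 (.ref 5 68)) (.play 134 (.ref 7 69)))))))) (.both (.play 69 (.both (.play 197 (.both (.play 5 (.ref 4 5)) (.play 390 (.ref 7 133)))) (.play 134 (.ref 7 69)))) (.play 388 (.both (.play 197 (.ref 159 132)) (.play 387 (.ref 1 323))))))) (.both (.play 263 (.both (.play 134 (.both (.play 133 (.both (.play 69 (.ref 7 69)) (.play 197 (.both (.play 196 (.both (.play 388 (.ref 5 132)) (.play 195 (.ref 0 195)))) (.play 390 (.ref 7 133)))))) (.play 70 (.ref 4 70)))) (.play 264 (.ref 2 260)))) (.play 328 (.both (.ref 29 260) (.both (.play 393 (.both (.play 263 (.both (.play 264 (.ref 2 260)) (.play 329 (.both (.play 330 (.ref 3 262)) (.play 394 (.ref 0 326)))))) (.play 392 (.ref 0 325)))) (.both (.ref 106 261) (.ref 105 261)))))))) (.play 259 (.ref 3 259)))) (.both (.ref 162 131) (.both (.play 260 (.both (.play 388 (.both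 (.play 263 (.both (.play 452 (.both (.play 197 (.both (.play 196 (.both (.play 195 (.both (.play 131 (.ref 7 131)) (.play 262 (.ref 0 195)))) (.play 133 (.ref 5 132)))) (.play 261 (.ref 5 196)))) (.both (.play 261 (.ref 171 196)) (.ref 21 259)))) (.play 264 (.ref 2 260)))) (.play 387 (.ref 1 323)))) (.play 259 (.ref 3 259)))) (.both (.ref 85 259) (.play 328 (.both (.ref 29 260) (.both (.play 393 (.both (.play 329 (.both (.play 262 (.both (.ref 145 260) (.play 261 (.ref 3 261)))) (.play 394 (.ref 0 326)))) (.play 392 (.ref 0 325)))) (.both (.ref 106 261) (.play 393 (.both (.play 329 (.both (.ref 85 261) (.play 394 (.ref 0 326)))) (.play 392 (.ref 0 325))))))))))))) (.both (.play 323 (.both (.ref 170 66) (.both (.ref 163 256) (.play 327 (.both (.ref 34 258) (.ref 29 259)))))) (.both (.play 323 (.both (.ref 170 66) (.both (.ref 167 129) (.both (.play 386 (.both (.play 322 (.both (.play 261 (.ref 134 256)) (.play 385 (.ref 1 321)))) (.play 387 (.ref 1 322)))) (.play 387 (.ref 31 258)))))) (.both (.play 323 (.both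 (.play 387 (.both (.ref 169 66) (.both (.ref 166 129) (.both (.play 259 (.both (.play 260 (.both (.play 196 (.ref 54 131)) (.play 327 (.ref 3 259)))) (.play 258 (.ref 3 258)))) (.both (.ref 164 194) (.ref 158 258)))))) (.both (.play 387 (.both (.ref 169 66) (.play 386 (.ref 1 322)))) (.both (.ref 167 129) (.both (.play 387 (.both (.ref 164 194) (.play 386 (.ref 1 322)))) (.both (.ref 163 256) (.ref 141 258))))))) (.both (.play 323 (.both (.play 259 (.both (.play 262 (.both (.play 261 (.both (.play 260 (.both (.play 134 (.both (.play 133 (.both (.play 197 (.both (.play 195 (.both (.play 135 (.both (.play 71 (.ref 5 70)) (.play 196 (.ref 2 131)))) (.play 194 (.ref 3 194)))) (.play 390 (.ref 7 133)))) (.play 69 (.ref 7 69)))) (.play 70 (.ref 6 69)))) (.play 327 (.ref 0 259)))) (.play 322 (.ref 2 258)))) (.play 263 (.ref 2 259)))) (.play 258 (.ref 3 258)))) (.both (.ref 162 130) (.play 262 (.ref 151 257))))) (.both (.play 323 (.both (.play 262 (.both (.play 259 (.both (.play 387 (.both (.play 195 (.both (.play 196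 (.both (.play 260 (.both (.play 194 (.ref 161 130)) (.play 451 (.ref 5 195)))) (.play 132 (.ref 5 131)))) (.play 388 (.ref 18 131)))) (.play 386 (.ref 1 322)))) (.play 258 (.ref 3 258)))) (.play 263 (.ref 2 259)))) (.both (.ref 160 257) (.both (.play 262 (.ref 134 257)) (.play 262 (.ref 151 257)))))) (.both (.play 323 (.both (.ref 101 257) (.both (.play 262 (.ref 134 257)) (.play 327 (.both (.ref 29 259) (.ref 33 322)))))) (.play 323 (.both (.ref 160 257) (.both (.ref 85 258) (.play 387 (.ref 31 258))))))))))))))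
 (.seq (.one (.play 196 (.both (.ref 55 0) (.play 260 (.ref 4 3)))))
 (.one (.play 257 (.both (.play 66 (.ref 5 1)) (.ref 21 64))))))
 (.seq (.one (.play 258 (.both (.play 194 (.both (.play 3 (.ref 6 2)) (.ref 79 128))) (.play 322 (.ref 6 66)))))
 (.seq (.one (.play 259 (.both (.ref 176 0) (.play 68 (.ref 5 3)))))
 (.one (.play 323 (.both (.ref 114 2) (.both (.play 324 (.both (.play 322 (.both (.play 258 (.both (.play 67 (.ref 6 66)) (.play 257 (.ref 15 256)))) (.play 386 (.ref 6 130)))) (.play 388 (.ref 4 131)))) (.both (.play 130 (.both (.play 322 (.both (.play 258 (.both (.play 67 (.ref 6 66)) (.play 197 (.both (.play 198 (.ref 3 130)) (.play 257 (.ref 16 192)))))) (.play 386 (.ref 6 130)))) (.play 66 (.ref 7 66)))) (.play 130 (.ref 60 66))))))))))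
 (.seq (.seq (.one (.play 65 (.both (.play 1 (.ref 7 1)) (.play 132 (.ref 15 64)))))
 (.seq (.one (.play 66 (.both (.play 5 (.ref 2 2)) (.play 65 (.both (.ref 33 64) (.play 132 (.ref 0 65)))))))
 (.one (.play 198 (.both (.play 134 (.both (.play 70 (.both (.play 197 (.both (.play 196 (.both (.play 261 (.both (.play 325 (.both (.play 132 (.both (.ref 94 4) (.play 131 (.ref 3 131)))) (.play 389 (.ref 5 133)))) (.both (.play 131 (.both (.play 195 (.both (.ref 180 128) (.play 130 (.ref 3 130)))) (.play 132 (.ref 3 131)))) (.play 325 (.ref 136 133))))) (.both (.play 132 (.both (.play 260 (.both (.play 261 (.both (.play 324 (.both (.play 69 (.both (.play 68 (.ref 36 4)) (.play 133 (.ref 6 68)))) (.both (.play 133 (.ref 54 68)) (.ref 155 131)))) (.both (.play 325 (.ref 56 68)) (.play 325 (.both (.play 389 (.ref 7 132)) (.play 133 (.ref 4 133))))))) (.play 259 (.ref 1 195)))) (.play 131 (.ref 3 131)))) (.both (.play 261 (.both (.play 195 (.both (.ref 180 128) (.both (.ref 150 129) (.both (.play 194 (.both (.play 133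 (.ref 2 130)) (.play 260 (.both (.play 193 (.ref 0 193)) (.play 259 (.ref 1 195)))))) (.ref 33 194))))) (.both (.play 389 (.both (.play 325 (.ref 5 133)) (.play 260 (.both (.play 259 (.ref 1 195)) (.play 388 (.both (.play 324 (.both (.play 453 (.ref 4 196)) (.play 452 (.ref 5 196)))) (.play 387 (.ref 2 323)))))))) (.play 325 (.ref 136 133))))) (.both (.play 131 (.both (.play 195 (.both (.play 258 (.both (.play 194 (.both (.play 133 (.ref 2 130)) (.play 257 (.ref 1 193)))) (.play 259 (.ref 1 194)))) (.play 130 (.ref 3 130)))) (.play 132 (.ref 3 131)))) (.ref 160 130)))))) (.both (.play 196 (.both (.ref 160 130) (.play 264 (.ref 0 196)))) (.both (.play 325 (.both (.play 261 (.ref 136 133)) (.ref 102 258))) (.play 264 (.both (.play 265 (.both (.play 325 (.both (.play 261 (.ref 136 133)) (.play 324 (.ref 2 260)))) (.play 266 (.ref 3 198)))) (.play 196 (.ref 0 196)))))))) (.play 6 (.ref 4 6)))) (.play 391 (.ref 7 134)))) (.both (.play 262 (.both (.play 134 (.both (.play 70 (.ref 4 70)) (.ref 12 133))) (.ref 179 132)))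 (.both (.play 262 (.both (.play 391 (.both (.play 197 (.both (.play 133 (.ref 7 133)) (.play 196 (.both (.play 195 (.ref 0 195)) (.play 260 (.both (.play 259 (.ref 1 195)) (.play 389 (.both (.play 388 (.both (.play 324 (.both (.play 452 (.both (.play 261 (.ref 5 196)) (.play 451 (.ref 1 387)))) (.play 323 (.ref 3 323)))) (.play 387 (.ref 2 323)))) (.play 453 (.ref 6 197)))))))))) (.play 455 (.ref 7 198)))) (.both (.ref 179 132) (.play 391 (.both (.play 389 (.both (.play 453 (.ref 6 197)) (.play 388 (.both (.play 324 (.both (.play 325 (.both (.play 260 (.both (.play 259 (.ref 3 259)) (.play 452 (.both (.play 516 (.ref 171 260)) (.play 451 (.ref 1 387)))))) (.play 264 (.ref 2 260)))) (.play 323 (.ref 3 323)))) (.play 387 (.ref 2 323)))))) (.play 455 (.ref 7 198))))))) (.both (.play 391 (.both (.play 262 (.both (.ref 179 132) (.play 455 (.ref 7 198)))) (.play 134 (.ref 7 134)))) (.play 391 (.both (.play 134 (.ref 7 134)) (.play 455 (.both (.play 262 (.ref 7 198)) (.ref 165 262)))))))))))))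
 (.seq (.one (.play 263 (.both (.ref 181 0) (.both (.play 454 (.ref 8 198)) (.play 454 (.ref 10 198))))))
 (.seq (.one (.play 390 (.both (.ref 182 0) (.both (.ref 157 2) (.both (.play 262 (.both (.play 198 (.both (.ref 120 69) (.both (.play 391 (.ref 18 134)) (.ref 174 195)))) (.both (.ref 177 195) (.both (.ref 14 197) (.both (.ref 175 197) (.play 454 (.both (.play 263 (.ref 5 198)) (.ref 74 261)))))))) (.both (.play 263 (.both (.ref 110 129) (.both (.ref 109 129) (.both (.ref 100 130) (.play 454 (.ref 10 198)))))) (.both (.play 328 (.both (.play 325 (.both (.play 261 (.both (.play 389 (.both (.play 197 (.both (.ref 168 132) (.play 133 (.ref 4 133)))) (.play 388 (.ref 1 324)))) (.play 260 (.ref 3 260)))) (.both (.play 261 (.both (.play 264 (.both (.play 324 (.both (.play 263 (.ref 2 260)) (.ref 86 322))) (.play 265 (.ref 2 261)))) (.play 260 (.ref 3 260)))) (.both (.play 389 (.both (.play 264 (.both (.play 324 (.both (.play 263 (.ref 2 260)) (.play 323 (.ref 41 322)))) (.play 265 (.ref 2 261)))) (.play 388 (.ref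 1 324)))) (.play 261 (.both (.play 264 (.both (.play 324 (.both (.play 323 (.both (.play 322 (.both (.play 262 (.ref 2 258)) (.play 389 (.ref 0 322)))) (.play 391 (.ref 0 323)))) (.play 263 (.ref 2 260)))) (.play 265 (.ref 2 261)))) (.play 260 (.ref 3 260)))))))) (.both (.play 325 (.both (.play 264 (.both (.play 324 (.both (.play 391 (.both (.play 455 (.both (.play 329 (.both (.ref 104 197) (.play 330 (.ref 1 326)))) (.play 519 (.ref 5 263)))) (.play 323 (.ref 0 323)))) (.play 263 (.ref 2 260)))) (.play 265 (.ref 2 261)))) (.both (.play 264 (.both (.play 324 (.both (.ref 53 258) (.play 263 (.ref 2 260)))) (.play 265 (.ref 2 261)))) (.both (.ref 85 260) (.play 261 (.both (.play 260 (.ref 3 260)) (.play 329 (.both (.play 262 (.ref 3 261)) (.ref 46 326))))))))) (.both (.play 329 (.ref 31 261)) (.both (.play 329 (.both (.play 330 (.both (.ref 34 261) (.play 391 (.ref 1 326)))) (.play 389 (.ref 1 325)))) (.play 329 (.both (.play 265 (.both (.play 262 (.both (.play 261 (.ref 3 261)) (.play 264 (.both (.play 325 (.ref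 2 261)) (.play 330 (.both (.play 263 (.ref 0 262)) (.ref 45 326))))))) (.play 266 (.ref 2 262)))) (.play 389 (.ref 1 325))))))))) (.both (.play 262 (.both (.play 198 (.both (.play 389 (.both (.play 328 (.both (.play 197 (.both (.play 388 (.both (.play 196 (.both (.ref 101 130) (.both (.play 263 (.ref 41 195)) (.play 263 (.both (.play 260 (.both (.play 259 (.ref 1 195)) (.play 261 (.ref 0 260)))) (.play 264 (.ref 0 196))))))) (.play 387 (.ref 2 323)))) (.play 133 (.ref 7 133)))) (.play 329 (.ref 1 325)))) (.play 453 (.ref 6 197)))) (.play 391 (.ref 18 134)))) (.both (.ref 178 131) (.both (.play 454 (.both (.ref 114 133) (.play 263 (.ref 5 198)))) (.both (.play 454 (.both (.play 261 (.both (.play 328 (.both (.play 453 (.both (.play 389 (.both (.play 198 (.ref 6 197)) (.play 388 (.ref 16 323)))) (.play 517 (.ref 6 261)))) (.play 329 (.ref 3 261)))) (.play 197 (.ref 7 197)))) (.play 263 (.ref 5 198)))) (.both (.ref 14 197) (.play 454 (.both (.play 261 (.ref 60 197)) (.play 263 (.ref 5 198)))))))))) (.both (.play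 262 (.both (.ref 20 131) (.both (.play 454 (.both (.ref 114 133) (.both (.ref 24 195) (.ref 74 261)))) (.both (.ref 178 131) (.both (.ref 25 195) (.both (.play 454 (.both (.ref 24 195) (.both (.ref 176 195) (.ref 66 197)))) (.play 454 (.both (.ref 66 197) (.both (.ref 13 197) (.play 455 (.both (.play 261 (.both (.play 197 (.ref 7 197)) (.play 518 (.both (.play 391 (.both (.play 198 (.ref 4 198)) (.play 582 (.ref 5 326)))) (.play 325 (.ref 7 261)))))) (.play 519 (.ref 4 262))))))))))))) (.both (.play 262 (.both (.play 198 (.both (.play 389 (.both (.play 328 (.both (.play 325 (.both (.play 134 (.ref 6 133)) (.play 388 (.ref 1 324)))) (.play 329 (.ref 1 325)))) (.play 453 (.ref 6 197)))) (.both (.play 391 (.ref 18 134)) (.play 391 (.both (.play 389 (.both (.play 453 (.ref 6 197)) (.play 328 (.ref 68 324)))) (.play 455 (.ref 4 198))))))) (.both (.play 454 (.both (.play 455 (.both (.play 391 (.both (.play 198 (.ref 4 198)) (.play 518 (.both (.play 517 (.both (.play 456 (.both (.play 388 (.both (.play 325 (.both (.play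 261 (.ref 7 261)) (.play 324 (.both (.play 323 (.ref 0 323)) (.play 387 (.ref 1 323)))))) (.play 389 (.ref 0 388)))) (.play 457 (.ref 1 453)))) (.play 581 (.ref 6 325)))) (.play 582 (.ref 5 326)))))) (.play 519 (.ref 4 262)))) (.play 263 (.ref 5 198)))) (.both (.ref 177 195) (.ref 175 197))))) (.both (.play 262 (.both (.play 198 (.both (.ref 69 131) (.both (.play 391 (.ref 18 134)) (.ref 174 195)))) (.both (.ref 14 197) (.both (.ref 76 197) (.play 454 (.both (.play 261 (.ref 80 197)) (.play 263 (.ref 5 198)))))))) (.ref 131 194))))))))))))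
 (.one (.play 326 (.both (.play 390 (.both (.play 263 (.both (.ref 181 0) (.play 135 (.ref 6 134)))) (.both (.ref 182 0) (.both (.ref 81 130) (.both (.play 263 (.ref 11 134)) (.play 263 (.ref 9 134))))))) (.both (.ref 183 0) (.both (.ref 173 1) (.both (.play 263 (.both (.ref 138 4) (.both (.play 135 (.ref 124 6)) (.both (.play 325 (.both (.play 328 (.both (.play 261 (.both (.play 264 (.both (.play 389 (.both (.play 198 (.both (.play 262 (.both (.play 197 (.both (.play 133 (.ref 56 69)) (.play 196 (.ref 0 196)))) (.play 453 (.ref 5 197)))) (.both (.play 134 (.both (.play 262 (.ref 6 133)) (.play 391 (.ref 7 134)))) (.play 134 (.ref 159 133))))) (.play 388 (.ref 1 324)))) (.play 265 (.ref 2 261)))) (.play 260 (.ref 3 260)))) (.both (.ref 149 260) (.both (.play 265 (.both (.play 329 (.both (.play 266 (.ref 2 262)) (.ref 33 324))) (.play 264 (.ref 2 261)))) (.ref 152 261))))) (.both (.play 324 (.ref 151 258)) (.both (.play 324 (.ref 134 258)) (.both (.play 324 (.both (.ref 150 258) (.both (.ref 82 258) (.ref 141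 259)))) (.play 324 (.both (.play 388 (.both (.ref 158 259) (.play 387 (.ref 1 323)))) (.play 264 (.ref 2 260))))))))) (.ref 137 68))))) (.both (.play 390 (.both (.ref 157 2) (.both (.play 328 (.both (.play 263 (.both (.play 325 (.both (.play 264 (.both (.play 261 (.both (.play 197 (.both (.play 198 (.both (.play 391 (.both (.play 134 (.ref 7 134)) (.play 455 (.both (.play 329 (.both (.play 393 (.both (.play 457 (.both (.play 456 (.both (.play 520 (.ref 4 263)) (.play 458 (.ref 3 390)))) (.play 521 (.ref 7 264)))) (.play 394 (.ref 0 326)))) (.play 330 (.ref 1 326)))) (.play 519 (.ref 5 263)))))) (.play 196 (.ref 0 196)))) (.play 133 (.ref 4 133)))) (.play 260 (.ref 3 260)))) (.play 265 (.ref 2 261)))) (.both (.ref 93 258) (.play 264 (.ref 37 260))))) (.play 135 (.ref 6 134)))) (.both (.ref 133 131) (.both (.play 263 (.both (.play 325 (.both (.play 264 (.both (.play 261 (.both (.play 197 (.both (.play 133 (.ref 4 133)) (.play 196 (.both (.play 262 (.ref 3 196)) (.play 198 (.ref 0 196)))))) (.play 260 (.ref 3 260))))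 (.play 265 (.ref 2 261)))) (.both (.play 260 (.both (.play 324 (.both (.play 259 (.ref 3 259)) (.play 323 (.both (.play 262 (.ref 2 259)) (.play 391 (.ref 0 323)))))) (.play 261 (.ref 3 260)))) (.play 264 (.ref 37 260))))) (.play 135 (.ref 6 134)))) (.both (.play 263 (.both (.play 329 (.both (.play 265 (.both (.play 264 (.both (.play 393 (.both (.play 457 (.both (.play 456 (.both (.play 458 (.both (.play 391 (.both (.ref 115 132) (.play 455 (.ref 3 390)))) (.play 522 (.ref 4 265)))) (.play 520 (.ref 6 264)))) (.play 521 (.ref 7 264)))) (.play 394 (.ref 0 326)))) (.play 325 (.ref 2 261)))) (.play 266 (.ref 2 262)))) (.both (.play 265 (.both (.play 264 (.both (.play 325 (.ref 2 261)) (.play 330 (.ref 15 262)))) (.play 266 (.ref 2 262)))) (.both (.ref 39 262) (.play 265 (.ref 49 262)))))) (.play 135 (.ref 6 134)))) (.both (.ref 32 133) (.ref 88 258))))))) (.both (.ref 62 131) (.both (.play 263 (.ref 11 134)) (.play 263 (.ref 9 134))))))) (.both (.ref 154 2) (.both (.play 263 (.both (.ref 138 4) (.both (.play 135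 (.ref 124 6)) (.both (.ref 137 68) (.play 391 (.both (.play 198 (.both (.play 390 (.both (.play 389 (.both (.play 262 (.both (.play 197 (.both (.play 133 (.ref 7 133)) (.play 196 (.ref 41 195)))) (.play 453 (.ref 6 197)))) (.play 388 (.ref 37 323)))) (.play 454 (.ref 6 198)))) (.play 134 (.ref 7 134)))) (.both (.play 198 (.both (.play 134 (.ref 7 134)) (.play 455 (.both (.play 262 (.ref 7 198)) (.ref 64 262))))) (.both (.play 198 (.both (.play 134 (.ref 7 134)) (.play 455 (.both (.play 262 (.ref 7 198)) (.ref 139 198))))) (.both (.play 198 (.both (.play 134 (.ref 7 134)) (.play 455 (.both (.ref 12 198) (.both (.play 520 (.both (.play 519 (.both (.play 390 (.both (.play 454 (.ref 6 198)) (.play 583 (.ref 7 326)))) (.play 584 (.ref 4 327)))) (.play 456 (.ref 4 263)))) (.both (.ref 139 198) (.ref 64 262))))))) (.play 454 (.both (.play 390 (.ref 6 198)) (.play 455 (.both (.play 518 (.ref 6 262)) (.ref 72 262)))))))))))))) (.both (.play 263 (.both (.ref 138 4) (.both (.play 135 (.ref 124 6)) (.both (.ref 137 68)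 (.play 390 (.both (.play 264 (.both (.play 325 (.both (.play 198 (.both (.play 134 (.both (.play 262 (.both (.play 70 (.ref 4 70)) (.play 389 (.ref 6 133)))) (.play 391 (.ref 7 134)))) (.both (.play 197 (.both (.play 133 (.both (.play 262 (.ref 7 133)) (.play 261 (.ref 4 133)))) (.play 196 (.ref 0 196)))) (.play 134 (.both (.play 197 (.both (.play 261 (.ref 136 133)) (.play 196 (.ref 0 196)))) (.play 391 (.ref 7 134))))))) (.play 324 (.ref 2 260)))) (.both (.play 265 (.both (.play 262 (.both (.play 198 (.both (.play 391 (.ref 135 134)) (.play 197 (.ref 3 197)))) (.play 329 (.both (.play 328 (.both (.play 261 (.ref 0 261)) (.play 389 (.ref 1 325)))) (.play 330 (.ref 0 262)))))) (.play 266 (.ref 1 262)))) (.both (.play 265 (.ref 97 260)) (.play 265 (.ref 17 260)))))) (.both (.play 454 (.ref 8 198)) (.play 454 (.ref 10 198))))))))) (.both (.play 390 (.both (.play 328 (.both (.play 135 (.both (.play 198 (.both (.play 325 (.both (.play 388 (.both (.play 324 (.both (.play 260 (.both (.play 265 (.both (.play 196 (.both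 (.play 131 (.both (.play 132 (.ref 43 67)) (.play 195 (.ref 7 131)))) (.both (.play 131 (.both (.play 132 (.both (.play 67 (.ref 7 67)) (.play 133 (.both (.play 69 (.ref 5 68)) (.play 134 (.ref 0 131)))))) (.play 195 (.ref 7 131)))) (.play 197 (.both (.play 133 (.ref 5 132)) (.play 136 (.ref 2 132))))))) (.play 264 (.ref 2 261)))) (.play 259 (.ref 3 259)))) (.play 387 (.ref 1 323)))) (.play 389 (.ref 1 324)))) (.both (.play 261 (.both (.play 197 (.both (.play 196 (.ref 134 130)) (.play 133 (.ref 4 133)))) (.play 260 (.ref 3 260)))) (.both (.play 389 (.both (.play 265 (.both (.play 197 (.both (.play 196 (.ref 134 130)) (.both (.play 196 (.both (.play 132 (.both (.play 131 (.ref 3 131)) (.play 261 (.ref 7 132)))) (.play 136 (.ref 2 132)))) (.play 261 (.ref 36 133))))) (.play 264 (.ref 2 261)))) (.play 388 (.ref 1 324)))) (.ref 101 259))))) (.play 262 (.ref 5 134)))) (.play 263 (.ref 6 134)))) (.both (.ref 133 131) (.both (.play 135 (.ref 132 131)) (.both (.play 329 (.both (.play 262 (.both (.play 263 (.both (.play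 135 (.ref 6 134)) (.play 330 (.ref 3 262)))) (.play 261 (.ref 3 261)))) (.play 389 (.ref 1 325)))) (.ref 83 260)))))) (.both (.ref 111 129) (.both (.ref 71 131) (.both (.play 263 (.ref 9 134)) (.ref 131 194)))))) (.both (.ref 128 66) (.both (.play 390 (.both (.ref 111 129) (.both (.ref 95 129) (.both (.play 263 (.both (.ref 109 129) (.play 135 (.ref 6 134)))) (.both (.play 263 (.both (.ref 100 130) (.play 135 (.ref 6 134)))) (.play 263 (.ref 11 134))))))) (.both (.ref 96 129) (.both (.play 390 (.both (.play 328 (.both (.play 325 (.both (.play 261 (.both (.play 388 (.both (.play 324 (.both (.play 197 (.both (.play 133 (.ref 4 133)) (.play 323 (.both (.play 322 (.both (.ref 34 257) (.play 262 (.ref 2 258)))) (.play 391 (.ref 0 323)))))) (.play 387 (.ref 1 323)))) (.play 389 (.ref 1 324)))) (.both (.play 454 (.ref 51 133)) (.both (.ref 57 196) (.play 389 (.both (.play 454 (.both (.play 264 (.both (.play 453 (.both (.ref 55 258) (.play 517 (.ref 54 261)))) (.play 265 (.ref 2 261)))) (.play 518 (.ref 7 261)))) (.play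 388 (.ref 1 324)))))))) (.both (.ref 52 132) (.play 388 (.both (.play 324 (.both (.ref 53 258) (.play 387 (.ref 1 323)))) (.play 389 (.ref 1 324))))))) (.both (.play 325 (.both (.ref 52 132) (.ref 50 261))) (.both (.ref 48 260) (.both (.play 329 (.ref 31 261)) (.ref 47 325)))))) (.both (.play 263 (.both (.play 328 (.both (.play 325 (.both (.play 389 (.both (.play 261 (.both (.play 264 (.both (.ref 44 132) (.play 265 (.ref 2 261)))) (.play 260 (.ref 3 260)))) (.play 388 (.ref 1 324)))) (.both (.play 389 (.both (.ref 42 258) (.play 388 (.ref 1 324)))) (.play 264 (.ref 37 260))))) (.both (.play 329 (.both (.ref 40 260) (.both (.ref 30 262) (.ref 39 262)))) (.both (.play 329 (.both (.play 262 (.ref 38 261)) (.play 389 (.ref 1 325)))) (.play 329 (.ref 31 261)))))) (.play 135 (.ref 6 134)))) (.both (.play 263 (.ref 11 134)) (.play 263 (.ref 9 134)))))) (.play 390 (.both (.play 328 (.both (.play 325 (.both (.play 263 (.both (.play 135 (.ref 6 134)) (.play 264 (.ref 37 260)))) (.both (.play 389 (.both (.play 135 (.both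 (.play 198 (.both (.play 261 (.both (.play 197 (.ref 36 133)) (.play 260 (.ref 3 260)))) (.play 262 (.ref 5 134)))) (.play 263 (.ref 6 134)))) (.play 388 (.ref 1 324)))) (.ref 35 259)))) (.both (.play 329 (.both (.play 330 (.both (.play 263 (.both (.play 135 (.ref 6 134)) (.play 262 (.ref 3 262)))) (.play 391 (.ref 1 326)))) (.play 389 (.ref 1 325)))) (.both (.ref 32 133) (.play 329 (.ref 31 261)))))) (.both (.ref 28 131) (.both (.play 262 (.both (.ref 20 131) (.both (.play 454 (.both (.play 261 (.both (.play 197 (.ref 7 197)) (.play 325 (.both (.play 260 (.ref 15 259)) (.play 518 (.ref 7 261)))))) (.play 263 (.ref 5 198)))) (.ref 14 197)))) (.both (.play 263 (.ref 11 134)) (.play 263 (.ref 9 134))))))))))))))))))))))))))))))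
    (by decide +kernel)

theorem Cert_L17 : PW ⟨18, nat_lit 1093625362391505962186251113558810682679798591535124198763969227389658824804732367599322174182129664, nat_lit 117304950450073441104427788677943620105822812397071588420146476458036565286869111272715094943199908511175354633517764018293891512478115582795994930291933896784887981074931720241130615136831142341311180023920828478827215642782627332583505960869878533457408, 18, nat_lit 117304950450073441104427788677943620105822812397071588420146476458036565286869111272715094943199908511175354633517764018293891512478115582795994930291933896784887981074931720241130615136831142341311180023920828478827215642782627332583505960869878533457408⟩ :=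
  sound2 baseTbl baseTbl_ok
    (.seq (.seq (.seq (.seq (.seq (.one (.play 68 (.both (.play 67 (.ref 0 0)) (.play 69 (.ref 0 1)))))
 (.seq (.one (.play 65 (.both (.play 64 (.ref 1 0)) (.play 66 (.ref 1 1)))))
 (.one (.both (.ref 9 0) (.ref 8 1)))))
 (.seq (.seq (.one (.play 4 (.both (.play 3 (.ref 2 0)) (.play 5 (.ref 2 1)))))
 (.one (.play 1 (.both (.play 0 (.ref 3 0)) (.play 2 (.ref 3 1))))))
 (.seq (.one (.both (.ref 12 0) (.ref 11 1)))
 (.one (.play 68 (.both (.play 69 (.ref 13 0)) (.play 133 (.ref 0 65))))))))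
 (.seq (.seq (.seq (.one (.play 65 (.both (.ref 12 0) (.ref 9 64))))
 (.one (.play 68 (.both (.ref 11 0) (.ref 8 64)))))
 (.seq (.one (.both (.ref 11 1) (.ref 9 64)))
 (.one (.both (.ref 12 0) (.ref 8 65)))))
 (.seq (.seq (.one (.play 69 (.both (.play 65 (.ref 13 0)) (.both (.play 70 (.ref 18 1)) (.ref 16 2)))))
 (.one (.play 257 (.both (.play 193 (.ref 4 0)) (.play 321 (.ref 4 64))))))
 (.seq (.one (.play 256 (.both (.play 192 (.ref 6 0)) (.play 320 (.ref 6 64)))))
 (.one (.both (.ref 21 0) (.ref 20 1)))))))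
 (.seq (.seq (.seq (.one (.play 65 (.both (.play 1 (.ref 5 0)) (.play 129 (.ref 5 64)))))
 (.seq (.one (.both (.ref 23 1) (.ref 21 64)))
 (.one (.both (.ref 23 0) (.ref 20 64)))))
 (.seq (.seq (.one (.play 257 (.both (.play 129 (.both (.play 321 (.both (.play 65 (.ref 25 1)) (.both (.play 385 (.ref 24 64)) (.play 385 (.ref 22 128))))) (.play 128 (.ref 3 128)))) (.play 256 (.ref 1 192)))))
 (.one (.play 196 (.both (.ref 26 0) (.both (.play 197 (.ref 17 128)) (.play 197 (.ref 13 128)))))))
 (.seq (.one (.play 194 (.both (.ref 26 1) (.both (.ref 15 128) (.both (.play 193 (.ref 13 128)) (.play 193 (.ref 17 128)))))))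
 (.one (.both (.ref 28 0) (.both (.ref 27 2) (.both (.ref 19 129) (.both (.play 198 (.both (.play 194 (.ref 17 129)) (.both (.ref 16 131) (.play 199 (.ref 10 194))))) (.play 198 (.both (.ref 15 129) (.both (.play 263 (.both (.ref 14 131) (.play 262 (.ref 0 195)))) (.play 199 (.ref 10 194)))))))))))))
 (.seq (.seq (.seq (.one (.play 69 (.both (.play 70 (.ref 17 1)) (.both (.ref 16 2) (.play 65 (.ref 10 64))))))
 (.one (.play 66 (.both (.ref 15 0) (.both (.play 65 (.ref 17 0)) (.play 70 (.ref 13 1)))))))
 (.seq (.one (.play 66 (.both (.play 65 (.ref 18 0)) (.both (.ref 15 0) (.play 70 (.ref 10 65))))))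
 (.one (.play 257 (.both (.play 64 (.ref 7 0)) (.play 321 (.ref 22 64)))))))
 (.seq (.seq (.one (.both (.play 0 (.ref 4 0)) (.play 321 (.both (.play 129 (.ref 7 64)) (.ref 33 128)))))
 (.one (.play 259 (.both (.play 130 (.ref 34 2)) (.play 260 (.ref 0 192))))))
 (.seq (.one (.play 196 (.both (.ref 35 1) (.both (.play 197 (.ref 13 128)) (.play 197 (.ref 10 192))))))
 (.one (.play 64 (.both (.play 0 (.ref 7 0)) (.play 128 (.ref 7 64))))))))))
 (.seq (.seq (.seq (.seq (.one (.both (.ref 37 0) (.ref 20 65)))
 (.seq (.one (.both (.ref 37 0) (.ref 21 64)))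
 (.one (.play 2 (.both (.play 66 (.both (.play 1 (.ref 3 1)) (.play 65 (.ref 10 64)))) (.play 3 (.ref 3 2)))))))
 (.seq (.seq (.one (.both (.play 0 (.ref 7 0)) (.ref 33 64)))
 (.one (.play 257 (.both (.play 64 (.both (.play 0 (.ref 7 0)) (.play 321 (.both (.play 128 (.ref 7 64)) (.play 384 (.both (.play 320 (.ref 6 128)) (.play 385 (.both (.play 449 (.ref 25 129)) (.play 448 (.ref 6 192)))))))))) (.both (.play 64 (.ref 41 0)) (.ref 20 1))))))
 (.seq (.one (.play 195 (.both (.play 197 (.both (.play 261 (.ref 4 4)) (.ref 31 128))) (.play 259 (.ref 6 3)))))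
 (.one (.play 257 (.both (.play 0 (.ref 7 0)) (.play 321 (.ref 22 64))))))))
 (.seq (.seq (.seq (.one (.play 68 (.both (.play 0 (.ref 3 0)) (.ref 16 1))))
 (.one (.play 260 (.both (.play 324 (.both (.play 132 (.both (.play 68 (.ref 24 3)) (.both (.play 133 (.both (.play 194 (.both (.play 134 (.both (.play 135 (.both (.ref 16 68) (.play 196 (.ref 1 131)))) (.play 131 (.ref 1 130)))) (.play 193 (.ref 2 129)))) (.play 69 (.ref 5 68)))) (.play 323 (.both (.play 325 (.both (.play 259 (.both (.play 68 (.ref 6 67)) (.ref 45 258))) (.play 389 (.ref 4 132)))) (.play 387 (.ref 6 131))))))) (.both (.ref 44 131) (.both (.play 388 (.ref 41 131)) (.play 388 (.both (.ref 43 192) (.both (.play 452 (.both (.play 259 (.ref 7 195)) (.play 516 (.both (.ref 21 259) (.both (.play 581 (.both (.play 580 (.both (.play 387 (.both (.play 389 (.both (.play 451 (.both (.play 390 (.both (.ref 16 323) (.play 450 (.ref 1 386)))) (.play 644 (.ref 7 387)))) (.play 325 (.ref 5 324)))) (.play 323 (.ref 7 323)))) (.play 645 (.ref 4 388)))) (.play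 517 (.ref 4 324)))) (.play 580 (.ref 22 323))))))) (.both (.play 452 (.ref 22 195)) (.both (.ref 33 195) (.ref 42 195)))))))))) (.play 261 (.ref 0 193))))))
 (.seq (.one (.play 194 (.both (.ref 35 2) (.both (.play 193 (.ref 13 128)) (.play 193 (.ref 10 192))))))
 (.one (.play 130 (.both (.play 66 (.both (.play 65 (.ref 13 0)) (.play 129 (.ref 1 65)))) (.play 131 (.ref 1 66)))))))
 (.seq (.seq (.one (.play 257 (.both (.play 2 (.ref 5 1)) (.play 321 (.ref 22 64)))))
 (.one (.play 65 (.both (.play 193 (.both (.play 66 (.both (.ref 49 0) (.play 133 (.ref 3 65)))) (.play 192 (.ref 1 128)))) (.play 64 (.ref 3 64))))))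
 (.seq (.one (.play 130 (.both (.ref 50 1) (.both (.play 129 (.ref 18 64)) (.play 129 (.ref 10 128))))))
 (.one (.both (.play 66 (.both (.ref 15 0) (.play 133 (.ref 0 66)))) (.play 135 (.ref 0 67))))))))
 (.seq (.seq (.seq (.seq (.one (.play 65 (.both (.ref 37 0) (.ref 23 1))))
 (.one (.play 193 (.both (.play 321 (.both (.play 129 (.both (.ref 53 0) (.both (.play 65 (.ref 38 0)) (.play 385 (.ref 25 65))))) (.play 320 (.ref 1 256)))) (.play 192 (.ref 3 192))))))
 (.seq (.one (.play 129 (.both (.play 65 (.ref 39 0)) (.play 66 (.ref 5 65)))))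
 (.one (.both (.play 321 (.both (.ref 55 0) (.play 385 (.ref 5 129)))) (.play 2 (.ref 6 1))))))
 (.seq (.seq (.one (.play 68 (.both (.play 1 (.ref 3 0)) (.ref 16 1))))
 (.one (.play 66 (.both (.ref 15 0) (.play 6 (.ref 2 2))))))
 (.seq (.one (.play 66 (.both (.ref 15 0) (.play 5 (.ref 2 2)))))
 (.one (.both (.ref 59 0) (.play 7 (.ref 2 3)))))))
 (.seq (.seq (.seq (.one (.play 67 (.both (.ref 40 0) (.play 6 (.ref 2 3)))))
 (.one (.play 68 (.both (.play 7 (.both (.ref 61 0) (.play 8 (.ref 2 4)))) (.both (.play 7 (.ref 60 1)) (.ref 9 67))))))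
 (.seq (.one (.play 68 (.both (.play 196 (.both (.play 67 (.both (.ref 44 3) (.play 128 (.ref 2 64)))) (.play 197 (.ref 0 129)))) (.play 69 (.ref 2 65)))))
 (.one (.both (.play 2 (.ref 6 1)) (.play 321 (.both (.play 129 (.ref 5 65)) (.play 385 (.both (.play 194 (.ref 5 129)) (.play 449 (.ref 22 192))))))))))
 (.seq (.seq (.one (.play 129 (.both (.play 65 (.both (.play 256 (.both (.play 192 (.both (.play 1 (.ref 6 0)) (.play 385 (.ref 41 128)))) (.play 320 (.ref 6 64)))) (.ref 23 1))) (.both (.play 65 (.ref 25 1)) (.ref 42 128)))))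
 (.one (.play 129 (.both (.play 65 (.ref 25 1)) (.play 384 (.ref 6 128))))))
 (.seq (.one (.both (.play 0 (.ref 3 0)) (.ref 57 1)))
 (.one (.play 328 (.both (.play 265 (.both (.ref 66 8) (.both (.ref 65 8) (.both (.play 327 (.both (.play 326 (.both (.ref 54 69) (.both (.ref 62 257) (.both (.ref 61 258) (.both (.ref 59 259) (.ref 15 260)))))) (.both (.ref 27 134) (.both (.play 326 (.ref 60 259)) (.ref 58 260))))) (.play 392 (.ref 56 135)))))) (.both (.play 265 (.both (.ref 66 8) (.both (.ref 65 8) (.both (.play 393 (.both (.play 394 (.both (.play 395 (.both (.play 396 (.both (.play 332 (.both (.play 460 (.both (.play 268 (.both (.play 204 (.ref 39 139)) (.both (.ref 53 139) (.both (.play 204 (.ref 24 139)) (.play 524 (.ref 39 203)))))) (.play 461 (.ref 0 393)))) (.play 333 (.ref 2 329)))) (.both (.play 397 (.both (.play 398 (.both (.play 463 (.both (.play 399 (.both (.ref 50 267) (.play 464 (.ref 0 396)))) (.play 462 (.ref 0 395)))) (.both (.ref 11 330) (.ref 16 331)))) (.play 330 (.ref 3 329)))) (.both (.ref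 16 329) (.both (.ref 57 329) (.play 397 (.both (.play 330 (.ref 67 329)) (.both (.play 330 (.both (.play 329 (.ref 3 329)) (.play 398 (.both (.play 331 (.ref 3 330)) (.play 335 (.both (.play 334 (.ref 2 331)) (.play 399 (.both (.play 336 (.ref 2 332)) (.play 400 (.ref 10 395)))))))))) (.ref 8 393))))))))) (.both (.play 392 (.both (.play 456 (.both (.play 265 (.ref 64 199)) (.play 455 (.ref 1 391)))) (.both (.ref 63 263) (.play 391 (.ref 17 326))))) (.both (.ref 45 328) (.play 396 (.ref 67 328)))))) (.play 458 (.ref 4 201)))) (.both (.play 457 (.ref 39 136)) (.play 457 (.ref 38 136))))) (.play 392 (.ref 56 135)))))) (.both (.play 265 (.both (.ref 66 8) (.both (.ref 65 8) (.both (.play 393 (.both (.play 457 (.ref 39 136)) (.both (.play 457 (.ref 38 136)) (.play 394 (.both (.play 392 (.both (.play 456 (.ref 6 200)) (.ref 19 326))) (.play 458 (.ref 4 201))))))) (.play 392 (.ref 64 135)))))) (.both (.play 265 (.both (.ref 66 8) (.both (.ref 65 8) (.both (.play 393 (.both (.play 457 (.ref 39 136)) (.both (.play 394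 (.both (.play 458 (.ref 4 201)) (.play 327 (.both (.ref 14 262) (.play 326 (.ref 0 326)))))) (.play 457 (.ref 22 200))))) (.play 392 (.ref 64 135)))))) (.both (.play 392 (.both (.play 200 (.both (.play 264 (.both (.play 136 (.ref 39 71)) (.both (.play 136 (.ref 38 71)) (.play 391 (.both (.play 390 (.both (.play 389 (.both (.ref 54 132) (.both (.play 388 (.both (.play 387 (.both (.play 450 (.both (.play 386 (.both (.ref 63 257) (.play 449 (.ref 1 385)))) (.play 451 (.ref 1 386)))) (.both (.ref 15 321) (.ref 12 322)))) (.play 327 (.ref 2 324)))) (.both (.ref 62 320) (.both (.ref 59 322) (.ref 15 323)))))) (.both (.play 393 (.both (.play 457 (.both (.play 264 (.ref 34 200)) (.play 458 (.ref 0 390)))) (.both (.ref 50 261) (.play 394 (.ref 18 325))))) (.both (.play 389 (.ref 60 322)) (.ref 58 323))))) (.play 455 (.ref 6 199))))))) (.both (.play 265 (.both (.play 393 (.both (.play 136 (.ref 7 136)) (.play 394 (.both (.play 458 (.ref 4 201)) (.play 327 (.both (.play 326 (.ref 0 326)) (.play 395 (.both (.play 392 (.ref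 3 327)) (.ref 57 328))))))))) (.play 137 (.ref 6 136)))) (.play 137 (.both (.play 265 (.ref 6 136)) (.play 264 (.ref 5 136))))))) (.both (.play 264 (.both (.ref 55 71) (.both (.play 200 (.both (.play 136 (.ref 38 71)) (.play 137 (.ref 5 136)))) (.both (.play 200 (.both (.play 136 (.ref 22 135)) (.play 137 (.ref 5 136)))) (.play 456 (.both (.play 520 (.ref 39 199)) (.both (.play 520 (.ref 38 199)) (.ref 43 260)))))))) (.both (.play 265 (.ref 56 135)) (.both (.play 456 (.both (.play 264 (.both (.play 200 (.ref 39 135)) (.play 265 (.ref 5 200)))) (.both (.play 520 (.both (.play 521 (.both (.play 264 (.both (.play 200 (.ref 39 135)) (.play 457 (.ref 4 264)))) (.play 585 (.ref 4 328)))) (.both (.play 264 (.ref 39 199)) (.both (.play 584 (.ref 39 263)) (.play 584 (.both (.play 648 (.ref 39 327)) (.play 393 (.ref 5 328)))))))) (.both (.play 265 (.both (.play 264 (.ref 5 200)) (.play 520 (.ref 5 264)))) (.ref 49 263))))) (.play 265 (.both (.play 137 (.ref 6 136)) (.play 456 (.both (.play 393 (.ref 6 200)) (.play 520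 (.ref 5 264))))))))))) (.both (.play 327 (.both (.play 326 (.both (.ref 54 69) (.both (.play 325 (.ref 18 260)) (.play 325 (.ref 10 324))))) (.both (.ref 27 134) (.both (.ref 51 196) (.both (.play 330 (.both (.play 326 (.both (.play 393 (.both (.play 325 (.both (.ref 48 258) (.play 392 (.ref 0 325)))) (.play 394 (.ref 0 326)))) (.both (.play 393 (.ref 52 259)) (.ref 12 261)))) (.both (.play 331 (.both (.play 392 (.both (.play 393 (.both (.play 326 (.ref 52 259)) (.play 332 (.ref 1 328)))) (.play 391 (.ref 1 327)))) (.ref 11 263))) (.play 331 (.ref 13 262))))) (.both (.ref 30 261) (.play 330 (.both (.play 331 (.ref 13 262)) (.play 326 (.ref 10 325)))))))))) (.both (.play 330 (.both (.ref 47 133) (.both (.play 331 (.both (.ref 46 135) (.both (.play 332 (.ref 18 263)) (.play 332 (.ref 13 263))))) (.both (.ref 51 197) (.both (.play 327 (.both (.ref 48 260) (.both (.ref 16 263) (.play 326 (.ref 10 325))))) (.ref 31 261)))))) (.both (.play 330 (.both (.ref 47 133) (.both (.play 331 (.both (.ref 46 135) (.both (.play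 332 (.ref 17 263)) (.both (.ref 16 264) (.play 332 (.ref 10 327)))))) (.both (.play 327 (.both (.ref 40 260) (.both (.play 326 (.ref 13 261)) (.ref 16 263)))) (.both (.ref 32 261) (.play 327 (.both (.ref 15 261) (.both (.play 326 (.ref 13 261)) (.play 331 (.ref 17 262)))))))))) (.both (.play 327 (.ref 29 132)) (.both (.play 327 (.both (.ref 28 132) (.both (.ref 36 134) (.both (.ref 32 260) (.both (.ref 19 261) (.ref 30 261)))))) (.both (.play 327 (.both (.play 326 (.both (.play 393 (.both (.play 265 (.both (.play 457 (.both (.play 201 (.ref 39 136)) (.both (.play 521 (.ref 38 200)) (.play 521 (.ref 22 264))))) (.play 266 (.ref 2 262)))) (.play 394 (.ref 0 326)))) (.both (.play 325 (.ref 18 260)) (.play 325 (.ref 13 260))))) (.both (.ref 36 134) (.both (.ref 32 260) (.both (.ref 31 260) (.both (.ref 19 261) (.ref 30 261))))))) (.play 330 (.ref 29 133)))))))))))))))))))))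
    (by decide +kernel)

theorem Cert_L18 : PW ⟨13, nat_lit 2521728396569246669585858566409191283532514007020976823255799320912282219478430758149114036411159886388130631676592128, nat_lit 182497624704887808791155658099062887290213532334640378273506435961888317181705178815485336105965427600398488841146704459380438425032577084721712752512304730074964804145851133856337921794944008352, 11, nat_lit 182497624704887808791155658099062887290213532334640378273506435961888317181705178815485336105965427600398488841146704459380438425032577084721712752512304730074964804145851133856337921794944008352⟩ :=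
  sound2 baseTbl baseTbl_ok
    (.seq (.seq (.seq (.one (.play 68 (.both (.play 67 (.ref 0 0)) (.play 69 (.ref 0 1)))))
 (.seq (.one (.play 4 (.both (.play 3 (.ref 2 0)) (.play 5 (.ref 2 1)))))
 (.one (.play 1 (.both (.play 0 (.ref 3 0)) (.play 2 (.ref 3 1)))))))
 (.seq (.seq (.one (.play 257 (.both (.play 193 (.ref 4 0)) (.play 321 (.ref 4 64)))))
 (.one (.play 64 (.both (.play 0 (.ref 7 0)) (.play 128 (.ref 7 64))))))
 (.seq (.one (.play 321 (.both (.ref 12 0) (.ref 11 65))))
 (.one (.play 256 (.both (.play 192 (.ref 6 0)) (.play 320 (.ref 6 64))))))))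
 (.seq (.seq (.one (.both (.ref 12 0) (.ref 14 64)))
 (.seq (.one (.play 65 (.both (.play 1 (.ref 5 0)) (.play 129 (.ref 5 64)))))
 (.one (.play 64 (.both (.ref 16 0) (.ref 11 64))))))
 (.seq (.seq (.one (.play 65 (.both (.ref 12 0) (.ref 16 1))))
 (.one (.play 65 (.both (.ref 10 0) (.play 129 (.both (.play 128 (.ref 1 64)) (.play 130 (.ref 1 65))))))))
 (.seq (.one (.play 257 (.both (.ref 14 0) (.ref 11 1))))
 (.one (.play 326 (.both (.play 198 (.both (.play 391 (.both (.play 134 (.both (.ref 18 5) (.play 327 (.ref 4 134)))) (.play 455 (.ref 4 198)))) (.both (.play 389 (.both (.play 134 (.both (.ref 18 5) (.play 325 (.ref 6 133)))) (.play 453 (.ref 6 197)))) (.ref 20 197)))) (.both (.play 198 (.both (.play 134 (.ref 15 69)) (.both (.ref 17 70) (.play 391 (.both (.play 389 (.both (.play 199 (.both (.play 135 (.ref 5 134)) (.play 388 (.both (.play 452 (.both (.play 324 (.both (.play 325 (.both (.play 516 (.both (.play 261 (.ref 5 260)) (.ref 20 323))) (.play 392 (.ref 3 324)))) (.play 323 (.ref 3 323)))) (.play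 451 (.ref 1 387)))) (.both (.play 387 (.both (.play 386 (.both (.ref 19 320) (.play 325 (.ref 2 322)))) (.play 327 (.ref 2 323)))) (.both (.play 387 (.both (.ref 19 321) (.play 327 (.ref 2 323)))) (.ref 19 322))))))) (.play 453 (.ref 6 197)))) (.play 455 (.ref 4 198))))))) (.both (.play 198 (.both (.ref 18 69) (.both (.play 134 (.both (.ref 16 70) (.ref 14 133))) (.play 454 (.ref 15 133))))) (.both (.play 198 (.both (.ref 18 69) (.both (.ref 17 70) (.ref 13 133)))) (.play 454 (.both (.play 518 (.ref 15 197)) (.both (.ref 13 197) (.play 455 (.both (.play 453 (.both (.play 517 (.ref 6 261)) (.play 456 (.both (.play 452 (.both (.ref 10 387) (.ref 9 388))) (.both (.play 457 (.both (.ref 10 388) (.ref 8 453))) (.play 457 (.both (.ref 9 389) (.ref 8 453)))))))) (.play 519 (.ref 4 262)))))))))))))))))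
    (by decide +kernel)

theorem Cert_L19 : PW ⟨13, nat_lit 2521728396569246669585858566409191283532514007020976823255799320912282219478430758149114036411159886388130631676592128, nat_lit 286389039184749615046757829846319465648113367745699336978636561006917221036816446934895063366541568040996115819526369791902130736492783549557336991786063917460047906148634321453949536915948438848440478245565435436878599113002360595180487805452165316640, 13, nat_lit 286389039184749615046757829846319465648113367745699336978636561006917221036816446934895063366541568040996115819526369791902130736492783549557336991786063917460047906148634321453949536915948438848440478245565435436878599113002360595180487805452165316640⟩ :=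
  sound2 baseTbl baseTbl_ok
    (.seq (.seq (.seq (.seq (.seq (.seq (.one (.play 64 (.both (.play 0 (.ref 7 0)) (.play 128 (.ref 7 64)))))
 (.seq (.one (.both (.ref 8 0) (.play 386 (.ref 4 129))))
 (.one (.both (.play 321 (.ref 9 0)) (.play 258 (.ref 4 65))))))
 (.seq (.seq (.one (.both (.play 1 (.ref 5 0)) (.play 257 (.ref 4 64))))
 (.one (.both (.play 64 (.ref 11 0)) (.play 129 (.ref 5 64)))))
 (.seq (.one (.play 321 (.both (.play 65 (.ref 12 0)) (.play 385 (.ref 4 128)))))
 (.one (.play 65 (.both (.play 0 (.ref 7 0)) (.play 2 (.ref 5 1))))))))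
 (.seq (.seq (.one (.play 66 (.both (.play 64 (.both (.ref 14 0) (.play 128 (.ref 7 64)))) (.play 130 (.ref 5 65)))))
 (.seq (.one (.play 132 (.both (.play 68 (.both (.play 1 (.ref 3 0)) (.play 133 (.ref 0 65)))) (.play 131 (.ref 0 64)))))
 (.one (.play 4 (.both (.play 3 (.ref 2 0)) (.play 68 (.both (.play 1 (.ref 3 0)) (.play 5 (.ref 2 1)))))))))
 (.seq (.seq (.one (.play 68 (.both (.play 67 (.ref 0 0)) (.play 69 (.ref 0 1)))))
 (.one (.play 1 (.both (.play 0 (.ref 0 0)) (.play 66 (.ref 3 1))))))
 (.seq (.one (.both (.ref 19 0) (.play 70 (.ref 3 2))))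
 (.one (.play 1 (.both (.play 0 (.ref 0 0)) (.play 4 (.ref 0 1)))))))))
 (.seq (.seq (.seq (.one (.play 2 (.both (.ref 21 0) (.play 70 (.ref 3 2)))))
 (.seq (.one (.play 131 (.both (.play 3 (.both (.play 4 (.ref 2 0)) (.play 195 (.both (.play 258 (.ref 6 2)) (.play 260 (.both (.play 259 (.both (.play 2 (.ref 7 2)) (.play 324 (.ref 4 67)))) (.play 196 (.ref 4 3)))))))) (.play 132 (.ref 0 64)))))
 (.one (.play 1 (.both (.play 5 (.both (.play 65 (.both (.play 0 (.ref 3 0)) (.play 4 (.ref 2 1)))) (.play 6 (.ref 2 2)))) (.play 2 (.ref 3 1)))))))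
 (.seq (.seq (.one (.play 1 (.both (.play 0 (.ref 3 0)) (.play 2 (.ref 3 1)))))
 (.one (.play 129 (.both (.play 3 (.both (.play 65 (.both (.play 64 (.ref 2 0)) (.play 128 (.ref 1 64)))) (.play 2 (.ref 3 2)))) (.play 130 (.ref 1 65))))))
 (.seq (.one (.both (.play 0 (.ref 3 0)) (.play 128 (.ref 1 64))))
 (.one (.play 129 (.both (.play 1 (.both (.play 65 (.ref 27 0)) (.play 2 (.ref 3 1)))) (.play 130 (.ref 1 65))))))))
 (.seq (.seq (.one (.play 65 (.both (.play 64 (.ref 1 0)) (.play 66 (.ref 1 1)))))
 (.seq (.one (.play 65 (.both (.ref 25 0) (.play 4 (.ref 2 1)))))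
 (.one (.play 136 (.both (.play 67 (.both (.play 66 (.both (.ref 30 0) (.ref 29 65))) (.both (.ref 28 1) (.both (.ref 26 1) (.ref 25 2))))) (.play 135 (.ref 0 68)))))))
 (.seq (.seq (.one (.both (.play 192 (.ref 4 0)) (.play 65 (.ref 7 0))))
 (.one (.both (.play 192 (.ref 4 0)) (.play 321 (.ref 7 64)))))
 (.seq (.one (.play 262 (.both (.play 198 (.ref 33 5)) (.both (.play 198 (.ref 32 5)) (.play 135 (.both (.play 132 (.both (.ref 31 64) (.both (.ref 24 66) (.ref 23 68)))) (.both (.ref 22 66) (.both (.play 68 (.ref 20 66)) (.play 136 (.both (.play 72 (.both (.play 132 (.both (.play 71 (.ref 2 68)) (.ref 18 132))) (.play 73 (.ref 2 69)))) (.both (.ref 17 69) (.ref 16 69))))))))))))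
 (.one (.play 257 (.both (.play 0 (.ref 4 0)) (.play 321 (.ref 33 64))))))))))
 (.seq (.seq (.seq (.seq (.one (.play 257 (.both (.play 0 (.ref 4 0)) (.play 321 (.ref 32 64)))))
 (.seq (.one (.play 65 (.both (.play 1 (.ref 5 0)) (.play 129 (.ref 5 64)))))
 (.one (.play 64 (.both (.ref 37 0) (.play 257 (.ref 4 64)))))))
 (.seq (.seq (.one (.play 4 (.both (.play 3 (.ref 2 0)) (.play 5 (.ref 2 1)))))
 (.one (.both (.ref 39 0) (.ref 18 64))))
 (.seq (.one (.play 257 (.both (.play 0 (.ref 7 0)) (.play 321 (.ref 7 64)))))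
 (.one (.both (.play 1 (.ref 6 0)) (.play 320 (.both (.play 128 (.ref 5 64)) (.play 384 (.ref 5 128)))))))))
 (.seq (.seq (.one (.play 1 (.both (.play 0 (.ref 3 0)) (.ref 17 1))))
 (.seq (.one (.both (.play 4 (.ref 2 0)) (.play 132 (.ref 0 64))))
 (.one (.play 4 (.both (.play 3 (.ref 2 0)) (.play 132 (.both (.play 68 (.ref 44 1)) (.play 131 (.ref 0 64)))))))))
 (.seq (.seq (.one (.play 3 (.both (.play 4 (.both (.play 65 (.both (.play 64 (.ref 2 0)) (.play 5 (.ref 2 1)))) (.play 71 (.ref 3 3)))) (.play 2 (.ref 3 2)))))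
 (.one (.play 197 (.both (.play 133 (.both (.play 132 (.both (.play 261 (.both (.play 68 (.both (.play 4 (.ref 4 4)) (.play 325 (.ref 7 68)))) (.play 262 (.ref 0 194)))) (.play 193 (.ref 2 129)))) (.play 134 (.ref 2 130)))) (.both (.play 262 (.both (.play 198 (.both (.ref 46 128) (.play 263 (.ref 0 195)))) (.play 261 (.ref 0 194)))) (.both (.play 198 (.both (.ref 46 128) (.both (.ref 39 130) (.ref 43 130)))) (.both (.ref 45 130) (.play 262 (.both (.play 198 (.both (.ref 43 130) (.play 263 (.ref 0 195)))) (.play 261 (.ref 0 194)))))))))))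
 (.seq (.one (.play 130 (.both (.play 66 (.both (.ref 30 0) (.play 129 (.ref 1 65)))) (.play 131 (.ref 1 66)))))
 (.one (.both (.play 0 (.ref 7 0)) (.play 256 (.ref 6 64))))))))
 (.seq (.seq (.seq (.one (.both (.play 65 (.ref 49 0)) (.play 128 (.ref 7 64))))
 (.seq (.one (.both (.ref 25 0) (.ref 39 1)))
 (.one (.both (.ref 39 1) (.ref 29 64)))))
 (.seq (.seq (.one (.both (.ref 25 0) (.ref 29 64)))
 (.one (.play 66 (.both (.play 65 (.ref 53 0)) (.both (.play 65 (.ref 52 0)) (.play 70 (.ref 51 1)))))))
 (.seq (.one (.play 193 (.both (.play 2 (.ref 6 1)) (.play 192 (.ref 3 192)))))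
 (.one (.both (.play 68 (.both (.ref 39 0) (.play 133 (.ref 0 65)))) (.play 131 (.ref 0 64)))))))
 (.seq (.seq (.one (.both (.play 0 (.ref 3 0)) (.play 64 (.ref 0 64))))
 (.seq (.one (.play 1 (.both (.play 64 (.ref 1 0)) (.play 68 (.ref 0 1)))))
 (.one (.play 65 (.both (.ref 58 0) (.play 66 (.ref 1 1)))))))
 (.seq (.seq (.one (.play 64 (.both (.play 66 (.both (.ref 14 0) (.play 130 (.ref 5 65)))) (.play 128 (.ref 7 64)))))
 (.one (.both (.play 65 (.ref 7 0)) (.play 321 (.ref 7 64)))))
 (.seq (.one (.both (.play 0 (.ref 0 0)) (.play 69 (.ref 0 1))))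
 (.one (.play 8 (.both (.play 67 (.both (.ref 48 0) (.both (.ref 28 1) (.both (.ref 26 1) (.ref 25 2))))) (.play 7 (.ref 2 4)))))))))))
 (.seq (.seq (.seq (.seq (.seq (.one (.both (.play 64 (.ref 2 0)) (.play 5 (.both (.play 68 (.ref 2 1)) (.play 6 (.ref 1 2))))))
 (.seq (.one (.play 65 (.both (.play 1 (.ref 6 0)) (.play 257 (.ref 6 64)))))
 (.one (.play 199 (.both (.play 265 (.both (.play 135 (.both (.ref 65 6) (.play 136 (.ref 64 132)))) (.both (.play 263 (.both (.play 135 (.both (.play 71 (.ref 6 70)) (.play 196 (.both (.play 136 (.ref 2 132)) (.play 195 (.ref 0 195)))))) (.play 264 (.ref 3 197)))) (.both (.play 200 (.ref 56 133)) (.play 264 (.both (.play 200 (.ref 0 197)) (.play 263 (.ref 3 197)))))))) (.both (.play 196 (.both (.play 135 (.both (.play 263 (.both (.play 71 (.ref 6 70)) (.play 264 (.ref 0 196)))) (.play 136 (.ref 2 132)))) (.both (.ref 63 128) (.play 263 (.ref 62 195))))) (.both (.play 132 (.ref 20 130)) (.play 200 (.both (.play 132 (.ref 3 132)) (.play 265 (.ref 56 133)))))))))))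
 (.seq (.seq (.one (.both (.ref 66 0) (.play 134 (.ref 7 69))))
 (.one (.both (.ref 29 0) (.ref 18 1))))
 (.seq (.one (.both (.play 256 (.ref 6 0)) (.play 258 (.ref 4 1))))
 (.one (.both (.play 64 (.ref 2 0)) (.play 2 (.ref 1 1)))))))
 (.seq (.seq (.one (.both (.play 65 (.ref 70 0)) (.play 6 (.ref 1 2))))
 (.seq (.one (.play 4 (.both (.play 65 (.ref 1 0)) (.play 69 (.ref 0 1)))))
 (.one (.play 68 (.both (.play 67 (.ref 0 0)) (.ref 72 0))))))
 (.seq (.seq (.one (.play 65 (.both (.play 64 (.ref 1 0)) (.ref 73 1))))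
 (.one (.play 65 (.both (.play 1 (.both (.play 64 (.ref 1 0)) (.ref 18 1))) (.play 66 (.ref 1 1))))))
 (.seq (.one (.play 1 (.both (.play 65 (.both (.play 0 (.ref 3 0)) (.ref 29 64))) (.play 2 (.ref 3 1)))))
 (.one (.play 69 (.both (.play 65 (.both (.play 64 (.ref 1 0)) (.ref 72 1))) (.play 68 (.ref 0 1)))))))))
 (.seq (.seq (.seq (.one (.play 257 (.both (.play 193 (.ref 4 0)) (.play 321 (.ref 4 64)))))
 (.seq (.one (.play 256 (.both (.play 192 (.ref 6 0)) (.play 320 (.ref 6 64)))))
 (.one (.play 257 (.both (.ref 79 0) (.ref 78 1))))))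
 (.seq (.seq (.one (.both (.ref 8 0) (.ref 78 65)))
 (.one (.both (.play 65 (.both (.play 64 (.ref 2 0)) (.play 68 (.ref 2 1)))) (.play 6 (.ref 1 2)))))
 (.seq (.one (.play 65 (.both (.play 1 (.ref 6 0)) (.play 320 (.ref 6 64)))))
 (.one (.both (.play 64 (.ref 1 0)) (.play 69 (.ref 0 1)))))))
 (.seq (.seq (.one (.both (.play 259 (.ref 6 3)) (.play 128 (.ref 0 128))))
 (.seq (.one (.play 66 (.both (.play 68 (.both (.play 0 (.ref 3 0)) (.play 4 (.ref 5 3)))) (.play 2 (.ref 7 2)))))
 (.one (.both (.play 66 (.ref 27 0)) (.play 4 (.ref 5 3))))))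
 (.seq (.seq (.one (.both (.play 65 (.ref 3 0)) (.play 69 (.ref 3 1))))
 (.one (.both (.play 0 (.ref 0 0)) (.play 69 (.ref 88 1)))))
 (.seq (.one (.play 196 (.both (.ref 35 3) (.play 128 (.ref 0 128)))))
 (.one (.both (.play 192 (.ref 6 0)) (.play 257 (.both (.ref 78 1) (.play 320 (.ref 6 64)))))))))))
 (.seq (.seq (.seq (.seq (.one (.play 256 (.both (.play 193 (.ref 6 0)) (.play 320 (.ref 5 64)))))
 (.seq (.one (.play 68 (.both (.play 3 (.ref 0 0)) (.play 69 (.ref 3 1)))))
 (.one (.both (.play 0 (.ref 0 0)) (.ref 93 1)))))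
 (.seq (.seq (.one (.both (.play 65 (.both (.play 1 (.ref 6 0)) (.play 128 (.ref 5 64)))) (.play 384 (.ref 5 128))))
 (.one (.play 64 (.both (.play 3 (.ref 2 0)) (.play 131 (.ref 0 64))))))
 (.seq (.one (.both (.play 64 (.ref 7 0)) (.play 320 (.ref 6 64))))
 (.one (.play 64 (.both (.play 0 (.ref 7 0)) (.play 320 (.both (.play 256 (.ref 6 64)) (.play 321 (.ref 97 64))))))))))
 (.seq (.seq (.one (.play 65 (.both (.ref 8 0) (.ref 37 1))))
 (.seq (.one (.play 256 (.both (.play 192 (.both (.play 1 (.ref 6 0)) (.play 449 (.ref 7 192)))) (.play 320 (.ref 6 64)))))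
 (.one (.play 68 (.both (.play 5 (.both (.play 4 (.ref 2 1)) (.play 69 (.both (.play 6 (.ref 2 2)) (.ref 18 65))))) (.play 129 (.ref 1 64)))))))
 (.seq (.seq (.one (.play 1 (.both (.play 65 (.both (.play 0 (.ref 3 0)) (.play 132 (.ref 0 65)))) (.play 2 (.ref 3 1)))))
 (.one (.both (.ref 37 0) (.ref 78 64))))
 (.seq (.one (.both (.play 65 (.ref 5 0)) (.play 321 (.ref 4 64))))
 (.one (.play 68 (.both (.ref 39 0) (.ref 73 65))))))))
 (.seq (.seq (.seq (.one (.play 65 (.both (.ref 25 0) (.play 132 (.ref 0 65)))))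
 (.seq (.one (.play 258 (.both (.play 194 (.both (.play 322 (.both (.play 130 (.both (.ref 99 1) (.both (.play 66 (.ref 81 1)) (.play 386 (.ref 103 66))))) (.play 321 (.ref 1 257)))) (.play 193 (.ref 3 193)))) (.both (.ref 106 192) (.ref 59 256)))))
 (.one (.play 129 (.both (.play 130 (.both (.play 66 (.both (.play 2 (.ref 4 2)) (.play 321 (.ref 5 65)))) (.play 197 (.ref 3 129)))) (.play 128 (.ref 3 128)))))))
 (.seq (.seq (.one (.play 455 (.both (.play 454 (.both (.play 517 (.both (.play 261 (.both (.play 260 (.both (.ref 107 1) (.both (.play 327 (.both (.play 324 (.both (.play 263 (.both (.ref 108 67) (.play 323 (.ref 1 259)))) (.both (.play 388 (.both (.play 197 (.both (.ref 65 68) (.play 452 (.ref 5 196)))) (.both (.play 197 (.ref 95 68)) (.play 387 (.both (.play 451 (.ref 42 195)) (.play 325 (.ref 1 323))))))) (.both (.play 263 (.both (.ref 108 67) (.both (.play 196 (.both (.play 388 (.both (.play 197 (.both (.play 133 (.ref 5 132)) (.play 452 (.ref 5 196)))) (.play 387 (.both (.play 451 (.ref 6 195)) (.play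 325 (.ref 1 323)))))) (.play 195 (.ref 3 195)))) (.both (.play 196 (.both (.play 195 (.ref 3 195)) (.play 264 (.both (.play 197 (.ref 3 196)) (.play 325 (.ref 2 260)))))) (.play 264 (.both (.play 265 (.both (.ref 39 197) (.play 266 (.ref 1 262)))) (.play 325 (.ref 2 260)))))))) (.play 323 (.ref 82 257)))))) (.both (.ref 93 260) (.play 328 (.ref 88 260))))) (.both (.play 259 (.both (.ref 96 194) (.play 327 (.ref 0 259)))) (.play 327 (.ref 94 259)))))) (.both (.play 260 (.both (.ref 107 1) (.both (.play 263 (.both (.play 196 (.both (.play 195 (.ref 3 195)) (.play 264 (.both (.play 327 (.both (.play 201 (.both (.play 200 (.ref 2 197)) (.play 265 (.both (.play 202 (.ref 2 198)) (.play 266 (.ref 1 262)))))) (.play 328 (.ref 0 260)))) (.both (.ref 45 197) (.both (.ref 105 197) (.ref 18 260))))))) (.both (.play 324 (.both (.ref 101 196) (.play 323 (.ref 1 259)))) (.both (.play 324 (.both (.play 264 (.both (.ref 105 197) (.play 325 (.ref 1 260)))) (.play 323 (.ref 1 259)))) (.both (.play 324 (.both (.play 518 (.both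 (.play 388 (.both (.play 387 (.both (.play 196 (.both (.play 451 (.ref 6 195)) (.play 195 (.ref 3 195)))) (.play 327 (.both (.play 328 (.ref 0 260)) (.play 325 (.ref 1 323)))))) (.both (.play 451 (.both (.play 196 (.both (.play 387 (.ref 6 195)) (.play 195 (.ref 3 195)))) (.play 515 (.both (.play 452 (.ref 6 259)) (.play 516 (.ref 2 451)))))) (.play 516 (.both (.play 452 (.ref 104 260)) (.play 515 (.ref 2 451))))))) (.both (.play 327 (.both (.play 328 (.ref 0 260)) (.play 390 (.ref 5 262)))) (.play 390 (.ref 97 261))))) (.play 323 (.ref 1 259)))) (.ref 77 259)))))) (.play 327 (.ref 94 259))))) (.both (.play 197 (.both (.play 133 (.both (.play 69 (.ref 4 69)) (.play 260 (.both (.play 263 (.both (.play 196 (.both (.play 324 (.both (.play 388 (.ref 5 132)) (.play 323 (.ref 1 259)))) (.play 195 (.ref 0 195)))) (.both (.play 196 (.both (.play 195 (.ref 0 195)) (.play 264 (.ref 3 196)))) (.play 328 (.both (.play 264 (.both (.play 265 (.ref 3 197)) (.play 329 (.ref 0 261)))) (.play 327 (.ref 0 260))))))) (.both (.play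 259 (.both (.play 258 (.ref 2 194)) (.play 327 (.ref 0 259)))) (.play 259 (.both (.play 258 (.ref 2 194)) (.play 195 (.both (.play 194 (.ref 3 194)) (.play 263 (.both (.play 196 (.ref 3 195)) (.ref 29 258)))))))))))) (.play 390 (.ref 7 197)))) (.play 390 (.both (.play 197 (.ref 7 197)) (.play 518 (.ref 97 261)))))))) (.both (.play 390 (.both (.ref 8 133) (.play 453 (.ref 6 261)))) (.play 516 (.both (.play 515 (.both (.play 514 (.both (.play 578 (.both (.play 450 (.both (.play 642 (.both (.play 386 (.ref 103 322)) (.both (.play 706 (.both (.ref 37 386) (.ref 79 449))) (.ref 80 449)))) (.play 449 (.ref 3 449)))) (.play 577 (.ref 1 513)))) (.both (.play 581 (.both (.ref 102 448) (.play 582 (.ref 0 514)))) (.play 577 (.both (.play 581 (.both (.ref 58 512) (.play 582 (.ref 0 514)))) (.play 578 (.ref 1 513))))))) (.play 518 (.ref 2 451)))) (.both (.play 456 (.both (.ref 101 389) (.play 453 (.ref 1 452)))) (.both (.play 515 (.both (.play 453 (.ref 70 450)) (.play 518 (.ref 2 451)))) (.play 453 (.ref 71 450)))))))))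 (.both (.play 456 (.both (.play 521 (.both (.play 393 (.both (.play 457 (.both (.play 329 (.both (.play 265 (.both (.play 202 (.both (.play 201 (.both (.ref 8 136) (.play 138 (.ref 5 137)))) (.play 266 (.ref 5 201)))) (.both (.play 201 (.both (.ref 100 136) (.ref 37 137))) (.ref 8 200)))) (.both (.play 520 (.both (.play 265 (.both (.ref 99 136) (.play 456 (.ref 6 264)))) (.play 584 (.ref 6 328)))) (.both (.play 264 (.both (.play 265 (.both (.play 200 (.ref 7 200)) (.ref 79 264))) (.play 328 (.ref 7 264)))) (.both (.play 585 (.both (.play 392 (.both (.play 456 (.both (.ref 83 200) (.play 649 (.ref 7 392)))) (.play 328 (.ref 7 328)))) (.both (.ref 79 328) (.ref 98 328)))) (.ref 98 264)))))) (.play 394 (.ref 2 390)))) (.both (.play 457 (.both (.play 520 (.both (.ref 83 264) (.play 453 (.ref 0 453)))) (.play 394 (.ref 2 390)))) (.both (.play 392 (.ref 64 389)) (.ref 96 389))))) (.both (.play 457 (.both (.play 393 (.both (.play 392 (.both (.ref 41 328) (.play 453 (.ref 2 389)))) (.play 394 (.ref 2 390)))) (.play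 522 (.ref 0 454)))) (.both (.play 520 (.ref 89 453)) (.play 522 (.both (.play 457 (.ref 0 454)) (.play 520 (.ref 88 454)))))))) (.both (.play 392 (.both (.play 520 (.both (.play 329 (.both (.play 393 (.ref 95 200)) (.both (.play 328 (.both (.play 327 (.both (.play 261 (.ref 3 261)) (.play 263 (.ref 7 263)))) (.play 265 (.ref 5 264)))) (.play 584 (.both (.play 393 (.ref 5 328)) (.play 647 (.ref 91 391))))))) (.both (.ref 90 325) (.play 453 (.ref 44 389))))) (.both (.play 328 (.both (.play 519 (.both (.play 327 (.both (.play 325 (.both (.play 324 (.both (.play 387 (.both (.play 323 (.both (.play 263 (.ref 2 259)) (.play 386 (.ref 1 322)))) (.play 388 (.ref 1 323)))) (.ref 25 259))) (.play 393 (.ref 0 325)))) (.both (.ref 22 259) (.play 393 (.ref 94 325))))) (.ref 92 327))) (.both (.play 327 (.both (.ref 22 259) (.both (.play 325 (.both (.play 324 (.ref 51 259)) (.play 393 (.ref 0 325)))) (.play 393 (.ref 94 325))))) (.play 519 (.both (.play 264 (.ref 6 263)) (.ref 92 327)))))) (.both (.play 520 (.both (.play 519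 (.both (.play 328 (.both (.ref 86 261) (.play 264 (.ref 6 263)))) (.both (.ref 83 263) (.play 453 (.both (.play 647 (.both (.play 517 (.both (.play 584 (.both (.play 585 (.both (.play 649 (.ref 4 392)) (.play 518 (.ref 0 517)))) (.play 648 (.both (.play 711 (.ref 6 455)) (.play 712 (.ref 7 455)))))) (.play 516 (.ref 1 452)))) (.play 583 (.ref 5 391)))) (.play 452 (.ref 0 452))))))) (.both (.play 647 (.both (.play 519 (.both (.play 328 (.both (.play 264 (.ref 6 263)) (.play 521 (.both (.play 585 (.ref 4 328)) (.play 522 (.ref 3 454)))))) (.play 583 (.ref 5 391)))) (.both (.play 521 (.both (.ref 35 328) (.play 522 (.ref 88 454)))) (.both (.play 583 (.both (.play 584 (.ref 6 391)) (.play 519 (.ref 5 391)))) (.play 584 (.ref 91 391)))))) (.both (.ref 90 325) (.play 521 (.ref 89 453)))))) (.both (.play 453 (.both (.play 452 (.both (.play 387 (.both (.play 451 (.both (.play 386 (.ref 3 386)) (.ref 75 449))) (.play 388 (.ref 3 387)))) (.both (.ref 76 386) (.both (.play 517 (.both (.play 387 (.both (.play 451 (.both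 (.play 386 (.ref 3 386)) (.play 518 (.ref 62 450)))) (.play 388 (.ref 3 387)))) (.play 516 (.ref 1 452)))) (.ref 29 451))))) (.play 393 (.ref 2 389)))) (.play 453 (.both (.play 393 (.ref 2 389)) (.play 520 (.both (.ref 59 451) (.play 521 (.ref 0 453))))))))))) (.both (.play 517 (.both (.play 453 (.both (.play 392 (.both (.play 328 (.both (.play 264 (.both (.play 265 (.ref 87 197)) (.play 519 (.ref 6 263)))) (.both (.play 265 (.both (.play 264 (.ref 87 197)) (.play 329 (.both (.play 327 (.both (.play 261 (.ref 3 261)) (.play 266 (.ref 2 262)))) (.play 520 (.ref 5 264)))))) (.both (.play 519 (.both (.play 264 (.ref 6 263)) (.play 520 (.ref 85 324)))) (.play 520 (.both (.ref 86 261) (.play 519 (.ref 85 324)))))))) (.play 393 (.ref 2 389)))) (.play 516 (.ref 1 452)))) (.both (.play 457 (.both (.play 393 (.both (.play 392 (.both (.play 329 (.both (.play 265 (.both (.play 264 (.both (.play 200 (.ref 7 200)) (.play 263 (.ref 84 261)))) (.play 201 (.ref 6 200)))) (.both (.play 584 (.both (.play 328 (.both (.play 264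 (.both (.play 200 (.ref 4 200)) (.play 519 (.ref 6 263)))) (.play 327 (.ref 57 261)))) (.play 520 (.ref 5 328)))) (.ref 83 200)))) (.play 453 (.ref 2 389)))) (.play 394 (.ref 2 390)))) (.play 518 (.ref 1 453)))) (.both (.play 518 (.ref 71 451)) (.play 518 (.ref 82 451)))))) (.both (.play 457 (.both (.play 521 (.both (.play 393 (.both (.play 585 (.both (.play 329 (.both (.ref 8 264) (.ref 79 328))) (.both (.play 649 (.ref 81 328)) (.ref 80 392)))) (.play 394 (.ref 2 390)))) (.play 522 (.ref 0 454)))) (.both (.play 518 (.both (.play 394 (.both (.play 393 (.ref 2 390)) (.play 458 (.both (.play 395 (.ref 2 391)) (.play 519 (.ref 1 454)))))) (.play 517 (.ref 1 453)))) (.ref 77 453)))) (.both (.play 453 (.both (.play 452 (.both (.ref 76 386) (.both (.play 451 (.both (.ref 25 386) (.play 518 (.both (.play 517 (.both (.play 450 (.ref 0 450)) (.play 457 (.ref 1 453)))) (.play 519 (.ref 0 451)))))) (.ref 29 451)))) (.both (.play 520 (.both (.play 452 (.both (.play 451 (.ref 53 386)) (.play 519 (.ref 0 452)))) (.play 521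 (.ref 0 453)))) (.both (.ref 75 451) (.both (.play 457 (.both (.play 518 (.both (.play 519 (.both (.play 452 (.ref 62 451)) (.play 458 (.ref 1 454)))) (.play 517 (.ref 1 453)))) (.both (.ref 74 453) (.ref 18 453)))) (.ref 74 452)))))) (.both (.play 453 (.both (.play 457 (.ref 52 388)) (.both (.play 457 (.ref 40 389)) (.play 452 (.ref 68 451))))) (.both (.play 457 (.both (.play 453 (.ref 52 388)) (.both (.play 458 (.ref 40 390)) (.play 453 (.ref 68 452))))) (.play 457 (.both (.play 453 (.ref 52 388)) (.both (.play 458 (.ref 40 390)) (.play 458 (.ref 68 453))))))))))))) (.both (.play 390 (.ref 9 133)) (.play 453 (.both (.play 517 (.both (.play 390 (.ref 6 261)) (.play 516 (.ref 71 450)))) (.both (.play 519 (.both (.play 390 (.ref 4 262)) (.play 520 (.both (.play 452 (.ref 0 452)) (.play 521 (.both (.play 456 (.ref 0 453)) (.play 518 (.ref 3 453)))))))) (.both (.play 390 (.ref 69 261)) (.play 452 (.both (.play 451 (.both (.ref 25 386) (.ref 18 451))) (.both (.play 451 (.ref 53 386)) (.play 456 (.ref 68 451)))))))))))))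 (.both (.play 391 (.both (.play 327 (.ref 67 129)) (.play 390 (.ref 4 198)))) (.both (.play 327 (.both (.play 391 (.ref 67 129)) (.both (.play 328 (.both (.ref 47 132) (.both (.play 325 (.both (.play 393 (.both (.ref 63 257) (.play 392 (.ref 0 325)))) (.both (.play 260 (.both (.play 324 (.both (.play 323 (.both (.play 263 (.ref 2 259)) (.ref 29 322))) (.play 259 (.ref 3 259)))) (.play 261 (.ref 3 260)))) (.both (.ref 24 259) (.ref 23 261))))) (.both (.ref 22 259) (.play 261 (.ref 20 259)))))) (.both (.play 391 (.both (.ref 66 129) (.play 519 (.ref 7 262)))) (.play 391 (.ref 61 198)))))) (.both (.play 390 (.ref 10 133)) (.play 391 (.both (.play 390 (.ref 4 198)) (.play 327 (.ref 61 198))))))))))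
 (.one (.both (.play 64 (.ref 2 0)) (.play 5 (.ref 1 1)))))
 (.seq (.one (.play 256 (.both (.play 192 (.both (.play 1 (.ref 6 0)) (.ref 41 128))) (.play 320 (.ref 6 64)))))
 (.one (.play 320 (.both (.play 64 (.ref 50 0)) (.play 384 (.ref 6 128))))))))
 (.seq (.seq (.seq (.one (.play 130 (.both (.play 129 (.both (.ref 112 0) (.play 66 (.ref 5 65)))) (.play 194 (.ref 5 129)))))
 (.one (.play 64 (.both (.play 0 (.ref 7 0)) (.play 321 (.both (.play 128 (.ref 7 64)) (.ref 79 64)))))))
 (.seq (.one (.play 65 (.both (.play 1 (.ref 5 0)) (.play 321 (.both (.play 257 (.ref 4 64)) (.play 320 (.ref 104 64)))))))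
 (.one (.play 193 (.both (.play 257 (.both (.play 64 (.both (.play 0 (.ref 4 0)) (.play 321 (.ref 4 64)))) (.play 448 (.ref 5 192)))) (.play 129 (.ref 5 128)))))))
 (.seq (.seq (.one (.both (.play 130 (.ref 6 1)) (.play 256 (.ref 1 192))))
 (.one (.both (.ref 106 0) (.play 134 (.ref 0 66)))))
 (.seq (.one (.both (.play 130 (.both (.play 68 (.both (.play 194 (.both (.play 66 (.both (.ref 8 1) (.play 67 (.both (.play 3 (.ref 5 2)) (.play 134 (.ref 0 66)))))) (.play 387 (.ref 4 130)))) (.play 132 (.ref 7 68)))) (.both (.play 194 (.both (.play 129 (.both (.play 67 (.both (.play 66 (.both (.play 3 (.ref 5 2)) (.play 68 (.ref 1 65)))) (.play 131 (.ref 5 66)))) (.play 65 (.ref 7 65)))) (.play 387 (.ref 4 130)))) (.both (.play 132 (.both (.play 131 (.ref 118 64)) (.play 68 (.ref 7 68)))) (.both (.play 132 (.both (.play 68 (.ref 7 68)) (.play 194 (.both (.play 131 (.ref 84 129)) (.play 387 (.ref 4 130)))))) (.play 194 (.both (.play 131 (.both (.play 67 (.ref 5 66)) (.play 132 (.ref 84 129)))) (.play 387 (.ref 4 130)))))))))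 (.play 257 (.ref 3 257))))
 (.one (.play 326 (.both (.play 454 (.both (.play 455 (.both (.play 198 (.both (.ref 113 5) (.play 391 (.ref 4 198)))) (.play 519 (.ref 4 262)))) (.both (.play 198 (.both (.play 135 (.both (.play 134 (.both (.ref 100 69) (.play 71 (.ref 5 70)))) (.play 199 (.ref 5 134)))) (.both (.play 391 (.both (.play 134 (.both (.ref 100 69) (.play 327 (.ref 4 134)))) (.play 455 (.ref 4 198)))) (.both (.ref 13 70) (.play 199 (.both (.play 135 (.ref 5 134)) (.play 391 (.both (.play 455 (.ref 4 198)) (.play 325 (.both (.play 518 (.both (.play 261 (.ref 7 261)) (.play 582 (.both (.play 389 (.ref 7 325)) (.play 327 (.ref 5 326)))))) (.both (.play 324 (.ref 94 323)) (.play 392 (.ref 20 323))))))))))))) (.both (.play 518 (.both (.play 517 (.both (.play 516 (.both (.play 451 (.both (.play 515 (.ref 119 193)) (.play 519 (.both (.play 583 (.ref 4 326)) (.play 452 (.ref 3 451)))))) (.both (.play 515 (.both (.play 451 (.ref 119 193)) (.both (.play 519 (.both (.play 583 (.ref 4 326)) (.ref 29 514))) (.ref 28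 449)))) (.both (.play 519 (.both (.play 325 (.both (.play 261 (.ref 7 261)) (.play 515 (.both (.play 324 (.both (.play 388 (.both (.play 387 (.ref 82 321)) (.play 579 (.ref 117 322)))) (.both (.play 391 (.ref 89 323)) (.play 391 (.ref 94 323))))) (.both (.ref 28 449) (.ref 25 450)))))) (.play 583 (.ref 4 326)))) (.both (.play 325 (.both (.play 324 (.both (.play 323 (.ref 118 257)) (.both (.play 323 (.both (.ref 102 257) (.both (.play 327 (.ref 53 258)) (.ref 59 321)))) (.both (.play 391 (.both (.play 388 (.both (.play 515 (.both (.play 260 (.both (.play 451 (.both (.play 452 (.ref 6 259)) (.play 450 (.ref 3 450)))) (.play 327 (.ref 27 259)))) (.both (.play 579 (.ref 117 322)) (.play 579 (.both (.play 451 (.both (.play 387 (.ref 5 323)) (.play 450 (.ref 3 450)))) (.play 578 (.ref 1 514))))))) (.both (.play 452 (.both (.play 515 (.both (.ref 55 258) (.play 579 (.ref 6 323)))) (.both (.play 580 (.both (.ref 79 323) (.play 389 (.ref 5 324)))) (.play 389 (.both (.play 580 (.ref 5 324)) (.play 451 (.ref 1 387)))))))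 (.play 387 (.ref 82 321))))) (.both (.ref 93 324) (.play 392 (.ref 88 324))))) (.play 391 (.ref 94 323)))))) (.play 261 (.ref 7 261)))) (.both (.play 519 (.both (.play 579 (.both (.play 325 (.both (.play 261 (.ref 7 261)) (.play 324 (.both (.play 388 (.both (.play 387 (.ref 82 321)) (.play 515 (.ref 117 322)))) (.both (.play 391 (.ref 89 323)) (.play 391 (.ref 94 323))))))) (.play 580 (.ref 1 515)))) (.play 583 (.ref 4 326)))) (.both (.play 519 (.both (.play 325 (.both (.play 452 (.both (.play 580 (.both (.play 388 (.both (.play 323 (.both (.play 324 (.both (.play 259 (.ref 7 259)) (.play 391 (.ref 0 323)))) (.play 387 (.ref 7 323)))) (.play 389 (.ref 5 324)))) (.play 579 (.ref 1 515)))) (.play 451 (.ref 3 451)))) (.play 261 (.ref 7 261)))) (.play 583 (.ref 4 326)))) (.play 519 (.both (.play 583 (.ref 4 326)) (.ref 28 450)))))))))) (.play 581 (.ref 6 325)))) (.both (.ref 114 261) (.both (.play 583 (.ref 10 261)) (.play 583 (.both (.play 582 (.both (.ref 79 325) (.play 647 (.ref 4 390)))) (.play 519 (.ref 4 326))))))))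 (.both (.play 518 (.both (.play 581 (.both (.play 582 (.both (.ref 116 198) (.play 645 (.ref 6 389)))) (.play 517 (.ref 6 325)))) (.both (.play 582 (.both (.ref 116 198) (.both (.ref 78 326) (.ref 115 326)))) (.both (.play 519 (.both (.play 455 (.both (.play 262 (.ref 4 262)) (.play 517 (.both (.play 581 (.ref 6 325)) (.play 456 (.ref 110 452)))))) (.play 583 (.ref 4 326)))) (.both (.play 583 (.both (.play 581 (.both (.play 517 (.ref 6 325)) (.play 582 (.ref 69 389)))) (.play 519 (.ref 4 326)))) (.play 581 (.both (.play 517 (.ref 6 325)) (.play 582 (.both (.ref 115 326) (.play 645 (.ref 6 389))))))))))) (.play 519 (.both (.play 518 (.both (.ref 114 261) (.play 583 (.ref 4 326)))) (.play 455 (.ref 4 262))))))))) (.both (.play 198 (.both (.ref 113 5) (.both (.play 134 (.both (.ref 112 5) (.both (.ref 8 69) (.ref 111 69)))) (.both (.ref 60 69) (.both (.play 135 (.both (.play 134 (.both (.ref 111 69) (.play 71 (.ref 5 70)))) (.play 199 (.ref 5 134)))) (.play 197 (.both (.play 261 (.both (.play 199 (.both (.play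 135 (.ref 5 134)) (.play 260 (.ref 110 195)))) (.play 454 (.ref 7 197)))) (.play 133 (.ref 7 133))))))))) (.both (.ref 109 64) (.both (.play 198 (.both (.ref 60 69) (.both (.play 133 (.both (.play 391 (.both (.play 134 (.both (.play 69 (.ref 7 69)) (.play 327 (.ref 4 134)))) (.play 455 (.ref 4 198)))) (.play 197 (.ref 7 133)))) (.both (.ref 13 70) (.play 197 (.both (.play 199 (.both (.play 455 (.both (.play 200 (.both (.play 265 (.both (.play 137 (.both (.play 196 (.both (.play 195 (.both (.ref 25 130) (.ref 59 193))) (.both (.play 131 (.both (.play 261 (.both (.play 195 (.ref 57 130)) (.play 260 (.ref 1 196)))) (.play 132 (.ref 3 131)))) (.both (.ref 28 130) (.ref 29 195))))) (.play 136 (.ref 2 133)))) (.play 264 (.ref 0 197)))) (.both (.play 265 (.ref 56 133)) (.play 261 (.both (.play 260 (.ref 1 196)) (.play 201 (.ref 1 197))))))) (.play 391 (.ref 4 198)))) (.play 135 (.ref 5 134)))) (.play 133 (.ref 7 133)))))))) (.both (.play 391 (.both (.play 392 (.both (.play 389 (.both (.play 198 (.both (.ref 15 69)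 (.both (.play 197 (.both (.play 135 (.both (.play 199 (.ref 5 134)) (.ref 31 321))) (.play 133 (.ref 7 133)))) (.ref 55 132)))) (.both (.play 328 (.both (.play 135 (.both (.play 134 (.both (.play 264 (.both (.play 136 (.both (.ref 54 67) (.both (.play 200 (.ref 49 71)) (.play 325 (.both (.play 327 (.both (.play 200 (.ref 6 135)) (.play 265 (.ref 2 261)))) (.play 324 (.ref 3 324))))))) (.both (.play 136 (.both (.ref 54 67) (.both (.play 200 (.ref 49 71)) (.play 200 (.both (.play 201 (.both (.play 133 (.ref 0 133)) (.play 137 (.ref 5 136)))) (.play 327 (.ref 6 135))))))) (.both (.play 456 (.both (.play 201 (.both (.play 200 (.both (.play 136 (.both (.play 71 (.ref 7 71)) (.play 133 (.ref 0 133)))) (.play 137 (.ref 5 136)))) (.play 265 (.ref 5 200)))) (.play 457 (.ref 0 389)))) (.play 325 (.both (.play 265 (.both (.play 456 (.both (.play 201 (.ref 5 200)) (.play 457 (.ref 0 389)))) (.play 327 (.ref 2 261)))) (.play 324 (.ref 3 324)))))))) (.both (.play 198 (.both (.play 71 (.ref 5 70)) (.play 325 (.ref 6 133))))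 (.both (.play 198 (.ref 11 70)) (.play 198 (.both (.play 325 (.ref 6 133)) (.play 327 (.ref 4 134)))))))) (.both (.play 325 (.both (.play 456 (.both (.play 264 (.both (.play 200 (.ref 50 71)) (.both (.play 200 (.both (.play 199 (.ref 7 135)) (.ref 37 136))) (.play 265 (.both (.play 201 (.ref 5 200)) (.play 327 (.ref 2 261))))))) (.play 457 (.ref 0 389)))) (.play 324 (.ref 3 324)))) (.both (.play 198 (.ref 12 70)) (.play 325 (.both (.play 198 (.both (.play 134 (.ref 6 133)) (.play 199 (.ref 5 134)))) (.play 324 (.ref 3 324)))))))) (.play 329 (.ref 2 325)))) (.both (.play 328 (.both (.play 388 (.both (.ref 48 321) (.play 327 (.ref 2 324)))) (.play 329 (.ref 2 325)))) (.both (.play 328 (.both (.play 388 (.both (.play 323 (.both (.play 451 (.both (.play 387 (.ref 27 322)) (.play 452 (.ref 1 387)))) (.play 324 (.ref 3 323)))) (.play 327 (.ref 2 324)))) (.play 329 (.ref 2 325)))) (.play 324 (.both (.play 388 (.both (.play 323 (.ref 3 323)) (.ref 39 324))) (.play 325 (.ref 3 324))))))))) (.both (.ref 47 196) (.both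 (.ref 22 323) (.play 325 (.ref 20 323)))))) (.both (.ref 36 198) (.both (.ref 35 198) (.ref 34 257))))) (.both (.play 391 (.both (.play 392 (.both (.play 325 (.both (.play 198 (.both (.play 135 (.both (.play 134 (.both (.play 71 (.ref 5 70)) (.play 389 (.ref 6 133)))) (.play 199 (.ref 5 134)))) (.both (.ref 38 70) (.both (.play 199 (.both (.play 261 (.both (.play 201 (.both (.play 328 (.both (.play 329 (.both (.play 265 (.ref 42 136)) (.play 389 (.ref 2 325)))) (.play 260 (.both (.play 259 (.ref 2 195)) (.play 327 (.ref 3 260)))))) (.play 200 (.ref 1 197)))) (.ref 41 197))) (.play 135 (.ref 5 134)))) (.play 134 (.both (.play 389 (.ref 6 133)) (.play 327 (.ref 4 134)))))))) (.both (.ref 21 323) (.ref 19 323)))) (.both (.ref 22 323) (.both (.play 325 (.ref 20 323)) (.play 393 (.both (.play 389 (.ref 40 325)) (.both (.ref 17 326) (.ref 16 326)))))))) (.both (.play 198 (.both (.ref 38 70) (.play 455 (.ref 4 198)))) (.both (.ref 36 198) (.both (.ref 35 198) (.ref 34 257)))))) (.play 198 (.both (.ref 15 69) (.both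 (.ref 13 70) (.play 455 (.ref 10 133))))))))))))))))))))
    (by decide +kernel)

theorem Cert_L20 : PW ⟨19, nat_lit 10086913586276986678343434265636765134130056028083907293023197283649128877913723032596456145644639545552522526706368512, nat_lit 12474001934591998823799033256275353160319737096191030127035647652196099582506190331826795090673252796169452823411810053296453193559715254249671006908153482310131301581816432515086697296628475595693922730687790016411238847781355100366509721286229375791667036165125309213241549329004275402046080, 19, nat_lit 12474001934591998823799033256275353160319737096191030127035647652196099582506190331826795090673252796169452823411810053296453193559715254249671006908153482310131301581816432515086697296628475595693922730687790016411238847781355100366509721286229375791667036165125309213241549329004275402046080⟩ :=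
  sound2 baseTbl baseTbl_ok
    (.seq (.seq (.seq (.seq (.seq (.seq (.one (.play 68 (.both (.play 67 (.ref 0 0)) (.play 69 (.ref 0 1)))))
 (.seq (.one (.play 65 (.both (.play 64 (.ref 1 0)) (.play 66 (.ref 1 1)))))
 (.one (.both (.ref 9 0) (.ref 8 1)))))
 (.seq (.seq (.one (.play 1 (.both (.play 0 (.ref 3 0)) (.play 2 (.ref 3 1)))))
 (.one (.both (.ref 11 0) (.ref 8 65))))
 (.seq (.one (.both (.ref 11 0) (.ref 9 64)))
 (.one (.both (.play 65 (.ref 13 0)) (.both (.play 70 (.ref 12 1)) (.play 65 (.ref 10 64))))))))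
 (.seq (.seq (.seq (.one (.play 4 (.both (.play 3 (.ref 2 0)) (.play 5 (.ref 2 1)))))
 (.one (.both (.ref 11 0) (.ref 15 1))))
 (.seq (.one (.both (.ref 15 1) (.ref 9 64)))
 (.one (.play 66 (.both (.play 65 (.ref 13 0)) (.both (.play 65 (.ref 17 0)) (.play 70 (.ref 16 1))))))))
 (.seq (.seq (.one (.both (.ref 15 0) (.ref 8 64)))
 (.one (.play 66 (.both (.play 65 (.ref 13 0)) (.ref 15 2)))))
 (.seq (.one (.play 66 (.both (.play 65 (.ref 13 0)) (.ref 8 66))))
 (.one (.play 257 (.both (.play 193 (.ref 4 0)) (.play 321 (.ref 4 64)))))))))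
 (.seq (.seq (.seq (.one (.play 256 (.both (.play 192 (.ref 6 0)) (.play 320 (.ref 6 64)))))
 (.seq (.one (.both (.ref 23 0) (.ref 22 1)))
 (.one (.play 257 (.both (.play 64 (.ref 7 0)) (.play 321 (.ref 24 64)))))))
 (.seq (.seq (.one (.play 257 (.both (.play 0 (.ref 7 0)) (.ref 25 64))))
 (.one (.play 68 (.both (.play 0 (.ref 3 0)) (.play 69 (.ref 19 1))))))
 (.seq (.one (.play 195 (.both (.play 67 (.both (.play 259 (.both (.play 260 (.both (.play 258 (.both (.play 194 (.both (.play 3 (.ref 6 2)) (.ref 27 193))) (.play 322 (.ref 6 66)))) (.play 324 (.ref 4 67)))) (.both (.play 323 (.ref 24 66)) (.ref 26 66)))) (.play 68 (.ref 2 64)))) (.play 196 (.ref 0 128)))))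
 (.one (.play 132 (.both (.ref 28 1) (.both (.play 133 (.ref 12 64)) (.both (.play 133 (.ref 16 64)) (.play 133 (.ref 19 65))))))))))
 (.seq (.seq (.seq (.one (.play 130 (.both (.play 197 (.both (.play 69 (.both (.ref 25 4) (.play 70 (.ref 2 66)))) (.play 198 (.ref 0 130)))) (.both (.play 129 (.ref 12 64)) (.play 129 (.ref 16 64))))))
 (.one (.both (.play 65 (.ref 13 0)) (.both (.play 65 (.ref 16 0)) (.play 70 (.ref 17 1))))))
 (.seq (.one (.both (.play 65 (.ref 12 0)) (.both (.play 70 (.ref 16 1)) (.play 70 (.ref 19 2)))))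
 (.one (.play 66 (.both (.play 65 (.ref 13 0)) (.play 70 (.ref 19 2)))))))
 (.seq (.seq (.one (.play 132 (.both (.play 192 (.both (.ref 28 1) (.play 193 (.ref 1 128)))) (.both (.play 133 (.ref 17 64)) (.both (.play 133 (.ref 19 65)) (.play 133 (.ref 10 128)))))))
 (.one (.play 257 (.both (.play 66 (.ref 5 1)) (.play 321 (.ref 24 64))))))
 (.seq (.one (.play 257 (.both (.play 2 (.ref 5 1)) (.ref 35 64))))
 (.one (.play 66 (.both (.play 65 (.ref 13 0)) (.play 6 (.ref 2 2))))))))))
 (.seq (.seq (.seq (.seq (.one (.play 196 (.both (.play 68 (.both (.play 260 (.both (.play 259 (.both (.play 261 (.both (.play 197 (.both (.play 4 (.ref 4 4)) (.ref 37 192))) (.play 325 (.ref 4 68)))) (.play 323 (.ref 6 67)))) (.both (.play 324 (.ref 24 67)) (.ref 36 67)))) (.play 67 (.ref 3 67)))) (.play 195 (.ref 1 131)))))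
 (.seq (.one (.play 132 (.both (.play 200 (.both (.ref 38 0) (.play 199 (.ref 0 132)))) (.both (.play 131 (.ref 12 66)) (.both (.play 131 (.ref 13 66)) (.play 131 (.ref 10 130)))))))
 (.one (.play 66 (.both (.play 65 (.ref 12 0)) (.both (.play 65 (.ref 13 0)) (.play 70 (.ref 10 65))))))))
 (.seq (.seq (.one (.play 135 (.both (.play 67 (.both (.ref 20 0) (.play 134 (.ref 0 67)))) (.play 136 (.ref 0 68)))))
 (.one (.play 132 (.both (.ref 38 0) (.both (.play 131 (.ref 13 66)) (.both (.play 131 (.ref 16 66)) (.play 131 (.ref 17 66))))))))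
 (.seq (.one (.both (.play 65 (.ref 5 1)) (.ref 35 64)))
 (.one (.both (.play 2 (.ref 6 1)) (.play 321 (.ref 43 64)))))))
 (.seq (.seq (.seq (.one (.play 257 (.both (.play 130 (.ref 44 0)) (.play 256 (.ref 1 192)))))
 (.one (.play 196 (.both (.ref 45 0) (.both (.play 197 (.ref 13 128)) (.both (.play 197 (.ref 12 128)) (.play 197 (.ref 10 192))))))))
 (.seq (.one (.play 68 (.both (.play 1 (.ref 3 0)) (.play 69 (.ref 19 1)))))
 (.one (.play 68 (.both (.play 0 (.ref 3 0)) (.ref 47 1))))))
 (.seq (.seq (.one (.play 7 (.both (.play 67 (.both (.ref 21 0) (.play 6 (.ref 2 3)))) (.play 8 (.ref 2 4)))))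
 (.one (.play 66 (.both (.play 65 (.ref 13 0)) (.play 5 (.ref 2 2))))))
 (.seq (.one (.play 67 (.both (.ref 50 0) (.play 7 (.ref 2 3)))))
 (.one (.play 68 (.both (.ref 51 0) (.both (.ref 37 1) (.ref 11 3)))))))))
 (.seq (.seq (.seq (.seq (.one (.play 193 (.both (.play 257 (.ref 43 0)) (.play 192 (.ref 1 128)))))
 (.one (.both (.play 65 (.ref 7 0)) (.ref 25 64))))
 (.seq (.one (.both (.play 0 (.ref 4 0)) (.play 321 (.ref 54 64))))
 (.one (.play 195 (.both (.play 259 (.ref 44 2)) (.both (.play 194 (.ref 31 128)) (.ref 18 128)))))))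
 (.seq (.seq (.one (.play 66 (.both (.play 65 (.ref 13 0)) (.play 134 (.ref 0 66)))))
 (.one (.play 69 (.both (.ref 11 0) (.play 70 (.ref 19 2))))))
 (.seq (.one (.play 3 (.both (.play 64 (.ref 2 0)) (.ref 48 2))))
 (.one (.play 258 (.both (.play 194 (.both (.play 193 (.both (.play 129 (.both (.play 65 (.ref 55 1)) (.play 128 (.ref 3 128)))) (.play 132 (.ref 2 129)))) (.play 257 (.ref 1 193)))) (.play 259 (.ref 1 194))))))))
 (.seq (.seq (.seq (.one (.play 69 (.both (.play 70 (.ref 17 1)) (.both (.play 70 (.ref 19 2)) (.play 65 (.ref 10 64))))))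
 (.one (.play 130 (.both (.play 65 (.both (.ref 28 2) (.play 66 (.ref 3 65)))) (.both (.play 129 (.ref 12 64)) (.both (.play 129 (.ref 16 64)) (.play 129 (.ref 19 65))))))))
 (.seq (.one (.play 68 (.both (.play 69 (.ref 19 1)) (.play 129 (.ref 1 64)))))
 (.one (.both (.play 69 (.both (.ref 63 2) (.play 66 (.ref 1 65)))) (.play 128 (.ref 2 64))))))
 (.seq (.seq (.one (.play 64 (.both (.play 0 (.ref 7 0)) (.play 128 (.ref 7 64)))))
 (.one (.both (.ref 65 0) (.ref 23 64))))
 (.seq (.one (.play 65 (.both (.play 1 (.ref 5 0)) (.play 129 (.ref 5 64)))))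
 (.one (.both (.ref 67 1) (.ref 23 64)))))))))
 (.seq (.seq (.seq (.seq (.seq (.one (.play 65 (.both (.ref 65 0) (.ref 67 1))))
 (.seq (.one (.play 260 (.both (.play 324 (.both (.play 196 (.both (.play 132 (.both (.play 68 (.ref 66 3)) (.both (.ref 69 3) (.play 388 (.ref 68 67))))) (.both (.play 132 (.both (.ref 69 3) (.both (.play 68 (.ref 68 3)) (.play 388 (.ref 66 67))))) (.play 197 (.ref 64 129))))) (.play 325 (.ref 0 257)))) (.both (.play 261 (.ref 12 192)) (.play 261 (.ref 16 192))))))
 (.one (.both (.play 65 (.ref 17 0)) (.both (.play 70 (.ref 19 2)) (.play 70 (.ref 10 65)))))))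
 (.seq (.seq (.one (.play 69 (.both (.play 70 (.ref 19 2)) (.ref 9 64))))
 (.one (.play 69 (.both (.play 65 (.ref 16 0)) (.both (.play 70 (.ref 12 1)) (.play 70 (.ref 19 2)))))))
 (.seq (.one (.play 68 (.both (.ref 41 0) (.both (.ref 21 1) (.ref 11 3)))))
 (.one (.play 196 (.both (.play 68 (.both (.play 67 (.both (.play 260 (.both (.play 3 (.ref 7 3)) (.play 324 (.ref 24 67)))) (.play 128 (.ref 2 64)))) (.play 69 (.ref 2 65)))) (.play 197 (.ref 0 129))))))))
 (.seq (.seq (.seq (.one (.both (.play 132 (.ref 4 4)) (.ref 57 128)))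
 (.one (.play 129 (.both (.play 256 (.ref 6 0)) (.play 258 (.ref 4 1))))))
 (.seq (.one (.play 68 (.both (.play 69 (.ref 19 1)) (.play 128 (.ref 1 64)))))
 (.one (.both (.play 130 (.ref 6 1)) (.ref 78 128)))))
 (.seq (.seq (.one (.play 129 (.both (.ref 69 0) (.play 384 (.ref 6 128)))))
 (.one (.play 129 (.both (.ref 69 0) (.play 386 (.ref 4 129))))))
 (.seq (.one (.play 260 (.both (.ref 81 3) (.both (.ref 80 3) (.play 451 (.both (.play 453 (.both (.play 452 (.both (.play 389 (.both (.play 388 (.ref 4 196)) (.ref 37 384))) (.both (.play 388 (.both (.play 389 (.ref 4 196)) (.play 515 (.ref 6 259)))) (.both (.play 515 (.ref 79 258)) (.play 454 (.ref 71 385)))))) (.both (.play 389 (.both (.play 261 (.both (.play 262 (.both (.ref 78 195) (.play 198 (.ref 5 197)))) (.play 196 (.ref 7 196)))) (.play 517 (.ref 7 260)))) (.both (.play 389 (.ref 54 196)) (.both (.play 452 (.both (.play 517 (.ref 76 256)) (.both (.play 515 (.ref 79 258)) (.both (.ref 77 259) (.ref 40 384))))) (.play 517 (.both (.play 452 (.ref 76 256))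 (.play 389 (.ref 7 260))))))))) (.both (.play 387 (.ref 43 194)) (.play 387 (.both (.play 388 (.ref 6 195)) (.play 259 (.ref 5 195)))))))))))
 (.one (.play 261 (.both (.ref 81 4) (.both (.ref 80 4) (.play 454 (.both (.play 452 (.both (.play 388 (.both (.play 260 (.both (.play 259 (.both (.ref 57 192) (.play 195 (.ref 7 195)))) (.play 197 (.ref 5 196)))) (.play 516 (.ref 5 260)))) (.both (.play 453 (.both (.play 388 (.both (.play 389 (.ref 6 196)) (.ref 27 387))) (.both (.play 389 (.both (.play 388 (.ref 6 196)) (.play 518 (.ref 4 261)))) (.both (.play 518 (.ref 76 257)) (.play 451 (.ref 14 385)))))) (.both (.play 388 (.ref 43 195)) (.both (.play 453 (.both (.play 518 (.ref 76 257)) (.both (.play 516 (.ref 79 259)) (.both (.ref 77 260) (.ref 61 386))))) (.play 516 (.both (.play 453 (.ref 79 259)) (.play 388 (.ref 5 260))))))))) (.both (.play 390 (.both (.play 389 (.ref 4 197)) (.play 262 (.ref 7 197)))) (.play 390 (.ref 54 197)))))))))))))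
 (.seq (.seq (.seq (.seq (.one (.play 257 (.both (.play 2 (.ref 5 1)) (.play 321 (.ref 24 64)))))
 (.one (.play 257 (.both (.ref 22 1) (.both (.ref 84 64) (.ref 36 64))))))
 (.seq (.one (.play 256 (.both (.play 192 (.ref 6 0)) (.play 257 (.both (.play 320 (.ref 6 64)) (.ref 36 64))))))
 (.one (.play 195 (.both (.play 259 (.ref 6 3)) (.ref 37 128))))))
 (.seq (.seq (.one (.both (.ref 87 0) (.play 261 (.ref 4 4))))
 (.one (.play 66 (.both (.play 65 (.ref 13 0)) (.play 133 (.ref 0 66))))))
 (.seq (.one (.play 260 (.both (.play 196 (.ref 6 4)) (.play 261 (.both (.play 325 (.both (.play 70 (.ref 5 69)) (.play 326 (.both (.play 390 (.ref 4 133)) (.play 327 (.both (.play 259 (.both (.ref 89 192) (.play 262 (.ref 0 259)))) (.play 328 (.ref 3 260)))))))) (.play 324 (.ref 6 68)))))))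
 (.one (.play 321 (.both (.ref 67 1) (.play 385 (.ref 24 128))))))))
 (.seq (.seq (.seq (.one (.play 257 (.both (.play 64 (.ref 7 0)) (.ref 91 0))))
 (.one (.play 132 (.both (.play 4 (.ref 4 4)) (.play 260 (.ref 88 64))))))
 (.seq (.one (.play 67 (.both (.ref 89 0) (.play 135 (.ref 0 67)))))
 (.one (.play 132 (.both (.ref 53 0) (.play 133 (.ref 19 65)))))))
 (.seq (.seq (.one (.play 134 (.both (.play 6 (.ref 4 6)) (.play 262 (.both (.play 261 (.both (.play 325 (.ref 6 69)) (.play 260 (.both (.play 324 (.both (.play 196 (.both (.play 197 (.both (.ref 84 131) (.play 264 (.ref 3 196)))) (.play 195 (.ref 3 195)))) (.play 323 (.ref 1 259)))) (.both (.ref 51 192) (.play 259 (.ref 13 194))))))) (.play 327 (.ref 4 70)))))))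
 (.one (.play 68 (.both (.ref 78 1) (.both (.play 69 (.both (.ref 63 2) (.play 129 (.ref 1 65)))) (.ref 8 64))))))
 (.seq (.one (.play 448 (.both (.play 193 (.both (.play 129 (.both (.ref 69 0) (.play 320 (.ref 6 128)))) (.play 385 (.ref 6 192)))) (.play 512 (.ref 5 256)))))
 (.one (.play 259 (.both (.ref 98 2) (.play 260 (.ref 2 256))))))))))
 (.seq (.seq (.seq (.seq (.one (.play 129 (.both (.ref 69 0) (.play 322 (.ref 4 129)))))
 (.seq (.one (.play 387 (.both (.play 451 (.both (.play 194 (.both (.ref 100 1) (.play 386 (.ref 4 194)))) (.play 515 (.ref 7 258)))) (.play 388 (.ref 0 320)))))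
 (.one (.play 324 (.both (.play 327 (.both (.play 264 (.both (.play 328 (.both (.play 329 (.both (.ref 101 6) (.play 389 (.ref 1 325)))) (.play 265 (.ref 2 261)))) (.play 263 (.ref 2 260)))) (.play 323 (.ref 13 258)))) (.both (.play 327 (.both (.ref 99 4) (.both (.ref 72 259) (.both (.play 328 (.ref 19 260)) (.ref 97 260))))) (.both (.ref 94 256) (.ref 57 257))))))))
 (.seq (.seq (.one (.play 195 (.both (.play 194 (.both (.play 258 (.ref 6 2)) (.play 193 (.ref 64 64)))) (.both (.play 259 (.ref 24 2)) (.ref 85 2)))))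
 (.one (.play 131 (.both (.play 67 (.ref 44 1)) (.play 132 (.ref 2 128))))))
 (.seq (.one (.play 260 (.both (.play 196 (.both (.play 197 (.both (.ref 104 2) (.play 130 (.ref 3 129)))) (.play 261 (.ref 0 193)))) (.play 259 (.ref 0 192)))))
 (.one (.play 385 (.both (.ref 98 1) (.play 384 (.ref 1 320))))))))
 (.seq (.seq (.seq (.one (.play 197 (.both (.play 195 (.both (.play 259 (.ref 6 3)) (.play 198 (.both (.ref 20 128) (.both (.play 199 (.ref 19 131)) (.ref 48 131)))))) (.play 261 (.ref 4 4)))))
 (.one (.both (.ref 67 0) (.ref 22 64))))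
 (.seq (.one (.play 260 (.both (.play 324 (.both (.ref 67 4) (.both (.ref 23 67) (.ref 91 67)))) (.both (.play 324 (.ref 108 4)) (.ref 107 64)))))
 (.one (.play 259 (.both (.play 130 (.ref 55 2)) (.play 260 (.ref 0 192)))))))
 (.seq (.seq (.one (.play 199 (.both (.ref 105 4) (.both (.play 264 (.both (.play 200 (.both (.play 134 (.both (.ref 51 128) (.play 201 (.ref 3 133)))) (.play 265 (.ref 0 197)))) (.play 263 (.ref 0 196)))) (.both (.ref 20 129) (.play 200 (.ref 19 132)))))))
 (.one (.play 321 (.both (.ref 65 0) (.play 385 (.ref 24 128))))))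
 (.seq (.one (.play 321 (.both (.play 65 (.ref 68 0)) (.both (.play 385 (.ref 108 65)) (.play 385 (.ref 24 128))))))
 (.one (.play 321 (.both (.play 65 (.ref 108 1)) (.both (.play 385 (.ref 68 64)) (.play 385 (.ref 24 128))))))))))
 (.seq (.seq (.seq (.seq (.one (.play 193 (.both (.ref 84 0) (.play 192 (.ref 1 128)))))
 (.one (.both (.play 0 (.ref 0 0)) (.play 69 (.both (.play 66 (.ref 3 1)) (.ref 47 2))))))
 (.seq (.one (.both (.ref 65 0) (.ref 22 65)))
 (.one (.both (.play 324 (.both (.play 323 (.both (.ref 80 3) (.play 256 (.ref 0 256)))) (.play 325 (.ref 0 257)))) (.play 197 (.ref 2 193))))))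
 (.seq (.seq (.one (.play 129 (.both (.ref 69 0) (.ref 23 128))))
 (.one (.play 195 (.both (.play 387 (.both (.ref 119 2) (.both (.play 451 (.ref 24 194)) (.ref 26 194)))) (.play 196 (.ref 2 192))))))
 (.seq (.one (.play 323 (.both (.ref 120 0) (.play 324 (.ref 0 256)))))
 (.one (.both (.play 67 (.both (.ref 50 0) (.play 70 (.ref 2 3)))) (.play 8 (.ref 1 4)))))))
 (.seq (.seq (.seq (.one (.both (.ref 69 0) (.play 385 (.ref 24 128))))
 (.one (.play 259 (.both (.play 66 (.ref 55 2)) (.play 260 (.ref 0 192))))))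
 (.seq (.one (.play 193 (.both (.ref 100 0) (.play 450 (.ref 4 193)))))
 (.one (.play 259 (.both (.play 195 (.both (.play 132 (.both (.play 131 (.both (.play 67 (.both (.play 66 (.both (.play 2 (.ref 7 2)) (.play 65 (.ref 116 64)))) (.play 258 (.ref 6 66)))) (.play 68 (.ref 5 67)))) (.play 196 (.ref 5 131)))) (.both (.ref 69 66) (.both (.play 132 (.both (.play 131 (.both (.play 258 (.both (.play 67 (.ref 6 66)) (.ref 26 194))) (.play 68 (.ref 5 67)))) (.play 196 (.ref 5 131)))) (.ref 112 130))))) (.play 260 (.ref 2 256)))))))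
 (.seq (.seq (.one (.play 256 (.both (.play 192 (.ref 6 0)) (.play 257 (.both (.play 321 (.ref 108 1)) (.play 320 (.ref 6 64)))))))
 (.one (.play 322 (.both (.play 386 (.both (.ref 125 0) (.play 577 (.ref 5 321)))) (.play 258 (.ref 5 257))))))
 (.seq (.one (.play 457 (.both (.play 459 (.both (.play 395 (.both (.play 523 (.both (.play 331 (.both (.play 330 (.both (.play 332 (.both (.play 333 (.both (.play 334 (.both (.play 268 (.both (.ref 101 10) (.both (.ref 124 138) (.play 335 (.both (.ref 47 268) (.play 396 (.ref 1 331))))))) (.both (.ref 63 267) (.ref 8 330)))) (.both (.ref 121 74) (.both (.play 334 (.both (.play 335 (.both (.play 336 (.both (.play 272 (.ref 118 76)) (.both (.play 337 (.ref 12 268)) (.play 337 (.ref 16 268))))) (.play 396 (.ref 1 331)))) (.both (.ref 15 266) (.ref 63 267)))) (.both (.play 398 (.both (.play 334 (.both (.play 335 (.both (.ref 104 140) (.play 396 (.ref 1 331)))) (.play 399 (.ref 0 331)))) (.play 397 (.ref 0 330)))) (.play 334 (.ref 19 266))))))) (.play 329 (.ref 1 328)))) (.play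 266 (.ref 7 266)))) (.both (.ref 69 202) (.both (.play 267 (.ref 117 202)) (.play 267 (.ref 108 203)))))) (.both (.play 587 (.both (.play 331 (.both (.play 332 (.both (.play 396 (.both (.play 330 (.both (.play 333 (.both (.ref 99 10) (.both (.play 334 (.both (.ref 75 202) (.play 335 (.ref 1 331)))) (.both (.play 334 (.ref 19 266)) (.ref 97 266))))) (.play 266 (.ref 7 266)))) (.play 587 (.ref 5 331)))) (.play 268 (.ref 5 267)))) (.both (.ref 128 74) (.both (.play 266 (.both (.play 267 (.both (.play 203 (.ref 108 139)) (.play 202 (.ref 7 202)))) (.play 330 (.ref 7 266)))) (.ref 69 202))))) (.both (.ref 119 202) (.both (.play 331 (.ref 68 266)) (.both (.ref 91 330) (.ref 127 394)))))) (.both (.play 587 (.both (.play 586 (.both (.play 331 (.both (.play 267 (.both (.ref 69 138) (.ref 22 267))) (.play 522 (.ref 6 330)))) (.play 650 (.ref 6 394)))) (.both (.play 651 (.both (.ref 128 138) (.both (.ref 91 394) (.ref 22 395)))) (.both (.play 651 (.ref 24 394)) (.ref 127 394))))) (.both (.play 331 (.ref 123 202)) (.both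 (.play 331 (.both (.ref 69 202) (.both (.play 267 (.ref 117 202)) (.play 587 (.ref 68 266))))) (.both (.ref 114 266) (.both (.ref 113 266) (.play 587 (.both (.play 332 (.both (.play 396 (.ref 5 331)) (.play 588 (.both (.play 586 (.both (.play 650 (.ref 6 394)) (.play 589 (.both (.ref 75 457) (.both (.play 590 (.ref 19 522)) (.ref 48 522)))))) (.play 652 (.ref 4 395)))))) (.both (.play 651 (.ref 68 330)) (.both (.play 651 (.ref 108 331)) (.play 651 (.ref 24 394)))))))))))))) (.both (.play 394 (.both (.ref 126 72) (.play 456 (.both (.play 455 (.ref 1 391)) (.play 396 (.ref 1 392)))))) (.both (.play 394 (.both (.ref 126 72) (.play 460 (.ref 0 392)))) (.play 394 (.both (.play 396 (.ref 13 327)) (.play 460 (.ref 0 392)))))))) (.both (.play 460 (.both (.play 395 (.both (.play 331 (.both (.ref 125 74) (.both (.ref 81 138) (.both (.play 523 (.both (.ref 69 202) (.ref 90 326))) (.play 523 (.both (.play 587 (.ref 68 266)) (.both (.play 524 (.both (.play 522 (.both (.play 525 (.both (.play 526 (.both (.play 462 (.ref 118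 266)) (.play 527 (.ref 3 459)))) (.both (.ref 124 330) (.both (.play 526 (.ref 19 458)) (.play 526 (.both (.ref 15 458) (.both (.ref 27 459) (.ref 48 459)))))))) (.play 586 (.ref 6 330)))) (.play 588 (.ref 4 331)))) (.both (.play 587 (.ref 108 267)) (.play 587 (.ref 24 330)))))))))) (.play 394 (.ref 0 392)))) (.play 458 (.ref 3 392)))) (.both (.play 456 (.both (.play 395 (.both (.play 394 (.both (.ref 120 136) (.play 455 (.ref 1 391)))) (.both (.play 458 (.ref 118 199)) (.both (.play 523 (.both (.play 331 (.ref 123 202)) (.both (.play 587 (.ref 123 266)) (.play 458 (.both (.play 396 (.ref 2 392)) (.play 524 (.ref 0 456))))))) (.both (.play 394 (.both (.play 396 (.ref 16 327)) (.play 455 (.ref 1 391)))) (.play 394 (.ref 122 388))))))) (.both (.play 328 (.both (.play 200 (.ref 4 200)) (.play 455 (.both (.play 519 (.ref 6 263)) (.play 394 (.ref 122 387)))))) (.both (.play 328 (.both (.play 200 (.ref 4 200)) (.ref 86 263))) (.play 520 (.both (.play 458 (.both (.ref 121 200) (.play 519 (.ref 1 455)))) (.ref 84 327)))))))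 (.both (.play 456 (.both (.play 328 (.both (.play 200 (.ref 4 200)) (.ref 87 260))) (.both (.play 458 (.both (.ref 115 327) (.play 460 (.ref 3 392)))) (.both (.play 458 (.both (.ref 75 327) (.play 460 (.ref 3 392)))) (.play 458 (.both (.play 455 (.ref 17 390)) (.play 460 (.ref 3 392)))))))) (.both (.play 458 (.both (.play 456 (.both (.play 395 (.ref 118 199)) (.both (.ref 115 327) (.play 455 (.ref 10 454))))) (.play 460 (.ref 3 392)))) (.both (.play 458 (.both (.play 456 (.both (.play 395 (.both (.play 394 (.both (.ref 104 200) (.play 455 (.ref 1 391)))) (.play 396 (.ref 2 392)))) (.both (.ref 115 327) (.play 455 (.ref 17 390))))) (.play 460 (.ref 3 392)))) (.both (.play 458 (.both (.play 456 (.both (.play 395 (.both (.play 523 (.both (.play 587 (.both (.play 331 (.ref 66 266)) (.both (.play 651 (.ref 117 330)) (.play 651 (.ref 24 394))))) (.both (.play 587 (.both (.play 331 (.ref 117 266)) (.both (.play 651 (.ref 66 330)) (.play 651 (.ref 24 394))))) (.play 524 (.ref 116 456))))) (.play 396 (.ref 2 392))))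 (.both (.play 455 (.ref 17 390)) (.play 455 (.ref 10 454))))) (.play 460 (.ref 3 392)))) (.play 458 (.both (.play 456 (.both (.ref 115 327) (.both (.play 523 (.both (.play 455 (.both (.ref 37 388) (.play 522 (.ref 0 455)))) (.play 524 (.ref 0 456)))) (.play 455 (.ref 10 454))))) (.play 460 (.ref 3 392)))))))))))) (.both (.ref 93 196) (.both (.play 328 (.ref 55 200)) (.play 521 (.both (.play 585 (.both (.play 329 (.ref 68 264)) (.both (.play 329 (.ref 108 265)) (.both (.play 329 (.ref 24 328)) (.ref 107 389))))) (.both (.ref 114 264) (.both (.ref 113 264) (.both (.play 585 (.both (.play 329 (.ref 68 264)) (.both (.ref 25 392) (.ref 92 392)))) (.both (.play 585 (.both (.play 329 (.ref 108 265)) (.both (.play 649 (.ref 108 329)) (.both (.play 649 (.both (.play 456 (.ref 7 392)) (.play 714 (.both (.play 713 (.both (.play 777 (.ref 68 456)) (.play 778 (.ref 4 521)))) (.play 650 (.ref 4 457)))))) (.ref 92 392))))) (.both (.play 585 (.both (.play 329 (.ref 68 264)) (.both (.ref 92 392) (.play 649 (.both (.play 456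 (.ref 7 392)) (.play 713 (.both (.ref 23 456) (.both (.ref 91 456) (.play 522 (.both (.play 458 (.ref 5 457)) (.play 777 (.both (.ref 112 520) (.play 586 (.ref 5 521)))))))))))))) (.both (.play 520 (.both (.play 329 (.both (.play 522 (.both (.ref 111 324) (.play 586 (.ref 4 329)))) (.play 584 (.ref 6 328)))) (.both (.play 522 (.both (.play 586 (.ref 55 329)) (.both (.play 523 (.ref 32 454)) (.ref 73 454)))) (.both (.play 584 (.ref 44 327)) (.play 519 (.both (.play 522 (.both (.play 586 (.both (.play 650 (.ref 54 393)) (.play 587 (.ref 0 519)))) (.play 523 (.ref 13 454)))) (.both (.play 518 (.both (.play 517 (.both (.ref 74 448) (.play 456 (.ref 2 453)))) (.both (.play 517 (.both (.play 580 (.both (.play 516 (.both (.play 515 (.ref 12 450)) (.play 579 (.ref 1 515)))) (.play 581 (.ref 1 516)))) (.play 456 (.ref 2 453)))) (.both (.ref 50 451) (.both (.play 517 (.ref 13 452)) (.play 522 (.ref 13 453))))))) (.both (.ref 51 451) (.ref 37 452))))))))) (.ref 109 325))))))))))))))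
 (.one (.play 393 (.both (.ref 129 0) (.both (.play 328 (.both (.play 391 (.both (.play 200 (.both (.ref 100 7) (.play 455 (.ref 6 199)))) (.both (.ref 111 195) (.play 455 (.both (.play 200 (.ref 6 199)) (.ref 78 326)))))) (.both (.ref 81 71) (.ref 103 261)))) (.both (.play 391 (.both (.ref 83 67) (.both (.ref 82 68) (.both (.play 390 (.both (.ref 110 198) (.both (.play 389 (.ref 17 324)) (.play 389 (.ref 10 388))))) (.both (.play 390 (.both (.ref 110 198) (.play 389 (.ref 13 324)))) (.both (.ref 39 258) (.both (.ref 42 258) (.ref 30 260)))))))) (.both (.play 457 (.both (.ref 102 67) (.both (.play 328 (.both (.play 391 (.both (.play 390 (.both (.ref 60 195) (.both (.play 389 (.both (.ref 50 322) (.both (.ref 11 324) (.ref 59 324)))) (.both (.play 389 (.ref 13 324)) (.play 454 (.both (.play 394 (.both (.ref 58 326) (.play 455 (.ref 1 390)))) (.play 453 (.ref 1 389)))))))) (.both (.ref 95 262) (.both (.ref 57 324) (.play 458 (.both (.play 394 (.both (.play 395 (.ref 16 326)) (.play 459 (.ref 0 391)))) (.play 390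 (.ref 0 390)))))))) (.play 200 (.ref 4 200)))) (.both (.ref 96 194) (.both (.ref 93 196) (.play 328 (.both (.play 200 (.ref 4 200)) (.play 521 (.both (.play 456 (.ref 4 264)) (.play 585 (.both (.play 393 (.ref 7 328)) (.ref 109 389)))))))))))) (.both (.play 328 (.both (.play 394 (.both (.play 391 (.both (.ref 106 70) (.both (.ref 52 322) (.play 390 (.ref 13 325))))) (.both (.play 391 (.both (.ref 106 70) (.both (.ref 105 199) (.play 395 (.ref 10 390))))) (.ref 27 327)))) (.both (.ref 81 71) (.ref 103 261)))) (.both (.play 457 (.both (.ref 102 67) (.both (.ref 96 194) (.both (.play 328 (.both (.play 200 (.ref 4 200)) (.play 391 (.both (.ref 95 262) (.both (.ref 94 323) (.both (.ref 57 324) (.play 394 (.both (.play 390 (.ref 13 325)) (.both (.ref 72 326) (.ref 58 326)))))))))) (.both (.ref 93 196) (.play 328 (.both (.play 200 (.ref 4 200)) (.play 521 (.both (.play 329 (.ref 7 264)) (.ref 92 328)))))))))) (.both (.play 328 (.both (.ref 81 71) (.both (.ref 56 196) (.play 456 (.both (.ref 90 259) (.both (.play 457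 (.ref 88 260)) (.both (.play 520 (.ref 24 263)) (.both (.ref 86 263) (.ref 85 263))))))))) (.both (.play 391 (.both (.ref 83 67) (.both (.ref 82 68) (.both (.ref 46 198) (.both (.play 394 (.both (.ref 45 198) (.play 395 (.ref 19 327)))) (.both (.ref 34 262) (.both (.ref 29 262) (.play 394 (.both (.play 455 (.both (.play 327 (.both (.ref 35 262) (.play 326 (.ref 3 326)))) (.play 454 (.ref 1 390)))) (.both (.play 395 (.ref 17 326)) (.play 395 (.ref 16 326)))))))))))) (.both (.play 394 (.both (.ref 70 135) (.both (.ref 62 261) (.both (.play 395 (.both (.ref 75 263) (.both (.play 396 (.ref 17 327)) (.play 396 (.ref 10 391))))) (.both (.play 391 (.both (.ref 74 322) (.both (.ref 49 323) (.both (.play 390 (.ref 16 325)) (.play 395 (.ref 16 326)))))) (.both (.ref 73 326) (.play 395 (.both (.play 391 (.ref 12 326)) (.both (.ref 58 327) (.both (.play 328 (.both (.play 327 (.ref 3 327)) (.play 396 (.both (.play 329 (.ref 3 328)) (.ref 72 328))))) (.play 460 (.both (.play 396 (.both (.play 397 (.ref 17 328)) (.play 461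 (.ref 0 393)))) (.play 459 (.ref 0 392)))))))))))))) (.both (.play 394 (.both (.ref 70 135) (.both (.play 391 (.both (.ref 45 198) (.both (.play 390 (.ref 13 325)) (.both (.play 390 (.ref 16 325)) (.play 390 (.ref 17 325)))))) (.both (.ref 33 325) (.both (.play 391 (.ref 31 325)) (.both (.play 391 (.ref 71 325)) (.play 395 (.ref 14 326)))))))) (.both (.play 394 (.both (.ref 70 135) (.both (.ref 62 261) (.both (.ref 61 326) (.both (.play 395 (.ref 31 326)) (.play 395 (.ref 14 326))))))) (.both (.play 328 (.both (.play 200 (.both (.play 391 (.both (.play 390 (.both (.ref 60 195) (.both (.play 389 (.ref 13 324)) (.both (.play 453 (.both (.play 389 (.both (.ref 59 324) (.play 452 (.ref 1 388)))) (.play 454 (.ref 1 389)))) (.ref 58 325))))) (.play 455 (.ref 6 199)))) (.play 457 (.ref 4 200)))) (.both (.play 391 (.both (.play 457 (.both (.play 200 (.ref 4 200)) (.ref 57 324))) (.both (.play 455 (.ref 44 198)) (.play 394 (.ref 32 325))))) (.both (.ref 56 196) (.both (.play 457 (.ref 55 200)) (.play 394 (.both (.play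 391 (.both (.ref 53 262) (.both (.ref 52 322) (.both (.ref 20 324) (.play 390 (.ref 13 325)))))) (.both (.play 395 (.both (.ref 49 324) (.both (.ref 41 324) (.both (.play 391 (.ref 19 327)) (.ref 47 328))))) (.both (.ref 27 327) (.ref 48 327)))))))))) (.both (.play 391 (.both (.ref 46 198) (.both (.ref 42 258) (.both (.ref 30 260) (.both (.play 390 (.both (.ref 41 322) (.both (.play 453 (.both (.play 389 (.both (.play 388 (.ref 16 323)) (.play 452 (.ref 1 388)))) (.play 454 (.ref 1 389)))) (.play 394 (.ref 10 389))))) (.both (.ref 40 324) (.play 394 (.ref 14 325)))))))) (.both (.play 391 (.both (.ref 39 258) (.both (.ref 34 262) (.both (.ref 33 324) (.both (.play 390 (.ref 32 324)) (.play 394 (.ref 31 325))))))) (.play 391 (.both (.ref 30 260) (.both (.ref 29 262) (.both (.play 390 (.both (.ref 21 323) (.both (.ref 20 323) (.play 394 (.ref 19 326))))) (.both (.ref 18 324) (.play 390 (.ref 14 324))))))))))))))))))))))))))))))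
    (by decide +kernel)

theorem Cert_L21 : PW ⟨19, nat_lit 10086913586276986678343434265636765134130056028083907293023197283649128877913723032596456145644639545552522526706368512, nat_lit 16978731613117323117301500237812618062519248072283049226800485759481174752516196479326236800627080547916993761573347724308877957124036598082109758793967734758750286418061560212900210200200659563430988085365751997225130777488918672655719507050916860627964038834061602343572532723799811517442371364871407823977689738996128020758003792, 16, nat_lit 16978731613117323117301500237812618062519248072283049226800485759481174752516196479326236800627080547916993761573347724308877957124036598082109758793967734758750286418061560212900210200200659563430988085365751997225130777488918672655719507050916860627964038834061602343572532723799811517442371364871407823977689738996128020758003792⟩ :=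
  sound2 baseTbl baseTbl_ok
    (.seq (.seq (.seq (.seq (.seq (.seq (.seq (.one (.play 257 (.both (.play 193 (.ref 4 0)) (.play 321 (.ref 4 64)))))
 (.seq (.one (.play 256 (.both (.play 192 (.ref 6 0)) (.play 320 (.ref 6 64)))))
 (.one (.both (.ref 9 0) (.ref 8 1)))))
 (.seq (.seq (.one (.play 68 (.both (.play 67 (.ref 0 0)) (.play 69 (.ref 0 1)))))
 (.one (.play 4 (.both (.play 3 (.ref 2 0)) (.play 5 (.ref 2 1))))))
 (.seq (.one (.both (.ref 12 0) (.ref 11 64)))
 (.one (.play 68 (.both (.play 69 (.ref 13 1)) (.play 128 (.ref 1 64))))))))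
 (.seq (.seq (.one (.play 67 (.both (.ref 14 0) (.play 3 (.ref 5 2)))))
 (.seq (.one (.both (.ref 15 0) (.play 322 (.ref 7 65))))
 (.one (.play 64 (.both (.play 0 (.ref 7 0)) (.play 128 (.ref 7 64)))))))
 (.seq (.seq (.one (.both (.ref 17 0) (.ref 9 64)))
 (.one (.both (.play 321 (.ref 18 0)) (.play 322 (.ref 4 65)))))
 (.seq (.one (.play 258 (.both (.play 257 (.ref 19 0)) (.play 194 (.ref 4 1)))))
 (.one (.play 65 (.both (.play 1 (.ref 5 0)) (.play 129 (.ref 5 64)))))))))
 (.seq (.seq (.seq (.one (.both (.ref 21 1) (.ref 9 64)))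
 (.seq (.one (.play 65 (.both (.play 64 (.ref 1 0)) (.play 66 (.ref 1 1)))))
 (.one (.both (.ref 23 0) (.ref 11 1)))))
 (.seq (.seq (.one (.both (.ref 12 1) (.ref 23 64)))
 (.one (.play 69 (.both (.play 70 (.ref 25 1)) (.both (.play 70 (.ref 13 2)) (.both (.play 65 (.ref 24 64)) (.play 70 (.ref 24 65))))))))
 (.seq (.one (.play 259 (.both (.play 68 (.both (.play 66 (.both (.ref 26 0) (.play 2 (.ref 7 2)))) (.play 4 (.ref 5 3)))) (.both (.play 323 (.ref 18 2)) (.play 323 (.ref 22 2))))))
 (.one (.both (.ref 21 0) (.ref 8 64))))))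
 (.seq (.seq (.seq (.one (.both (.play 321 (.ref 28 1)) (.play 320 (.ref 6 64))))
 (.one (.play 256 (.both (.play 192 (.ref 6 0)) (.play 257 (.ref 29 0))))))
 (.seq (.one (.both (.ref 17 0) (.ref 8 65)))
 (.one (.play 1 (.both (.play 0 (.ref 3 0)) (.play 2 (.ref 3 1)))))))
 (.seq (.seq (.one (.both (.ref 32 0) (.ref 23 64)))
 (.one (.both (.ref 32 0) (.ref 11 65))))
 (.seq (.one (.play 66 (.both (.play 65 (.ref 34 0)) (.both (.play 65 (.ref 33 0)) (.both (.play 65 (.ref 24 64)) (.play 70 (.ref 24 65)))))))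
 (.one (.play 260 (.both (.play 67 (.both (.play 69 (.both (.ref 35 0) (.play 5 (.ref 5 4)))) (.play 3 (.ref 7 3)))) (.both (.play 324 (.ref 31 3)) (.play 324 (.ref 28 4)))))))))))
 (.seq (.seq (.seq (.seq (.one (.both (.ref 32 0) (.ref 12 1)))
 (.seq (.one (.play 66 (.both (.play 65 (.ref 33 0)) (.both (.play 65 (.ref 37 0)) (.both (.play 65 (.ref 25 0)) (.play 70 (.ref 37 1)))))))
 (.one (.play 197 (.both (.play 261 (.ref 4 4)) (.ref 38 128))))))
 (.seq (.seq (.one (.play 195 (.both (.ref 39 0) (.play 259 (.ref 6 3)))))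
 (.one (.play 66 (.both (.play 65 (.ref 33 0)) (.play 134 (.ref 0 66))))))
 (.seq (.one (.play 67 (.both (.ref 41 0) (.play 3 (.ref 7 3)))))
 (.one (.play 69 (.both (.play 133 (.both (.ref 42 0) (.play 324 (.ref 5 68)))) (.play 5 (.ref 5 4))))))))
 (.seq (.seq (.one (.both (.play 260 (.both (.ref 8 4) (.both (.play 323 (.both (.play 324 (.both (.ref 43 64) (.play 387 (.ref 6 131)))) (.play 259 (.ref 6 67)))) (.play 324 (.ref 10 67))))) (.both (.ref 40 0) (.both (.play 260 (.both (.ref 9 3) (.both (.ref 36 64) (.ref 30 67)))) (.both (.play 260 (.both (.ref 8 4) (.both (.ref 27 65) (.ref 20 67)))) (.both (.play 260 (.both (.ref 9 3) (.both (.play 325 (.both (.play 324 (.both (.play 131 (.both (.play 195 (.ref 16 66)) (.play 67 (.ref 7 67)))) (.play 389 (.ref 4 132)))) (.play 261 (.ref 4 68)))) (.play 324 (.ref 10 67))))) (.play 260 (.ref 10 3))))))))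
 (.seq (.one (.play 69 (.both (.play 65 (.ref 37 0)) (.both (.play 70 (.ref 34 1)) (.both (.play 70 (.ref 37 1)) (.play 70 (.ref 13 2)))))))
 (.one (.both (.play 194 (.both (.play 258 (.ref 6 2)) (.ref 45 128))) (.play 260 (.ref 4 3))))))
 (.seq (.seq (.one (.both (.play 323 (.ref 18 2)) (.both (.play 323 (.ref 31 2)) (.both (.play 260 (.ref 46 64)) (.play 323 (.ref 10 66))))))
 (.one (.play 66 (.both (.play 65 (.ref 33 0)) (.play 6 (.ref 2 2))))))
 (.seq (.one (.play 66 (.both (.play 65 (.ref 33 0)) (.play 5 (.ref 2 2)))))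
 (.one (.both (.ref 49 0) (.play 7 (.ref 2 3))))))))
 (.seq (.seq (.seq (.one (.play 257 (.both (.play 66 (.ref 5 1)) (.play 321 (.ref 10 64)))))
 (.seq (.one (.both (.play 2 (.ref 6 1)) (.play 321 (.both (.play 129 (.ref 5 65)) (.ref 51 128)))))
 (.one (.play 131 (.both (.play 67 (.ref 52 1)) (.play 132 (.ref 2 128)))))))
 (.seq (.seq (.one (.both (.play 197 (.both (.play 198 (.both (.play 263 (.both (.play 199 (.both (.play 200 (.both (.ref 53 5) (.play 133 (.ref 3 132)))) (.play 264 (.ref 0 196)))) (.play 262 (.ref 0 195)))) (.both (.play 134 (.ref 50 128)) (.both (.play 199 (.both (.play 133 (.both (.ref 48 128) (.play 200 (.ref 3 132)))) (.ref 11 195))) (.play 199 (.ref 13 131)))))) (.play 261 (.ref 4 4)))) (.play 259 (.ref 6 3))))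
 (.one (.both (.play 324 (.ref 18 3)) (.both (.play 324 (.ref 31 3)) (.both (.play 259 (.ref 54 64)) (.play 324 (.ref 10 67)))))))
 (.seq (.one (.both (.play 4 (.ref 4 4)) (.play 259 (.both (.play 323 (.ref 6 67)) (.ref 48 192)))))
 (.one (.play 261 (.both (.play 197 (.ref 56 0)) (.play 325 (.ref 4 68))))))))
 (.seq (.seq (.seq (.one (.play 260 (.both (.ref 57 0) (.both (.play 324 (.ref 22 3)) (.play 324 (.ref 28 4))))))
 (.one (.both (.play 65 (.ref 31 0)) (.both (.play 385 (.ref 18 64)) (.play 385 (.ref 10 128))))))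
 (.seq (.one (.play 260 (.both (.play 324 (.ref 22 3)) (.both (.play 324 (.ref 28 4)) (.both (.ref 40 64) (.play 324 (.ref 10 67)))))))
 (.one (.both (.play 65 (.ref 18 0)) (.both (.play 65 (.ref 31 0)) (.play 385 (.ref 10 128)))))))
 (.seq (.seq (.one (.both (.play 2 (.ref 5 1)) (.ref 51 64)))
 (.one (.play 68 (.both (.play 1 (.ref 3 0)) (.play 69 (.ref 13 1))))))
 (.seq (.one (.both (.play 0 (.ref 3 0)) (.ref 63 1)))
 (.one (.both (.play 0 (.ref 3 0)) (.play 69 (.ref 13 1))))))))))
 (.seq (.seq (.seq (.seq (.seq (.one (.play 257 (.both (.play 64 (.ref 7 0)) (.play 321 (.ref 10 64)))))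
 (.seq (.one (.both (.play 0 (.ref 4 0)) (.play 321 (.both (.play 129 (.ref 7 64)) (.ref 66 128)))))
 (.one (.play 129 (.both (.play 65 (.ref 67 1)) (.play 128 (.ref 3 128)))))))
 (.seq (.seq (.one (.both (.play 196 (.both (.play 195 (.both (.play 258 (.both (.play 194 (.both (.play 193 (.both (.ref 68 0) (.play 132 (.ref 2 129)))) (.play 257 (.ref 1 193)))) (.play 259 (.ref 1 194)))) (.both (.play 194 (.ref 33 129)) (.both (.play 194 (.both (.play 132 (.both (.play 193 (.ref 2 129)) (.play 199 (.ref 65 131)))) (.ref 23 193))) (.play 131 (.ref 64 130)))))) (.play 260 (.ref 6 4)))) (.play 262 (.ref 4 5))))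
 (.one (.both (.play 65 (.ref 34 0)) (.play 6 (.ref 2 2)))))
 (.seq (.one (.play 195 (.both (.play 259 (.ref 4 2)) (.play 196 (.ref 65 128)))))
 (.one (.both (.play 2 (.ref 6 1)) (.ref 71 64))))))
 (.seq (.seq (.one (.play 257 (.both (.play 193 (.ref 72 0)) (.play 321 (.ref 6 65)))))
 (.seq (.one (.play 258 (.both (.ref 73 0) (.play 322 (.ref 7 65)))))
 (.one (.play 67 (.both (.play 195 (.both (.ref 74 1) (.play 196 (.ref 0 128)))) (.play 68 (.ref 2 64)))))))
 (.seq (.seq (.one (.play 132 (.both (.ref 75 1) (.both (.play 133 (.ref 25 64)) (.both (.play 133 (.ref 13 65)) (.play 133 (.ref 24 128)))))))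
 (.one (.play 131 (.both (.ref 76 2) (.both (.ref 48 64) (.both (.play 130 (.ref 70 64)) (.ref 35 64)))))))
 (.seq (.one (.both (.play 321 (.ref 31 0)) (.play 320 (.ref 6 64))))
 (.one (.play 68 (.both (.play 69 (.ref 13 1)) (.play 129 (.ref 1 64)))))))))
 (.seq (.seq (.seq (.one (.both (.play 69 (.both (.ref 79 2) (.play 66 (.ref 1 65)))) (.play 128 (.ref 2 64))))
 (.seq (.one (.both (.play 67 (.both (.ref 49 0) (.play 70 (.ref 2 3)))) (.play 8 (.ref 1 4))))
 (.one (.both (.play 321 (.ref 18 0)) (.play 2 (.ref 5 1))))))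
 (.seq (.seq (.one (.both (.play 2 (.ref 5 1)) (.play 321 (.ref 10 64))))
 (.one (.play 321 (.both (.play 129 (.ref 31 0)) (.both (.play 385 (.ref 83 128)) (.play 385 (.ref 82 128)))))))
 (.seq (.one (.play 68 (.both (.play 69 (.ref 3 1)) (.ref 11 64))))
 (.one (.play 65 (.both (.play 64 (.ref 2 0)) (.ref 23 64)))))))
 (.seq (.seq (.seq (.one (.play 133 (.both (.play 197 (.both (.play 261 (.both (.play 196 (.ref 4 4)) (.play 325 (.ref 7 68)))) (.ref 41 64))) (.both (.play 130 (.both (.ref 86 64) (.ref 85 66))) (.both (.play 134 (.ref 65 66)) (.play 134 (.ref 64 66)))))))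
 (.one (.play 197 (.both (.play 196 (.both (.play 260 (.ref 52 3)) (.play 135 (.ref 81 128)))) (.play 261 (.ref 5 5))))))
 (.seq (.one (.play 257 (.both (.ref 8 1) (.play 321 (.ref 7 64)))))
 (.one (.both (.ref 15 0) (.play 1 (.ref 7 1))))))
 (.seq (.seq (.one (.play 258 (.both (.play 65 (.ref 90 0)) (.ref 89 65))))
 (.one (.play 69 (.both (.play 70 (.ref 3 2)) (.play 65 (.ref 24 64))))))
 (.seq (.one (.play 193 (.both (.play 257 (.ref 83 0)) (.play 192 (.ref 1 128)))))
 (.one (.both (.ref 93 0) (.play 64 (.ref 3 64)))))))))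
 (.seq (.seq (.seq (.seq (.one (.play 66 (.both (.play 65 (.ref 33 0)) (.play 133 (.ref 0 66)))))
 (.seq (.one (.both (.ref 17 0) (.ref 21 1)))
 (.one (.play 129 (.both (.play 65 (.ref 96 0)) (.play 320 (.ref 6 128)))))))
 (.seq (.seq (.one (.play 385 (.both (.play 449 (.both (.play 194 (.both (.ref 97 1) (.play 386 (.ref 6 193)))) (.play 513 (.ref 5 257)))) (.play 384 (.ref 1 320)))))
 (.one (.play 327 (.both (.play 328 (.both (.play 325 (.both (.play 260 (.both (.play 324 (.both (.play 323 (.both (.ref 98 2) (.play 262 (.ref 2 259)))) (.play 259 (.ref 3 259)))) (.play 261 (.ref 3 260)))) (.both (.play 390 (.both (.play 454 (.ref 83 197)) (.play 260 (.both (.play 324 (.both (.play 323 (.both (.ref 95 256) (.play 262 (.ref 2 259)))) (.play 259 (.ref 3 259)))) (.play 261 (.ref 3 260)))))) (.both (.play 261 (.ref 94 196)) (.ref 86 259))))) (.both (.ref 92 260) (.play 329 (.ref 65 261))))) (.both (.ref 91 133) (.both (.ref 88 193) (.ref 87 195)))))))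
 (.seq (.one (.play 257 (.both (.play 0 (.ref 7 0)) (.play 321 (.ref 10 64)))))
 (.one (.play 195 (.both (.ref 100 2) (.play 196 (.ref 0 128))))))))
 (.seq (.seq (.one (.play 67 (.both (.ref 101 0) (.play 68 (.ref 2 64)))))
 (.seq (.one (.both (.play 1 (.ref 3 1)) (.play 65 (.ref 24 64))))
 (.one (.play 2 (.both (.play 66 (.ref 103 0)) (.play 3 (.ref 3 2)))))))
 (.seq (.seq (.one (.play 67 (.both (.ref 104 0) (.play 6 (.ref 2 3)))))
 (.one (.play 129 (.both (.play 65 (.ref 96 0)) (.play 386 (.ref 4 129))))))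
 (.seq (.one (.both (.play 193 (.both (.ref 106 0) (.play 192 (.ref 3 192)))) (.play 261 (.ref 1 257))))
 (.one (.play 321 (.both (.play 322 (.ref 107 0)) (.play 320 (.ref 1 256)))))))))
 (.seq (.seq (.seq (.one (.play 261 (.both (.play 260 (.both (.ref 108 3) (.both (.ref 105 192) (.both (.play 259 (.both (.play 322 (.both (.play 258 (.both (.play 257 (.ref 34 192)) (.play 321 (.ref 1 257)))) (.play 323 (.ref 1 258)))) (.play 198 (.ref 2 195)))) (.both (.ref 49 193) (.play 259 (.ref 33 194))))))) (.both (.play 264 (.both (.ref 102 133) (.both (.play 265 (.ref 25 196)) (.play 265 (.ref 24 260))))) (.both (.play 260 (.ref 50 193)) (.ref 48 194))))))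
 (.seq (.one (.both (.play 256 (.ref 6 0)) (.play 258 (.ref 4 1))))
 (.one (.play 68 (.both (.play 65 (.ref 3 0)) (.ref 63 1))))))
 (.seq (.seq (.one (.both (.play 0 (.ref 0 0)) (.ref 111 1)))
 (.one (.play 258 (.both (.play 194 (.both (.play 3 (.ref 6 2)) (.play 259 (.both (.play 324 (.ref 4 67)) (.play 193 (.ref 112 192)))))) (.both (.play 194 (.ref 52 1)) (.play 259 (.ref 110 66)))))))
 (.seq (.one (.play 68 (.both (.play 69 (.ref 37 0)) (.play 133 (.ref 0 65)))))
 (.one (.both (.ref 114 0) (.play 64 (.ref 0 64)))))))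
 (.seq (.seq (.seq (.one (.play 68 (.both (.play 69 (.ref 65 1)) (.play 128 (.ref 1 64)))))
 (.one (.both (.ref 93 0) (.play 133 (.ref 3 65)))))
 (.seq (.one (.play 65 (.both (.play 66 (.ref 117 0)) (.play 64 (.ref 3 64)))))
 (.one (.play 129 (.both (.ref 118 0) (.play 128 (.ref 2 64)))))))
 (.seq (.seq (.one (.play 193 (.both (.play 194 (.both (.ref 68 0) (.play 261 (.ref 0 193)))) (.play 192 (.ref 3 192)))))
 (.one (.play 257 (.both (.ref 120 0) (.play 256 (.ref 2 192))))))
 (.seq (.one (.play 257 (.both (.ref 8 1) (.both (.ref 66 64) (.play 321 (.both (.play 128 (.ref 7 64)) (.ref 30 128)))))))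
 (.one (.play 257 (.both (.play 0 (.ref 7 0)) (.ref 66 64)))))))))))
 (.seq (.seq (.seq (.seq (.seq (.seq (.one (.play 257 (.both (.play 129 (.both (.play 321 (.both (.play 65 (.ref 28 1)) (.both (.play 385 (.ref 22 64)) (.both (.play 385 (.ref 28 65)) (.play 385 (.ref 10 128)))))) (.play 128 (.ref 3 128)))) (.play 256 (.ref 1 192)))))
 (.seq (.one (.play 66 (.both (.play 65 (.ref 37 0)) (.play 134 (.ref 0 66)))))
 (.one (.play 193 (.both (.ref 68 0) (.play 192 (.ref 0 192)))))))
 (.seq (.seq (.one (.play 68 (.both (.play 69 (.ref 34 0)) (.play 128 (.ref 1 64)))))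
 (.one (.play 196 (.both (.play 260 (.both (.play 132 (.both (.play 68 (.both (.ref 43 0) (.play 4 (.ref 4 4)))) (.play 131 (.ref 3 131)))) (.play 259 (.ref 1 195)))) (.both (.play 195 (.ref 33 130)) (.both (.play 195 (.ref 37 130)) (.play 195 (.ref 25 130))))))))
 (.seq (.one (.play 67 (.both (.play 196 (.both (.play 260 (.ref 4 3)) (.ref 45 128))) (.play 258 (.ref 6 2)))))
 (.one (.both (.play 65 (.ref 33 0)) (.both (.play 70 (.ref 34 1)) (.play 65 (.ref 24 64))))))))
 (.seq (.seq (.one (.both (.play 5 (.ref 2 1)) (.play 69 (.ref 24 64))))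
 (.seq (.one (.both (.play 64 (.ref 2 0)) (.play 68 (.ref 131 0))))
 (.one (.both (.play 65 (.ref 33 0)) (.both (.play 70 (.ref 34 1)) (.play 70 (.ref 24 65)))))))
 (.seq (.seq (.one (.both (.play 132 (.both (.play 68 (.ref 18 3)) (.both (.ref 42 64) (.play 68 (.ref 10 67))))) (.play 388 (.ref 5 132))))
 (.one (.play 260 (.both (.play 324 (.ref 134 0)) (.play 69 (.ref 6 4))))))
 (.seq (.one (.both (.play 65 (.ref 25 0)) (.both (.play 70 (.ref 13 2)) (.play 65 (.ref 24 64)))))
 (.one (.play 257 (.both (.play 66 (.ref 6 1)) (.ref 14 128))))))))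
 (.seq (.seq (.seq (.one (.play 257 (.both (.ref 9 0) (.play 321 (.ref 5 65)))))
 (.seq (.one (.play 129 (.both (.play 65 (.both (.play 1 (.ref 4 1)) (.play 322 (.ref 4 65)))) (.ref 138 128))))
 (.one (.play 66 (.both (.play 2 (.ref 7 2)) (.play 65 (.ref 112 64)))))))
 (.seq (.seq (.one (.play 194 (.both (.play 258 (.ref 6 2)) (.play 193 (.ref 80 64)))))
 (.one (.play 131 (.both (.play 67 (.both (.play 3 (.ref 4 3)) (.ref 141 64))) (.both (.play 67 (.ref 18 2)) (.ref 140 64))))))
 (.seq (.one (.play 68 (.both (.ref 12 0) (.play 69 (.ref 1 65)))))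
 (.one (.play 65 (.both (.ref 32 0) (.play 64 (.ref 0 64))))))))
 (.seq (.seq (.seq (.one (.both (.ref 144 0) (.ref 143 2)))
 (.one (.play 258 (.both (.play 194 (.both (.play 193 (.both (.ref 68 0) (.play 260 (.ref 0 193)))) (.play 257 (.ref 1 193)))) (.play 259 (.ref 1 194))))))
 (.seq (.one (.play 198 (.both (.play 195 (.both (.ref 146 0) (.both (.play 194 (.ref 33 129)) (.play 388 (.both (.play 131 (.ref 7 131)) (.play 452 (.ref 83 195))))))) (.both (.play 195 (.ref 145 129)) (.ref 14 131)))))
 (.one (.play 257 (.both (.ref 108 0) (.play 256 (.ref 0 256)))))))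
 (.seq (.seq (.one (.play 451 (.both (.play 258 (.both (.ref 148 0) (.play 194 (.ref 7 194)))) (.play 515 (.ref 5 259)))))
 (.one (.play 260 (.both (.ref 149 1) (.both (.ref 147 64) (.both (.ref 142 65) (.ref 139 67)))))))
 (.seq (.one (.play 323 (.both (.play 131 (.both (.play 67 (.ref 18 2)) (.both (.play 67 (.ref 31 2)) (.play 324 (.ref 46 128))))) (.play 387 (.ref 5 131)))))
 (.one (.play 259 (.both (.ref 151 0) (.play 68 (.ref 6 3))))))))))
 (.seq (.seq (.seq (.seq (.one (.both (.play 132 (.both (.play 68 (.ref 18 3)) (.both (.ref 42 64) (.ref 73 66)))) (.play 388 (.ref 5 132))))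
 (.seq (.one (.play 260 (.both (.play 324 (.ref 153 0)) (.play 69 (.ref 6 4)))))
 (.one (.play 66 (.both (.play 65 (.ref 37 0)) (.play 129 (.ref 1 65)))))))
 (.seq (.seq (.one (.play 69 (.both (.ref 155 0) (.play 70 (.ref 1 66)))))
 (.one (.play 67 (.both (.ref 95 0) (.play 70 (.ref 0 67))))))
 (.seq (.one (.both (.ref 157 0) (.play 136 (.ref 3 68))))
 (.one (.play 129 (.both (.play 65 (.ref 96 0)) (.play 322 (.ref 4 129))))))))
 (.seq (.seq (.one (.both (.play 193 (.both (.ref 159 0) (.play 385 (.ref 4 193)))) (.play 514 (.ref 7 257))))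
 (.seq (.one (.play 261 (.both (.play 454 (.ref 160 4)) (.play 260 (.ref 158 192)))))
 (.one (.play 65 (.both (.play 258 (.ref 67 1)) (.play 64 (.ref 3 64)))))))
 (.seq (.seq (.one (.play 65 (.both (.ref 17 0) (.play 1 (.ref 4 1)))))
 (.one (.play 69 (.both (.play 68 (.ref 2 4)) (.play 132 (.ref 81 64))))))
 (.seq (.one (.play 257 (.both (.play 2 (.ref 5 1)) (.ref 89 64))))
 (.one (.play 257 (.both (.play 2 (.ref 5 1)) (.ref 100 64))))))))
 (.seq (.seq (.seq (.one (.play 132 (.both (.play 68 (.ref 31 3)) (.both (.ref 42 64) (.ref 57 64)))))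
 (.seq (.one (.both (.ref 167 0) (.play 388 (.ref 5 132))))
 (.one (.play 198 (.both (.play 262 (.ref 4 5)) (.play 199 (.ref 158 64)))))))
 (.seq (.seq (.one (.both (.ref 42 0) (.play 5 (.ref 5 4))))
 (.one (.play 68 (.both (.ref 42 0) (.play 325 (.ref 4 68))))))
 (.seq (.one (.play 263 (.both (.play 389 (.both (.play 260 (.both (.ref 121 2) (.both (.play 324 (.both (.play 388 (.both (.ref 171 128) (.play 452 (.ref 5 196)))) (.play 323 (.ref 1 259)))) (.both (.ref 119 130) (.both (.play 259 (.ref 33 194)) (.ref 86 194)))))) (.both (.play 325 (.ref 170 129)) (.play 325 (.ref 83 132))))) (.both (.play 196 (.ref 158 128)) (.ref 92 195)))))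
 (.one (.play 264 (.both (.play 390 (.both (.play 325 (.both (.ref 161 0) (.play 324 (.ref 2 260)))) (.both (.play 391 (.both (.ref 172 129) (.both (.play 455 (.both (.play 200 (.ref 5 199)) (.ref 169 258))) (.both (.play 455 (.both (.play 200 (.ref 5 199)) (.ref 74 261))) (.ref 165 198))))) (.both (.play 454 (.ref 134 130)) (.both (.play 454 (.ref 168 130)) (.both (.ref 151 131) (.both (.play 389 (.both (.play 391 (.both (.ref 165 198) (.both (.ref 166 198) (.play 392 (.both (.play 325 (.ref 94 260)) (.ref 85 325)))))) (.both (.ref 164 256) (.play 388 (.ref 132 323))))) (.play 389 (.both (.play 391 (.both (.play 453 (.both (.play 262 (.ref 52 196)) (.play 452 (.ref 81 384)))) (.ref 165 198))) (.both (.ref 164 256) (.play 388 (.ref 132 323)))))))))))) (.both (.play 262 (.both (.play 198 (.both (.play 390 (.both (.ref 163 69) (.ref 138 197))) (.both (.play 197 (.both (.ref 100 133) (.play 196 (.both (.play 195 (.ref 0 195)) (.play 261 (.ref 3 196)))))) (.play 391 (.ref 67 134))))) (.both (.play 265 (.both (.ref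 162 133) (.play 266 (.ref 1 262)))) (.play 261 (.both (.ref 143 197) (.play 260 (.both (.play 259 (.ref 0 259)) (.play 328 (.ref 0 260))))))))) (.both (.ref 156 196) (.play 265 (.ref 81 258))))))))))
 (.seq (.seq (.seq (.one (.play 132 (.both (.ref 102 1) (.both (.play 133 (.ref 34 64)) (.play 133 (.ref 37 64))))))
 (.one (.play 194 (.both (.ref 124 1) (.both (.play 193 (.both (.play 132 (.ref 2 129)) (.ref 23 192))) (.play 193 (.both (.ref 32 128) (.play 132 (.ref 2 129)))))))))
 (.seq (.one (.play 68 (.both (.ref 156 0) (.play 128 (.ref 2 64)))))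
 (.one (.play 129 (.both (.play 65 (.ref 18 0)) (.both (.play 65 (.ref 96 0)) (.both (.play 65 (.ref 22 0)) (.play 385 (.ref 18 64)))))))))
 (.seq (.seq (.one (.play 195 (.both (.play 323 (.both (.ref 177 2) (.play 324 (.ref 0 256)))) (.play 196 (.ref 2 192)))))
 (.one (.play 261 (.both (.play 260 (.both (.play 259 (.both (.play 258 (.both (.ref 178 2) (.both (.play 257 (.ref 25 192)) (.play 257 (.ref 24 256))))) (.both (.ref 104 192) (.ref 32 194)))) (.both (.play 259 (.both (.play 258 (.both (.play 325 (.both (.play 197 (.both (.play 389 (.both (.play 133 (.ref 18 68)) (.both (.play 453 (.ref 18 132)) (.both (.play 453 (.ref 31 132)) (.play 453 (.ref 10 196)))))) (.play 198 (.ref 2 194)))) (.play 326 (.ref 0 258)))) (.both (.play 257 (.ref 34 192)) (.play 257 (.ref 37 192))))) (.both (.play 322 (.both (.ref 155 192) (.play 323 (.ref 1 258)))) (.ref 23 258)))) (.both (.ref 124 67) (.both (.ref 49 193) (.play 259 (.ref 33 194))))))) (.both (.play 264 (.both (.ref 124 68) (.both (.play 265 (.ref 25 196)) (.play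 265 (.ref 37 196))))) (.both (.ref 176 132) (.ref 48 194)))))))
 (.seq (.one (.play 258 (.both (.ref 73 0) (.play 322 (.ref 5 66)))))
 (.one (.play 260 (.both (.ref 149 1) (.both (.ref 147 64) (.both (.ref 142 65) (.both (.play 452 (.both (.play 196 (.ref 18 131)) (.play 516 (.ref 5 260)))) (.ref 180 194)))))))))))))
 (.seq (.seq (.seq (.seq (.seq (.one (.both (.play 65 (.ref 25 0)) (.both (.play 70 (.ref 13 2)) (.play 70 (.ref 24 65)))))
 (.seq (.one (.play 322 (.both (.play 130 (.both (.play 66 (.ref 22 1)) (.both (.ref 15 64) (.play 66 (.ref 10 65))))) (.play 386 (.ref 7 129)))))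
 (.one (.play 258 (.both (.ref 183 0) (.play 65 (.ref 4 1)))))))
 (.seq (.seq (.one (.play 132 (.both (.play 68 (.ref 22 3)) (.both (.play 68 (.ref 28 4)) (.ref 40 128)))))
 (.one (.play 132 (.both (.play 68 (.both (.play 69 (.ref 25 0)) (.play 133 (.ref 0 65)))) (.play 131 (.ref 0 64))))))
 (.seq (.one (.play 4 (.both (.play 3 (.ref 2 0)) (.play 68 (.ref 131 0)))))
 (.one (.play 260 (.both (.ref 178 1) (.both (.play 261 (.ref 25 192)) (.both (.play 261 (.ref 13 193)) (.play 261 (.ref 24 256))))))))))
 (.seq (.seq (.one (.play 68 (.both (.play 0 (.ref 0 0)) (.play 69 (.both (.play 66 (.ref 103 0)) (.play 70 (.ref 3 2)))))))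
 (.seq (.one (.play 68 (.both (.play 259 (.ref 83 2)) (.play 128 (.ref 2 64)))))
 (.one (.play 193 (.both (.ref 97 0) (.play 448 (.ref 6 192)))))))
 (.seq (.seq (.one (.play 257 (.both (.ref 191 0) (.both (.play 193 (.ref 22 128)) (.both (.play 193 (.both (.play 320 (.both (.play 129 (.ref 6 128)) (.ref 100 256))) (.ref 21 129))) (.play 512 (.both (.play 448 (.ref 6 256)) (.play 513 (.ref 78 256)))))))))
 (.one (.play 132 (.both (.play 68 (.both (.play 196 (.both (.play 260 (.both (.ref 73 2) (.both (.play 324 (.ref 18 3)) (.play 324 (.ref 31 3))))) (.play 197 (.ref 0 129)))) (.play 69 (.ref 2 65)))) (.both (.play 133 (.ref 25 64)) (.both (.play 133 (.ref 13 65)) (.play 133 (.ref 24 128))))))))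
 (.seq (.one (.play 131 (.both (.play 133 (.both (.play 134 (.both (.play 198 (.both (.play 130 (.both (.play 129 (.both (.ref 118 0) (.play 128 (.ref 0 128)))) (.play 197 (.ref 3 130)))) (.play 199 (.ref 0 131)))) (.play 135 (.ref 1 131)))) (.play 69 (.ref 5 68)))) (.play 67 (.ref 7 67)))))
 (.one (.play 195 (.both (.play 67 (.both (.ref 66 2) (.play 68 (.ref 2 64)))) (.play 196 (.ref 0 128)))))))))
 (.seq (.seq (.seq (.one (.play 261 (.both (.play 132 (.ref 4 4)) (.ref 41 128))))
 (.seq (.one (.play 68 (.both (.ref 79 1) (.play 128 (.ref 1 64)))))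
 (.one (.both (.play 4 (.ref 7 4)) (.ref 169 64)))))
 (.seq (.seq (.one (.play 261 (.both (.play 197 (.ref 198 0)) (.play 325 (.ref 4 68)))))
 (.one (.play 67 (.both (.ref 95 0) (.play 135 (.ref 0 67))))))
 (.seq (.one (.play 258 (.both (.play 1 (.ref 4 1)) (.play 257 (.both (.play 321 (.ref 7 64)) (.play 322 (.ref 67 65)))))))
 (.one (.play 260 (.both (.play 259 (.both (.play 195 (.both (.play 4 (.ref 5 3)) (.ref 141 64))) (.play 323 (.ref 6 67)))) (.play 324 (.ref 7 67))))))))
 (.seq (.seq (.seq (.one (.play 260 (.both (.ref 57 0) (.play 324 (.ref 7 67)))))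
 (.one (.play 260 (.both (.play 196 (.both (.play 5 (.ref 6 4)) (.play 135 (.ref 81 128)))) (.play 324 (.ref 6 68))))))
 (.seq (.one (.play 65 (.both (.play 194 (.both (.play 1 (.ref 7 1)) (.play 2 (.ref 10 1)))) (.play 64 (.ref 0 64)))))
 (.one (.play 197 (.both (.ref 204 0) (.both (.ref 57 1) (.both (.ref 199 1) (.both (.ref 73 3) (.both (.play 5 (.ref 10 4)) (.ref 40 65))))))))))
 (.seq (.seq (.one (.both (.ref 123 0) (.play 258 (.ref 4 1))))
 (.one (.play 67 (.both (.play 194 (.ref 83 1)) (.play 68 (.ref 1 64))))))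
 (.seq (.one (.play 193 (.both (.play 2 (.ref 5 1)) (.play 321 (.both (.play 130 (.ref 5 65)) (.ref 66 128))))))
 (.one (.play 133 (.both (.play 261 (.ref 7 4)) (.ref 48 128)))))))))
 (.seq (.seq (.seq (.seq (.one (.play 196 (.both (.play 5 (.ref 5 4)) (.ref 39 64))))
 (.seq (.one (.play 261 (.both (.play 70 (.ref 5 5)) (.ref 169 64))))
 (.one (.play 193 (.both (.play 321 (.ref 31 0)) (.play 2 (.ref 5 1)))))))
 (.seq (.seq (.one (.play 195 (.both (.ref 201 1) (.ref 111 128))))
 (.one (.play 321 (.both (.play 65 (.ref 28 1)) (.play 385 (.ref 7 128))))))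
 (.seq (.one (.play 193 (.both (.ref 71 0) (.play 257 (.ref 6 1)))))
 (.one (.play 67 (.both (.play 131 (.both (.play 68 (.ref 80 0)) (.play 132 (.ref 1 128)))) (.play 3 (.ref 5 2))))))))
 (.seq (.seq (.one (.play 517 (.both (.play 391 (.both (.play 392 (.both (.play 328 (.both (.play 456 (.both (.ref 192 7) (.play 457 (.ref 0 389)))) (.play 329 (.ref 2 325)))) (.both (.play 393 (.ref 34 324)) (.play 393 (.ref 37 324))))) (.both (.play 327 (.both (.play 328 (.both (.play 325 (.both (.ref 53 133) (.both (.play 260 (.both (.play 324 (.both (.ref 200 256) (.play 259 (.ref 3 259)))) (.play 261 (.ref 3 260)))) (.play 324 (.ref 37 259))))) (.play 329 (.ref 1 325)))) (.both (.play 325 (.both (.play 454 (.both (.play 261 (.both (.play 197 (.ref 4 197)) (.play 328 (.both (.play 260 (.ref 3 260)) (.ref 14 261))))) (.play 518 (.both (.play 263 (.ref 5 262)) (.ref 123 325))))) (.both (.play 324 (.both (.ref 41 257) (.ref 143 260))) (.both (.play 324 (.both (.play 328 (.ref 37 259)) (.play 323 (.ref 0 323)))) (.ref 205 259)))))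 (.both (.play 455 (.both (.play 456 (.both (.play 263 (.both (.ref 217 197) (.play 520 (.ref 4 263)))) (.ref 111 389))) (.both (.ref 215 198) (.both (.play 328 (.both (.ref 166 262) (.play 329 (.ref 1 325)))) (.ref 214 261))))) (.both (.play 455 (.both (.play 263 (.both (.ref 217 197) (.ref 216 261))) (.both (.ref 215 198) (.both (.play 519 (.ref 16 261)) (.ref 214 261))))) (.both (.play 518 (.both (.play 519 (.both (.play 453 (.both (.ref 171 257) (.play 520 (.ref 65 452)))) (.both (.play 583 (.both (.play 455 (.ref 7 326)) (.ref 200 449))) (.ref 210 322)))) (.both (.ref 211 258) (.both (.ref 213 261) (.ref 209 261))))) (.both (.play 518 (.both (.play 454 (.both (.play 263 (.ref 5 262)) (.ref 212 321))) (.both (.ref 211 258) (.both (.play 519 (.both (.ref 208 261) (.both (.ref 210 322) (.both (.play 455 (.both (.play 582 (.ref 6 326)) (.ref 48 450))) (.play 516 (.ref 130 450)))))) (.ref 209 261))))) (.play 519 (.both (.play 455 (.both (.ref 15 261) (.play 520 (.ref 46 324)))) (.both (.play 455 (.ref 16 261))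 (.both (.ref 208 261) (.play 518 (.both (.ref 196 322) (.both (.play 453 (.both (.play 582 (.both (.play 325 (.ref 4 325)) (.play 646 (.both (.play 454 (.ref 7 389)) (.play 710 (.ref 7 453)))))) (.play 520 (.ref 65 452)))) (.both (.play 454 (.ref 207 325)) (.play 516 (.ref 130 450))))))))))))))))) (.both (.play 325 (.both (.play 518 (.both (.play 261 (.both (.play 453 (.both (.ref 163 132) (.ref 14 324))) (.play 454 (.ref 7 261)))) (.both (.play 454 (.both (.play 261 (.ref 7 261)) (.play 582 (.ref 28 262)))) (.play 453 (.both (.ref 14 324) (.play 582 (.ref 4 325))))))) (.both (.ref 205 259) (.play 392 (.ref 65 324))))) (.both (.play 453 (.both (.ref 167 193) (.both (.play 392 (.both (.play 393 (.ref 37 324)) (.play 452 (.ref 1 388)))) (.play 452 (.both (.play 451 (.ref 132 386)) (.play 392 (.ref 1 388))))))) (.both (.play 453 (.both (.ref 167 193) (.ref 14 324))) (.both (.play 325 (.both (.ref 206 256) (.both (.ref 205 259) (.both (.play 392 (.both (.play 324 (.ref 3 324)) (.play 393 (.ref 24 388)))) (.play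 392 (.ref 64 324)))))) (.both (.play 325 (.both (.play 324 (.ref 158 256)) (.both (.ref 206 256) (.both (.play 324 (.ref 115 259)) (.ref 205 259))))) (.ref 193 260))))))))) (.both (.play 453 (.both (.play 325 (.both (.play 261 (.ref 18 196)) (.both (.ref 204 256) (.ref 42 257)))) (.play 581 (.ref 5 325)))) (.both (.play 518 (.both (.play 454 (.both (.ref 194 194) (.both (.play 582 (.ref 31 261)) (.play 582 (.ref 28 262))))) (.both (.play 519 (.both (.play 455 (.both (.play 391 (.both (.play 327 (.both (.ref 15 261) (.play 582 (.ref 6 326)))) (.play 583 (.ref 7 326)))) (.ref 48 450))) (.both (.ref 188 260) (.both (.play 583 (.both (.play 455 (.both (.play 391 (.ref 7 326)) (.ref 190 388))) (.both (.play 520 (.both (.play 584 (.both (.play 648 (.both (.play 647 (.both (.play 456 (.ref 72 390)) (.both (.play 456 (.both (.play 392 (.ref 6 391)) (.play 711 (.ref 6 455)))) (.play 711 (.both (.ref 141 516) (.play 775 (.ref 5 519))))))) (.both (.ref 203 452) (.both (.ref 202 452) (.both (.play 649 (.both (.ref 201 455)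 (.play 582 (.ref 112 581)))) (.both (.ref 74 454) (.both (.play 712 (.both (.play 456 (.ref 10 455)) (.play 776 (.ref 7 519)))) (.play 712 (.both (.play 713 (.ref 46 517)) (.play 776 (.ref 7 519))))))))))) (.play 585 (.ref 0 517)))) (.both (.play 521 (.ref 13 453)) (.both (.ref 187 453) (.both (.ref 186 453) (.play 457 (.both (.play 456 (.ref 2 453)) (.play 521 (.both (.play 458 (.ref 2 454)) (.ref 197 454)))))))))) (.ref 200 449)))) (.both (.ref 35 450) (.both (.play 520 (.ref 136 451)) (.play 520 (.ref 182 451)))))))) (.both (.play 454 (.ref 29 261)) (.both (.play 454 (.both (.play 582 (.ref 96 261)) (.play 581 (.ref 6 325)))) (.play 454 (.ref 54 322))))))) (.both (.play 453 (.ref 153 193)) (.both (.play 453 (.both (.play 325 (.both (.play 261 (.ref 31 196)) (.both (.ref 42 257) (.ref 199 257)))) (.play 581 (.ref 5 325)))) (.both (.play 453 (.ref 168 193)) (.both (.play 453 (.ref 134 193)) (.play 518 (.both (.play 519 (.both (.play 453 (.both (.play 581 (.ref 5 325)) (.play 520 (.ref 65 452)))) (.both (.play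 581 (.both (.play 453 (.ref 5 325)) (.ref 197 452))) (.both (.play 516 (.both (.play 580 (.both (.play 452 (.both (.ref 51 387) (.play 451 (.ref 3 451)))) (.play 579 (.ref 1 515)))) (.both (.play 515 (.ref 34 450)) (.play 515 (.ref 24 514))))) (.both (.play 516 (.ref 130 450)) (.ref 26 451)))))) (.both (.play 519 (.both (.ref 196 322) (.both (.play 581 (.both (.play 454 (.ref 6 325)) (.ref 14 452))) (.both (.play 454 (.ref 110 325)) (.ref 35 450))))) (.both (.play 581 (.both (.play 454 (.ref 6 325)) (.play 453 (.ref 5 325)))) (.play 516 (.both (.play 515 (.both (.ref 195 387) (.play 514 (.ref 33 449)))) (.both (.play 519 (.both (.ref 195 388) (.both (.play 520 (.ref 34 451)) (.play 520 (.ref 37 451))))) (.both (.play 515 (.ref 133 449)) (.both (.play 515 (.ref 182 449)) (.ref 38 449)))))))))))))))))))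
 (.seq (.one (.play 193 (.both (.play 321 (.both (.play 129 (.both (.play 65 (.ref 96 0)) (.both (.play 65 (.ref 31 0)) (.both (.play 65 (.ref 28 1)) (.play 385 (.ref 28 65)))))) (.play 320 (.ref 1 256)))) (.play 192 (.ref 3 192)))))
 (.one (.play 260 (.both (.ref 219 0) (.both (.play 261 (.ref 34 192)) (.play 261 (.ref 24 256))))))))
 (.seq (.seq (.one (.play 66 (.both (.ref 144 0) (.play 6 (.ref 2 2)))))
 (.one (.play 257 (.both (.ref 9 0) (.both (.ref 51 64) (.play 321 (.both (.play 130 (.ref 5 65)) (.ref 20 128))))))))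
 (.seq (.one (.play 65 (.both (.play 321 (.ref 18 0)) (.play 1 (.ref 4 1)))))
 (.one (.play 517 (.both (.play 453 (.both (.play 389 (.both (.play 388 (.both (.play 324 (.both (.play 325 (.both (.play 260 (.ref 160 3)) (.play 261 (.ref 4 261)))) (.play 581 (.ref 7 324)))) (.ref 157 320))) (.both (.play 325 (.ref 56 257)) (.both (.ref 223 260) (.play 581 (.both (.play 390 (.ref 170 321)) (.both (.play 645 (.ref 22 324)) (.ref 222 388)))))))) (.both (.ref 176 324) (.ref 221 386)))) (.both (.play 453 (.both (.play 519 (.both (.ref 126 259) (.both (.play 520 (.ref 117 388)) (.play 520 (.both (.play 452 (.ref 3 452)) (.play 521 (.ref 3 453))))))) (.both (.play 581 (.both (.play 519 (.both (.ref 91 325) (.both (.play 520 (.both (.ref 85 453) (.play 580 (.ref 1 516)))) (.ref 116 452)))) (.both (.ref 180 387) (.play 645 (.ref 83 388))))) (.ref 221 386)))) (.both (.play 516 (.both (.ref 220 259) (.play 515 (.ref 2 451)))) (.both (.play 516 (.both (.play 519 (.both (.ref 108 259) (.both (.ref 101 388) (.play 520 (.ref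 24 515))))) (.play 515 (.ref 2 451)))) (.both (.play 516 (.both (.play 519 (.both (.ref 120 259) (.both (.ref 101 388) (.play 520 (.ref 34 451))))) (.play 515 (.ref 2 451)))) (.both (.play 516 (.both (.play 519 (.both (.play 580 (.both (.play 581 (.both (.play 390 (.ref 52 324)) (.play 520 (.ref 1 516)))) (.play 579 (.ref 1 515)))) (.both (.ref 101 388) (.play 520 (.ref 24 515))))) (.play 515 (.ref 2 451)))) (.both (.play 516 (.both (.play 519 (.both (.ref 118 387) (.both (.ref 101 388) (.play 520 (.ref 34 451))))) (.play 515 (.ref 2 451)))) (.play 516 (.both (.play 519 (.both (.ref 101 388) (.play 520 (.ref 33 451)))) (.play 515 (.ref 2 451)))))))))))))))))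
 (.seq (.seq (.seq (.one (.both (.play 6 (.ref 2 2)) (.play 65 (.ref 24 64))))
 (.seq (.one (.play 132 (.both (.ref 75 1) (.both (.play 133 (.ref 34 64)) (.both (.play 133 (.ref 37 64)) (.play 133 (.ref 13 65)))))))
 (.one (.play 67 (.both (.ref 49 0) (.both (.play 66 (.both (.play 5 (.ref 2 2)) (.play 65 (.ref 24 64)))) (.both (.play 66 (.ref 34 1)) (.play 71 (.ref 34 2)))))))))
 (.seq (.seq (.one (.play 68 (.both (.ref 105 0) (.both (.ref 49 1) (.both (.play 67 (.ref 24 66)) (.play 72 (.ref 24 67)))))))
 (.one (.play 133 (.both (.play 130 (.both (.ref 162 1) (.both (.play 129 (.ref 34 64)) (.play 129 (.ref 13 65))))) (.play 134 (.ref 1 130))))))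
 (.seq (.one (.play 260 (.both (.ref 57 0) (.play 324 (.ref 5 68)))))
 (.one (.play 68 (.both (.play 196 (.both (.ref 230 0) (.play 195 (.ref 1 131)))) (.play 67 (.ref 3 67))))))))
 (.seq (.seq (.seq (.one (.play 196 (.both (.ref 202 0) (.both (.play 197 (.both (.play 261 (.ref 4 4)) (.play 198 (.both (.play 195 (.both (.play 194 (.ref 25 129)) (.play 130 (.ref 3 130)))) (.play 199 (.ref 3 131)))))) (.both (.ref 74 2) (.both (.play 260 (.ref 10 3)) (.ref 122 3)))))))
 (.one (.play 325 (.both (.play 389 (.both (.play 390 (.both (.ref 159 4) (.play 454 (.ref 4 197)))) (.both (.play 453 (.both (.play 326 (.both (.ref 106 4) (.play 517 (.ref 5 261)))) (.ref 9 196))) (.both (.play 452 (.both (.play 388 (.ref 6 196)) (.play 453 (.both (.ref 212 256) (.play 516 (.ref 6 260)))))) (.play 453 (.ref 10 196)))))) (.play 324 (.ref 1 260))))))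
 (.seq (.one (.play 67 (.both (.ref 140 0) (.play 3 (.ref 4 3)))))
 (.one (.play 260 (.both (.ref 234 0) (.both (.play 324 (.ref 16 66)) (.play 324 (.both (.play 67 (.ref 7 67)) (.play 388 (.ref 7 131))))))))))
 (.seq (.seq (.one (.play 258 (.both (.play 322 (.both (.play 321 (.both (.ref 98 0) (.play 388 (.ref 0 321)))) (.play 257 (.ref 3 257)))) (.play 259 (.ref 3 258)))))
 (.one (.play 326 (.both (.play 323 (.own 388 (.both (.ref 236 0) (.play 263 (.both (.play 327 (.both (.play 328 (.both (.play 392 (.both (.play 456 (.ref 160 6)) (.play 393 (.ref 0 325)))) (.play 388 (.ref 1 324)))) (.play 264 (.ref 2 260)))) (.play 262 (.ref 2 259))))))) (.both (.play 323 (.both (.ref 236 0) (.both (.play 259 (.ref 160 2)) (.both (.ref 146 128) (.play 322 (.ref 33 257)))))) (.ref 14 259))))))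
 (.seq (.one (.play 455 (.both (.play 519 (.both (.ref 224 1) (.both (.play 391 (.both (.ref 237 67) (.both (.ref 235 260) (.both (.play 583 (.ref 59 262)) (.ref 230 323))))) (.both (.play 391 (.both (.ref 237 67) (.both (.ref 149 132) (.both (.play 327 (.both (.play 263 (.ref 18 198)) (.both (.ref 140 260) (.play 263 (.ref 10 262))))) (.ref 139 198))))) (.both (.play 520 (.both (.play 391 (.both (.ref 149 132) (.both (.ref 234 260) (.both (.ref 223 262) (.play 327 (.both (.play 263 (.ref 4 263)) (.ref 222 326))))))) (.both (.play 454 (.both (.play 584 (.both (.play 391 (.ref 90 326)) (.play 585 (.both (.play 649 (.ref 4 392)) (.play 521 (.both (.play 522 (.ref 3 454)) (.play 586 (.ref 112 518)))))))) (.both (.ref 200 386) (.both (.play 453 (.both (.ref 41 386) (.play 393 (.ref 2 389)))) (.ref 125 387))))) (.both (.ref 91 326) (.ref 232 388))))) (.both (.ref 181 131) (.both (.ref 150 131) (.both (.play 391 (.both (.ref 149 132) (.both (.ref 235 260) (.play 583 (.both (.ref 199 323) (.play 647 (.ref 5 391)))))))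 (.both (.play 391 (.both (.play 390 (.both (.ref 148 132) (.both (.play 389 (.both (.play 453 (.both (.play 454 (.both (.ref 98 132) (.play 393 (.ref 2 389)))) (.play 452 (.ref 1 388)))) (.play 388 (.ref 0 388)))) (.both (.play 389 (.both (.ref 219 132) (.play 388 (.ref 0 388)))) (.both (.play 454 (.both (.play 453 (.both (.ref 98 132) (.play 452 (.ref 2 388)))) (.both (.play 393 (.ref 107 133)) (.play 393 (.both (.play 453 (.ref 1 389)) (.play 394 (.ref 1 390))))))) (.both (.play 393 (.ref 145 324)) (.play 389 (.both (.play 393 (.ref 33 324)) (.play 388 (.ref 0 388)))))))))) (.both (.play 327 (.ref 61 198)) (.both (.play 327 (.ref 59 198)) (.both (.ref 235 260) (.play 584 (.both (.ref 113 324) (.both (.play 520 (.ref 16 326)) (.both (.play 520 (.ref 90 326)) (.play 520 (.ref 67 327))))))))))) (.both (.play 520 (.both (.play 453 (.both (.play 517 (.both (.play 583 (.both (.play 581 (.both (.play 580 (.both (.ref 191 196) (.play 582 (.ref 2 516)))) (.both (.ref 177 260) (.both (.play 582 (.both (.ref 106 260)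 (.play 580 (.ref 2 516)))) (.both (.play 645 (.ref 59 324)) (.play 645 (.both (.play 709 (.ref 18 388)) (.both (.play 709 (.ref 31 388)) (.play 644 (.both (.play 646 (.both (.play 710 (.ref 4 453)) (.ref 49 577))) (.play 708 (.ref 6 452)))))))))))) (.play 647 (.ref 5 391)))) (.both (.play 518 (.both (.ref 233 256) (.play 516 (.ref 2 452)))) (.both (.play 518 (.both (.ref 233 256) (.play 452 (.ref 3 452)))) (.play 518 (.both (.play 452 (.ref 3 452)) (.play 516 (.ref 2 452)))))))) (.both (.play 454 (.both (.ref 219 196) (.play 393 (.ref 2 389)))) (.both (.play 454 (.ref 70 387)) (.play 454 (.ref 225 387)))))) (.both (.play 584 (.both (.play 647 (.both (.play 583 (.ref 6 391)) (.play 648 (.both (.play 712 (.both (.play 519 (.ref 7 455)) (.ref 169 515))) (.play 711 (.ref 6 455)))))) (.both (.ref 216 390) (.both (.play 521 (.both (.play 647 (.both (.play 583 (.ref 6 391)) (.play 648 (.both (.play 711 (.ref 6 455)) (.play 712 (.both (.play 519 (.ref 7 455)) (.ref 51 519))))))) (.play 522 (.ref 65 454)))) (.ref 89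 391))))) (.both (.ref 87 388) (.both (.ref 232 388) (.both (.play 584 (.both (.ref 203 388) (.both (.ref 202 388) (.both (.ref 74 390) (.both (.ref 216 390) (.both (.play 648 (.ref 10 391)) (.play 649 (.both (.play 585 (.ref 4 392)) (.play 648 (.ref 207 455)))))))))) (.play 522 (.both (.play 584 (.both (.ref 202 388) (.both (.ref 74 390) (.both (.play 585 (.both (.play 649 (.ref 4 392)) (.play 586 (.both (.play 583 (.both (.ref 93 454) (.play 523 (.ref 2 519)))) (.play 587 (.ref 3 519)))))) (.both (.play 648 (.ref 10 391)) (.ref 89 391)))))) (.both (.play 521 (.ref 94 390)) (.play 521 (.ref 65 454))))))))))) (.both (.ref 99 193) (.both (.play 520 (.both (.ref 172 258) (.both (.ref 91 326) (.ref 88 386)))) (.ref 151 260))))))))))))) (.both (.ref 218 66) (.both (.ref 173 129) (.both (.play 454 (.both (.ref 220 197) (.both (.ref 175 259) (.both (.ref 228 385) (.both (.ref 227 386) (.play 453 (.ref 130 387))))))) (.both (.ref 179 193) (.both (.play 457 (.both (.play 521 (.both (.play 454 (.both (.ref 219 197) (.play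 522 (.ref 0 454)))) (.both (.ref 183 263) (.both (.play 585 (.both (.play 393 (.both (.play 329 (.ref 22 264)) (.both (.ref 15 327) (.ref 73 327)))) (.play 649 (.ref 7 392)))) (.ref 189 454))))) (.both (.play 458 (.both (.ref 231 323) (.both (.play 459 (.ref 33 390)) (.both (.play 459 (.ref 34 390)) (.play 459 (.ref 24 454)))))) (.both (.play 458 (.both (.ref 231 323) (.both (.play 454 (.ref 34 389)) (.both (.play 454 (.ref 33 389)) (.play 454 (.ref 24 453)))))) (.both (.play 458 (.both (.play 454 (.ref 33 389)) (.both (.play 459 (.ref 25 390)) (.play 459 (.ref 37 390))))) (.both (.ref 45 389) (.ref 26 389))))))) (.both (.play 393 (.both (.ref 229 261) (.both (.play 584 (.both (.play 457 (.both (.ref 119 325) (.both (.play 521 (.both (.play 458 (.both (.play 522 (.both (.play 586 (.ref 67 329)) (.play 523 (.ref 0 455)))) (.both (.ref 85 391) (.play 459 (.ref 64 391))))) (.play 585 (.both (.play 648 (.ref 6 392)) (.play 649 (.ref 7 392)))))) (.play 454 (.both (.play 521 (.both (.play 585 (.both (.play 649 (.ref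 198 388)) (.play 648 (.ref 6 392)))) (.play 522 (.ref 0 454)))) (.play 453 (.ref 2 389))))))) (.both (.play 520 (.ref 55 324)) (.both (.play 520 (.both (.play 329 (.ref 5 328)) (.play 583 (.ref 54 388)))) (.both (.ref 213 327) (.play 520 (.ref 82 327))))))) (.both (.ref 156 325) (.play 394 (.ref 81 387)))))) (.both (.play 393 (.both (.ref 229 261) (.both (.play 454 (.both (.play 457 (.both (.ref 124 261) (.both (.play 458 (.ref 34 389)) (.play 458 (.ref 24 453))))) (.play 453 (.ref 2 389)))) (.both (.ref 156 325) (.play 454 (.ref 132 389)))))) (.both (.play 454 (.both (.ref 76 325) (.both (.ref 228 385) (.both (.play 453 (.ref 50 386)) (.play 453 (.ref 225 387)))))) (.both (.play 454 (.both (.ref 226 325) (.both (.play 453 (.ref 50 386)) (.both (.ref 227 386) (.play 453 (.ref 70 387)))))) (.both (.ref 77 323) (.play 454 (.both (.ref 226 325) (.both (.ref 48 387) (.both (.play 453 (.ref 225 387)) (.play 453 (.ref 130 387)))))))))))))))))))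
 (.one (.play 456 (.both (.ref 238 0) (.both (.play 455 (.both (.play 519 (.both (.ref 224 1) (.play 328 (.ref 6 263)))) (.both (.play 328 (.ref 78 199)) (.both (.play 519 (.both (.play 457 (.both (.ref 128 258) (.both (.ref 45 389) (.both (.ref 14 390) (.ref 127 390))))) (.play 328 (.ref 6 263)))) (.both (.ref 77 323) (.play 454 (.both (.ref 174 325) (.both (.ref 48 387) (.both (.play 453 (.ref 131 388)) (.play 457 (.ref 130 388))))))))))) (.both (.play 455 (.both (.ref 218 66) (.both (.play 520 (.both (.play 328 (.ref 31 199)) (.both (.play 584 (.both (.ref 194 260) (.both (.play 648 (.ref 18 327)) (.play 648 (.ref 22 327))))) (.both (.play 584 (.ref 59 263)) (.ref 58 324))))) (.both (.play 328 (.ref 78 199)) (.both (.play 457 (.both (.play 519 (.both (.play 328 (.ref 6 263)) (.play 518 (.ref 81 450)))) (.both (.ref 137 262) (.both (.ref 184 263) (.ref 193 326))))) (.both (.ref 135 259) (.both (.ref 154 259) (.ref 152 260)))))))) (.both (.play 457 (.both (.play 458 (.both (.play 522 (.both (.play 394 (.both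 (.ref 192 73) (.both (.ref 190 327) (.play 455 (.ref 50 388))))) (.both (.play 586 (.both (.ref 185 262) (.both (.ref 100 393) (.ref 123 393)))) (.both (.play 455 (.both (.play 454 (.ref 25 389)) (.play 523 (.ref 0 455)))) (.ref 189 455))))) (.both (.ref 188 199) (.both (.play 455 (.both (.play 454 (.ref 33 389)) (.both (.play 454 (.ref 37 389)) (.play 459 (.ref 25 390))))) (.both (.play 455 (.both (.play 454 (.ref 34 389)) (.both (.play 454 (.ref 37 389)) (.play 459 (.ref 13 391))))) (.ref 35 389)))))) (.both (.play 458 (.both (.play 459 (.both (.play 523 (.both (.play 522 (.both (.play 395 (.both (.play 331 (.both (.play 267 (.ref 96 202)) (.play 586 (.ref 6 330)))) (.play 396 (.ref 2 392)))) (.play 455 (.ref 0 455)))) (.play 524 (.ref 0 456)))) (.both (.play 460 (.ref 13 392)) (.both (.ref 63 392) (.both (.play 460 (.both (.play 393 (.ref 3 392)) (.ref 187 393))) (.play 460 (.both (.play 393 (.ref 3 392)) (.ref 186 393)))))))) (.both (.play 455 (.both (.play 391 (.ref 94 326)) (.both (.play 454 (.ref 34 389))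 (.play 454 (.ref 24 453))))) (.both (.play 459 (.ref 65 391)) (.play 459 (.ref 64 391)))))) (.both (.play 328 (.ref 69 259)) (.both (.play 328 (.both (.play 455 (.both (.play 519 (.ref 6 263)) (.ref 38 388))) (.play 521 (.ref 4 264)))) (.both (.play 521 (.both (.play 585 (.both (.ref 185 261) (.play 649 (.ref 7 392)))) (.play 328 (.ref 4 264)))) (.both (.ref 184 263) (.play 458 (.both (.play 455 (.both (.play 391 (.ref 94 326)) (.both (.play 454 (.ref 33 389)) (.both (.play 454 (.ref 37 389)) (.play 454 (.ref 25 389)))))) (.both (.play 455 (.ref 182 389)) (.both (.play 459 (.ref 103 390)) (.play 459 (.ref 65 391))))))))))))) (.both (.play 455 (.both (.play 519 (.both (.ref 181 131) (.play 328 (.ref 6 263)))) (.both (.ref 109 193) (.both (.ref 179 193) (.both (.play 454 (.both (.ref 175 259) (.both (.ref 174 325) (.both (.play 453 (.ref 50 386)) (.ref 48 387))))) (.both (.ref 154 259) (.both (.play 328 (.ref 54 260)) (.both (.ref 129 261) (.play 328 (.both (.play 457 (.both (.play 521 (.ref 4 264)) (.play 458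 (.both (.play 394 (.both (.play 393 (.both (.ref 101 327) (.play 454 (.ref 2 390)))) (.play 395 (.ref 2 391)))) (.both (.play 459 (.ref 34 390)) (.play 459 (.ref 37 390))))))) (.play 519 (.ref 6 263)))))))))))) (.both (.play 455 (.both (.ref 173 129) (.both (.play 519 (.both (.play 454 (.both (.ref 161 129) (.both (.ref 48 387) (.play 453 (.ref 131 388))))) (.play 328 (.ref 6 263)))) (.both (.play 393 (.both (.ref 84 199) (.both (.ref 156 325) (.play 394 (.ref 81 387))))) (.both (.play 328 (.ref 78 199)) (.both (.ref 135 259) (.both (.ref 154 259) (.ref 152 260)))))))) (.both (.play 455 (.both (.play 519 (.both (.ref 150 131) (.play 328 (.ref 6 263)))) (.both (.play 457 (.both (.play 328 (.ref 19 199)) (.both (.ref 137 262) (.play 454 (.ref 136 388))))) (.both (.ref 135 259) (.both (.play 454 (.both (.play 457 (.both (.ref 124 261) (.both (.play 458 (.ref 37 389)) (.play 458 (.ref 24 453))))) (.both (.ref 48 387) (.both (.play 457 (.ref 133 388)) (.both (.ref 45 388) (.play 393 (.ref 132 389))))))) (.both (.play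 454 (.both (.play 457 (.both (.play 521 (.both (.play 328 (.ref 4 264)) (.play 522 (.ref 112 454)))) (.both (.play 458 (.ref 34 389)) (.play 458 (.ref 37 389))))) (.both (.ref 48 387) (.both (.play 453 (.ref 131 388)) (.play 457 (.ref 130 388)))))) (.ref 129 261))))))) (.both (.play 520 (.both (.play 455 (.both (.play 391 (.both (.play 393 (.both (.ref 128 194) (.both (.play 394 (.both (.play 390 (.ref 37 325)) (.play 395 (.ref 1 391)))) (.both (.ref 14 326) (.ref 127 326))))) (.both (.play 584 (.ref 16 326)) (.ref 123 327)))) (.both (.play 519 (.both (.play 518 (.both (.play 454 (.both (.ref 126 260) (.both (.ref 125 387) (.play 582 (.both (.play 646 (.ref 83 389)) (.ref 116 453)))))) (.both (.play 517 (.both (.ref 108 260) (.play 516 (.ref 2 452)))) (.both (.ref 121 260) (.both (.play 517 (.both (.ref 124 324) (.play 516 (.ref 2 452)))) (.both (.ref 119 388) (.both (.play 517 (.both (.play 516 (.ref 2 452)) (.play 521 (.ref 33 452)))) (.play 517 (.both (.play 516 (.ref 2 452)) (.play 581 (.both (.play 521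 (.both (.play 586 (.both (.ref 114 454) (.play 585 (.ref 0 518)))) (.play 582 (.ref 1 517)))) (.play 580 (.ref 1 516))))))))))))) (.play 328 (.ref 6 263)))) (.both (.play 519 (.both (.play 328 (.ref 6 263)) (.ref 87 388))) (.both (.play 584 (.both (.play 328 (.ref 31 263)) (.both (.ref 123 391) (.ref 122 391)))) (.play 584 (.both (.play 391 (.ref 90 326)) (.both (.play 648 (.ref 31 327)) (.ref 122 391))))))))) (.both (.play 328 (.ref 18 199)) (.both (.play 585 (.both (.play 521 (.both (.play 519 (.both (.play 455 (.both (.play 518 (.both (.ref 121 260) (.both (.play 582 (.both (.play 646 (.both (.play 454 (.both (.play 390 (.ref 31 325)) (.play 391 (.ref 5 390)))) (.play 710 (.ref 5 454)))) (.play 581 (.ref 1 517)))) (.both (.ref 119 388) (.both (.play 517 (.both (.ref 105 449) (.both (.ref 49 450) (.ref 23 516)))) (.play 517 (.ref 33 452))))))) (.both (.play 583 (.both (.play 647 (.ref 5 391)) (.ref 116 454))) (.play 522 (.ref 64 454))))) (.both (.play 583 (.both (.play 647 (.both (.play 455 (.ref 5 391)) (.play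 711 (.ref 5 455)))) (.ref 14 454))) (.both (.ref 41 452) (.play 586 (.ref 115 454)))))) (.play 328 (.ref 4 328)))) (.both (.ref 113 325) (.both (.play 584 (.ref 46 389)) (.both (.play 649 (.both (.play 584 (.ref 4 392)) (.play 713 (.both (.play 521 (.ref 7 456)) (.ref 60 517))))) (.play 649 (.both (.play 584 (.ref 4 392)) (.play 713 (.both (.play 521 (.ref 7 456)) (.play 777 (.ref 44 581))))))))))) (.both (.play 584 (.ref 61 263)) (.both (.play 584 (.ref 59 263)) (.play 584 (.ref 47 325)))))))) (.both (.play 455 (.both (.ref 109 193) (.both (.play 519 (.both (.ref 99 193) (.play 328 (.ref 6 263)))) (.both (.play 393 (.both (.ref 84 199) (.both (.play 454 (.ref 80 325)) (.play 394 (.ref 81 387))))) (.both (.play 393 (.both (.play 520 (.both (.play 328 (.ref 18 199)) (.play 584 (.ref 62 327)))) (.play 454 (.ref 80 325)))) (.both (.play 328 (.ref 78 199)) (.ref 77 323))))))) (.both (.play 520 (.both (.play 328 (.ref 18 199)) (.both (.play 584 (.both (.play 648 (.ref 22 327)) (.both (.play 648 (.ref 28 328)) (.both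 (.play 585 (.ref 69 387)) (.play 648 (.ref 10 391)))))) (.ref 36 324)))) (.both (.play 328 (.both (.play 520 (.ref 18 199)) (.both (.play 520 (.ref 31 199)) (.both (.play 457 (.ref 69 259)) (.play 520 (.ref 10 263)))))) (.both (.play 520 (.both (.play 328 (.ref 31 199)) (.both (.play 584 (.both (.play 328 (.ref 18 263)) (.both (.ref 43 324) (.play 393 (.ref 62 327))))) (.both (.play 584 (.ref 61 263)) (.ref 60 324))))) (.both (.play 520 (.both (.play 328 (.ref 31 199)) (.both (.play 584 (.ref 59 263)) (.both (.ref 58 324) (.ref 27 325))))) (.both (.play 328 (.ref 55 196)) (.both (.play 328 (.ref 47 197)) (.play 328 (.ref 44 260)))))))))))))))))))))))))))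
    (by decide +kernel)

theorem Cert_L22 : PW ⟨17, nat_lit 20173827172553973356686868531273530268260112056167814586046394567298257755827446065192912291289279091105045053412737024, nat_lit 236675949948778030393341571404335402479815511114588516079057176368958840366213472105029175144518630887563914443568075309324485504758738616956277975353558746680166748129791899112914984481092868893815937821585147709001081881812220205215424957427085479568362023006161210443136, 16, nat_lit 236675949948778030393341571404335402479815511114588516079057176368958840366213472105029175144518630887563914443568075309324485504758738616956277975353558746680166748129791899112914984481092868893815937821585147709001081881812220205215424957427085479568362023006161210443136⟩ :=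
  sound2 baseTbl baseTbl_ok
    (.seq (.seq (.seq (.seq (.seq (.seq (.one (.play 68 (.both (.play 67 (.ref 0 0)) (.play 69 (.ref 0 1)))))
 (.one (.play 65 (.both (.play 64 (.ref 1 0)) (.play 66 (.ref 1 1))))))
 (.seq (.one (.both (.ref 9 0) (.ref 8 1)))
 (.seq (.one (.play 4 (.both (.play 3 (.ref 2 0)) (.play 68 (.both (.play 5 (.ref 2 1)) (.play 69 (.ref 10 64)))))))
 (.one (.play 4 (.both (.play 3 (.ref 2 0)) (.play 5 (.ref 2 1))))))))
 (.seq (.seq (.one (.both (.ref 12 1) (.ref 9 64)))
 (.seq (.one (.play 69 (.both (.play 70 (.ref 13 1)) (.both (.ref 11 2) (.both (.play 70 (.both (.ref 12 2) (.both (.ref 11 3) (.ref 8 66)))) (.both (.play 65 (.ref 10 64)) (.play 70 (.ref 10 65))))))))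
 (.one (.play 1 (.both (.play 0 (.ref 3 0)) (.play 2 (.ref 3 1)))))))
 (.seq (.one (.both (.ref 15 0) (.ref 12 1)))
 (.seq (.one (.play 65 (.both (.ref 15 0) (.ref 9 64))))
 (.one (.play 69 (.both (.ref 17 0) (.both (.play 70 (.ref 13 1)) (.play 70 (.ref 16 1))))))))))
 (.seq (.seq (.seq (.one (.play 68 (.both (.ref 12 0) (.ref 8 64))))
 (.seq (.one (.both (.ref 15 0) (.ref 8 65)))
 (.one (.play 69 (.both (.play 65 (.ref 20 0)) (.both (.play 70 (.ref 16 1)) (.ref 19 2)))))))
 (.seq (.one (.play 69 (.both (.ref 17 0) (.both (.play 70 (.ref 20 1)) (.play 70 (.ref 10 65))))))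
 (.seq (.one (.both (.ref 17 0) (.both (.play 70 (.ref 20 1)) (.play 65 (.ref 10 64)))))
 (.one (.play 257 (.both (.play 193 (.ref 4 0)) (.play 321 (.ref 4 64))))))))
 (.seq (.seq (.one (.play 256 (.both (.play 192 (.ref 6 0)) (.play 320 (.ref 6 64)))))
 (.seq (.one (.play 257 (.both (.ref 25 0) (.ref 24 1))))
 (.one (.play 257 (.both (.play 66 (.ref 5 1)) (.ref 26 64))))))
 (.seq (.one (.play 65 (.both (.play 1 (.ref 5 0)) (.play 129 (.ref 5 64)))))
 (.seq (.one (.both (.ref 28 0) (.ref 24 64)))
 (.one (.play 256 (.both (.play 192 (.ref 6 0)) (.play 257 (.both (.play 321 (.ref 29 1)) (.play 320 (.ref 6 64))))))))))))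
 (.seq (.seq (.seq (.seq (.one (.play 257 (.both (.ref 25 0) (.both (.ref 24 1) (.ref 30 64)))))
 (.seq (.one (.play 257 (.both (.play 2 (.ref 5 1)) (.ref 30 64))))
 (.one (.both (.play 2 (.ref 5 1)) (.ref 26 64)))))
 (.seq (.one (.play 66 (.both (.ref 17 0) (.play 6 (.ref 2 2)))))
 (.seq (.one (.play 66 (.both (.ref 17 0) (.play 134 (.ref 0 66)))))
 (.one (.play 128 (.both (.play 0 (.ref 4 0)) (.play 321 (.both (.play 256 (.ref 4 64)) (.play 385 (.ref 7 128))))))))))
 (.seq (.seq (.one (.play 64 (.both (.play 0 (.ref 7 0)) (.play 128 (.ref 7 64)))))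
 (.seq (.one (.both (.ref 37 0) (.ref 24 65)))
 (.one (.play 129 (.both (.play 65 (.ref 38 0)) (.play 66 (.ref 5 65)))))))
 (.seq (.one (.play 193 (.both (.ref 39 0) (.play 192 (.ref 3 192)))))
 (.seq (.one (.play 129 (.both (.play 1 (.ref 6 0)) (.play 257 (.both (.play 321 (.ref 38 0)) (.play 320 (.ref 6 64)))))))
 (.one (.both (.ref 37 0) (.ref 25 64)))))))
 (.seq (.seq (.seq (.one (.play 129 (.both (.play 65 (.ref 42 0)) (.play 130 (.ref 5 65)))))
 (.seq (.one (.both (.play 2 (.ref 6 1)) (.play 321 (.both (.play 129 (.ref 5 65)) (.ref 27 128)))))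
 (.one (.play 132 (.both (.play 68 (.both (.play 69 (.ref 16 0)) (.play 133 (.ref 0 65)))) (.play 131 (.ref 0 64)))))))
 (.seq (.one (.play 68 (.both (.ref 12 0) (.both (.ref 45 1) (.ref 8 64)))))
 (.seq (.one (.play 196 (.both (.play 194 (.both (.play 258 (.ref 6 2)) (.play 197 (.both (.play 193 (.ref 16 128)) (.both (.play 198 (.ref 20 129)) (.both (.play 198 (.ref 16 129)) (.both (.ref 45 130) (.ref 46 130)))))))) (.play 260 (.ref 4 3)))))
 (.one (.play 259 (.both (.play 323 (.ref 42 2)) (.both (.play 323 (.ref 38 2)) (.ref 47 64))))))))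
 (.seq (.seq (.one (.play 132 (.both (.play 4 (.ref 6 3)) (.play 323 (.both (.play 260 (.ref 6 67)) (.play 387 (.both (.play 195 (.ref 5 131)) (.ref 48 192))))))))
 (.seq (.one (.play 68 (.both (.play 0 (.ref 3 0)) (.ref 19 1))))
 (.one (.play 195 (.both (.play 259 (.ref 4 2)) (.ref 50 128))))))
 (.seq (.one (.play 65 (.both (.play 66 (.both (.play 193 (.both (.play 257 (.ref 33 0)) (.play 192 (.ref 1 128)))) (.play 133 (.ref 3 65)))) (.play 64 (.ref 3 64)))))
 (.seq (.one (.play 129 (.both (.play 65 (.ref 42 0)) (.play 66 (.ref 5 65)))))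
 (.one (.play 259 (.both (.ref 36 2) (.play 260 (.ref 0 192)))))))))))
 (.seq (.seq (.seq (.seq (.seq (.one (.play 197 (.both (.ref 54 2) (.ref 17 128))))
 (.seq (.one (.play 65 (.both (.ref 37 0) (.ref 28 1))))
 (.one (.play 129 (.both (.ref 56 0) (.play 322 (.ref 4 129)))))))
 (.seq (.one (.play 388 (.both (.ref 57 2) (.play 387 (.ref 0 320)))))
 (.seq (.one (.play 2 (.both (.play 66 (.both (.play 65 (.ref 13 0)) (.play 1 (.ref 3 1)))) (.play 3 (.ref 3 2)))))
 (.one (.play 1 (.both (.play 0 (.ref 3 0)) (.play 69 (.both (.play 2 (.ref 3 1)) (.ref 19 2)))))))))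
 (.seq (.seq (.one (.play 257 (.both (.play 64 (.ref 7 0)) (.ref 26 64))))
 (.seq (.one (.play 66 (.both (.ref 17 0) (.play 5 (.ref 2 2)))))
 (.one (.play 130 (.both (.play 66 (.both (.play 65 (.ref 16 0)) (.play 129 (.ref 1 65)))) (.play 131 (.ref 1 66)))))))
 (.seq (.one (.both (.play 2 (.ref 6 1)) (.ref 51 64)))
 (.seq (.one (.play 68 (.both (.ref 19 1) (.play 128 (.ref 1 64)))))
 (.one (.play 6 (.both (.ref 62 0) (.play 7 (.ref 2 3)))))))))
 (.seq (.seq (.seq (.one (.play 2 (.both (.play 66 (.both (.play 1 (.ref 3 1)) (.play 65 (.ref 10 64)))) (.play 3 (.ref 3 2)))))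
 (.seq (.one (.play 67 (.both (.ref 67 0) (.play 6 (.ref 2 3)))))
 (.one (.play 321 (.both (.ref 28 1) (.ref 25 64))))))
 (.seq (.one (.both (.play 129 (.both (.play 321 (.both (.play 65 (.ref 29 1)) (.both (.ref 69 64) (.both (.play 385 (.ref 29 65)) (.both (.ref 30 128) (.ref 31 128)))))) (.play 128 (.ref 3 128)))) (.play 256 (.ref 1 192))))
 (.seq (.one (.play 66 (.both (.ref 17 0) (.play 133 (.ref 0 66)))))
 (.one (.play 67 (.both (.ref 71 0) (.play 6 (.ref 2 3))))))))
 (.seq (.seq (.one (.play 321 (.both (.ref 53 0) (.play 385 (.ref 5 129)))))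
 (.seq (.one (.play 450 (.both (.play 193 (.both (.ref 57 0) (.play 385 (.ref 4 193)))) (.play 514 (.ref 7 257)))))
 (.one (.play 325 (.both (.play 324 (.both (.play 263 (.both (.play 390 (.both (.play 261 (.both (.ref 74 4) (.play 260 (.ref 3 260)))) (.both (.ref 73 133) (.both (.play 262 (.both (.play 454 (.ref 33 197)) (.play 323 (.ref 2 259)))) (.ref 72 256))))) (.play 264 (.ref 2 260)))) (.both (.ref 66 257) (.ref 15 259)))) (.both (.play 389 (.ref 70 132)) (.both (.play 324 (.both (.play 263 (.both (.ref 68 256) (.play 264 (.ref 2 260)))) (.both (.ref 66 257) (.ref 9 323)))) (.both (.ref 59 258) (.ref 17 259)))))))))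
 (.seq (.one (.play 129 (.both (.play 64 (.both (.play 65 (.both (.play 0 (.ref 7 0)) (.play 256 (.ref 6 64)))) (.play 128 (.ref 7 64)))) (.both (.play 66 (.both (.play 65 (.both (.play 2 (.ref 5 1)) (.play 256 (.ref 6 64)))) (.play 130 (.ref 5 65)))) (.play 385 (.ref 38 64))))))
 (.seq (.one (.play 129 (.both (.ref 56 0) (.play 384 (.ref 6 128)))))
 (.one (.play 193 (.both (.play 130 (.both (.ref 53 0) (.play 194 (.ref 5 129)))) (.play 448 (.ref 6 192))))))))))
 (.seq (.seq (.seq (.seq (.one (.play 129 (.both (.ref 56 0) (.play 386 (.ref 4 129)))))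
 (.seq (.one (.play 321 (.both (.play 322 (.both (.play 193 (.both (.ref 79 0) (.play 192 (.ref 3 192)))) (.play 261 (.ref 1 257)))) (.play 320 (.ref 1 256)))))
 (.one (.play 257 (.both (.play 321 (.ref 42 0)) (.play 322 (.ref 4 65)))))))
 (.seq (.one (.play 258 (.both (.ref 81 0) (.play 194 (.ref 4 1)))))
 (.seq (.one (.play 196 (.both (.play 195 (.both (.play 194 (.both (.play 258 (.ref 70 1)) (.both (.play 193 (.ref 16 128)) (.play 193 (.ref 13 128))))) (.play 198 (.ref 0 195)))) (.play 261 (.ref 3 196)))))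
 (.one (.play 197 (.both (.ref 83 0) (.both (.play 325 (.both (.play 326 (.both (.play 261 (.both (.play 390 (.both (.play 133 (.ref 4 133)) (.play 454 (.both (.play 262 (.ref 7 197)) (.play 518 (.both (.play 325 (.ref 7 261)) (.play 582 (.both (.ref 25 325) (.both (.ref 24 326) (.ref 82 389)))))))))) (.play 196 (.ref 3 196)))) (.play 265 (.ref 1 261)))) (.both (.play 261 (.both (.play 196 (.ref 3 196)) (.play 324 (.ref 1 260)))) (.play 326 (.both (.play 324 (.both (.ref 62 257) (.play 327 (.ref 2 260)))) (.play 265 (.ref 1 261))))))) (.play 265 (.both (.play 198 (.ref 3 197)) (.play 266 (.ref 10 261)))))))))))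
 (.seq (.seq (.one (.play 260 (.both (.ref 77 3) (.play 259 (.ref 2 256)))))
 (.seq (.one (.play 385 (.both (.play 321 (.both (.ref 85 1) (.play 384 (.ref 1 320)))) (.play 386 (.ref 1 321)))))
 (.one (.play 68 (.both (.ref 68 0) (.both (.ref 62 1) (.ref 9 67)))))))
 (.seq (.one (.play 262 (.both (.ref 74 5) (.both (.play 261 (.both (.ref 83 64) (.play 329 (.ref 3 261)))) (.play 329 (.both (.play 261 (.ref 3 261)) (.ref 65 262)))))))
 (.seq (.one (.play 128 (.both (.play 129 (.both (.play 65 (.ref 29 1)) (.play 64 (.ref 7 64)))) (.play 192 (.ref 7 128)))))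
 (.one (.play 321 (.both (.play 449 (.both (.play 257 (.both (.play 193 (.both (.ref 89 0) (.both (.ref 37 128) (.ref 28 129)))) (.both (.ref 89 64) (.both (.play 193 (.ref 38 128)) (.both (.play 193 (.ref 29 129)) (.play 513 (.ref 29 193))))))) (.play 448 (.ref 1 384)))) (.play 320 (.ref 3 320)))))))))
 (.seq (.seq (.seq (.one (.play 68 (.both (.ref 19 1) (.play 129 (.ref 1 64)))))
 (.seq (.one (.play 129 (.both (.ref 91 1) (.play 128 (.ref 1 64)))))
 (.one (.play 68 (.both (.ref 11 1) (.play 128 (.ref 1 64)))))))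
 (.seq (.one (.play 386 (.both (.ref 90 1) (.both (.play 385 (.ref 20 320)) (.play 385 (.ref 10 384))))))
 (.seq (.one (.play 67 (.both (.ref 63 0) (.play 134 (.ref 0 67)))))
 (.one (.play 134 (.both (.ref 71 0) (.play 135 (.ref 0 67))))))))
 (.seq (.seq (.one (.play 321 (.both (.ref 43 0) (.both (.play 385 (.both (.play 129 (.ref 38 64)) (.both (.play 449 (.ref 42 128)) (.ref 26 192)))) (.both (.play 385 (.ref 33 128)) (.play 385 (.both (.play 449 (.ref 38 128)) (.play 130 (.ref 5 129)))))))))
 (.seq (.one (.play 67 (.both (.ref 63 0) (.both (.ref 15 2) (.ref 9 66)))))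
 (.one (.play 200 (.both (.ref 53 7) (.both (.ref 39 7) (.both (.play 136 (.ref 33 71)) (.play 392 (.both (.play 456 (.ref 42 135)) (.both (.play 456 (.ref 38 135)) (.both (.play 393 (.both (.play 391 (.both (.play 455 (.ref 6 199)) (.play 390 (.both (.ref 52 261) (.both (.play 389 (.both (.play 388 (.both (.ref 98 320) (.play 327 (.ref 2 324)))) (.play 329 (.ref 2 325)))) (.both (.play 389 (.both (.ref 63 322) (.play 329 (.ref 2 325)))) (.both (.ref 34 323) (.ref 17 324)))))))) (.play 457 (.ref 4 200)))) (.ref 31 199))))))))))))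
 (.seq (.one (.both (.play 193 (.both (.play 129 (.both (.ref 56 0) (.play 320 (.ref 6 128)))) (.play 385 (.ref 6 192)))) (.play 512 (.ref 5 256))))
 (.seq (.one (.play 327 (.both (.play 389 (.both (.play 325 (.both (.play 453 (.both (.play 517 (.both (.play 261 (.both (.play 197 (.both (.ref 89 4) (.play 454 (.ref 4 197)))) (.both (.ref 79 68) (.ref 28 197)))) (.both (.ref 69 260) (.play 581 (.both (.play 580 (.both (.play 516 (.ref 64 323)) (.play 644 (.ref 6 388)))) (.play 645 (.ref 5 389))))))) (.play 452 (.ref 1 388)))) (.play 324 (.ref 3 324)))) (.both (.play 324 (.both (.play 388 (.both (.play 387 (.both (.play 451 (.both (.play 515 (.ref 100 67)) (.play 450 (.ref 1 386)))) (.play 326 (.ref 2 323)))) (.play 323 (.ref 3 323)))) (.play 325 (.ref 3 324)))) (.both (.ref 87 320) (.both (.play 324 (.both (.play 388 (.both (.play 387 (.both (.play 326 (.ref 2 323)) (.play 386 (.ref 10 385)))) (.play 323 (.ref 3 323)))) (.play 325 (.ref 3 324)))) (.ref 17 323)))))) (.play 199 (.ref 6 198)))))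
 (.one (.play 392 (.both (.play 394 (.both (.ref 94 5) (.both (.play 328 (.both (.play 264 (.both (.ref 79 71) (.both (.play 457 (.both (.play 200 (.ref 4 200)) (.play 521 (.both (.play 456 (.ref 4 264)) (.play 585 (.both (.play 393 (.ref 7 328)) (.play 649 (.both (.ref 69 392) (.both (.play 713 (.ref 29 393)) (.play 648 (.both (.play 650 (.both (.play 714 (.ref 4 457)) (.play 647 (.both (.ref 98 579) (.both (.ref 63 580) (.both (.play 646 (.ref 16 581)) (.both (.play 646 (.ref 13 581)) (.play 651 (.ref 16 582))))))))) (.play 712 (.ref 6 456))))))))))))) (.play 456 (.both (.play 201 (.ref 5 200)) (.ref 65 327)))))) (.both (.play 264 (.both (.ref 79 71) (.both (.play 456 (.ref 33 199)) (.both (.play 456 (.both (.play 520 (.ref 42 199)) (.play 201 (.ref 5 200)))) (.play 457 (.both (.ref 81 199) (.play 200 (.ref 4 200)))))))) (.ref 50 327)))) (.both (.play 395 (.both (.play 396 (.both (.play 457 (.both (.play 458 (.both (.play 331 (.both (.play 522 (.ref 100 74)) (.play 332 (.ref 2 328)))) (.play 397 (.ref 1 393))))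 (.play 456 (.ref 1 392)))) (.both (.ref 12 328) (.ref 92 328)))) (.both (.play 391 (.ref 20 326)) (.both (.ref 19 328) (.ref 11 328))))) (.both (.play 456 (.both (.ref 99 128) (.both (.play 328 (.both (.ref 39 135) (.both (.play 327 (.both (.play 520 (.both (.play 263 (.ref 7 263)) (.ref 26 327))) (.play 395 (.ref 3 327)))) (.play 395 (.both (.play 327 (.ref 3 327)) (.ref 91 328)))))) (.both (.play 455 (.both (.play 391 (.ref 70 198)) (.play 395 (.ref 1 391)))) (.ref 93 327))))) (.both (.play 455 (.both (.play 391 (.ref 70 198)) (.both (.play 391 (.both (.ref 60 326) (.play 454 (.ref 1 390)))) (.ref 91 327)))) (.both (.play 391 (.ref 23 325)) (.ref 14 326)))))))) (.both (.play 456 (.both (.play 394 (.both (.ref 101 2) (.both (.play 201 (.both (.play 328 (.both (.play 264 (.ref 5 200)) (.ref 50 327))) (.play 329 (.ref 6 200)))) (.ref 65 327)))) (.both (.play 328 (.both (.play 329 (.ref 100 8)) (.both (.ref 53 135) (.play 520 (.both (.play 264 (.ref 38 199)) (.play 329 (.ref 5 264))))))) (.both (.ref 99 128) (.both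 (.ref 49 197) (.both (.play 329 (.ref 44 199)) (.both (.play 329 (.both (.ref 73 199) (.play 201 (.ref 6 200)))) (.ref 97 199)))))))) (.both (.play 456 (.both (.play 394 (.both (.ref 101 2) (.both (.play 395 (.both (.ref 40 135) (.both (.play 396 (.ref 16 327)) (.ref 91 328)))) (.both (.play 395 (.both (.play 396 (.ref 16 327)) (.play 455 (.ref 1 391)))) (.ref 93 327))))) (.both (.ref 99 128) (.both (.ref 49 197) (.both (.ref 97 199) (.ref 41 200)))))) (.both (.play 391 (.both (.play 390 (.both (.ref 90 5) (.both (.play 389 (.both (.play 456 (.both (.play 327 (.both (.play 455 (.both (.ref 79 134) (.play 388 (.ref 0 388)))) (.both (.play 454 (.both (.play 263 (.ref 44 197)) (.play 453 (.ref 1 389)))) (.play 388 (.both (.ref 62 321) (.play 455 (.ref 0 388))))))) (.play 457 (.ref 0 389)))) (.both (.ref 96 322) (.ref 9 388)))) (.both (.play 389 (.both (.play 456 (.both (.ref 95 321) (.play 457 (.ref 0 389)))) (.both (.ref 96 322) (.ref 15 324)))) (.both (.play 453 (.both (.play 389 (.both (.play 388 (.ref 20 323))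 (.play 452 (.ref 1 388)))) (.play 454 (.ref 1 389)))) (.ref 17 324)))))) (.both (.play 456 (.both (.ref 88 65) (.both (.play 329 (.both (.play 201 (.ref 6 200)) (.play 520 (.both (.play 457 (.ref 6 264)) (.play 584 (.ref 5 328)))))) (.play 390 (.both (.play 389 (.both (.ref 95 321) (.both (.ref 71 322) (.ref 15 324)))) (.both (.ref 35 323) (.both (.play 394 (.ref 20 325)) (.play 457 (.both (.play 389 (.ref 0 389)) (.play 458 (.both (.play 455 (.ref 3 390)) (.play 459 (.both (.play 392 (.ref 3 391)) (.ref 46 392)))))))))))))) (.both (.play 394 (.both (.play 456 (.both (.play 455 (.both (.play 454 (.both (.play 453 (.both (.ref 94 66) (.play 456 (.ref 2 389)))) (.play 391 (.ref 1 390)))) (.play 395 (.ref 1 391)))) (.both (.play 520 (.both (.play 329 (.both (.ref 79 72) (.play 457 (.ref 6 264)))) (.both (.play 584 (.ref 33 327)) (.play 584 (.both (.ref 47 389) (.both (.play 648 (.both (.ref 25 391) (.both (.play 457 (.both (.play 393 (.ref 5 392)) (.ref 27 455))) (.play 457 (.both (.play 393 (.ref 5 392)) (.play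 712 (.both (.play 521 (.ref 5 456)) (.ref 82 519)))))))) (.play 649 (.both (.play 585 (.ref 4 392)) (.play 648 (.both (.play 457 (.ref 5 392)) (.play 713 (.ref 4 456)))))))))))) (.ref 93 327)))) (.both (.ref 54 199) (.ref 92 326)))) (.both (.ref 84 129) (.both (.play 394 (.both (.ref 80 134) (.ref 54 199))) (.both (.ref 55 197) (.play 390 (.ref 23 324))))))))) (.both (.play 391 (.both (.play 394 (.both (.ref 90 6) (.both (.ref 45 327) (.play 395 (.ref 10 390))))) (.both (.ref 75 65) (.both (.play 456 (.both (.ref 88 65) (.both (.play 329 (.both (.play 201 (.ref 6 200)) (.play 326 (.both (.play 327 (.both (.play 325 (.both (.ref 71 258) (.play 328 (.ref 0 325)))) (.play 394 (.ref 3 326)))) (.both (.play 390 (.both (.ref 72 322) (.play 325 (.ref 3 325)))) (.play 394 (.both (.play 327 (.ref 3 326)) (.ref 65 327)))))))) (.play 329 (.ref 44 199))))) (.both (.play 394 (.both (.play 329 (.both (.ref 79 72) (.ref 87 322))) (.both (.play 455 (.both (.play 395 (.both (.play 396 (.ref 16 327)) (.play 456 (.ref 1 391))))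 (.play 454 (.ref 1 390)))) (.both (.ref 45 327) (.play 395 (.ref 10 390)))))) (.both (.play 390 (.both (.play 389 (.both (.ref 85 69) (.ref 15 324))) (.both (.ref 86 68) (.both (.ref 80 133) (.ref 17 324))))) (.both (.play 390 (.both (.ref 86 68) (.both (.play 325 (.both (.play 389 (.both (.ref 85 69) (.play 324 (.ref 3 324)))) (.play 326 (.ref 3 325)))) (.both (.ref 52 261) (.ref 17 324))))) (.both (.ref 84 129) (.ref 22 325))))))))) (.both (.play 329 (.both (.ref 78 8) (.both (.ref 77 72) (.both (.ref 76 72) (.play 457 (.both (.play 521 (.ref 42 200)) (.both (.play 521 (.ref 38 200)) (.play 458 (.both (.play 456 (.both (.play 520 (.ref 6 264)) (.play 391 (.both (.play 390 (.both (.play 389 (.both (.play 388 (.both (.ref 67 321) (.both (.ref 15 323) (.ref 9 387)))) (.play 456 (.ref 0 389)))) (.play 393 (.ref 0 390)))) (.play 459 (.ref 3 391)))))) (.play 522 (.ref 4 265))))))))))) (.both (.play 329 (.both (.ref 78 8) (.both (.ref 77 72) (.both (.ref 76 72) (.play 457 (.both (.play 458 (.both (.play 456 (.both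 (.play 455 (.both (.play 454 (.both (.ref 80 197) (.play 453 (.ref 2 389)))) (.both (.play 454 (.ref 13 389)) (.play 459 (.both (.ref 12 391) (.both (.ref 50 392) (.play 460 (.both (.play 392 (.ref 3 392)) (.ref 45 393))))))))) (.play 520 (.ref 6 264)))) (.play 522 (.ref 4 265)))) (.both (.play 521 (.ref 42 200)) (.play 521 (.ref 38 200))))))))) (.both (.play 329 (.both (.ref 78 8) (.both (.ref 77 72) (.both (.ref 76 72) (.play 457 (.both (.play 521 (.ref 42 200)) (.both (.play 521 (.ref 38 200)) (.play 458 (.both (.play 456 (.both (.play 520 (.ref 6 264)) (.ref 50 391))) (.play 522 (.ref 4 265))))))))))) (.both (.play 391 (.both (.ref 75 65) (.both (.play 390 (.both (.play 329 (.both (.ref 58 70) (.both (.play 328 (.both (.play 201 (.both (.play 200 (.both (.play 264 (.both (.play 202 (.both (.ref 65 135) (.play 138 (.ref 5 137)))) (.play 457 (.ref 7 200)))) (.play 136 (.ref 7 136)))) (.play 137 (.ref 6 136)))) (.play 389 (.ref 2 325)))) (.both (.play 328 (.both (.play 201 (.ref 64 135)) (.play 389 (.ref 2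 325)))) (.play 457 (.both (.play 264 (.both (.play 200 (.ref 7 200)) (.ref 61 264))) (.play 458 (.ref 0 390)))))))) (.both (.ref 63 323) (.play 394 (.ref 10 389))))) (.both (.play 390 (.both (.play 458 (.both (.play 329 (.both (.ref 57 72) (.ref 62 323))) (.play 457 (.ref 0 390)))) (.both (.play 394 (.both (.play 327 (.both (.play 328 (.both (.play 457 (.both (.play 264 (.both (.play 200 (.ref 4 200)) (.play 521 (.both (.play 329 (.ref 7 264)) (.ref 61 328))))) (.play 458 (.ref 0 390)))) (.play 395 (.ref 3 327)))) (.play 326 (.ref 3 326)))) (.both (.ref 60 326) (.ref 8 390)))) (.both (.ref 59 323) (.play 394 (.ref 20 325)))))) (.both (.play 390 (.both (.play 389 (.both (.play 329 (.both (.ref 58 70) (.play 328 (.ref 2 325)))) (.ref 15 324))) (.both (.ref 17 324) (.play 394 (.ref 10 389))))) (.both (.ref 55 197) (.both (.play 394 (.both (.ref 54 199) (.ref 52 262))) (.play 394 (.ref 23 325))))))))) (.both (.play 456 (.both (.play 328 (.both (.ref 53 135) (.both (.play 264 (.both (.play 201 (.ref 5 200)) (.play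 457 (.both (.play 200 (.ref 4 200)) (.play 521 (.ref 4 264)))))) (.ref 48 261)))) (.both (.play 264 (.both (.play 328 (.both (.play 200 (.ref 42 135)) (.both (.play 200 (.ref 38 135)) (.play 457 (.both (.play 455 (.both (.play 519 (.ref 6 263)) (.play 454 (.both (.ref 52 325) (.play 453 (.ref 2 389)))))) (.play 521 (.ref 4 264))))))) (.both (.play 329 (.both (.play 457 (.both (.play 200 (.ref 7 200)) (.ref 51 263))) (.play 201 (.ref 6 200)))) (.play 201 (.both (.play 329 (.ref 6 200)) (.play 328 (.ref 5 200))))))) (.both (.ref 49 197) (.both (.play 329 (.ref 44 199)) (.both (.play 520 (.both (.ref 43 199) (.both (.play 584 (.both (.play 328 (.ref 42 263)) (.both (.play 648 (.ref 38 327)) (.ref 30 391)))) (.both (.play 329 (.both (.play 328 (.ref 5 264)) (.play 584 (.ref 5 328)))) (.ref 32 327))))) (.ref 41 200))))))) (.both (.play 394 (.both (.play 395 (.both (.play 456 (.both (.ref 40 135) (.play 455 (.ref 1 391)))) (.both (.play 396 (.ref 13 327)) (.ref 19 328)))) (.both (.play 458 (.both (.ref 36 201) (.ref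 35 325))) (.both (.ref 21 326) (.both (.ref 18 326) (.ref 14 326)))))) (.play 394 (.both (.play 391 (.both (.play 327 (.both (.play 455 (.both (.play 519 (.both (.play 520 (.both (.play 456 (.both (.play 263 (.ref 4 263)) (.play 518 (.both (.play 582 (.ref 6 326)) (.ref 34 451))))) (.play 584 (.ref 4 327)))) (.both (.ref 26 326) (.both (.play 583 (.ref 33 326)) (.both (.ref 32 326) (.play 583 (.both (.play 328 (.ref 5 327)) (.play 647 (.both (.play 456 (.ref 5 391)) (.ref 31 454)))))))))) (.play 454 (.ref 1 390)))) (.play 326 (.ref 3 326)))) (.both (.play 390 (.ref 20 325)) (.both (.ref 17 325) (.play 390 (.ref 10 389)))))) (.both (.play 395 (.both (.play 328 (.both (.play 456 (.both (.ref 27 263) (.play 455 (.ref 1 391)))) (.play 327 (.ref 3 327)))) (.both (.play 396 (.ref 16 327)) (.play 396 (.ref 10 391))))) (.both (.play 391 (.ref 23 325)) (.both (.ref 22 326) (.both (.ref 21 326) (.both (.ref 18 326) (.ref 14 326))))))))))))))))))))))))))))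
    (by decide +kernel)

theorem Cert_L23 : PW ⟨13, nat_lit 23258839177459420497578361852416145099384875127143647051644327068377882887296020091153526511478739429394711722625498191473842038897639424, nat_lit 2291112313477996896527384741031666480003851000017027173869501058271368062185714941408053789428626477072429933929237510115497897528419966240021530624863863291461721370674239923418585188789669689886678977848716297558649884371653205418799023040242951127120, 11, nat_lit 2291112313477996896527384741031666480003851000017027173869501058271368062185714941408053789428626477072429933929237510115497897528419966240021530624863863291461721370674239923418585188789669689886678977848716297558649884371653205418799023040242951127120⟩ :=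
  sound2 baseTbl baseTbl_ok
    (.seq (.seq (.seq (.seq (.one (.play 68 (.both (.play 67 (.ref 0 0)) (.play 69 (.ref 0 1)))))
 (.one (.both (.play 4 (.both (.play 3 (.ref 2 0)) (.play 5 (.ref 2 1)))) (.ref 8 64))))
 (.seq (.one (.play 1 (.both (.play 0 (.ref 3 0)) (.play 2 (.ref 3 1)))))
 (.one (.play 66 (.both (.play 65 (.both (.ref 10 0) (.play 129 (.both (.play 128 (.ref 1 64)) (.play 130 (.ref 1 65)))))) (.play 5 (.ref 2 2)))))))
 (.seq (.seq (.one (.play 197 (.both (.play 195 (.both (.play 259 (.ref 6 3)) (.play 198 (.both (.play 134 (.both (.ref 11 128) (.play 135 (.ref 2 131)))) (.both (.play 199 (.both (.ref 10 130) (.ref 8 195))) (.play 199 (.ref 9 131))))))) (.play 261 (.ref 4 4)))))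
 (.one (.play 257 (.both (.play 193 (.ref 4 0)) (.play 321 (.ref 4 64))))))
 (.seq (.one (.play 64 (.both (.play 0 (.ref 7 0)) (.play 128 (.ref 7 64)))))
 (.one (.play 321 (.both (.ref 14 0) (.ref 13 65)))))))
 (.seq (.seq (.seq (.one (.play 129 (.both (.play 69 (.both (.play 70 (.both (.play 71 (.ref 9 3)) (.play 131 (.ref 1 66)))) (.play 66 (.ref 1 65)))) (.play 128 (.ref 2 64)))))
 (.one (.play 68 (.both (.ref 16 0) (.play 4 (.ref 5 3))))))
 (.seq (.one (.play 256 (.both (.play 192 (.ref 6 0)) (.play 320 (.ref 6 64)))))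
 (.one (.play 257 (.both (.ref 18 0) (.ref 13 1))))))
 (.seq (.seq (.one (.play 65 (.both (.play 1 (.ref 5 0)) (.play 129 (.ref 5 64)))))
 (.one (.play 65 (.both (.ref 14 0) (.ref 20 1)))))
 (.seq (.one (.play 65 (.both (.ref 20 1) (.ref 18 64))))
 (.seq (.one (.play 386 (.both (.play 129 (.both (.ref 21 0) (.play 322 (.ref 4 129)))) (.play 450 (.ref 4 193)))))
 (.one (.play 389 (.both (.play 261 (.both (.play 454 (.both (.play 197 (.both (.play 388 (.both (.play 133 (.both (.ref 21 4) (.play 324 (.ref 6 132)))) (.play 452 (.ref 6 196)))) (.play 390 (.ref 4 197)))) (.play 518 (.ref 4 261)))) (.both (.ref 21 132) (.ref 15 196)))) (.both (.play 261 (.both (.ref 23 68) (.both (.play 517 (.both (.play 198 (.both (.play 197 (.both (.play 134 (.ref 5 133)) (.play 324 (.both (.play 390 (.both (.play 454 (.ref 4 197)) (.play 323 (.both (.play 322 (.ref 0 322)) (.play 391 (.both (.play 388 (.ref 3 323)) (.play 392 (.both (.play 325 (.ref 3 324)) (.play 393 (.ref 9 325)))))))))) (.play 260 (.ref 7 260)))))) (.play 262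 (.ref 5 197)))) (.both (.play 518 (.both (.play 454 (.both (.play 261 (.ref 4 261)) (.play 516 (.both (.play 580 (.ref 6 324)) (.play 455 (.both (.play 515 (.both (.ref 11 448) (.play 518 (.ref 2 451)))) (.play 456 (.ref 1 452)))))))) (.play 582 (.ref 4 325)))) (.ref 15 260)))) (.both (.ref 21 132) (.ref 15 196))))) (.both (.play 261 (.both (.ref 23 68) (.both (.ref 22 132) (.ref 12 257)))) (.both (.play 261 (.both (.play 197 (.both (.ref 14 132) (.ref 18 196))) (.both (.ref 22 132) (.play 260 (.both (.play 324 (.both (.ref 17 194) (.play 517 (.ref 7 260)))) (.play 196 (.ref 7 196))))))) (.both (.play 261 (.both (.ref 21 132) (.ref 19 260))) (.play 517 (.both (.play 454 (.both (.play 324 (.both (.play 260 (.ref 7 260)) (.play 581 (.both (.play 388 (.ref 7 324)) (.play 645 (.both (.play 390 (.ref 5 389)) (.play 709 (.both (.play 518 (.ref 5 453)) (.ref 19 516))))))))) (.both (.play 516 (.both (.play 580 (.ref 6 324)) (.ref 16 386))) (.play 516 (.both (.play 580 (.ref 6 324)) (.play 455 (.both (.play 452 (.both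 (.play 451 (.ref 9 387)) (.play 515 (.ref 1 451)))) (.play 456 (.ref 1 452))))))))) (.both (.play 581 (.both (.ref 14 260) (.play 646 (.both (.play 645 (.both (.play 516 (.both (.play 580 (.ref 6 324)) (.ref 17 386))) (.play 710 (.ref 4 453)))) (.play 582 (.ref 4 389)))))) (.both (.ref 15 260) (.ref 12 321)))))))))))))))))
    (by decide +kernel)

theorem Cert_L24 : PW ⟨15, nat_lit 46517678354918840995156723704832290198769750254287294103288654136755765774592040182307053022957478858789423445250996382947684077795278848, nat_lit 1145556156738998448760498160052060099287303590458813145918901443490206452389906763210375588999396288944430484664132535331394373439438195874414989339056055825956586062992154910957500665658480085155732937804452288841865636778655254986329725256666978451496, 12, nat_lit 1145556156738998448760498160052060099287303590458813145918901443490206452389906763210375588999396288944430484664132535331394373439438195874414989339056055825956586062992154910957500665658480085155732937804452288841865636778655254986329725256666978451496⟩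 :=
  sound2 baseTbl baseTbl_ok
    (.seq (.seq (.seq (.seq (.one (.play 257 (.both (.play 193 (.ref 4 0)) (.play 321 (.ref 4 64)))))
 (.one (.play 256 (.both (.play 192 (.ref 6 0)) (.play 320 (.ref 6 64))))))
 (.seq (.one (.play 257 (.both (.ref 9 0) (.ref 8 1))))
 (.one (.play 64 (.both (.play 0 (.ref 7 0)) (.play 128 (.ref 7 64)))))))
 (.seq (.seq (.one (.both (.ref 11 0) (.ref 8 65)))
 (.one (.both (.ref 11 0) (.ref 9 64))))
 (.seq (.one (.play 65 (.both (.play 64 (.ref 1 0)) (.play 66 (.ref 1 1)))))
 (.one (.play 65 (.both (.play 1 (.both (.play 0 (.ref 3 0)) (.play 2 (.ref 3 1)))) (.ref 14 64)))))))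
 (.seq (.seq (.seq (.one (.play 66 (.both (.ref 15 0) (.play 5 (.ref 2 2)))))
 (.one (.play 65 (.both (.play 1 (.ref 5 0)) (.play 129 (.ref 5 64))))))
 (.seq (.one (.both (.ref 17 0) (.ref 8 64)))
 (.one (.play 65 (.both (.ref 11 0) (.ref 17 1))))))
 (.seq (.seq (.one (.both (.play 129 (.both (.ref 19 0) (.play 320 (.ref 6 128)))) (.play 448 (.ref 6 192))))
 (.one (.play 4 (.both (.play 3 (.ref 2 0)) (.play 5 (.ref 2 1))))))
 (.seq (.one (.play 68 (.both (.ref 21 0) (.play 132 (.both (.play 131 (.ref 0 64)) (.play 133 (.ref 0 65)))))))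
 (.seq (.one (.play 68 (.both (.play 66 (.both (.play 2 (.ref 7 2)) (.play 128 (.ref 1 64)))) (.play 4 (.ref 5 3)))))
 (.one (.play 390 (.both (.play 262 (.both (.play 324 (.both (.play 388 (.both (.play 387 (.both (.play 260 (.both (.play 196 (.ref 20 3)) (.both (.play 196 (.both (.ref 19 67) (.play 451 (.ref 6 195)))) (.ref 23 195)))) (.play 455 (.both (.play 519 (.ref 4 262)) (.play 389 (.ref 0 387)))))) (.both (.play 260 (.both (.play 196 (.both (.ref 19 67) (.both (.play 452 (.ref 12 131)) (.play 452 (.ref 18 132))))) (.both (.play 452 (.both (.play 196 (.ref 12 131)) (.both (.play 516 (.ref 13 195)) (.ref 10 259)))) (.ref 23 195)))) (.both (.play 455 (.both (.play 453 (.both (.play 517 (.ref 6 261)) (.play 387 (.both (.play 389 (.both (.play 386 (.both (.ref 15 320) (.play 453 (.ref 0 386)))) (.play 390 (.ref 0 387)))) (.play 452 (.ref 3 387)))))) (.play 519 (.ref 4 262)))) (.play 455 (.both (.play 453 (.both (.play 517 (.ref 6 261)) (.play 452 (.both (.play 451 (.both (.ref 21 387) (.ref 14 450))) (.play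 387 (.ref 3 387)))))) (.play 519 (.ref 4 262)))))))) (.both (.play 263 (.both (.play 261 (.both (.play 264 (.both (.ref 22 197) (.play 325 (.ref 1 260)))) (.play 197 (.ref 7 197)))) (.play 199 (.ref 5 198)))) (.play 391 (.both (.play 453 (.both (.play 517 (.ref 6 261)) (.play 392 (.both (.play 452 (.both (.ref 16 385) (.play 455 (.ref 2 388)))) (.play 393 (.ref 1 389)))))) (.both (.play 388 (.both (.play 453 (.both (.play 452 (.both (.play 455 (.both (.play 519 (.both (.play 326 (.both (.play 262 (.ref 4 262)) (.play 583 (.both (.play 391 (.ref 7 326)) (.play 647 (.both (.play 454 (.ref 7 390)) (.ref 10 454))))))) (.play 520 (.ref 0 452)))) (.play 387 (.ref 3 387)))) (.play 451 (.ref 2 387)))) (.play 517 (.ref 6 261)))) (.play 323 (.both (.play 389 (.ref 3 323)) (.play 325 (.ref 0 323)))))) (.play 325 (.both (.play 323 (.ref 0 323)) (.play 392 (.both (.play 389 (.ref 3 324)) (.play 393 (.both (.play 326 (.ref 3 325)) (.ref 22 326))))))))))))) (.both (.play 198 (.ref 13 133)) (.play 198 (.ref 18 134))))) (.both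 (.play 262 (.both (.play 455 (.both (.play 198 (.both (.ref 19 69) (.play 391 (.ref 4 198)))) (.play 519 (.ref 4 262)))) (.both (.play 453 (.ref 20 69)) (.ref 10 261)))) (.both (.play 262 (.both (.ref 19 133) (.both (.play 198 (.both (.ref 17 134) (.ref 9 197))) (.play 518 (.ref 13 197))))) (.both (.play 262 (.both (.ref 19 133) (.both (.play 198 (.ref 18 134)) (.play 518 (.ref 12 197))))) (.play 518 (.both (.play 519 (.both (.play 517 (.both (.play 325 (.both (.play 261 (.ref 7 261)) (.play 516 (.both (.play 580 (.both (.play 452 (.both (.play 453 (.both (.play 644 (.both (.play 389 (.ref 5 388)) (.play 708 (.both (.play 517 (.ref 5 452)) (.ref 10 515))))) (.play 520 (.ref 3 452)))) (.play 451 (.ref 3 451)))) (.play 579 (.ref 1 515)))) (.both (.play 515 (.both (.ref 16 448) (.play 455 (.ref 2 451)))) (.both (.play 515 (.both (.ref 15 449) (.play 455 (.ref 2 451)))) (.ref 15 450))))))) (.play 581 (.ref 6 325)))) (.play 583 (.ref 4 326)))) (.both (.play 582 (.ref 13 261)) (.both (.play 582 (.ref 12 261)) (.ref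 10 325))))))))))))))))
    (by decide +kernel)

theorem Cert_L25 : PW ⟨19, nat_lit 372141426839350727961253789638658321590158002034298352826309233094046126196736321458456424183659830870315387562007971063581472622362230784, nat_lit 57526180315594109056693267556192790593438578593400571030554591054455973139885052619536194419873600023701200972032150170502400108085374254913086400274461641685305644672314613095012149514935853914630143275712233715028469268106938812823347490201642522548565447851844036481712271627794085090952881005818808469815376, 17, nat_lit 57526180315594109056693267556192790593438578593400571030554591054455973139885052619536194419873600023701200972032150170502400108085374254913086400274461641685305644672314613095012149514935853914630143275712233715028469268106938812823347490201642522548565447851844036481712271627794085090952881005818808469815376⟩ :=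
  sound2 baseTbl baseTbl_ok
    (.seq (.seq (.seq (.seq (.seq (.seq (.one (.play 68 (.both (.play 67 (.ref 0 0)) (.play 69 (.ref 0 1)))))
 (.seq (.one (.play 65 (.both (.play 64 (.ref 1 0)) (.play 66 (.ref 1 1)))))
 (.one (.both (.ref 9 0) (.ref 8 1)))))
 (.seq (.one (.play 4 (.both (.play 3 (.ref 2 0)) (.play 5 (.ref 2 1)))))
 (.seq (.one (.both (.ref 11 0) (.ref 8 64)))
 (.one (.both (.ref 11 1) (.ref 9 64))))))
 (.seq (.seq (.one (.play 69 (.both (.play 65 (.ref 13 0)) (.both (.play 70 (.ref 12 2)) (.play 70 (.ref 10 65))))))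
 (.seq (.one (.play 1 (.both (.play 0 (.ref 3 0)) (.play 2 (.ref 3 1)))))
 (.one (.both (.ref 15 0) (.ref 8 65)))))
 (.seq (.one (.both (.ref 15 0) (.ref 11 1)))
 (.seq (.one (.play 69 (.both (.play 65 (.ref 17 0)) (.both (.play 70 (.ref 16 1)) (.play 70 (.ref 12 2))))))
 (.one (.both (.ref 15 0) (.ref 9 64)))))))
 (.seq (.seq (.seq (.one (.play 257 (.both (.play 193 (.ref 4 0)) (.play 321 (.ref 4 64)))))
 (.seq (.one (.play 256 (.both (.play 192 (.ref 6 0)) (.play 320 (.ref 6 64)))))
 (.one (.both (.ref 21 0) (.ref 20 1)))))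
 (.seq (.one (.play 257 (.both (.play 66 (.ref 5 1)) (.play 321 (.ref 22 64)))))
 (.seq (.one (.play 193 (.both (.play 65 (.both (.ref 23 0) (.play 64 (.ref 3 64)))) (.play 192 (.ref 1 128)))))
 (.one (.play 132 (.both (.ref 24 0) (.both (.play 133 (.ref 19 64)) (.both (.play 133 (.ref 16 64)) (.play 133 (.ref 10 128))))))))))
 (.seq (.seq (.one (.both (.play 2 (.ref 5 1)) (.ref 23 64)))
 (.seq (.one (.play 66 (.both (.play 65 (.ref 19 0)) (.play 6 (.ref 2 2)))))
 (.one (.play 261 (.both (.play 259 (.both (.play 197 (.both (.play 4 (.ref 4 4)) (.ref 27 192))) (.play 323 (.ref 6 67)))) (.play 325 (.ref 4 68)))))))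
 (.seq (.one (.play 196 (.both (.play 68 (.both (.play 260 (.both (.ref 28 0) (.both (.play 324 (.ref 22 67)) (.play 324 (.ref 26 67))))) (.play 67 (.ref 3 67)))) (.play 195 (.ref 1 131)))))
 (.seq (.one (.both (.play 65 (.ref 16 0)) (.both (.play 65 (.ref 17 0)) (.both (.play 65 (.ref 12 1)) (.play 70 (.ref 12 2))))))
 (.one (.both (.play 65 (.ref 19 0)) (.both (.play 70 (.ref 13 1)) (.both (.play 70 (.ref 19 1)) (.play 70 (.ref 17 1)))))))))))
 (.seq (.seq (.seq (.seq (.one (.both (.play 65 (.ref 19 0)) (.both (.play 70 (.ref 19 1)) (.both (.play 70 (.ref 16 1)) (.play 70 (.ref 10 65))))))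
 (.seq (.one (.play 257 (.both (.play 64 (.ref 7 0)) (.play 321 (.ref 22 64)))))
 (.one (.play 195 (.both (.play 67 (.both (.ref 33 2) (.play 68 (.ref 2 64)))) (.play 196 (.ref 0 128)))))))
 (.seq (.one (.play 65 (.both (.play 1 (.ref 5 0)) (.play 129 (.ref 5 64)))))
 (.seq (.one (.both (.ref 35 1) (.ref 21 64)))
 (.one (.both (.ref 35 0) (.ref 20 64))))))
 (.seq (.seq (.one (.play 257 (.both (.play 129 (.both (.play 321 (.both (.play 65 (.ref 37 1)) (.both (.play 385 (.ref 36 64)) (.play 385 (.ref 22 128))))) (.play 128 (.ref 3 128)))) (.play 256 (.ref 1 192)))))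
 (.seq (.one (.play 194 (.both (.ref 38 1) (.both (.play 193 (.ref 16 128)) (.play 193 (.ref 10 192))))))
 (.one (.both (.play 65 (.ref 13 0)) (.both (.play 65 (.ref 12 1)) (.both (.play 70 (.ref 12 2)) (.play 65 (.ref 10 64))))))))
 (.seq (.one (.play 68 (.both (.play 1 (.ref 3 0)) (.play 69 (.ref 12 1)))))
 (.seq (.one (.both (.play 0 (.ref 0 0)) (.play 69 (.both (.play 66 (.ref 3 1)) (.ref 41 2)))))
 (.one (.both (.play 65 (.ref 7 0)) (.ref 33 64)))))))
 (.seq (.seq (.seq (.one (.both (.play 0 (.ref 4 0)) (.play 321 (.ref 43 64))))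
 (.seq (.one (.play 66 (.both (.play 65 (.ref 19 0)) (.play 5 (.ref 2 2)))))
 (.one (.both (.play 67 (.both (.ref 45 0) (.play 70 (.ref 2 3)))) (.play 8 (.ref 1 4))))))
 (.seq (.one (.play 257 (.both (.play 65 (.ref 5 1)) (.ref 23 64))))
 (.seq (.one (.both (.play 2 (.ref 6 1)) (.ref 47 64)))
 (.one (.play 261 (.both (.play 134 (.ref 48 4)) (.play 260 (.ref 46 192))))))))
 (.seq (.seq (.one (.play 69 (.both (.play 70 (.ref 13 1)) (.both (.play 70 (.ref 12 2)) (.play 65 (.ref 10 64))))))
 (.seq (.one (.play 68 (.both (.play 69 (.ref 12 1)) (.play 128 (.ref 1 64)))))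
 (.one (.play 257 (.both (.play 2 (.ref 5 1)) (.play 321 (.ref 22 64)))))))
 (.seq (.one (.play 68 (.both (.play 0 (.ref 3 0)) (.play 69 (.ref 12 1)))))
 (.seq (.one (.play 64 (.both (.play 0 (.ref 7 0)) (.play 128 (.ref 7 64)))))
 (.one (.both (.ref 54 0) (.ref 20 65)))))))))
 (.seq (.seq (.seq (.seq (.seq (.one (.play 197 (.both (.play 261 (.ref 4 4)) (.play 194 (.both (.play 193 (.ref 19 128)) (.both (.play 193 (.ref 13 128)) (.play 198 (.ref 17 129))))))))
 (.seq (.one (.both (.ref 54 0) (.ref 21 64)))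
 (.one (.play 132 (.both (.play 68 (.ref 57 3)) (.both (.play 68 (.ref 55 3)) (.play 323 (.both (.ref 56 128) (.play 387 (.ref 6 131))))))))))
 (.seq (.one (.play 324 (.both (.ref 58 0) (.both (.ref 52 131) (.play 388 (.ref 26 131))))))
 (.seq (.one (.play 132 (.both (.ref 34 1) (.both (.play 133 (.ref 16 64)) (.play 133 (.ref 17 64))))))
 (.one (.both (.ref 54 0) (.ref 35 1))))))
 (.seq (.seq (.one (.play 129 (.both (.play 65 (.ref 61 0)) (.both (.play 65 (.ref 55 0)) (.play 385 (.ref 37 65))))))
 (.seq (.one (.play 193 (.both (.play 321 (.both (.ref 62 0) (.play 320 (.ref 1 256)))) (.play 192 (.ref 3 192)))))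
 (.one (.play 256 (.both (.play 192 (.ref 6 0)) (.play 257 (.both (.play 321 (.ref 55 0)) (.play 320 (.ref 6 64)))))))))
 (.seq (.one (.play 256 (.both (.play 192 (.ref 6 0)) (.play 257 (.both (.play 64 (.both (.play 0 (.ref 7 0)) (.play 321 (.both (.play 128 (.ref 7 64)) (.play 385 (.ref 37 65)))))) (.play 320 (.ref 6 64)))))))
 (.seq (.one (.both (.play 321 (.ref 57 0)) (.play 322 (.ref 4 65))))
 (.one (.play 129 (.both (.play 65 (.ref 37 1)) (.play 384 (.ref 6 128)))))))))
 (.seq (.seq (.seq (.one (.play 129 (.both (.play 65 (.ref 61 0)) (.play 320 (.ref 6 128)))))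
 (.seq (.one (.play 193 (.both (.ref 68 0) (.play 448 (.ref 6 192)))))
 (.one (.play 193 (.both (.ref 68 0) (.play 450 (.ref 4 193)))))))
 (.seq (.one (.play 129 (.both (.play 65 (.ref 61 0)) (.play 322 (.ref 4 129)))))
 (.seq (.one (.play 193 (.both (.ref 71 0) (.play 450 (.ref 4 193)))))
 (.one (.play 257 (.both (.play 0 (.ref 7 0)) (.ref 33 64)))))))
 (.seq (.seq (.one (.play 257 (.both (.play 259 (.both (.play 193 (.both (.play 2 (.ref 6 1)) (.ref 53 192))) (.play 323 (.ref 4 66)))) (.play 321 (.ref 6 65)))))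
 (.seq (.one (.play 257 (.both (.play 0 (.ref 7 0)) (.play 321 (.ref 22 64)))))
 (.one (.both (.play 69 (.both (.play 70 (.both (.play 71 (.ref 12 3)) (.play 131 (.ref 1 66)))) (.play 66 (.ref 1 65)))) (.play 128 (.ref 2 64))))))
 (.seq (.one (.both (.play 130 (.ref 6 1)) (.ref 51 128)))
 (.seq (.one (.play 66 (.both (.play 65 (.ref 19 0)) (.play 134 (.ref 0 66)))))
 (.one (.play 129 (.both (.play 65 (.ref 57 0)) (.play 66 (.ref 5 65))))))))))
 (.seq (.seq (.seq (.seq (.one (.both (.ref 79 0) (.play 385 (.ref 5 129))))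
 (.seq (.one (.play 66 (.both (.play 65 (.both (.play 4 (.ref 2 1)) (.ref 9 64))) (.both (.play 65 (.both (.ref 15 0) (.play 4 (.ref 2 1)))) (.play 70 (.ref 19 1))))))
 (.one (.play 66 (.both (.play 65 (.ref 19 0)) (.play 133 (.ref 0 66)))))))
 (.seq (.one (.both (.play 67 (.both (.ref 82 0) (.play 70 (.ref 0 67)))) (.play 136 (.ref 3 68))))
 (.seq (.one (.play 261 (.both (.play 325 (.both (.play 133 (.both (.play 69 (.ref 55 4)) (.both (.play 132 (.both (.play 199 (.ref 83 64)) (.play 68 (.ref 7 68)))) (.ref 28 65)))) (.both (.ref 52 132) (.both (.play 389 (.both (.play 133 (.ref 22 132)) (.both (.play 453 (.both (.ref 21 196) (.play 262 (.ref 5 197)))) (.play 453 (.both (.play 262 (.ref 5 197)) (.ref 20 197)))))) (.play 389 (.ref 26 132)))))) (.play 260 (.ref 1 196)))))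
 (.one (.play 321 (.both (.play 129 (.both (.play 65 (.ref 55 0)) (.play 66 (.ref 5 65)))) (.play 385 (.ref 5 129))))))))
 (.seq (.seq (.one (.both (.play 321 (.ref 80 0)) (.play 2 (.ref 6 1))))
 (.seq (.one (.both (.play 4 (.ref 6 3)) (.play 323 (.both (.play 260 (.ref 6 67)) (.play 387 (.both (.play 195 (.ref 5 131)) (.play 451 (.both (.play 452 (.both (.play 450 (.both (.play 514 (.ref 6 258)) (.ref 18 384))) (.play 516 (.ref 4 259)))) (.both (.play 515 (.ref 22 258)) (.both (.ref 65 258) (.both (.play 515 (.both (.play 579 (.ref 55 258)) (.both (.play 322 (.both (.play 258 (.ref 7 258)) (.play 579 (.both (.play 386 (.ref 7 322)) (.play 643 (.ref 36 322)))))) (.ref 20 259)))) (.ref 64 258))))))))))))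
 (.one (.play 65 (.both (.play 193 (.both (.play 66 (.both (.ref 52 0) (.play 133 (.ref 3 65)))) (.play 192 (.ref 1 128)))) (.play 64 (.ref 3 64)))))))
 (.seq (.one (.play 196 (.both (.play 260 (.both (.play 67 (.ref 44 3)) (.play 261 (.ref 0 193)))) (.both (.ref 88 64) (.play 197 (.ref 16 128))))))
 (.seq (.one (.play 67 (.both (.ref 82 0) (.play 135 (.ref 0 67)))))
 (.one (.play 195 (.both (.ref 73 2) (.play 196 (.ref 0 128)))))))))
 (.seq (.seq (.seq (.one (.play 129 (.both (.play 65 (.ref 61 0)) (.play 386 (.ref 4 129)))))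
 (.seq (.one (.play 321 (.both (.play 193 (.both (.play 322 (.both (.ref 92 0) (.play 261 (.ref 1 257)))) (.play 192 (.ref 3 192)))) (.play 320 (.ref 1 256)))))
 (.one (.play 257 (.both (.play 260 (.both (.ref 93 0) (.both (.ref 91 129) (.play 261 (.ref 10 256))))) (.play 256 (.ref 2 192)))))))
 (.seq (.one (.play 67 (.both (.play 69 (.both (.ref 82 0) (.play 5 (.ref 5 4)))) (.play 3 (.ref 7 3)))))
 (.seq (.one (.play 320 (.both (.play 129 (.both (.play 65 (.ref 61 0)) (.play 384 (.ref 6 128)))) (.play 260 (.ref 1 256)))))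
 (.one (.play 325 (.both (.play 261 (.both (.ref 72 4) (.both (.ref 92 68) (.both (.play 197 (.both (.play 133 (.both (.ref 54 68) (.play 326 (.ref 4 133)))) (.both (.play 133 (.both (.ref 35 69) (.play 326 (.ref 4 133)))) (.play 453 (.ref 61 132))))) (.play 453 (.both (.play 262 (.both (.play 260 (.both (.play 326 (.both (.ref 78 193) (.play 517 (.ref 5 261)))) (.play 196 (.ref 7 196)))) (.play 198 (.ref 5 197)))) (.both (.play 517 (.ref 36 196)) (.play 452 (.both (.play 516 (.ref 6 260)) (.play 391 (.ref 46 384))))))))))) (.play 324 (.ref 3 324))))))))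
 (.seq (.seq (.one (.play 321 (.both (.play 322 (.both (.play 257 (.both (.ref 72 0) (.play 256 (.ref 3 256)))) (.play 389 (.ref 0 321)))) (.play 320 (.ref 3 320)))))
 (.seq (.one (.play 68 (.both (.play 0 (.ref 3 0)) (.ref 41 1))))
 (.one (.both (.ref 91 1) (.play 128 (.ref 2 64))))))
 (.seq (.one (.play 197 (.both (.play 196 (.both (.play 195 (.both (.ref 39 0) (.play 198 (.ref 2 131)))) (.play 133 (.ref 1 132)))) (.play 137 (.ref 1 133)))))
 (.seq (.one (.play 261 (.both (.play 197 (.both (.play 132 (.both (.play 133 (.both (.play 69 (.both (.play 70 (.both (.play 6 (.ref 5 5)) (.play 71 (.ref 46 64)))) (.play 262 (.ref 4 69)))) (.play 68 (.ref 7 68)))) (.play 196 (.ref 7 132)))) (.both (.play 133 (.ref 61 68)) (.both (.play 132 (.both (.play 133 (.both (.play 68 (.ref 7 68)) (.play 262 (.both (.play 69 (.ref 4 69)) (.play 453 (.ref 26 196)))))) (.play 196 (.ref 7 132)))) (.play 198 (.ref 26 132)))))) (.play 260 (.ref 3 260)))))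
 (.one (.play 456 (.both (.play 520 (.both (.play 521 (.both (.play 518 (.both (.play 454 (.both (.play 585 (.both (.play 392 (.both (.play 390 (.both (.play 326 (.both (.play 325 (.both (.play 261 (.both (.play 197 (.both (.ref 71 4) (.play 389 (.ref 4 197)))) (.play 518 (.ref 7 261)))) (.play 391 (.ref 83 257)))) (.both (.play 263 (.both (.ref 79 133) (.play 327 (.ref 5 262)))) (.both (.play 261 (.both (.play 262 (.both (.play 198 (.ref 36 133)) (.play 197 (.ref 7 197)))) (.play 325 (.ref 7 261)))) (.both (.play 262 (.ref 61 197)) (.play 327 (.both (.play 263 (.ref 5 262)) (.play 582 (.both (.play 646 (.ref 55 325)) (.play 391 (.ref 5 326))))))))))) (.both (.play 326 (.both (.play 262 (.ref 57 197)) (.both (.play 262 (.ref 36 197)) (.ref 95 258)))) (.both (.play 391 (.both (.ref 101 256) (.ref 52 325))) (.both (.play 582 (.both (.play 326 (.ref 61 261)) (.play 646 (.ref 22 389)))) (.play 582 (.both (.play 326 (.ref 57 261)) (.both (.play 646 (.ref 55 325)) (.play 646 (.ref 22 389)))))))))) (.play 328 (.ref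 4 328)))) (.both (.play 649 (.both (.ref 28 389) (.play 713 (.ref 7 456)))) (.ref 75 392)))) (.both (.play 455 (.both (.ref 102 129) (.play 517 (.ref 1 453)))) (.both (.play 455 (.both (.ref 102 129) (.play 453 (.ref 0 453)))) (.play 455 (.both (.play 453 (.ref 0 453)) (.play 517 (.ref 1 453)))))))) (.both (.play 519 (.both (.ref 97 129) (.play 517 (.ref 2 453)))) (.both (.play 585 (.both (.play 519 (.both (.ref 38 325) (.play 586 (.ref 0 518)))) (.ref 75 392))) (.play 519 (.ref 100 389)))))) (.both (.play 392 (.both (.play 519 (.both (.play 518 (.both (.ref 98 133) (.play 517 (.ref 2 453)))) (.both (.play 455 (.both (.play 454 (.both (.play 390 (.both (.play 326 (.ref 44 262)) (.play 389 (.ref 3 389)))) (.play 453 (.ref 0 453)))) (.both (.play 583 (.both (.play 647 (.ref 26 390)) (.play 522 (.both (.ref 41 455) (.play 582 (.ref 1 518)))))) (.ref 99 454)))) (.both (.play 518 (.both (.ref 93 261) (.play 517 (.ref 2 453)))) (.both (.play 518 (.both (.ref 38 325) (.play 517 (.ref 2 453)))) (.both (.play 583 (.both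 (.ref 101 385) (.both (.ref 47 390) (.play 522 (.both (.ref 53 455) (.play 582 (.ref 1 518))))))) (.both (.play 518 (.both (.ref 88 389) (.play 517 (.ref 2 453)))) (.play 518 (.both (.play 517 (.ref 2 453)) (.play 522 (.ref 19 453))))))))))) (.play 265 (.both (.play 328 (.ref 5 264)) (.play 393 (.ref 6 264)))))) (.both (.play 455 (.both (.play 454 (.both (.ref 63 197) (.play 453 (.ref 0 453)))) (.both (.ref 90 387) (.both (.ref 78 388) (.both (.play 519 (.both (.play 518 (.ref 100 389)) (.both (.play 522 (.both (.play 583 (.both (.play 647 (.ref 26 390)) (.play 582 (.ref 1 518)))) (.play 523 (.ref 3 455)))) (.play 518 (.both (.play 517 (.ref 2 453)) (.play 522 (.ref 10 517))))))) (.play 522 (.both (.play 519 (.both (.play 454 (.ref 3 454)) (.play 518 (.ref 10 517)))) (.play 523 (.ref 3 455))))))))) (.both (.play 393 (.both (.play 265 (.ref 6 264)) (.play 522 (.both (.play 586 (.ref 4 329)) (.ref 99 455))))) (.play 393 (.both (.play 265 (.ref 6 264)) (.play 586 (.both (.play 522 (.ref 4 329)) (.play 585 (.both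 (.ref 73 392) (.play 650 (.ref 4 393))))))))))))) (.both (.play 392 (.both (.play 393 (.both (.play 265 (.both (.ref 68 72) (.play 457 (.ref 6 264)))) (.play 584 (.ref 5 328)))) (.both (.play 519 (.both (.play 518 (.both (.play 521 (.both (.ref 98 133) (.both (.ref 91 390) (.play 522 (.ref 16 453))))) (.play 517 (.ref 2 453)))) (.both (.ref 94 261) (.both (.play 518 (.both (.ref 89 325) (.play 517 (.ref 2 453)))) (.both (.play 583 (.ref 48 326)) (.play 583 (.ref 86 326))))))) (.play 584 (.both (.play 328 (.ref 55 263)) (.play 393 (.ref 5 328))))))) (.both (.play 519 (.both (.play 518 (.both (.play 521 (.both (.ref 97 129) (.both (.play 522 (.ref 16 453)) (.play 522 (.ref 10 517))))) (.play 517 (.ref 2 453)))) (.both (.play 518 (.both (.play 454 (.both (.play 582 (.both (.ref 96 261) (.both (.ref 62 261) (.play 581 (.ref 46 513))))) (.both (.play 582 (.both (.ref 96 261) (.both (.play 646 (.both (.play 390 (.ref 57 325)) (.both (.play 390 (.ref 55 325)) (.both (.play 390 (.ref 22 389)) (.play 710 (.ref 22 453))))))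 (.both (.play 453 (.both (.ref 75 389) (.play 521 (.ref 3 453)))) (.play 581 (.ref 46 513)))))) (.both (.play 390 (.both (.play 582 (.both (.play 326 (.ref 55 261)) (.both (.play 646 (.ref 57 325)) (.play 646 (.ref 22 389))))) (.both (.play 582 (.both (.ref 95 322) (.both (.play 646 (.ref 57 325)) (.play 646 (.ref 36 325))))) (.play 583 (.ref 44 326))))) (.play 453 (.ref 83 385)))))) (.play 517 (.ref 2 453)))) (.both (.play 392 (.both (.play 328 (.both (.play 327 (.both (.play 263 (.ref 7 263)) (.play 584 (.both (.play 391 (.ref 7 327)) (.play 649 (.both (.play 585 (.ref 4 392)) (.play 648 (.both (.play 712 (.both (.play 455 (.ref 7 455)) (.play 711 (.both (.play 775 (.ref 6 519)) (.play 710 (.ref 76 581)))))) (.play 713 (.ref 4 456)))))))))) (.play 265 (.ref 5 264)))) (.both (.play 328 (.both (.play 265 (.ref 5 264)) (.play 583 (.ref 6 327)))) (.play 518 (.both (.play 584 (.both (.play 648 (.ref 57 327)) (.both (.play 648 (.ref 55 327)) (.play 585 (.both (.play 583 (.both (.play 647 (.ref 6 391)) (.ref 41 518)))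 (.play 649 (.ref 4 392))))))) (.play 517 (.ref 2 453))))))) (.both (.ref 94 261) (.both (.play 518 (.both (.play 521 (.both (.ref 84 321) (.both (.play 522 (.ref 16 453)) (.play 522 (.ref 10 517))))) (.play 517 (.ref 2 453)))) (.both (.play 583 (.both (.play 392 (.both (.play 584 (.both (.play 391 (.both (.play 455 (.both (.play 390 (.both (.ref 90 322) (.play 326 (.ref 7 326)))) (.play 648 (.ref 4 391)))) (.play 327 (.ref 7 327)))) (.both (.play 648 (.ref 55 327)) (.play 585 (.both (.play 649 (.ref 4 392)) (.play 586 (.both (.play 522 (.both (.play 650 (.both (.play 521 (.both (.ref 75 457) (.play 582 (.ref 2 518)))) (.play 651 (.ref 0 583)))) (.play 523 (.ref 2 519)))) (.play 587 (.ref 3 519))))))))) (.play 328 (.ref 6 327)))) (.both (.play 647 (.both (.ref 58 323) (.play 711 (.ref 5 455)))) (.both (.play 392 (.ref 87 324)) (.both (.play 647 (.ref 80 326)) (.ref 85 326)))))) (.both (.play 518 (.both (.ref 89 325) (.both (.play 517 (.both (.ref 45 450) (.play 457 (.ref 2 453)))) (.both (.ref 27 451) (.ref 81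 451))))) (.play 518 (.both (.play 521 (.both (.play 585 (.both (.play 392 (.both (.play 584 (.ref 66 327)) (.play 328 (.ref 4 328)))) (.play 586 (.ref 0 518)))) (.both (.play 522 (.ref 19 453)) (.both (.play 522 (.ref 16 453)) (.play 522 (.ref 10 517)))))) (.play 517 (.ref 2 453)))))))))))) (.both (.ref 59 260) (.both (.play 393 (.ref 87 261)) (.both (.play 393 (.ref 48 263)) (.both (.play 393 (.ref 86 263)) (.play 393 (.both (.ref 85 263) (.play 265 (.ref 6 264)))))))))))) (.both (.play 393 (.both (.play 265 (.both (.ref 68 72) (.both (.play 201 (.ref 37 137)) (.ref 56 261)))) (.both (.ref 69 72) (.both (.ref 67 136) (.play 455 (.both (.play 458 (.both (.ref 84 258) (.both (.play 459 (.ref 13 390)) (.play 459 (.ref 17 390))))) (.both (.play 394 (.ref 76 326)) (.both (.ref 27 388) (.ref 81 388))))))))) (.both (.play 458 (.both (.play 393 (.both (.play 265 (.both (.ref 71 72) (.play 520 (.ref 6 264)))) (.both (.ref 70 72) (.both (.play 265 (.both (.play 201 (.ref 36 136)) (.play 522 (.ref 4 265)))) (.play 586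 (.both (.play 584 (.both (.play 520 (.ref 80 263)) (.both (.play 585 (.both (.play 521 (.ref 66 328)) (.both (.play 650 (.both (.play 521 (.ref 4 393)) (.ref 78 517))) (.both (.play 648 (.ref 77 391)) (.ref 50 518))))) (.both (.play 520 (.both (.play 521 (.ref 6 328)) (.play 392 (.ref 5 328)))) (.play 648 (.both (.play 585 (.ref 77 391)) (.play 520 (.ref 5 392)))))))) (.both (.play 522 (.both (.play 521 (.ref 4 329)) (.play 394 (.ref 7 329)))) (.play 522 (.ref 43 329))))))))) (.both (.ref 49 259) (.both (.play 459 (.both (.play 523 (.both (.play 587 (.both (.play 395 (.both (.play 331 (.ref 36 266)) (.both (.play 396 (.both (.play 457 (.ref 76 328)) (.play 332 (.ref 5 331)))) (.ref 74 329)))) (.both (.ref 75 394) (.both (.play 651 (.both (.play 395 (.ref 22 394)) (.both (.play 715 (.both (.play 522 (.ref 7 458)) (.ref 21 458))) (.play 715 (.both (.play 522 (.ref 7 458)) (.ref 20 459)))))) (.ref 73 394))))) (.play 524 (.ref 0 456)))) (.both (.play 460 (.ref 13 391)) (.both (.play 460 (.ref 12 392)) (.play 460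 (.ref 10 455)))))) (.both (.play 459 (.both (.ref 24 327) (.both (.play 460 (.ref 16 391)) (.play 460 (.ref 12 392))))) (.both (.ref 25 327) (.play 459 (.both (.play 523 (.both (.play 395 (.both (.play 587 (.both (.ref 74 329) (.both (.play 651 (.ref 22 394)) (.ref 73 394)))) (.play 396 (.ref 2 392)))) (.play 524 (.ref 0 456)))) (.both (.play 460 (.ref 16 391)) (.play 460 (.ref 17 391))))))))))) (.both (.play 393 (.both (.play 458 (.both (.ref 72 72) (.both (.ref 70 72) (.ref 18 390)))) (.both (.ref 69 72) (.both (.ref 67 136) (.play 521 (.both (.play 522 (.both (.play 586 (.ref 4 329)) (.play 455 (.ref 42 454)))) (.both (.play 585 (.ref 22 328)) (.both (.play 586 (.both (.play 585 (.ref 66 328)) (.play 522 (.ref 4 329)))) (.both (.ref 65 328) (.ref 64 328)))))))))) (.both (.play 455 (.both (.play 454 (.both (.ref 63 197) (.both (.play 453 (.ref 19 388)) (.both (.play 453 (.ref 17 388)) (.play 453 (.ref 13 388)))))) (.both (.ref 60 326) (.both (.play 454 (.ref 32 388)) (.play 458 (.ref 40 389)))))) (.both (.play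 455 (.both (.play 454 (.both (.ref 38 261) (.both (.play 453 (.both (.play 392 (.both (.play 452 (.both (.play 451 (.ref 16 386)) (.play 391 (.ref 2 388)))) (.play 393 (.ref 2 389)))) (.both (.play 452 (.ref 13 387)) (.ref 9 452)))) (.both (.play 389 (.both (.play 453 (.both (.play 392 (.both (.play 452 (.both (.play 391 (.ref 2 388)) (.play 451 (.ref 10 450)))) (.play 393 (.ref 2 389)))) (.play 388 (.ref 3 388)))) (.play 390 (.ref 3 389)))) (.both (.play 389 (.both (.play 453 (.both (.play 452 (.ref 13 387)) (.play 388 (.ref 3 388)))) (.play 390 (.ref 3 389)))) (.play 453 (.ref 19 388))))))) (.both (.ref 60 326) (.both (.ref 14 389) (.play 458 (.ref 32 389)))))) (.both (.play 455 (.both (.play 519 (.both (.ref 59 259) (.both (.play 583 (.both (.play 391 (.both (.play 327 (.ref 55 262)) (.both (.ref 28 323) (.ref 53 390)))) (.both (.ref 52 390) (.play 647 (.ref 26 390))))) (.both (.ref 51 390) (.play 458 (.both (.play 459 (.ref 17 390)) (.play 518 (.ref 1 454)))))))) (.both (.ref 39 260) (.both (.play 458 (.both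 (.play 454 (.ref 16 389)) (.both (.play 459 (.ref 17 390)) (.play 459 (.ref 12 391))))) (.both (.ref 50 389) (.play 458 (.ref 31 389))))))) (.both (.play 455 (.both (.ref 39 260) (.both (.play 458 (.both (.ref 29 323) (.ref 34 327))) (.both (.play 454 (.ref 40 388)) (.both (.play 454 (.ref 30 388)) (.play 454 (.ref 31 388))))))) (.both (.play 458 (.both (.ref 49 259) (.both (.play 522 (.both (.play 393 (.ref 44 265)) (.play 523 (.ref 42 455)))) (.both (.play 455 (.ref 40 389)) (.play 459 (.ref 40 390)))))) (.both (.play 455 (.both (.ref 39 260) (.both (.play 458 (.both (.ref 34 327) (.both (.play 459 (.ref 13 390)) (.play 459 (.ref 10 454))))) (.both (.play 454 (.ref 32 388)) (.both (.play 454 (.ref 31 388)) (.play 458 (.ref 30 389))))))) (.play 458 (.both (.play 455 (.both (.ref 29 323) (.both (.play 454 (.ref 19 389)) (.both (.play 454 (.ref 17 389)) (.play 454 (.ref 13 389)))))) (.both (.ref 25 327) (.both (.ref 18 390) (.ref 14 390))))))))))))))))))))))))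
    (by decide +kernel)

theorem Cert_L26 : PW ⟨19, nat_lit 1716199415032652428745475199770348304322402281828964845687787581929204178416464219657259487338861020300067530234621857467541523080554430155166755455538036736, nat_lit 24948003869183997663003135040466704902873145363318584997369399872593542148762289833754061628006353837011891681079667998931171011899939246868896038263971436776791899988919134385438839653121534028590668430947432564710324210559152762013798976433903910029787549564697717231745571922043658383130664, 16, nat_lit 24948003869183997663003135040466704902873145363318584997369399872593542148762289833754061628006353837011891681079667998931171011899939246868896038263971436776791899988919134385438839653121534028590668430947432564710324210559152762013798976433903910029787549564697717231745571922043658383130664⟩ :=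
  sound2 baseTbl baseTbl_ok
    (.seq (.seq (.seq (.seq (.seq (.seq (.one (.play 4 (.both (.play 3 (.ref 2 0)) (.play 5 (.ref 2 1)))))
 (.one (.play 1 (.both (.play 0 (.ref 3 0)) (.play 2 (.ref 3 1))))))
 (.seq (.one (.both (.ref 9 0) (.ref 8 1)))
 (.one (.play 65 (.both (.play 64 (.ref 1 0)) (.play 66 (.ref 1 1)))))))
 (.seq (.seq (.one (.both (.ref 8 1) (.ref 11 64)))
 (.one (.both (.ref 9 0) (.ref 11 64))))
 (.seq (.one (.play 197 (.both (.play 195 (.both (.play 259 (.ref 6 3)) (.play 194 (.both (.play 193 (.ref 13 128)) (.both (.play 193 (.ref 12 128)) (.play 198 (.ref 10 129))))))) (.play 261 (.ref 4 4)))))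
 (.one (.play 257 (.both (.play 193 (.ref 4 0)) (.play 321 (.ref 4 64))))))))
 (.seq (.seq (.seq (.one (.play 64 (.both (.play 0 (.ref 7 0)) (.play 128 (.ref 7 64)))))
 (.one (.both (.ref 16 0) (.ref 15 65))))
 (.seq (.one (.play 68 (.both (.play 67 (.ref 0 0)) (.play 69 (.ref 0 1)))))
 (.one (.both (.ref 8 0) (.ref 18 64)))))
 (.seq (.seq (.one (.play 65 (.both (.play 129 (.both (.play 67 (.both (.play 68 (.both (.play 69 (.ref 19 1)) (.play 128 (.ref 1 64)))) (.play 3 (.ref 5 2)))) (.play 322 (.ref 7 65)))) (.play 1 (.ref 7 1)))))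
 (.one (.play 65 (.both (.play 1 (.ref 5 0)) (.play 129 (.ref 5 64))))))
 (.seq (.one (.both (.ref 21 0) (.ref 15 64)))
 (.seq (.one (.play 65 (.both (.ref 16 0) (.ref 21 1))))
 (.one (.play 256 (.both (.play 192 (.ref 6 0)) (.play 320 (.ref 6 64))))))))))
 (.seq (.seq (.seq (.seq (.one (.both (.ref 21 1) (.ref 24 64)))
 (.one (.both (.ref 16 0) (.ref 24 64))))
 (.seq (.one (.both (.ref 9 0) (.ref 18 65)))
 (.one (.play 194 (.both (.play 196 (.both (.play 260 (.ref 4 3)) (.play 197 (.both (.play 193 (.ref 10 128)) (.both (.play 198 (.ref 27 129)) (.play 198 (.ref 19 130))))))) (.play 258 (.ref 6 2)))))))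
 (.seq (.seq (.one (.both (.ref 11 0) (.ref 18 1)))
 (.one (.play 68 (.both (.play 69 (.ref 12 0)) (.play 133 (.ref 0 65))))))
 (.seq (.one (.play 68 (.both (.play 69 (.ref 19 1)) (.play 129 (.ref 1 64)))))
 (.seq (.one (.play 68 (.both (.ref 31 1) (.play 65 (.ref 1 64)))))
 (.one (.both (.play 0 (.ref 3 0)) (.play 69 (.ref 19 1))))))))
 (.seq (.seq (.seq (.one (.play 67 (.both (.play 64 (.ref 2 0)) (.play 68 (.ref 33 0)))))
 (.one (.both (.play 0 (.ref 3 0)) (.play 69 (.ref 12 0)))))
 (.seq (.one (.play 68 (.both (.play 1 (.ref 3 0)) (.play 69 (.ref 19 1)))))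
 (.one (.play 257 (.both (.ref 24 0) (.ref 15 1))))))
 (.seq (.seq (.one (.play 257 (.both (.play 64 (.ref 7 0)) (.ref 37 64))))
 (.one (.play 194 (.both (.play 193 (.both (.play 195 (.both (.play 259 (.ref 4 2)) (.ref 36 128))) (.play 257 (.ref 6 1)))) (.both (.ref 37 1) (.play 258 (.both (.play 1 (.ref 7 1)) (.ref 38 65))))))))
 (.seq (.one (.play 66 (.both (.play 65 (.ref 13 0)) (.play 133 (.ref 0 66)))))
 (.seq (.one (.both (.play 67 (.both (.ref 40 0) (.play 70 (.ref 0 67)))) (.play 136 (.ref 3 68))))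
 (.one (.both (.ref 31 1) (.play 128 (.ref 1 64))))))))))
 (.seq (.seq (.seq (.seq (.seq (.one (.play 68 (.both (.play 0 (.ref 3 0)) (.ref 36 1))))
 (.one (.play 68 (.both (.play 135 (.ref 41 0)) (.play 4 (.ref 7 4))))))
 (.seq (.one (.play 133 (.both (.play 261 (.both (.play 69 (.both (.ref 44 0) (.play 5 (.ref 4 5)))) (.play 260 (.ref 1 196)))) (.play 132 (.ref 3 132)))))
 (.one (.both (.play 0 (.ref 4 0)) (.play 321 (.both (.play 129 (.ref 7 64)) (.ref 38 128)))))))
 (.seq (.seq (.one (.play 129 (.both (.ref 23 0) (.both (.play 65 (.ref 25 0)) (.play 385 (.ref 26 64))))))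
 (.one (.play 129 (.both (.ref 23 0) (.both (.play 65 (.ref 17 0)) (.play 385 (.ref 22 65)))))))
 (.seq (.one (.play 321 (.both (.play 193 (.both (.ref 48 0) (.play 192 (.ref 3 192)))) (.play 320 (.ref 1 256)))))
 (.one (.play 66 (.both (.play 65 (.ref 13 0)) (.play 6 (.ref 2 2))))))))
 (.seq (.seq (.seq (.one (.play 66 (.both (.play 65 (.ref 13 0)) (.play 5 (.ref 2 2)))))
 (.one (.play 196 (.both (.play 260 (.ref 4 3)) (.play 129 (.both (.ref 30 64) (.play 128 (.ref 0 128))))))))
 (.seq (.one (.play 198 (.both (.play 262 (.ref 4 5)) (.play 199 (.ref 41 64)))))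
 (.one (.play 257 (.both (.play 2 (.ref 5 1)) (.ref 37 64))))))
 (.seq (.seq (.one (.play 68 (.both (.ref 54 2) (.play 130 (.ref 2 64)))))
 (.one (.play 196 (.both (.play 260 (.ref 4 3)) (.play 129 (.both (.play 128 (.ref 0 128)) (.play 197 (.both (.play 194 (.ref 3 129)) (.ref 36 130)))))))))
 (.seq (.one (.play 260 (.both (.play 196 (.ref 4 3)) (.play 259 (.both (.play 323 (.both (.play 130 (.ref 7 66)) (.play 322 (.both (.play 386 (.ref 6 130)) (.play 321 (.both (.ref 32 193) (.play 320 (.ref 2 256)))))))) (.play 324 (.ref 4 67)))))))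
 (.seq (.one (.play 129 (.both (.ref 23 0) (.play 320 (.ref 6 128)))))
 (.one (.play 130 (.both (.play 129 (.both (.play 65 (.ref 17 0)) (.play 66 (.ref 5 65)))) (.play 194 (.ref 5 129))))))))))
 (.seq (.seq (.seq (.seq (.one (.play 67 (.both (.ref 51 0) (.play 70 (.ref 2 3)))))
 (.one (.play 196 (.both (.play 260 (.ref 6 4)) (.ref 60 128)))))
 (.seq (.one (.play 129 (.both (.ref 23 0) (.play 322 (.ref 4 129)))))
 (.one (.both (.ref 62 0) (.play 450 (.ref 4 193))))))
 (.seq (.seq (.one (.play 392 (.both (.play 391 (.both (.play 389 (.both (.play 325 (.both (.play 261 (.both (.play 197 (.ref 63 4)) (.both (.play 197 (.both (.play 196 (.both (.play 132 (.ref 7 132)) (.play 260 (.both (.play 327 (.ref 41 192)) (.play 453 (.ref 7 196)))))) (.play 133 (.ref 4 133)))) (.play 453 (.both (.ref 44 192) (.ref 61 256)))))) (.play 324 (.ref 3 324)))) (.both (.play 388 (.ref 13 323)) (.both (.play 388 (.ref 10 323)) (.play 388 (.ref 12 323)))))) (.both (.play 393 (.both (.play 327 (.both (.play 453 (.both (.play 389 (.both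 (.play 388 (.both (.ref 51 321) (.play 328 (.ref 2 324)))) (.play 452 (.ref 1 388)))) (.play 454 (.ref 1 389)))) (.play 394 (.ref 3 326)))) (.both (.play 389 (.ref 12 324)) (.ref 36 326)))) (.both (.play 393 (.ref 33 325)) (.ref 43 325))))) (.both (.play 389 (.both (.play 455 (.both (.play 456 (.both (.play 388 (.both (.play 387 (.both (.play 386 (.both (.play 325 (.both (.play 322 (.both (.play 450 (.both (.play 258 (.both (.ref 59 65) (.both (.ref 23 129) (.both (.play 194 (.ref 17 129)) (.play 514 (.ref 22 194)))))) (.play 449 (.ref 1 385)))) (.play 321 (.ref 3 321)))) (.play 326 (.ref 2 322)))) (.both (.play 385 (.ref 13 320)) (.both (.play 385 (.ref 10 320)) (.play 385 (.ref 12 320)))))) (.play 390 (.ref 0 387)))) (.play 453 (.ref 3 388)))) (.play 457 (.ref 3 389)))) (.play 519 (.ref 4 262)))) (.both (.play 456 (.both (.play 328 (.both (.play 391 (.both (.play 520 (.both (.play 584 (.both (.play 455 (.both (.play 264 (.both (.ref 58 71) (.play 519 (.ref 6 263)))) (.play 648 (.ref 7 391)))) (.both (.ref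 24 327) (.ref 38 391)))) (.both (.play 519 (.both (.play 455 (.both (.play 264 (.ref 6 263)) (.ref 56 325))) (.play 583 (.ref 6 327)))) (.both (.ref 57 325) (.both (.play 584 (.both (.play 455 (.both (.ref 56 325) (.play 648 (.ref 7 391)))) (.both (.ref 15 328) (.ref 38 391)))) (.ref 37 327)))))) (.both (.ref 45 192) (.ref 39 326)))) (.both (.ref 55 261) (.both (.play 329 (.both (.ref 54 263) (.play 327 (.ref 1 325)))) (.play 329 (.both (.play 327 (.ref 1 325)) (.play 391 (.ref 2 325)))))))) (.both (.play 391 (.both (.ref 45 192) (.play 457 (.ref 0 389)))) (.play 455 (.both (.play 519 (.ref 4 262)) (.play 457 (.ref 3 389))))))) (.both (.ref 53 257) (.both (.ref 52 259) (.play 388 (.both (.play 387 (.both (.ref 51 320) (.both (.play 386 (.ref 13 321)) (.both (.play 386 (.both (.ref 9 321) (.play 385 (.ref 19 321)))) (.both (.play 386 (.both (.play 385 (.ref 19 321)) (.ref 11 385))) (.play 391 (.ref 13 322))))))) (.both (.ref 50 321) (.both (.play 391 (.ref 10 323)) (.play 391 (.ref 12 323))))))))))) (.both (.play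 455 (.both (.play 456 (.both (.play 389 (.both (.play 388 (.both (.play 387 (.both (.play 386 (.both (.play 326 (.both (.ref 49 129) (.play 325 (.ref 2 322)))) (.both (.play 385 (.ref 13 320)) (.both (.play 385 (.ref 10 320)) (.play 385 (.ref 12 320)))))) (.play 390 (.ref 0 387)))) (.play 453 (.ref 3 388)))) (.play 457 (.ref 3 389)))) (.both (.play 393 (.both (.play 394 (.both (.play 395 (.both (.play 396 (.both (.play 328 (.both (.play 460 (.both (.play 332 (.both (.ref 47 139) (.play 333 (.ref 2 329)))) (.play 461 (.ref 0 393)))) (.play 329 (.ref 3 328)))) (.both (.play 397 (.ref 27 328)) (.both (.play 397 (.ref 10 328)) (.play 397 (.ref 19 329)))))) (.play 392 (.ref 1 391)))) (.play 457 (.ref 2 390)))) (.play 453 (.ref 2 389)))) (.both (.play 453 (.both (.play 452 (.both (.play 515 (.both (.play 451 (.both (.play 450 (.both (.play 386 (.both (.play 322 (.ref 46 258)) (.play 385 (.ref 3 385)))) (.play 389 (.ref 2 386)))) (.play 514 (.ref 1 450)))) (.play 516 (.ref 1 451)))) (.both (.play 451 (.ref 13 386))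 (.both (.play 451 (.both (.play 389 (.both (.play 450 (.ref 2 386)) (.play 388 (.ref 3 388)))) (.ref 11 450))) (.ref 9 387))))) (.play 393 (.ref 2 389)))) (.play 457 (.both (.play 521 (.both (.play 328 (.ref 46 264)) (.play 522 (.ref 0 454)))) (.play 389 (.ref 3 389)))))))) (.play 519 (.ref 4 262)))) (.both (.play 391 (.both (.play 389 (.both (.ref 45 192) (.both (.play 388 (.ref 13 323)) (.both (.play 388 (.ref 10 323)) (.play 388 (.ref 12 323)))))) (.both (.play 393 (.ref 35 325)) (.both (.ref 43 325) (.play 393 (.ref 42 325)))))) (.both (.play 391 (.both (.play 325 (.ref 41 257)) (.both (.play 389 (.both (.play 388 (.ref 27 323)) (.both (.play 388 (.ref 10 323)) (.play 456 (.both (.play 328 (.both (.play 329 (.ref 2 325)) (.ref 39 326))) (.play 457 (.ref 0 389))))))) (.both (.play 393 (.ref 33 325)) (.play 393 (.both (.play 389 (.ref 19 325)) (.both (.ref 36 326) (.both (.play 394 (.both (.ref 8 326) (.play 395 (.ref 13 326)))) (.play 394 (.both (.play 395 (.ref 13 326)) (.ref 18 390))))))))))) (.both (.play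 393 (.both (.play 455 (.both (.play 519 (.ref 4 262)) (.ref 34 389))) (.both (.play 391 (.both (.play 389 (.ref 12 324)) (.play 325 (.ref 3 325)))) (.both (.play 391 (.both (.play 325 (.ref 3 325)) (.play 389 (.ref 19 325)))) (.play 391 (.ref 35 325)))))) (.both (.play 455 (.both (.play 519 (.ref 4 262)) (.play 393 (.both (.ref 32 326) (.both (.play 391 (.both (.play 453 (.ref 1 389)) (.play 394 (.ref 1 390)))) (.both (.play 453 (.both (.play 456 (.ref 2 389)) (.play 391 (.ref 1 389)))) (.ref 34 389))))))) (.play 455 (.both (.play 519 (.ref 4 262)) (.play 393 (.both (.play 391 (.both (.play 325 (.ref 3 325)) (.play 453 (.ref 1 389)))) (.both (.ref 32 326) (.play 456 (.both (.play 453 (.ref 2 389)) (.play 394 (.both (.play 457 (.ref 2 390)) (.play 395 (.ref 1 391))))))))))))))))))))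
 (.one (.play 67 (.both (.ref 40 0) (.play 135 (.ref 0 67))))))
 (.seq (.one (.play 66 (.both (.play 65 (.ref 13 0)) (.play 134 (.ref 0 66)))))
 (.seq (.one (.play 257 (.both (.play 66 (.ref 5 1)) (.ref 37 64))))
 (.one (.both (.play 2 (.ref 5 1)) (.ref 67 64)))))))
 (.seq (.seq (.seq (.one (.play 257 (.both (.play 0 (.ref 7 0)) (.ref 37 64))))
 (.one (.play 68 (.both (.play 259 (.ref 68 2)) (.play 130 (.ref 2 64))))))
 (.seq (.one (.play 129 (.both (.ref 23 0) (.play 386 (.ref 4 129)))))
 (.one (.play 257 (.both (.play 193 (.both (.ref 58 0) (.play 385 (.ref 6 192)))) (.play 512 (.ref 5 256)))))))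
 (.seq (.seq (.one (.play 321 (.both (.play 65 (.ref 22 1)) (.both (.play 385 (.ref 25 64)) (.ref 37 128)))))
 (.one (.play 386 (.both (.play 387 (.both (.play 324 (.both (.play 388 (.both (.play 325 (.both (.ref 72 4) (.play 387 (.ref 2 321)))) (.both (.ref 73 195) (.both (.ref 55 257) (.both (.play 453 (.both (.play 517 (.ref 46 260)) (.play 387 (.ref 0 385)))) (.ref 70 257)))))) (.play 323 (.ref 2 320)))) (.play 451 (.ref 0 384)))) (.play 322 (.ref 5 321))))))
 (.seq (.one (.play 1 (.both (.play 0 (.ref 3 0)) (.play 69 (.both (.play 2 (.ref 3 1)) (.play 130 (.ref 42 1)))))))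
 (.seq (.one (.play 260 (.both (.play 196 (.both (.play 197 (.both (.play 133 (.both (.play 69 (.both (.play 5 (.ref 6 4)) (.play 324 (.both (.play 132 (.ref 5 68)) (.ref 67 131))))) (.play 134 (.ref 2 130)))) (.play 130 (.ref 3 129)))) (.play 261 (.ref 0 193)))) (.play 259 (.ref 0 192)))))
 (.one (.play 455 (.both (.play 583 (.both (.play 518 (.both (.play 517 (.both (.play 520 (.both (.play 456 (.both (.play 389 (.both (.play 453 (.both (.play 324 (.both (.play 260 (.both (.play 196 (.both (.play 132 (.both (.play 68 (.ref 26 3)) (.both (.ref 23 3) (.both (.play 68 (.ref 25 3)) (.play 387 (.both (.play 133 (.both (.play 131 (.both (.play 130 (.both (.play 129 (.ref 27 64)) (.both (.play 129 (.ref 13 64)) (.play 134 (.ref 29 129))))) (.play 67 (.ref 7 67)))) (.play 69 (.ref 5 68)))) (.play 323 (.ref 6 131)))))))) (.play 388 (.ref 4 196)))) (.play 325 (.ref 7 260)))) (.both (.play 325 (.both (.play 260 (.ref 7 260)) (.play 582 (.ref 4 325)))) (.play 581 (.both (.play 388 (.ref 7 324)) (.ref 61 384)))))) (.play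 452 (.ref 3 452)))) (.both (.play 453 (.both (.ref 71 196) (.play 452 (.ref 3 452)))) (.play 390 (.both (.play 326 (.ref 7 326)) (.play 388 (.ref 0 388))))))) (.play 457 (.ref 2 453)))) (.both (.play 581 (.both (.play 521 (.both (.ref 76 326) (.play 582 (.ref 1 517)))) (.play 580 (.ref 1 516)))) (.both (.play 521 (.both (.ref 76 326) (.both (.ref 8 453) (.both (.play 522 (.both (.play 456 (.both (.play 457 (.ref 2 453)) (.play 523 (.ref 3 455)))) (.ref 18 518))) (.play 522 (.ref 19 454)))))) (.both (.play 521 (.ref 12 452)) (.play 581 (.ref 42 452))))))) (.both (.play 516 (.both (.ref 40 449) (.play 456 (.ref 2 452)))) (.both (.play 516 (.both (.ref 40 449) (.both (.play 520 (.ref 13 451)) (.both (.ref 75 451) (.play 515 (.both (.ref 11 514) (.play 582 (.ref 0 515)))))))) (.both (.ref 50 450) (.play 516 (.both (.ref 75 451) (.play 456 (.ref 2 452))))))))) (.both (.play 586 (.both (.play 390 (.both (.play 647 (.both (.play 711 (.both (.ref 74 134) (.ref 38 518))) (.both (.play 711 (.both (.ref 74 134) (.ref 37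 518))) (.both (.play 648 (.both (.play 650 (.both (.play 522 (.both (.play 458 (.both (.ref 23 329) (.both (.play 394 (.ref 17 329)) (.both (.play 394 (.ref 22 330)) (.play 715 (.both (.play 457 (.both (.play 459 (.both (.play 460 (.both (.play 461 (.ref 12 392)) (.both (.play 461 (.ref 19 393)) (.play 456 (.ref 29 455))))) (.play 395 (.ref 5 394)))) (.play 393 (.ref 7 393)))) (.play 651 (.ref 4 458)))))))) (.both (.ref 48 329) (.both (.play 458 (.both (.ref 23 329) (.both (.play 714 (.ref 17 393)) (.play 714 (.ref 22 394))))) (.both (.play 714 (.both (.ref 23 393) (.both (.play 778 (.ref 26 457)) (.play 778 (.ref 25 457))))) (.both (.ref 73 393) (.play 521 (.both (.ref 69 457) (.play 520 (.both (.play 582 (.ref 1 518)) (.play 587 (.ref 0 519)))))))))))) (.both (.play 649 (.both (.play 714 (.both (.ref 47 393) (.play 715 (.ref 0 647)))) (.play 587 (.ref 2 583)))) (.both (.play 649 (.both (.play 714 (.both (.play 778 (.both (.play 522 (.ref 26 457)) (.both (.play 842 (.ref 17 521)) (.ref 37 585)))) (.play 715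 (.ref 0 647)))) (.play 582 (.ref 3 582)))) (.play 649 (.both (.play 582 (.ref 3 582)) (.play 587 (.ref 2 583)))))))) (.play 712 (.ref 4 455)))) (.both (.ref 57 452) (.play 712 (.both (.play 711 (.both (.play 520 (.both (.play 521 (.both (.play 522 (.ref 12 453)) (.play 585 (.ref 0 518)))) (.play 456 (.ref 5 455)))) (.play 776 (.ref 4 519)))) (.play 648 (.ref 4 455))))))))) (.play 326 (.ref 7 326)))) (.both (.play 585 (.both (.play 521 (.both (.play 457 (.both (.play 458 (.both (.ref 72 137) (.play 456 (.ref 1 454)))) (.both (.play 393 (.ref 63 200)) (.play 650 (.both (.play 393 (.ref 4 393)) (.play 714 (.both (.play 649 (.ref 4 457)) (.play 778 (.both (.play 586 (.ref 7 521)) (.play 842 (.both (.play 587 (.both (.play 651 (.ref 5 586)) (.ref 28 647))) (.both (.play 906 (.ref 25 585)) (.both (.play 906 (.ref 22 586)) (.ref 37 649)))))))))))))) (.play 520 (.ref 0 518)))) (.play 584 (.ref 3 518)))) (.both (.play 648 (.both (.play 647 (.both (.play 650 (.both (.play 456 (.both (.play 458 (.both (.play 522 (.both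 (.ref 59 265) (.both (.play 651 (.ref 63 265)) (.both (.play 459 (.ref 68 393)) (.play 715 (.both (.play 714 (.both (.play 778 (.ref 25 457)) (.play 779 (.ref 4 522)))) (.play 651 (.ref 4 458)))))))) (.play 457 (.ref 1 454)))) (.play 711 (.both (.play 520 (.ref 5 455)) (.ref 38 518))))) (.both (.play 714 (.both (.play 715 (.both (.play 522 (.ref 63 329)) (.play 649 (.ref 0 647)))) (.both (.play 715 (.both (.ref 71 393) (.play 649 (.ref 0 647)))) (.both (.ref 48 393) (.ref 70 519))))) (.both (.play 582 (.both (.play 581 (.both (.play 520 (.both (.play 711 (.both (.play 456 (.ref 5 455)) (.ref 69 518))) (.play 521 (.ref 1 517)))) (.play 580 (.ref 0 580)))) (.play 649 (.ref 3 582)))) (.play 649 (.ref 33 582)))))) (.play 712 (.ref 4 455)))) (.play 584 (.ref 4 391)))) (.both (.play 584 (.both (.play 648 (.ref 4 391)) (.play 585 (.ref 33 518)))) (.play 584 (.both (.play 648 (.ref 46 391)) (.play 585 (.ref 3 518))))))))) (.both (.play 517 (.both (.play 520 (.both (.play 581 (.both (.play 521 (.both (.play 458 (.both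 (.play 522 (.both (.play 523 (.both (.play 587 (.both (.play 651 (.both (.play 394 (.both (.ref 62 201) (.play 586 (.ref 4 394)))) (.play 715 (.ref 7 458)))) (.play 588 (.ref 0 520)))) (.play 584 (.ref 1 519)))) (.play 459 (.ref 2 455)))) (.play 457 (.ref 2 454)))) (.play 582 (.ref 1 517)))) (.play 580 (.ref 1 516)))) (.both (.play 647 (.both (.ref 15 391) (.both (.ref 54 454) (.play 711 (.ref 68 454))))) (.play 521 (.ref 12 452))))) (.both (.ref 50 450) (.both (.ref 66 450) (.play 516 (.both (.play 515 (.ref 27 450)) (.play 456 (.ref 2 452)))))))) (.both (.ref 53 386) (.both (.ref 56 388) (.ref 52 388))))))) (.both (.play 390 (.both (.play 454 (.both (.play 389 (.both (.play 388 (.both (.ref 49 131) (.play 387 (.ref 0 387)))) (.both (.ref 65 321) (.both (.ref 66 322) (.both (.play 453 (.both (.play 517 (.both (.play 581 (.both (.play 580 (.both (.play 644 (.ref 6 388)) (.play 518 (.both (.ref 60 512) (.play 520 (.ref 1 516)))))) (.play 645 (.ref 5 389)))) (.both (.play 456 (.both (.play 457 (.both (.ref 36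 390) (.both (.play 458 (.both (.play 391 (.ref 3 390)) (.play 395 (.both (.play 394 (.ref 2 391)) (.play 459 (.both (.play 396 (.ref 2 392)) (.play 460 (.ref 29 455)))))))) (.ref 18 453)))) (.play 516 (.ref 1 452)))) (.play 456 (.ref 42 388))))) (.both (.ref 65 385) (.play 452 (.both (.play 451 (.ref 2 387)) (.play 516 (.both (.play 456 (.both (.play 457 (.ref 33 389)) (.play 517 (.ref 1 452)))) (.play 515 (.ref 1 451))))))))) (.play 456 (.both (.play 453 (.both (.play 388 (.ref 3 388)) (.play 452 (.ref 29 451)))) (.play 457 (.ref 3 389))))))))) (.play 647 (.ref 7 390)))) (.play 326 (.ref 7 326)))) (.both (.ref 64 129) (.both (.play 647 (.ref 17 326)) (.play 647 (.both (.ref 15 391) (.both (.play 711 (.both (.play 520 (.both (.play 518 (.both (.play 521 (.both (.play 522 (.ref 12 453)) (.both (.play 522 (.ref 19 454)) (.both (.play 586 (.both (.ref 30 454) (.play 585 (.ref 0 518)))) (.play 517 (.ref 29 516)))))) (.play 454 (.ref 7 454)))) (.play 456 (.ref 5 455)))) (.both (.play 775 (.ref 26 454)) (.play 775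 (.ref 25 454))))) (.play 712 (.both (.play 711 (.both (.play 775 (.ref 26 454)) (.play 776 (.ref 4 519)))) (.play 648 (.ref 4 455)))))))))))) (.both (.play 327 (.both (.play 263 (.ref 26 198)) (.both (.play 263 (.ref 17 198)) (.ref 14 323)))) (.both (.play 327 (.both (.play 263 (.ref 25 198)) (.both (.play 263 (.ref 22 199)) (.ref 28 324)))) (.both (.play 327 (.both (.play 263 (.ref 26 198)) (.both (.play 263 (.ref 25 198)) (.ref 20 261)))) (.both (.play 327 (.both (.ref 23 198) (.both (.play 263 (.ref 22 199)) (.play 583 (.ref 17 262))))) (.play 327 (.both (.ref 20 261) (.both (.play 583 (.ref 17 262)) (.ref 14 323))))))))))))))))))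
    (by decide +kernel)

theorem Cert_L27 : PW ⟨18, nat_lit 6864797660130609714981900799081393217289609127315859382751150327716816713665856878629037949355444081200270120938487429870166092322217720620667021822152146944, nat_lit 2704867999414606061529263362060193547300900602227134917244080233292474484530360537796301221126692096581402269228622486037963593669076516959658816538723845751985977663231703155530453985866380501126334227840231383888678576030713774038223230696016226652544606451731680018300968, 16, nat_lit 2704867999414606061529263362060193547300900602227134917244080233292474484530360537796301221126692096581402269228622486037963593669076516959658816538723845751985977663231703155530453985866380501126334227840231383888678576030713774038223230696016226652544606451731680018300968⟩ :=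
  sound2 baseTbl baseTbl_ok
    (.seq (.seq (.seq (.seq (.one (.play 257 (.both (.play 193 (.ref 4 0)) (.play 321 (.ref 4 64)))))
 (.one (.play 256 (.both (.play 192 (.ref 6 0)) (.play 320 (.ref 6 64))))))
 (.seq (.one (.play 257 (.both (.ref 9 0) (.ref 8 1))))
 (.seq (.one (.play 64 (.both (.play 0 (.ref 7 0)) (.play 128 (.ref 7 64)))))
 (.one (.play 321 (.both (.ref 11 0) (.ref 8 65)))))))
 (.seq (.seq (.one (.both (.ref 11 0) (.ref 9 64)))
 (.one (.play 68 (.both (.play 67 (.ref 0 0)) (.play 69 (.ref 0 1))))))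
 (.seq (.one (.play 4 (.both (.play 3 (.ref 2 0)) (.play 5 (.ref 2 1)))))
 (.seq (.one (.play 68 (.both (.ref 15 0) (.ref 14 64))))
 (.one (.play 68 (.both (.play 1 (.ref 3 0)) (.ref 16 1))))))))
 (.seq (.seq (.seq (.one (.play 65 (.both (.play 1 (.ref 5 0)) (.play 129 (.ref 5 64)))))
 (.one (.play 64 (.both (.ref 18 0) (.ref 8 64)))))
 (.seq (.one (.play 65 (.both (.ref 11 0) (.ref 18 1))))
 (.seq (.one (.play 65 (.both (.ref 18 1) (.ref 9 64))))
 (.one (.play 65 (.both (.play 64 (.ref 1 0)) (.play 66 (.ref 1 1))))))))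
 (.seq (.seq (.one (.play 1 (.both (.play 0 (.ref 3 0)) (.play 2 (.ref 3 1)))))
 (.one (.play 65 (.both (.ref 23 0) (.ref 22 64)))))
 (.seq (.one (.play 66 (.both (.ref 24 0) (.play 133 (.ref 0 66)))))
 (.seq (.one (.play 129 (.both (.ref 20 0) (.play 322 (.ref 4 129)))))
 (.one (.play 457 (.both (.play 329 (.both (.play 328 (.both (.play 327 (.both (.play 522 (.both (.play 326 (.both (.play 325 (.both (.play 324 (.both (.play 323 (.both (.play 390 (.both (.play 389 (.both (.play 260 (.both (.play 453 (.both (.play 196 (.both (.ref 26 3) (.play 388 (.ref 4 196)))) (.play 517 (.ref 7 260)))) (.play 259 (.ref 3 259)))) (.play 322 (.ref 0 322)))) (.play 391 (.ref 0 323)))) (.both (.play 390 (.both (.ref 25 256) (.play 391 (.ref 0 323)))) (.ref 23 258)))) (.both (.play 259 (.both (.play 323 (.both (.play 258 (.ref 3 258)) (.play 322 (.both (.ref 22 321) (.ref 14 322))))) (.play 260 (.ref 3 259)))) (.both (.ref 24 258) (.ref 22 323))))) (.play 392 (.ref 0 325)))) (.both (.play 455 (.both (.play 390 (.both (.play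 262 (.both (.ref 26 69) (.play 261 (.ref 3 261)))) (.play 389 (.ref 1 325)))) (.play 456 (.both (.play 454 (.ref 0 454)) (.play 523 (.both (.play 520 (.ref 3 455)) (.ref 17 456))))))) (.both (.play 325 (.both (.play 324 (.both (.play 323 (.both (.play 262 (.both (.play 261 (.both (.play 388 (.both (.play 197 (.both (.play 133 (.ref 6 132)) (.play 452 (.both (.play 260 (.ref 5 196)) (.play 516 (.both (.play 325 (.ref 5 260)) (.ref 10 323))))))) (.play 387 (.ref 1 323)))) (.play 322 (.ref 2 258)))) (.play 263 (.ref 2 259)))) (.both (.play 262 (.both (.play 322 (.both (.ref 24 256) (.play 261 (.ref 2 258)))) (.play 263 (.ref 2 259)))) (.ref 22 322)))) (.both (.play 387 (.both (.play 323 (.both (.play 322 (.both (.ref 23 257) (.ref 15 258))) (.play 386 (.ref 1 322)))) (.play 388 (.ref 1 323)))) (.both (.ref 24 258) (.ref 23 259))))) (.play 392 (.ref 0 325)))) (.both (.ref 25 259) (.ref 24 260)))))) (.play 586 (.ref 4 329)))) (.both (.play 326 (.both (.ref 25 259) (.both (.play 330 (.both (.ref 23 261) (.play 266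 (.ref 5 265)))) (.play 392 (.both (.play 520 (.both (.play 456 (.both (.play 263 (.ref 7 263)) (.play 522 (.both (.play 586 (.ref 4 329)) (.play 523 (.both (.play 455 (.ref 3 455)) (.ref 16 456))))))) (.play 584 (.ref 6 328)))) (.play 325 (.ref 0 325))))))) (.both (.play 330 (.both (.ref 24 261) (.play 266 (.ref 5 265)))) (.play 330 (.both (.play 391 (.both (.play 331 (.both (.ref 16 264) (.play 392 (.ref 1 327)))) (.play 390 (.ref 1 326)))) (.play 266 (.ref 5 265)))))))) (.play 264 (.ref 7 264)))) (.both (.play 265 (.ref 13 200)) (.ref 19 201)))) (.both (.play 329 (.both (.ref 20 200) (.both (.ref 21 200) (.play 585 (.ref 13 264))))) (.both (.play 329 (.both (.ref 21 200) (.both (.ref 19 201) (.ref 10 328)))) (.both (.play 329 (.both (.ref 20 200) (.both (.ref 19 201) (.ref 12 264)))) (.play 585 (.both (.play 586 (.both (.play 584 (.both (.play 392 (.both (.play 328 (.ref 7 328)) (.play 587 (.both (.play 651 (.both (.play 523 (.both (.play 522 (.both (.play 715 (.both (.play 458 (.ref 7 458)) (.play 779 (.both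 (.play 586 (.ref 7 522)) (.ref 10 586))))) (.play 583 (.ref 2 519)))) (.play 524 (.ref 2 520)))) (.play 652 (.ref 0 584)))) (.both (.ref 16 520) (.play 588 (.both (.play 520 (.ref 3 520)) (.ref 17 521)))))))) (.play 648 (.ref 6 392)))) (.play 650 (.ref 4 393)))) (.both (.play 649 (.ref 13 328)) (.both (.ref 12 328) (.ref 10 392))))))))))))))))
    (by decide +kernel)

end Crest.Agent.Snaky
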