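import Crest.Agent.Lib_Snaky.Root

set_option autoImplicit false
set_option linter.all false
set_option maxRecDepth 1000000

namespace Crest.Agent.Snaky

theorem Cert_L28 : PW ⟨19, nat_lit 31658291388557380359744322690514840324589848041664953190990384627300509394033345091968476047555140504163623771408580769622727178882625891267623510618644396268818095843496165376, nat_lit 173882026337679400746785163638773163340759449100454249333105244627977961009715505261322739305592371180430979608110798697295007925758938671786332840280998440861767216232097522153058906527833747146991105421655467901758514224057492177792, 13, nat_lit 173882026337679400746785163638773163340759449100454249333105244627977961009715505261322739305592371180430979608110798697295007925758938671786332840280998440861767216232097522153058906527833747146991105421655467901758514224057492177792⟩ :=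
  sound2 baseTbl baseTbl_ok
    (.seq (.seq (.seq (.seq (.seq (.seq (.seq (.seq (.one (.play 4 (.both (.play 3 (.ref 2 0)) (.play 5 (.ref 2 1)))))
 (.seq (.one (.play 68 (.both (.play 1 (.ref 3 0)) (.ref 8 0))))
 (.one (.play 132 (.both (.play 68 (.both (.ref 8 0) (.play 133 (.ref 0 65)))) (.play 131 (.ref 0 64)))))))
 (.seq (.seq (.one (.both (.play 64 (.ref 2 0)) (.play 5 (.ref 2 1))))
 (.one (.play 65 (.both (.play 64 (.ref 1 0)) (.play 66 (.ref 1 1))))))
 (.seq (.one (.play 1 (.both (.play 65 (.both (.play 0 (.ref 3 0)) (.ref 12 64))) (.play 2 (.ref 3 1)))))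
 (.one (.play 195 (.both (.play 197 (.both (.play 261 (.ref 4 4)) (.play 194 (.both (.ref 13 128) (.both (.play 133 (.ref 11 129)) (.play 198 (.both (.ref 8 130) (.both (.play 263 (.both (.play 199 (.both (.play 133 (.both (.play 134 (.ref 2 130)) (.play 200 (.ref 3 132)))) (.play 264 (.ref 0 196)))) (.play 262 (.ref 0 195)))) (.both (.ref 10 131) (.play 263 (.both (.play 199 (.both (.ref 9 132) (.play 264 (.ref 0 196)))) (.play 262 (.ref 0 195))))))))))))) (.play 259 (.ref 6 3))))))))
 (.seq (.seq (.seq (.one (.both (.play 0 (.ref 3 0)) (.play 69 (.ref 3 1))))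
 (.one (.play 1 (.both (.play 0 (.ref 3 0)) (.play 2 (.ref 3 1))))))
 (.seq (.one (.play 129 (.both (.play 65 (.both (.play 3 (.both (.play 64 (.ref 2 0)) (.play 2 (.ref 3 2)))) (.play 128 (.ref 1 64)))) (.play 130 (.ref 1 65)))))
 (.one (.play 65 (.both (.ref 16 0) (.play 4 (.ref 2 1)))))))
 (.seq (.seq (.one (.play 130 (.both (.play 66 (.both (.ref 18 0) (.play 129 (.ref 1 65)))) (.play 131 (.ref 1 66)))))
 (.one (.play 196 (.both (.play 198 (.both (.play 262 (.ref 4 5)) (.play 199 (.both (.play 195 (.both (.ref 19 128) (.both (.ref 13 129) (.both (.ref 17 129) (.ref 16 130))))) (.both (.play 132 (.ref 15 131)) (.ref 10 132)))))) (.play 260 (.ref 6 4))))))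
 (.seq (.one (.both (.play 64 (.ref 1 0)) (.play 5 (.ref 1 1))))
 (.one (.play 259 (.both (.play 65 (.both (.play 67 (.both (.play 68 (.both (.play 129 (.both (.play 4 (.both (.play 5 (.ref 2 1)) (.play 132 (.both (.play 196 (.both (.play 261 (.both (.play 197 (.ref 4 4)) (.play 260 (.both (.play 325 (.ref 4 68)) (.play 193 (.ref 3 193)))))) (.play 195 (.ref 6 3)))) (.play 133 (.ref 0 65)))))) (.play 128 (.ref 1 64)))) (.both (.ref 10 1) (.play 129 (.ref 21 64))))) (.play 3 (.ref 5 2)))) (.play 1 (.ref 7 1)))) (.play 323 (.ref 4 66)))))))))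
 (.seq (.seq (.seq (.seq (.one (.both (.play 256 (.ref 6 0)) (.play 132 (.ref 2 128))))
 (.one (.play 258 (.both (.play 66 (.both (.play 68 (.both (.play 69 (.both (.play 129 (.both (.play 65 (.both (.play 1 (.both (.play 0 (.ref 3 0)) (.play 193 (.both (.play 256 (.both (.play 192 (.ref 6 0)) (.play 257 (.ref 23 64)))) (.play 194 (.ref 4 1)))))) (.play 128 (.ref 1 64)))) (.play 130 (.ref 1 65)))) (.both (.ref 10 2) (.play 130 (.ref 21 65))))) (.play 4 (.ref 5 3)))) (.play 2 (.ref 7 2)))) (.play 322 (.ref 6 66))))))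
 (.seq (.one (.both (.play 0 (.ref 0 0)) (.play 69 (.ref 3 1))))
 (.one (.play 257 (.both (.play 66 (.ref 6 1)) (.play 256 (.ref 1 192)))))))
 (.seq (.seq (.one (.play 65 (.both (.play 1 (.ref 5 0)) (.play 129 (.ref 5 64)))))
 (.one (.play 321 (.both (.play 64 (.both (.ref 27 0) (.play 257 (.ref 4 64)))) (.play 385 (.ref 4 128))))))
 (.seq (.one (.play 64 (.both (.play 0 (.ref 7 0)) (.play 128 (.ref 7 64)))))
 (.one (.play 322 (.both (.play 65 (.both (.ref 29 0) (.play 258 (.ref 4 65)))) (.play 386 (.ref 4 129))))))))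
 (.seq (.seq (.seq (.one (.both (.play 0 (.ref 7 0)) (.ref 27 1)))
 (.one (.play 64 (.both (.play 65 (.ref 31 0)) (.play 128 (.ref 7 64))))))
 (.seq (.one (.play 65 (.both (.ref 27 1) (.play 256 (.ref 6 64)))))
 (.one (.play 320 (.both (.ref 33 0) (.play 384 (.ref 6 128)))))))
 (.seq (.seq (.one (.play 65 (.both (.ref 29 0) (.play 256 (.ref 6 64)))))
 (.one (.both (.ref 35 0) (.play 384 (.ref 6 128)))))
 (.seq (.one (.both (.play 64 (.ref 2 0)) (.play 5 (.ref 1 1))))
 (.one (.play 257 (.both (.play 193 (.ref 4 0)) (.play 321 (.ref 4 64))))))))))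
 (.seq (.seq (.seq (.seq (.one (.play 256 (.both (.play 1 (.both (.play 192 (.ref 6 0)) (.ref 38 1))) (.play 320 (.ref 6 64)))))
 (.seq (.one (.play 65 (.both (.play 64 (.ref 2 0)) (.ref 12 64))))
 (.one (.play 322 (.both (.ref 32 0) (.play 386 (.ref 4 129)))))))
 (.seq (.seq (.one (.both (.play 1 (.ref 5 0)) (.play 320 (.ref 5 64))))
 (.one (.play 257 (.both (.play 64 (.ref 7 0)) (.play 321 (.ref 42 65))))))
 (.seq (.one (.play 64 (.both (.play 0 (.ref 7 0)) (.ref 43 64))))
 (.one (.both (.play 131 (.both (.play 65 (.both (.play 1 (.ref 7 1)) (.play 132 (.ref 25 64)))) (.play 322 (.ref 6 66)))) (.play 3 (.ref 5 2)))))))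
 (.seq (.seq (.seq (.one (.play 68 (.both (.play 4 (.ref 5 3)) (.play 129 (.ref 37 64)))))
 (.one (.play 67 (.both (.play 131 (.both (.ref 46 0) (.play 322 (.ref 6 66)))) (.play 3 (.ref 5 2))))))
 (.seq (.one (.play 67 (.both (.play 65 (.both (.play 1 (.ref 7 1)) (.play 129 (.both (.play 68 (.ref 21 64)) (.play 322 (.ref 7 65)))))) (.play 3 (.ref 5 2)))))
 (.one (.play 68 (.both (.play 0 (.ref 3 0)) (.play 129 (.ref 21 64)))))))
 (.seq (.seq (.one (.play 132 (.both (.play 131 (.both (.play 67 (.both (.play 3 (.ref 6 2)) (.play 260 (.both (.play 324 (.ref 7 67)) (.play 261 (.ref 0 193)))))) (.play 192 (.ref 2 128)))) (.play 133 (.ref 2 129)))))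
 (.one (.play 196 (.both (.ref 50 0) (.play 128 (.ref 3 128))))))
 (.seq (.one (.play 193 (.both (.play 257 (.ref 6 1)) (.play 192 (.ref 2 128)))))
 (.one (.play 196 (.both (.ref 50 0) (.play 197 (.ref 1 193)))))))))
 (.seq (.seq (.seq (.seq (.one (.play 66 (.both (.play 258 (.both (.ref 53 1) (.ref 52 64))) (.play 2 (.ref 4 2)))))
 (.one (.play 193 (.both (.play 257 (.ref 6 1)) (.play 132 (.ref 37 128))))))
 (.seq (.one (.play 258 (.both (.ref 47 0) (.ref 55 64))))
 (.one (.play 66 (.both (.ref 56 0) (.play 2 (.ref 4 2)))))))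
 (.seq (.seq (.one (.play 68 (.both (.play 67 (.ref 0 0)) (.play 69 (.ref 0 1)))))
 (.one (.play 68 (.both (.play 1 (.ref 3 0)) (.ref 58 64)))))
 (.seq (.one (.both (.play 0 (.ref 3 0)) (.ref 59 1)))
 (.one (.play 65 (.both (.play 4 (.ref 2 1)) (.ref 12 64)))))))
 (.seq (.seq (.seq (.one (.play 5 (.both (.ref 61 0) (.play 6 (.ref 2 2)))))
 (.one (.play 193 (.both (.play 257 (.ref 5 1)) (.play 192 (.ref 1 128))))))
 (.seq (.one (.both (.ref 63 0) (.play 64 (.ref 3 64))))
 (.one (.play 67 (.both (.play 3 (.ref 6 2)) (.play 68 (.ref 2 64)))))))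
 (.seq (.seq (.one (.play 129 (.both (.ref 65 1) (.play 128 (.ref 0 128)))))
 (.one (.play 132 (.both (.play 131 (.both (.ref 66 0) (.play 192 (.ref 2 128)))) (.play 133 (.ref 2 129))))))
 (.seq (.one (.play 194 (.both (.play 258 (.ref 6 2)) (.play 193 (.ref 11 128)))))
 (.one (.play 259 (.both (.play 68 (.ref 45 1)) (.ref 68 64))))))))))
 (.seq (.seq (.seq (.seq (.seq (.one (.both (.ref 69 0) (.play 3 (.ref 4 3))))
 (.seq (.one (.both (.play 0 (.ref 3 0)) (.ref 9 1)))
 (.one (.play 129 (.both (.play 69 (.both (.ref 9 2) (.play 130 (.ref 1 65)))) (.play 128 (.ref 1 64)))))))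
 (.seq (.seq (.one (.play 68 (.both (.ref 8 0) (.play 129 (.ref 1 64)))))
 (.one (.both (.ref 73 1) (.play 128 (.ref 1 64)))))
 (.seq (.one (.play 1 (.both (.ref 12 0) (.play 68 (.ref 0 1)))))
 (.one (.play 6 (.both (.play 66 (.both (.play 5 (.ref 2 2)) (.ref 75 64))) (.play 7 (.ref 2 3))))))))
 (.seq (.seq (.seq (.one (.both (.play 1 (.ref 6 0)) (.play 320 (.ref 5 64))))
 (.one (.both (.play 68 (.both (.play 259 (.ref 77 3)) (.play 69 (.ref 2 65)))) (.play 128 (.ref 0 128)))))
 (.seq (.one (.play 194 (.both (.play 195 (.both (.play 129 (.ref 78 0)) (.play 134 (.ref 1 130)))) (.play 193 (.ref 1 129)))))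
 (.one (.both (.play 1 (.ref 6 0)) (.play 320 (.ref 6 64))))))
 (.seq (.seq (.one (.play 132 (.both (.play 131 (.both (.play 197 (.both (.play 258 (.both (.play 67 (.ref 80 2)) (.play 257 (.ref 1 193)))) (.play 198 (.ref 3 130)))) (.play 192 (.ref 2 128)))) (.play 133 (.ref 2 129)))))
 (.one (.play 385 (.both (.play 386 (.both (.play 129 (.both (.play 65 (.both (.ref 29 0) (.play 1 (.ref 4 1)))) (.play 322 (.ref 7 129)))) (.play 450 (.ref 4 193)))) (.play 449 (.ref 5 193))))))
 (.seq (.one (.play 66 (.both (.play 258 (.both (.play 67 (.ref 45 0)) (.ref 55 64))) (.play 2 (.ref 4 2)))))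
 (.one (.play 68 (.both (.play 3 (.ref 0 0)) (.play 69 (.ref 3 1)))))))))
 (.seq (.seq (.seq (.seq (.one (.both (.play 0 (.ref 0 0)) (.ref 84 1)))
 (.one (.play 65 (.both (.play 5 (.ref 1 1)) (.play 64 (.ref 0 64))))))
 (.seq (.one (.play 3 (.both (.play 4 (.ref 2 0)) (.play 130 (.ref 5 2)))))
 (.one (.play 67 (.both (.ref 87 0) (.play 68 (.ref 1 64)))))))
 (.seq (.seq (.one (.play 68 (.both (.play 66 (.both (.play 130 (.both (.ref 88 2) (.both (.ref 86 64) (.play 129 (.ref 85 128))))) (.play 2 (.ref 7 2)))) (.play 4 (.ref 5 3)))))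
 (.one (.play 66 (.both (.ref 86 0) (.play 259 (.ref 7 2))))))
 (.seq (.one (.both (.play 66 (.both (.play 2 (.ref 7 2)) (.ref 90 64))) (.play 4 (.ref 5 3))))
 (.one (.both (.play 0 (.ref 0 0)) (.play 66 (.ref 3 1)))))))
 (.seq (.seq (.seq (.one (.play 66 (.both (.play 2 (.ref 7 2)) (.play 130 (.both (.play 323 (.ref 7 66)) (.play 129 (.ref 92 128)))))))
 (.one (.both (.play 1 (.ref 92 0)) (.play 70 (.ref 3 2)))))
 (.seq (.one (.play 67 (.both (.play 3 (.ref 4 3)) (.play 130 (.ref 94 128)))))
 (.one (.play 256 (.both (.play 192 (.ref 6 0)) (.play 320 (.ref 6 64)))))))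
 (.seq (.seq (.one (.play 66 (.both (.play 2 (.ref 5 1)) (.play 321 (.both (.ref 96 64) (.play 130 (.ref 6 65)))))))
 (.one (.play 68 (.both (.ref 87 1) (.play 129 (.ref 21 64))))))
 (.seq (.one (.play 67 (.both (.play 65 (.both (.play 257 (.both (.ref 98 0) (.play 321 (.ref 6 65)))) (.play 1 (.ref 7 1)))) (.play 3 (.ref 5 2)))))
 (.one (.play 67 (.both (.play 259 (.both (.play 68 (.ref 91 0)) (.both (.ref 99 1) (.both (.ref 44 2) (.ref 97 2))))) (.play 3 (.ref 4 3))))))))))
 (.seq (.seq (.seq (.seq (.seq (.one (.play 68 (.both (.play 65 (.ref 3 0)) (.play 69 (.ref 3 1)))))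
 (.one (.both (.play 0 (.ref 0 0)) (.ref 101 1))))
 (.seq (.one (.play 132 (.both (.play 131 (.both (.ref 65 1) (.play 192 (.ref 2 128)))) (.play 133 (.ref 2 129)))))
 (.one (.play 193 (.both (.ref 103 0) (.ref 63 64))))))
 (.seq (.seq (.one (.play 196 (.both (.ref 104 0) (.play 197 (.ref 3 129)))))
 (.one (.play 129 (.both (.play 69 (.both (.play 2 (.ref 15 1)) (.play 130 (.ref 2 65)))) (.play 128 (.ref 1 64))))))
 (.seq (.one (.both (.play 69 (.both (.ref 8 1) (.play 130 (.ref 2 65)))) (.play 128 (.ref 1 64))))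
 (.one (.both (.play 4 (.ref 5 3)) (.play 129 (.ref 2 64)))))))
 (.seq (.seq (.seq (.one (.play 67 (.both (.play 68 (.ref 108 0)) (.play 3 (.ref 6 2)))))
 (.one (.play 129 (.both (.ref 109 1) (.play 128 (.ref 3 128))))))
 (.seq (.one (.both (.ref 65 0) (.play 196 (.ref 0 128))))
 (.one (.play 193 (.both (.play 196 (.both (.play 132 (.both (.play 129 (.both (.play 130 (.ref 111 1)) (.play 128 (.ref 3 128)))) (.play 133 (.ref 2 129)))) (.both (.play 257 (.both (.play 132 (.both (.ref 110 0) (.play 133 (.ref 2 129)))) (.play 256 (.ref 1 192)))) (.both (.play 257 (.ref 107 128)) (.ref 106 128))))) (.play 192 (.ref 0 192)))))))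
 (.seq (.seq (.one (.play 131 (.both (.play 194 (.both (.ref 112 0) (.both (.ref 105 65) (.both (.play 193 (.ref 85 192)) (.play 193 (.ref 102 192)))))) (.play 67 (.ref 4 67)))))
 (.one (.play 65 (.both (.ref 16 0) (.play 132 (.ref 0 65))))))
 (.seq (.one (.play 6 (.both (.play 66 (.both (.ref 114 0) (.play 5 (.ref 2 2)))) (.play 7 (.ref 2 3)))))
 (.one (.both (.play 1 (.ref 1 0)) (.play 5 (.ref 1 1))))))))
 (.seq (.seq (.seq (.seq (.one (.play 4 (.both (.play 64 (.ref 2 0)) (.play 5 (.ref 116 1)))))
 (.one (.play 132 (.both (.play 131 (.both (.play 68 (.both (.play 4 (.ref 6 3)) (.ref 117 65))) (.play 192 (.ref 2 128)))) (.play 133 (.ref 2 129))))))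
 (.seq (.one (.play 321 (.both (.ref 82 0) (.play 320 (.ref 1 256)))))
 (.one (.play 68 (.both (.ref 8 0) (.play 128 (.ref 1 64)))))))
 (.seq (.seq (.one (.play 1 (.both (.play 0 (.ref 3 0)) (.play 69 (.both (.play 2 (.ref 3 1)) (.ref 120 2))))))
 (.one (.play 4 (.both (.play 3 (.ref 2 0)) (.play 68 (.both (.play 5 (.ref 2 1)) (.ref 58 64)))))))
 (.seq (.one (.both (.ref 16 0) (.play 128 (.ref 1 64))))
 (.one (.play 129 (.both (.play 65 (.ref 123 0)) (.play 130 (.ref 1 65))))))))
 (.seq (.seq (.seq (.one (.play 259 (.both (.ref 66 0) (.play 323 (.ref 7 66)))))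
 (.one (.both (.ref 18 0) (.play 6 (.ref 2 2)))))
 (.seq (.one (.both (.play 0 (.ref 4 0)) (.play 321 (.ref 7 64))))
 (.one (.play 132 (.both (.play 131 (.both (.play 260 (.both (.play 67 (.ref 127 3)) (.play 261 (.ref 0 193)))) (.play 192 (.ref 2 128)))) (.play 133 (.ref 2 129)))))))
 (.seq (.seq (.one (.both (.play 0 (.ref 3 0)) (.play 5 (.ref 2 1))))
 (.one (.play 257 (.both (.ref 96 0) (.play 321 (.ref 5 65))))))
 (.seq (.one (.play 256 (.both (.play 192 (.ref 6 0)) (.play 257 (.both (.ref 38 1) (.play 320 (.ref 6 64)))))))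
 (.one (.both (.play 0 (.ref 7 0)) (.play 321 (.ref 7 64)))))))))))
 (.seq (.seq (.seq (.seq (.seq (.seq (.one (.play 262 (.both (.play 263 (.both (.play 324 (.both (.play 196 (.both (.play 199 (.both (.play 327 (.both (.play 388 (.both (.play 197 (.both (.play 387 (.both (.play 386 (.both (.play 391 (.both (.play 135 (.both (.ref 32 6) (.both (.play 136 (.both (.play 72 (.ref 5 71)) (.play 198 (.ref 2 132)))) (.ref 29 70)))) (.both (.play 198 (.ref 132 134)) (.ref 131 198)))) (.play 385 (.ref 2 321)))) (.play 451 (.ref 6 195)))) (.play 133 (.ref 6 132)))) (.both (.play 197 (.ref 77 132)) (.ref 130 195)))) (.play 328 (.ref 0 260)))) (.play 200 (.ref 2 196)))) (.play 195 (.ref 3 195)))) (.play 323 (.ref 1 259)))) (.both (.ref 122 196) (.play 324 (.ref 21 259))))) (.both (.play 259 (.both (.play 198 (.both (.play 323 (.both (.play 195 (.both (.play 134 (.both (.play 70 (.ref 6 69)) (.play 388 (.both (.play 324 (.both (.play 197 (.both (.play 196 (.both (.play 135 (.ref 2 131)) (.play 387 (.both (.ref 52 193) (.play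 451 (.ref 6 195)))))) (.play 133 (.ref 6 132)))) (.play 131 (.ref 4 131)))) (.both (.play 324 (.ref 127 131)) (.play 387 (.both (.play 451 (.both (.ref 96 194) (.play 196 (.ref 5 195)))) (.play 452 (.ref 4 195))))))))) (.play 194 (.ref 3 194)))) (.play 322 (.ref 1 258)))) (.play 199 (.ref 2 195)))) (.both (.ref 124 193) (.both (.play 198 (.ref 126 193)) (.ref 62 193))))) (.both (.play 259 (.both (.play 198 (.both (.play 195 (.both (.play 263 (.both (.play 134 (.both (.play 70 (.ref 6 69)) (.play 328 (.both (.play 264 (.both (.play 201 (.both (.play 200 (.ref 2 197)) (.play 265 (.ref 129 197)))) (.play 329 (.ref 0 261)))) (.play 327 (.ref 0 260)))))) (.play 196 (.ref 3 195)))) (.play 194 (.ref 3 194)))) (.play 199 (.ref 2 195)))) (.both (.play 198 (.ref 126 193)) (.both (.ref 62 193) (.both (.play 195 (.both (.play 263 (.both (.play 322 (.both (.play 258 (.both (.ref 122 196) (.play 321 (.ref 1 257)))) (.play 323 (.ref 1 258)))) (.play 196 (.ref 3 195)))) (.play 194 (.ref 3 194)))) (.play 195 (.both (.play 322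 (.both (.play 258 (.both (.play 196 (.both (.play 197 (.ref 11 193)) (.play 263 (.ref 3 195)))) (.play 321 (.ref 1 257)))) (.play 323 (.ref 1 258)))) (.play 194 (.ref 3 194))))))))) (.both (.play 263 (.both (.ref 128 67) (.play 324 (.ref 21 259)))) (.both (.play 259 (.both (.play 195 (.both (.play 263 (.both (.play 324 (.both (.ref 125 129) (.play 264 (.ref 1 260)))) (.play 196 (.ref 3 195)))) (.play 194 (.ref 3 194)))) (.both (.ref 76 192) (.both (.play 198 (.ref 126 193)) (.ref 121 194))))) (.both (.play 263 (.both (.play 324 (.both (.play 195 (.both (.play 259 (.both (.ref 125 129) (.play 194 (.ref 3 194)))) (.play 196 (.ref 3 195)))) (.play 323 (.ref 1 259)))) (.both (.play 196 (.ref 60 195)) (.play 324 (.ref 21 259))))) (.play 259 (.both (.ref 124 193) (.both (.play 323 (.both (.play 263 (.both (.ref 122 196) (.play 324 (.ref 1 259)))) (.play 322 (.ref 1 258)))) (.ref 121 194))))))))))))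
 (.seq (.one (.play 66 (.both (.play 258 (.both (.ref 44 1) (.ref 55 64))) (.play 2 (.ref 4 2)))))
 (.one (.play 67 (.both (.play 3 (.ref 5 2)) (.play 68 (.ref 1 64)))))))
 (.seq (.seq (.one (.play 129 (.both (.ref 135 1) (.play 128 (.ref 0 128)))))
 (.one (.play 66 (.both (.play 130 (.both (.ref 136 0) (.play 323 (.ref 7 66)))) (.play 2 (.ref 7 2))))))
 (.seq (.one (.play 258 (.both (.play 65 (.ref 132 1)) (.ref 52 64))))
 (.one (.play 66 (.both (.play 196 (.both (.ref 138 0) (.play 197 (.ref 3 129)))) (.play 2 (.ref 4 2))))))))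
 (.seq (.seq (.seq (.one (.play 257 (.both (.play 64 (.ref 7 0)) (.play 321 (.ref 5 65)))))
 (.one (.play 129 (.both (.play 69 (.both (.play 70 (.ref 15 2)) (.play 130 (.ref 2 65)))) (.play 128 (.ref 1 64))))))
 (.seq (.one (.play 65 (.both (.play 1 (.ref 4 1)) (.play 64 (.ref 3 64)))))
 (.one (.play 258 (.both (.ref 142 0) (.play 322 (.ref 5 66)))))))
 (.seq (.seq (.one (.play 193 (.both (.play 194 (.both (.ref 143 0) (.play 133 (.ref 2 129)))) (.play 192 (.ref 1 128)))))
 (.one (.both (.play 0 (.ref 0 0)) (.play 4 (.ref 0 1)))))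
 (.seq (.one (.both (.play 1 (.ref 145 0)) (.play 70 (.ref 3 2))))
 (.one (.play 65 (.both (.play 64 (.ref 2 0)) (.play 132 (.ref 0 65)))))))))
 (.seq (.seq (.seq (.seq (.one (.play 130 (.both (.play 66 (.both (.ref 147 0) (.play 129 (.ref 1 65)))) (.play 131 (.ref 1 66)))))
 (.one (.play 6 (.both (.play 66 (.both (.ref 147 0) (.play 5 (.ref 2 2)))) (.play 7 (.ref 2 3))))))
 (.seq (.one (.both (.play 0 (.ref 7 0)) (.play 131 (.ref 3 64))))
 (.one (.play 129 (.both (.play 69 (.both (.ref 16 0) (.play 130 (.ref 2 65)))) (.play 128 (.ref 1 64)))))))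
 (.seq (.seq (.one (.play 131 (.both (.play 67 (.ref 80 2)) (.play 132 (.ref 2 128)))))
 (.one (.both (.play 196 (.both (.ref 152 1) (.ref 151 128))) (.play 192 (.ref 0 192)))))
 (.seq (.one (.play 257 (.both (.play 66 (.ref 6 1)) (.ref 130 64))))
 (.one (.both (.play 2 (.ref 5 1)) (.ref 154 64))))))
 (.seq (.seq (.seq (.one (.play 65 (.both (.play 66 (.ref 155 0)) (.play 1 (.ref 4 1)))))
 (.one (.play 257 (.both (.play 129 (.both (.ref 156 0) (.play 128 (.ref 3 128)))) (.play 256 (.ref 1 192))))))
 (.seq (.one (.play 196 (.both (.ref 50 0) (.play 257 (.ref 21 192)))))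
 (.one (.play 66 (.both (.ref 124 0) (.play 133 (.ref 0 66)))))))
 (.seq (.seq (.one (.play 256 (.both (.play 192 (.ref 6 0)) (.play 257 (.ref 1 192)))))
 (.one (.both (.ref 160 0) (.play 128 (.ref 3 128)))))
 (.seq (.one (.both (.play 195 (.ref 161 0)) (.play 258 (.ref 4 1))))
 (.one (.play 257 (.both (.play 2 (.ref 5 1)) (.play 258 (.ref 162 64))))))))))
 (.seq (.seq (.seq (.seq (.seq (.one (.play 65 (.both (.play 1 (.both (.play 0 (.ref 3 0)) (.play 258 (.ref 7 1)))) (.play 132 (.ref 0 65)))))
 (.one (.play 257 (.both (.play 0 (.ref 7 0)) (.play 321 (.ref 5 65))))))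
 (.seq (.one (.play 194 (.both (.play 258 (.both (.play 3 (.ref 6 2)) (.play 259 (.both (.play 322 (.ref 6 66)) (.play 261 (.ref 3 193)))))) (.play 192 (.ref 2 128)))))
 (.one (.play 65 (.both (.play 0 (.ref 7 0)) (.play 1 (.ref 4 1)))))))
 (.seq (.seq (.one (.play 69 (.both (.play 323 (.both (.play 322 (.both (.play 131 (.both (.play 66 (.both (.ref 167 2) (.play 130 (.ref 7 66)))) (.play 386 (.ref 6 130)))) (.play 320 (.ref 2 256)))) (.both (.ref 166 128) (.ref 165 130)))) (.play 5 (.ref 6 4)))))
 (.one (.play 257 (.both (.ref 96 0) (.play 66 (.ref 5 1))))))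
 (.seq (.one (.both (.play 1 (.ref 4 1)) (.play 257 (.ref 6 64))))
 (.one (.play 129 (.both (.play 65 (.both (.play 1 (.ref 4 1)) (.play 128 (.ref 5 64)))) (.play 384 (.ref 5 128))))))))
 (.seq (.seq (.seq (.one (.play 129 (.both (.play 64 (.both (.play 65 (.ref 150 0)) (.play 128 (.ref 7 64)))) (.play 66 (.ref 5 65)))))
 (.one (.play 66 (.both (.ref 124 0) (.play 5 (.ref 2 2))))))
 (.seq (.one (.play 64 (.both (.play 1 (.ref 5 0)) (.ref 38 64))))
 (.one (.play 4 (.both (.play 64 (.ref 1 0)) (.ref 58 0))))))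
 (.seq (.seq (.one (.play 4 (.both (.play 3 (.ref 2 0)) (.play 68 (.both (.play 5 (.ref 2 1)) (.ref 175 65))))))
 (.one (.both (.play 1 (.ref 3 1)) (.ref 75 64))))
 (.seq (.one (.play 2 (.both (.play 66 (.ref 177 0)) (.play 3 (.ref 3 2)))))
 (.one (.play 257 (.both (.play 258 (.both (.play 256 (.both (.play 194 (.both (.play 1 (.ref 4 1)) (.play 195 (.ref 1 192)))) (.play 320 (.ref 6 64)))) (.play 322 (.ref 4 65)))) (.play 66 (.ref 42 1)))))))))
 (.seq (.seq (.seq (.seq (.one (.play 193 (.both (.play 65 (.both (.ref 179 0) (.play 64 (.ref 3 64)))) (.play 192 (.ref 1 128)))))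
 (.one (.play 193 (.both (.play 257 (.ref 127 0)) (.play 132 (.ref 1 128))))))
 (.seq (.one (.both (.ref 181 1) (.play 64 (.ref 3 64))))
 (.one (.play 193 (.both (.play 65 (.ref 182 0)) (.play 192 (.ref 1 128)))))))
 (.seq (.seq (.one (.play 129 (.both (.play 69 (.both (.ref 16 0) (.play 130 (.ref 1 65)))) (.play 128 (.ref 1 64)))))
 (.one (.both (.play 257 (.both (.ref 96 0) (.play 322 (.ref 4 65)))) (.play 194 (.ref 4 1)))))
 (.seq (.one (.both (.play 64 (.ref 2 0)) (.play 68 (.ref 2 1))))
 (.one (.play 65 (.both (.play 64 (.ref 2 0)) (.play 2 (.ref 1 1))))))))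
 (.seq (.seq (.seq (.one (.both (.ref 187 0) (.play 6 (.ref 1 2))))
 (.one (.play 68 (.both (.ref 8 0) (.play 69 (.ref 1 65))))))
 (.seq (.one (.play 194 (.both (.play 258 (.ref 6 2)) (.play 192 (.ref 2 128)))))
 (.one (.both (.play 5 (.ref 2 1)) (.play 129 (.ref 21 64))))))
 (.seq (.seq (.one (.play 5 (.both (.play 69 (.both (.ref 16 0) (.play 6 (.ref 2 2)))) (.play 4 (.ref 2 1)))))
 (.one (.play 65 (.both (.play 5 (.ref 2 1)) (.ref 12 64)))))
 (.seq (.one (.both (.ref 181 1) (.play 192 (.ref 1 128))))
 (.one (.both (.play 193 (.ref 194 0)) (.play 64 (.ref 3 64))))))))))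
 (.seq (.seq (.seq (.seq (.seq (.one (.play 257 (.both (.play 64 (.ref 7 0)) (.ref 38 1))))
 (.seq (.one (.both (.play 0 (.ref 7 0)) (.ref 196 64)))
 (.one (.play 257 (.both (.play 64 (.ref 7 0)) (.play 2 (.ref 5 1)))))))
 (.seq (.seq (.one (.both (.play 2 (.ref 5 1)) (.ref 96 64)))
 (.one (.play 66 (.both (.play 65 (.ref 199 0)) (.play 130 (.ref 5 65))))))
 (.seq (.one (.play 66 (.both (.play 65 (.both (.ref 29 0) (.play 2 (.ref 5 1)))) (.play 130 (.ref 5 65)))))
 (.one (.play 194 (.both (.play 195 (.both (.play 323 (.both (.play 131 (.both (.play 132 (.both (.play 66 (.both (.play 67 (.both (.play 2 (.ref 7 2)) (.play 3 (.both (.play 258 (.ref 6 2)) (.play 196 (.ref 4 3)))))) (.play 130 (.ref 7 66)))) (.play 68 (.ref 5 67)))) (.both (.play 322 (.both (.ref 201 2) (.play 386 (.ref 6 130)))) (.both (.play 322 (.both (.play 258 (.both (.play 67 (.ref 6 66)) (.play 321 (.ref 1 257)))) (.play 386 (.ref 6 130)))) (.play 322 (.both (.play 386 (.ref 6 130)) (.ref 187 256))))))) (.both (.play 387 (.both (.ref 200 66)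 (.both (.ref 198 194) (.ref 196 194)))) (.both (.play 387 (.both (.play 130 (.ref 7 130)) (.ref 198 194))) (.both (.play 387 (.both (.play 130 (.ref 7 130)) (.play 196 (.ref 42 131)))) (.play 387 (.ref 197 130))))))) (.play 262 (.ref 3 194)))) (.both (.play 258 (.ref 195 129)) (.both (.play 193 (.both (.play 195 (.ref 145 192)) (.play 258 (.ref 3 193)))) (.play 195 (.ref 146 192))))))))))
 (.seq (.seq (.seq (.one (.play 66 (.both (.ref 124 0) (.both (.play 2 (.ref 71 1)) (.play 130 (.ref 74 1))))))
 (.one (.both (.play 0 (.ref 3 0)) (.play 128 (.ref 1 64)))))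
 (.seq (.one (.play 64 (.both (.play 257 (.both (.play 0 (.ref 7 0)) (.play 322 (.ref 185 64)))) (.play 132 (.ref 3 64)))))
 (.one (.play 256 (.both (.play 1 (.ref 6 0)) (.play 320 (.both (.play 257 (.ref 6 64)) (.play 384 (.ref 5 128)))))))))
 (.seq (.seq (.one (.both (.ref 122 1) (.play 128 (.ref 1 64))))
 (.one (.both (.play 256 (.both (.play 192 (.ref 6 0)) (.play 257 (.both (.play 320 (.ref 6 64)) (.play 196 (.ref 1 192)))))) (.play 258 (.ref 4 1)))))
 (.seq (.one (.play 258 (.both (.play 194 (.ref 4 1)) (.play 257 (.ref 208 64)))))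
 (.one (.play 321 (.both (.play 320 (.ref 36 0)) (.both (.ref 209 128) (.play 386 (.both (.play 322 (.ref 4 129)) (.play 385 (.both (.play 450 (.ref 4 193)) (.play 388 (.both (.play 320 (.ref 3 320)) (.play 449 (.ref 207 320))))))))))))))))
 (.seq (.seq (.seq (.seq (.one (.play 129 (.both (.ref 210 0) (.both (.play 256 (.both (.ref 206 64) (.play 196 (.ref 1 192)))) (.both (.ref 205 64) (.play 196 (.ref 204 128)))))))
 (.one (.both (.play 0 (.ref 4 0)) (.play 321 (.ref 4 64)))))
 (.seq (.one (.play 68 (.both (.play 4 (.ref 5 3)) (.ref 86 64))))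
 (.one (.both (.ref 213 0) (.play 323 (.ref 7 66))))))
 (.seq (.seq (.one (.play 66 (.both (.play 130 (.ref 214 0)) (.play 2 (.ref 7 2)))))
 (.one (.play 67 (.both (.ref 215 0) (.play 260 (.ref 212 3))))))
 (.seq (.one (.both (.play 3 (.ref 2 0)) (.play 131 (.ref 0 64))))
 (.one (.play 66 (.both (.ref 13 0) (.play 5 (.ref 2 2))))))))
 (.seq (.seq (.seq (.one (.play 195 (.both (.ref 52 0) (.play 259 (.ref 4 2)))))
 (.one (.play 260 (.both (.play 324 (.both (.play 196 (.both (.play 132 (.both (.ref 201 3) (.both (.play 325 (.ref 212 68)) (.ref 219 130)))) (.both (.ref 216 65) (.both (.ref 210 67) (.both (.play 323 (.both (.ref 206 131) (.play 322 (.ref 186 257)))) (.play 388 (.both (.play 389 (.both (.play 387 (.both (.play 451 (.ref 6 195)) (.ref 218 320))) (.play 453 (.ref 4 196)))) (.both (.play 452 (.both (.ref 96 195) (.both (.play 516 (.both (.play 387 (.both (.play 451 (.ref 6 195)) (.play 580 (.both (.play 323 (.ref 7 323)) (.ref 38 324))))) (.play 325 (.ref 5 260)))) (.play 516 (.both (.play 325 (.ref 5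 260)) (.play 581 (.ref 185 323))))))) (.both (.ref 209 195) (.both (.play 453 (.both (.play 452 (.both (.play 387 (.both (.play 451 (.ref 6 195)) (.play 455 (.ref 3 387)))) (.play 517 (.ref 4 260)))) (.play 389 (.ref 4 196)))) (.play 453 (.both (.play 389 (.ref 4 196)) (.play 452 (.both (.play 455 (.both (.play 516 (.both (.play 325 (.ref 5 260)) (.play 515 (.ref 1 451)))) (.play 387 (.ref 3 387)))) (.play 517 (.ref 4 260)))))))))))))))) (.both (.play 196 (.both (.play 132 (.both (.ref 201 3) (.both (.play 325 (.both (.play 263 (.both (.play 199 (.both (.play 71 (.both (.play 133 (.both (.play 131 (.both (.play 67 (.ref 7 67)) (.play 134 (.ref 217 67)))) (.play 69 (.ref 5 68)))) (.play 135 (.ref 6 70)))) (.play 200 (.ref 2 196)))) (.play 264 (.ref 1 260)))) (.play 389 (.ref 4 132)))) (.play 325 (.ref 212 68))))) (.both (.ref 216 65) (.both (.play 263 (.ref 182 131)) (.both (.ref 205 131) (.play 263 (.both (.play 195 (.ref 3 195)) (.ref 73 196)))))))) (.both (.ref 211 67) (.play 263 (.ref 74 195)))))) (.both (.play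 259 (.both (.play 325 (.ref 78 130)) (.both (.play 323 (.ref 74 194)) (.ref 75 257)))) (.both (.play 259 (.both (.ref 180 130) (.both (.ref 124 193) (.both (.ref 114 193) (.ref 75 257))))) (.both (.play 259 (.both (.play 325 (.ref 78 130)) (.both (.ref 114 193) (.play 195 (.ref 71 194))))) (.both (.ref 203 193) (.play 259 (.both (.ref 114 193) (.both (.ref 184 194) (.ref 75 257))))))))))))
 (.seq (.one (.play 66 (.both (.ref 138 0) (.play 2 (.ref 4 2)))))
 (.one (.play 256 (.both (.play 192 (.ref 6 0)) (.play 257 (.both (.play 320 (.ref 6 64)) (.ref 140 64))))))))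
 (.seq (.seq (.one (.play 65 (.both (.ref 135 0) (.play 1 (.ref 7 1)))))
 (.one (.play 4 (.both (.play 2 (.ref 1 0)) (.play 66 (.ref 2 0))))))
 (.seq (.one (.play 67 (.both (.play 3 (.ref 6 2)) (.ref 224 64))))
 (.one (.play 131 (.both (.ref 225 0) (.play 132 (.ref 2 128))))))))))
 (.seq (.seq (.seq (.seq (.seq (.one (.both (.play 0 (.ref 3 0)) (.play 69 (.ref 1 65))))
 (.one (.play 1 (.both (.play 0 (.ref 3 0)) (.play 69 (.both (.play 2 (.ref 3 1)) (.play 70 (.ref 21 66))))))))
 (.seq (.one (.play 193 (.both (.play 196 (.both (.play 129 (.both (.play 132 (.both (.ref 109 1) (.play 133 (.ref 2 129)))) (.play 128 (.ref 3 128)))) (.both (.ref 228 128) (.both (.play 129 (.both (.play 128 (.ref 3 128)) (.play 133 (.both (.play 132 (.ref 2 129)) (.play 197 (.both (.play 134 (.ref 2 130)) (.play 198 (.ref 21 194)))))))) (.play 133 (.both (.play 132 (.ref 2 129)) (.play 197 (.both (.play 134 (.ref 2 130)) (.play 198 (.ref 227 130)))))))))) (.play 192 (.ref 0 192)))))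
 (.one (.play 67 (.both (.play 258 (.ref 80 2)) (.play 68 (.ref 2 64)))))))
 (.seq (.seq (.one (.both (.play 132 (.both (.ref 230 1) (.ref 228 64))) (.play 128 (.ref 0 128))))
 (.one (.play 3 (.both (.play 68 (.ref 0 0)) (.play 4 (.ref 1 0))))))
 (.seq (.one (.play 65 (.both (.play 258 (.both (.play 67 (.both (.play 68 (.both (.play 4 (.ref 5 3)) (.play 69 (.ref 2 65)))) (.play 3 (.ref 6 2)))) (.play 322 (.ref 7 65)))) (.play 64 (.ref 3 64)))))
 (.one (.play 64 (.both (.play 0 (.ref 4 0)) (.play 256 (.ref 4 64))))))))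
 (.seq (.seq (.seq (.one (.both (.ref 234 0) (.play 385 (.ref 7 128))))
 (.one (.both (.play 2 (.ref 5 1)) (.play 321 (.both (.play 130 (.ref 6 65)) (.ref 140 128))))))
 (.seq (.one (.both (.play 4 (.ref 2 0)) (.play 131 (.ref 6 2))))
 (.one (.play 67 (.both (.play 3 (.ref 237 0)) (.play 68 (.ref 1 64)))))))
 (.seq (.seq (.one (.play 67 (.both (.play 3 (.ref 4 3)) (.play 129 (.ref 102 128)))))
 (.one (.both (.play 0 (.ref 0 0)) (.play 69 (.ref 0 1)))))
 (.seq (.one (.play 129 (.both (.play 65 (.ref 212 1)) (.play 128 (.ref 3 128)))))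
 (.one (.play 259 (.both (.play 258 (.both (.play 195 (.both (.play 257 (.both (.play 194 (.both (.play 196 (.both (.play 193 (.both (.ref 241 0) (.play 260 (.ref 240 192)))) (.play 197 (.ref 1 193)))) (.play 387 (.ref 132 130)))) (.play 256 (.ref 0 256)))) (.play 131 (.ref 4 131)))) (.both (.ref 239 128) (.both (.play 325 (.both (.play 195 (.both (.play 387 (.both (.play 194 (.ref 132 130)) (.both (.play 194 (.both (.play 130 (.ref 7 130)) (.play 196 (.both (.ref 238 130) (.play 132 (.ref 5 131)))))) (.play 196 (.ref 236 130))))) (.play 131 (.ref 4 131)))) (.play 326 (.ref 3 258)))) (.play 325 (.ref 146 256)))))) (.both (.play 258 (.both (.play 261 (.both (.play 325 (.both (.play 197 (.both (.play 260 (.both (.play 194 (.both (.play 387 (.ref 235 66)) (.play 193 (.ref 3 193)))) (.play 198 (.ref 2 194)))) (.play 133 (.ref 6 132)))) (.play 326 (.ref 3 258)))) (.both (.play 325 (.both (.play 197 (.both (.play 322 (.both (.ref 119 65) (.play 262 (.ref 2 258)))) (.play 133 (.ref 6 132)))) (.play 326 (.ref 3 258))))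 (.both (.play 260 (.both (.ref 233 129) (.play 262 (.ref 21 258)))) (.both (.play 260 (.both (.ref 233 129) (.both (.play 325 (.ref 111 130)) (.play 326 (.both (.play 325 (.ref 0 258)) (.ref 232 259)))))) (.play 325 (.both (.play 326 (.ref 3 258)) (.ref 117 258)))))))) (.both (.play 257 (.ref 231 128)) (.both (.play 325 (.ref 146 256)) (.play 257 (.ref 102 256)))))) (.both (.play 195 (.both (.play 258 (.both (.ref 229 64) (.both (.play 325 (.both (.play 322 (.both (.ref 226 130) (.ref 63 193))) (.play 326 (.ref 3 258)))) (.both (.play 257 (.ref 85 256)) (.play 257 (.ref 102 256)))))) (.play 131 (.ref 4 131)))) (.both (.play 258 (.both (.play 195 (.both (.play 257 (.both (.play 387 (.both (.ref 223 129) (.both (.play 194 (.ref 132 130)) (.ref 222 194)))) (.play 256 (.ref 0 256)))) (.play 131 (.ref 4 131)))) (.both (.play 325 (.both (.ref 221 129) (.play 326 (.ref 3 258)))) (.play 325 (.ref 94 256))))) (.both (.play 195 (.both (.play 387 (.both (.play 196 (.both (.play 194 (.both (.play 130 (.ref 7 130)) (.play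 386 (.both (.play 385 (.both (.play 449 (.both (.play 258 (.both (.ref 86 192) (.play 322 (.ref 6 193)))) (.play 448 (.ref 1 384)))) (.play 384 (.ref 2 320)))) (.play 450 (.ref 6 194)))))) (.play 132 (.ref 5 131)))) (.both (.ref 44 130) (.ref 97 130)))) (.play 131 (.ref 4 131)))) (.both (.ref 134 129) (.both (.ref 57 129) (.ref 83 129))))))))))))))
 (.seq (.seq (.seq (.seq (.one (.play 66 (.both (.play 321 (.both (.ref 29 0) (.play 130 (.ref 6 65)))) (.play 2 (.ref 5 1)))))
 (.one (.play 258 (.both (.ref 243 1) (.ref 55 64)))))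
 (.seq (.one (.both (.ref 244 0) (.play 2 (.ref 4 2))))
 (.one (.play 257 (.both (.play 66 (.both (.play 65 (.ref 5 1)) (.play 130 (.ref 6 1)))) (.play 256 (.ref 1 192)))))))
 (.seq (.seq (.one (.play 258 (.both (.play 257 (.both (.play 193 (.both (.play 66 (.both (.play 2 (.ref 7 2)) (.ref 246 64))) (.play 192 (.ref 3 192)))) (.play 256 (.ref 2 192)))) (.play 322 (.ref 6 66)))))
 (.one (.play 68 (.both (.ref 247 0) (.play 4 (.ref 5 3))))))
 (.seq (.one (.play 257 (.both (.play 130 (.ref 6 1)) (.play 256 (.ref 1 192)))))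
 (.one (.play 68 (.both (.play 66 (.both (.play 2 (.ref 7 2)) (.play 130 (.both (.play 323 (.ref 7 66)) (.play 129 (.ref 102 128)))))) (.play 4 (.ref 5 3))))))))
 (.seq (.seq (.seq (.one (.play 67 (.both (.play 68 (.ref 25 0)) (.play 258 (.ref 6 2)))))
 (.one (.both (.play 3 (.ref 5 2)) (.ref 251 64))))
 (.seq (.one (.both (.play 67 (.ref 252 0)) (.play 1 (.ref 7 1))))
 (.one (.play 129 (.both (.play 69 (.both (.ref 189 2) (.play 130 (.ref 2 65)))) (.play 128 (.ref 1 64)))))))
 (.seq (.seq (.one (.play 66 (.both (.play 65 (.both (.ref 254 0) (.play 64 (.ref 0 64)))) (.play 2 (.ref 7 2)))))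
 (.one (.play 68 (.both (.play 4 (.ref 5 3)) (.play 323 (.both (.play 132 (.ref 6 67)) (.play 387 (.both (.ref 255 128) (.play 451 (.ref 5 195))))))))))
 (.seq (.one (.play 66 (.both (.play 2 (.ref 7 2)) (.play 130 (.both (.play 323 (.ref 7 66)) (.play 197 (.ref 146 128)))))))
 (.one (.play 67 (.both (.play 259 (.both (.ref 257 0) (.both (.play 68 (.both (.play 66 (.both (.play 2 (.ref 7 2)) (.play 197 (.both (.play 258 (.both (.play 129 (.both (.play 65 (.both (.play 132 (.ref 240 64)) (.play 128 (.ref 1 64)))) (.both (.play 130 (.ref 145 128)) (.both (.play 130 (.ref 92 128)) (.play 130 (.both (.play 132 (.ref 0 129)) (.play 194 (.ref 3 129)))))))) (.play 257 (.ref 2 193)))) (.both (.play 198 (.ref 227 130)) (.play 258 (.ref 37 193))))))) (.play 4 (.ref 5 3)))) (.both (.ref 250 0) (.both (.ref 256 0) (.both (.play 66 (.ref 253 1)) (.play 66 (.both (.play 2 (.ref 7 2)) (.play 323 (.both (.play 130 (.ref 7 66)) (.play 132 (.ref 77 67)))))))))))) (.play 3 (.ref 4 3)))))))))))))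
 (.seq (.seq (.seq (.seq (.seq (.seq (.seq (.one (.play 68 (.both (.play 0 (.ref 3 0)) (.ref 122 1))))
 (.seq (.one (.both (.play 258 (.ref 127 1)) (.play 64 (.ref 3 64))))
 (.one (.play 193 (.both (.play 194 (.both (.play 65 (.ref 260 0)) (.play 133 (.ref 2 129)))) (.play 192 (.ref 1 128)))))))
 (.seq (.seq (.one (.play 257 (.both (.play 66 (.ref 77 1)) (.play 256 (.ref 1 192)))))
 (.one (.play 193 (.both (.play 194 (.both (.ref 262 0) (.play 133 (.ref 2 129)))) (.play 192 (.ref 1 128))))))
 (.seq (.one (.both (.play 256 (.ref 6 0)) (.play 194 (.ref 2 128))))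
 (.one (.play 65 (.both (.play 1 (.ref 4 1)) (.play 320 (.ref 5 64))))))))
 (.seq (.seq (.seq (.one (.both (.play 129 (.both (.play 130 (.both (.ref 265 1) (.play 197 (.ref 3 129)))) (.play 128 (.ref 3 128)))) (.play 256 (.ref 1 192))))
 (.one (.play 197 (.both (.play 195 (.both (.play 194 (.both (.play 261 (.both (.play 258 (.both (.play 259 (.both (.play 322 (.both (.ref 241 1) (.play 321 (.ref 1 257)))) (.play 326 (.ref 0 258)))) (.play 257 (.ref 1 193)))) (.play 262 (.ref 0 194)))) (.both (.ref 124 128) (.play 261 (.ref 240 193))))) (.play 131 (.ref 7 131)))) (.play 133 (.ref 5 132))))))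
 (.seq (.one (.play 196 (.both (.play 388 (.both (.ref 267 0) (.both (.ref 250 129) (.both (.ref 44 131) (.play 197 (.ref 155 131)))))) (.play 132 (.ref 4 132)))))
 (.one (.play 67 (.both (.play 3 (.both (.play 131 (.ref 6 2)) (.play 130 (.ref 5 2)))) (.play 68 (.ref 1 64)))))))
 (.seq (.seq (.one (.play 129 (.both (.play 257 (.ref 5 1)) (.play 128 (.ref 1 64)))))
 (.one (.play 131 (.both (.play 194 (.both (.play 193 (.both (.play 196 (.both (.play 257 (.both (.play 258 (.both (.play 129 (.both (.play 321 (.both (.play 385 (.both (.play 65 (.both (.play 1 (.ref 4 1)) (.play 386 (.both (.play 384 (.both (.play 448 (.ref 6 192)) (.play 387 (.ref 217 320)))) (.play 450 (.ref 4 193)))))) (.play 449 (.ref 5 193)))) (.play 320 (.ref 1 256)))) (.play 128 (.ref 3 128)))) (.play 197 (.ref 2 193)))) (.play 256 (.ref 1 192)))) (.both (.ref 230 65) (.ref 254 128)))) (.play 192 (.ref 0 192)))) (.both (.play 261 (.both (.play 132 (.both (.play 133 (.both (.play 197 (.both (.play 258 (.both (.play 323 (.both (.play 68 (.ref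 5 67)) (.play 257 (.both (.play 387 (.both (.play 386 (.both (.play 385 (.both (.ref 270 192) (.play 384 (.ref 2 320)))) (.play 450 (.ref 6 194)))) (.play 451 (.ref 7 194)))) (.play 256 (.ref 0 256)))))) (.play 198 (.ref 2 194)))) (.play 69 (.ref 6 68)))) (.play 134 (.ref 1 130)))) (.both (.ref 269 66) (.play 323 (.ref 236 66))))) (.play 262 (.ref 3 194)))) (.both (.play 193 (.ref 85 192)) (.play 193 (.ref 102 192)))))) (.play 67 (.ref 4 67))))))
 (.seq (.one (.play 256 (.both (.play 192 (.ref 6 0)) (.play 257 (.both (.play 320 (.ref 6 64)) (.play 321 (.ref 42 65)))))))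
 (.one (.both (.play 6 (.ref 1 2)) (.play 65 (.ref 92 64))))))))
 (.seq (.seq (.seq (.seq (.one (.play 196 (.both (.ref 128 0) (.play 197 (.ref 1 193)))))
 (.one (.play 131 (.both (.play 3 (.ref 6 2)) (.play 132 (.ref 2 128))))))
 (.seq (.one (.both (.play 3 (.ref 6 2)) (.play 132 (.both (.ref 84 65) (.play 192 (.ref 2 128))))))
 (.one (.play 132 (.both (.play 196 (.ref 111 1)) (.play 192 (.ref 1 128)))))))
 (.seq (.seq (.one (.play 195 (.both (.ref 277 0) (.play 67 (.ref 6 66)))))
 (.one (.play 131 (.both (.play 323 (.both (.play 132 (.both (.play 386 (.both (.play 387 (.both (.play 451 (.both (.play 385 (.both (.play 261 (.both (.play 133 (.both (.ref 278 2) (.both (.play 197 (.ref 276 66)) (.both (.play 258 (.both (.ref 275 66) (.play 194 (.ref 7 194)))) (.play 194 (.both (.play 134 (.ref 1 130)) (.play 258 (.ref 7 194)))))))) (.both (.ref 274 66) (.play 262 (.ref 227 194))))) (.play 384 (.ref 0 384)))) (.play 515 (.ref 5 259)))) (.play 450 (.ref 6 194)))) (.play 322 (.ref 6 130)))) (.play 68 (.ref 5 67))))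 (.both (.play 132 (.both (.play 322 (.both (.play 261 (.both (.play 194 (.both (.ref 269 66) (.both (.play 133 (.ref 273 128)) (.play 193 (.ref 145 192))))) (.play 262 (.ref 1 258)))) (.play 386 (.ref 6 130)))) (.play 68 (.ref 5 67)))) (.both (.ref 47 65) (.ref 272 130))))) (.play 67 (.ref 4 67))))))
 (.seq (.one (.play 257 (.both (.play 64 (.ref 7 0)) (.ref 96 0))))
 (.one (.both (.play 0 (.ref 7 0)) (.ref 280 64))))))
 (.seq (.seq (.seq (.one (.play 257 (.both (.play 0 (.ref 7 0)) (.play 256 (.ref 1 192)))))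
 (.one (.play 256 (.both (.play 192 (.ref 6 0)) (.play 257 (.both (.play 320 (.ref 6 64)) (.ref 165 64)))))))
 (.seq (.one (.play 257 (.both (.play 192 (.ref 4 0)) (.play 321 (.ref 7 64)))))
 (.one (.both (.play 0 (.ref 4 0)) (.ref 284 64)))))
 (.seq (.seq (.one (.play 321 (.both (.play 320 (.ref 36 0)) (.both (.play 128 (.ref 197 64)) (.play 385 (.both (.ref 96 128) (.ref 38 129)))))))
 (.one (.both (.play 0 (.ref 3 0)) (.play 64 (.ref 2 0)))))
 (.seq (.one (.play 128 (.both (.play 64 (.both (.play 0 (.ref 4 0)) (.play 129 (.ref 7 64)))) (.play 385 (.ref 7 128)))))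
 (.one (.play 133 (.both (.play 193 (.both (.play 194 (.both (.play 258 (.both (.play 322 (.both (.ref 288 1) (.play 323 (.ref 287 257)))) (.play 259 (.ref 3 193)))) (.play 195 (.ref 0 193)))) (.both (.play 257 (.both (.play 323 (.both (.play 321 (.both (.ref 286 64) (.play 322 (.ref 2 257)))) (.play 387 (.ref 6 131)))) (.both (.play 388 (.both (.play 258 (.both (.play 387 (.both (.play 386 (.both (.play 322 (.ref 235 65)) (.play 385 (.ref 2 321)))) (.play 451 (.ref 6 195)))) (.play 259 (.ref 0 257)))) (.both (.play 452 (.both (.play 259 (.both (.play 195 (.ref 7 195)) (.play 258 (.ref 0 257)))) (.play 516 (.ref 5 260)))) (.ref 130 195)))) (.both (.play 258 (.both (.play 322 (.both (.play 129 (.ref 285 65)) (.play 323 (.ref 3 257)))) (.play 259 (.ref 0 257)))) (.both (.play 258 (.both (.play 323 (.both (.play 387 (.ref 6 131)) (.play 322 (.ref 3 257)))) (.play 259 (.ref 0 257)))) (.play 259 (.both (.ref 283 131) (.play 258 (.ref 0 257))))))))) (.both (.play 195 (.both (.ref 222 131) (.play 194 (.ref 0 193))))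 (.both (.play 323 (.both (.play 322 (.both (.play 258 (.both (.play 194 (.both (.ref 282 129) (.play 259 (.ref 3 193)))) (.play 257 (.ref 3 257)))) (.play 321 (.ref 2 257)))) (.play 387 (.ref 6 131)))) (.both (.play 323 (.both (.play 194 (.both (.play 322 (.both (.play 258 (.both (.ref 282 129) (.play 257 (.ref 3 257)))) (.play 321 (.ref 2 257)))) (.play 195 (.ref 0 193)))) (.play 387 (.ref 6 131)))) (.play 388 (.both (.play 194 (.both (.play 258 (.both (.play 386 (.both (.play 322 (.both (.play 129 (.ref 7 129)) (.play 451 (.both (.play 450 (.both (.play 257 (.ref 7 193)) (.play 515 (.ref 4 258)))) (.play 387 (.ref 4 194)))))) (.both (.play 322 (.ref 281 129)) (.ref 190 193)))) (.play 259 (.ref 3 193)))) (.play 195 (.ref 0 193)))) (.both (.play 195 (.both (.play 194 (.ref 0 193)) (.ref 140 195))) (.ref 130 195)))))))))) (.play 69 (.ref 5 68))))))))))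
 (.seq (.seq (.seq (.seq (.one (.play 67 (.both (.play 3 (.ref 5 2)) (.play 68 (.ref 21 64)))))
 (.seq (.one (.play 66 (.both (.play 130 (.both (.ref 290 0) (.play 321 (.ref 6 65)))) (.play 2 (.ref 5 1)))))
 (.one (.play 4 (.both (.play 67 (.ref 2 0)) (.play 5 (.ref 1 1)))))))
 (.seq (.seq (.one (.play 64 (.both (.play 0 (.ref 7 0)) (.play 130 (.ref 3 64)))))
 (.one (.play 68 (.both (.play 4 (.ref 5 3)) (.play 258 (.both (.play 257 (.both (.play 193 (.both (.play 321 (.both (.play 129 (.both (.ref 293 64) (.both (.play 128 (.both (.play 64 (.ref 7 64)) (.play 130 (.ref 0 128)))) (.play 385 (.both (.play 130 (.both (.ref 292 65) (.play 194 (.ref 5 129)))) (.both (.play 194 (.ref 42 129)) (.ref 131 192))))))) (.play 320 (.ref 1 256)))) (.play 192 (.ref 3 192)))) (.play 256 (.ref 2 192)))) (.play 322 (.ref 6 66))))))))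
 (.seq (.one (.both (.ref 289 0) (.both (.ref 294 65) (.both (.ref 97 67) (.both (.ref 291 67) (.ref 272 131))))))
 (.one (.play 132 (.both (.play 324 (.ref 295 0)) (.play 68 (.ref 4 68))))))))
 (.seq (.seq (.seq (.one (.play 131 (.both (.play 193 (.both (.play 196 (.both (.play 257 (.both (.play 258 (.both (.ref 241 0) (.play 197 (.ref 2 193)))) (.play 256 (.ref 1 192)))) (.ref 230 65))) (.play 192 (.ref 0 192)))) (.play 67 (.ref 4 67)))))
 (.one (.play 195 (.both (.ref 297 1) (.both (.play 262 (.both (.play 132 (.both (.play 259 (.both (.ref 226 67) (.ref 148 192))) (.play 68 (.ref 4 68)))) (.play 263 (.ref 3 195)))) (.both (.ref 239 65) (.play 262 (.ref 146 193))))))))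
 (.seq (.one (.play 260 (.both (.play 196 (.both (.play 388 (.both (.play 197 (.both (.play 261 (.both (.play 198 (.both (.play 199 (.both (.play 263 (.both (.play 262 (.both (.play 327 (.both (.ref 152 4) (.play 328 (.ref 0 260)))) (.play 323 (.ref 1 259)))) (.play 264 (.ref 0 196)))) (.play 200 (.ref 1 196)))) (.play 134 (.ref 5 133)))) (.play 452 (.ref 6 196)))) (.play 133 (.ref 5 132)))) (.both (.ref 97 131) (.ref 68 193)))) (.play 132 (.ref 4 132)))) (.both (.ref 298 64) (.both (.ref 296 64) (.both (.play 196 (.both (.play 388 (.both (.ref 289 64) (.both (.play 197 (.both (.play 326 (.both (.play 198 (.both (.ref 278 67) (.both (.play 262 (.both (.play 134 (.ref 6 133)) (.play 323 (.both (.play 258 (.both (.play 322 (.both (.play 257 (.ref 3 257)) (.play 321 (.ref 0 321)))) (.play 259 (.ref 3 258)))) (.play 263 (.ref 2 259)))))) (.both (.play 262 (.ref 276 131)) (.play 259 (.ref 273 193)))))) (.both (.ref 274 131) (.play 327 (.ref 227 259))))) (.play 133 (.ref 5 132)))) (.ref 55 194)))) (.play 132 (.ref 4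 132)))) (.both (.ref 279 65) (.both (.ref 271 65) (.both (.play 326 (.both (.play 323 (.both (.ref 81 130) (.both (.ref 79 193) (.both (.ref 76 256) (.both (.play 262 (.both (.play 386 (.both (.play 322 (.both (.ref 114 256) (.play 385 (.ref 1 321)))) (.play 387 (.ref 1 322)))) (.play 263 (.ref 2 259)))) (.both (.ref 62 257) (.ref 72 258))))))) (.both (.play 323 (.both (.play 262 (.both (.play 259 (.both (.play 387 (.both (.play 451 (.both (.play 452 (.both (.play 198 (.both (.play 134 (.ref 6 133)) (.play 261 (.both (.play 388 (.both (.play 197 (.ref 6 196)) (.ref 52 257))) (.play 199 (.ref 2 195)))))) (.play 516 (.ref 4 259)))) (.play 515 (.ref 5 259)))) (.play 386 (.ref 1 322)))) (.play 258 (.ref 3 258)))) (.play 263 (.ref 2 259)))) (.both (.ref 13 257) (.both (.play 262 (.ref 126 257)) (.ref 62 257))))) (.both (.ref 49 259) (.play 327 (.ref 71 259)))))) (.both (.play 196 (.both (.play 326 (.both (.play 259 (.both (.ref 104 130) (.both (.play 323 (.ref 64 194)) (.play 258 (.ref 145 257))))) (.both (.play 327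 (.both (.ref 128 131) (.both (.ref 59 260) (.ref 9 260)))) (.both (.play 327 (.both (.ref 128 131) (.play 259 (.ref 3 259)))) (.play 259 (.ref 146 257)))))) (.play 132 (.ref 4 132)))) (.both (.play 196 (.both (.play 388 (.both (.ref 256 129) (.both (.play 197 (.ref 155 131)) (.ref 55 194)))) (.play 132 (.ref 4 132)))) (.ref 57 130))))))))))))
 (.one (.play 67 (.both (.play 65 (.both (.play 131 (.both (.ref 290 1) (.play 132 (.ref 25 64)))) (.play 1 (.ref 7 1)))) (.play 3 (.ref 5 2)))))))
 (.seq (.seq (.one (.play 67 (.both (.play 65 (.both (.ref 98 0) (.play 1 (.ref 7 1)))) (.play 3 (.ref 5 2)))))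
 (.one (.play 258 (.both (.play 257 (.both (.play 193 (.both (.play 321 (.both (.play 130 (.both (.ref 88 2) (.play 194 (.ref 6 65)))) (.play 320 (.ref 1 256)))) (.play 192 (.ref 3 192)))) (.play 256 (.ref 2 192)))) (.play 322 (.ref 6 66))))))
 (.seq (.one (.play 68 (.both (.play 66 (.both (.ref 302 0) (.play 2 (.ref 7 2)))) (.play 4 (.ref 5 3)))))
 (.one (.play 129 (.both (.play 1 (.both (.play 0 (.ref 3 0)) (.play 194 (.ref 4 1)))) (.play 128 (.ref 1 64)))))))))
 (.seq (.seq (.seq (.seq (.one (.play 68 (.both (.play 258 (.both (.play 257 (.both (.play 193 (.both (.play 66 (.both (.play 132 (.both (.play 65 (.both (.ref 304 0) (.play 64 (.ref 0 64)))) (.both (.play 133 (.ref 25 65)) (.play 133 (.both (.play 134 (.ref 3 66)) (.play 194 (.ref 2 129))))))) (.play 2 (.ref 7 2)))) (.play 192 (.ref 3 192)))) (.play 256 (.ref 2 192)))) (.play 322 (.ref 6 66)))) (.play 4 (.ref 5 3)))))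
 (.one (.play 68 (.both (.play 0 (.ref 3 0)) (.ref 120 1)))))
 (.seq (.one (.play 131 (.both (.play 3 (.ref 6 2)) (.play 132 (.ref 0 64)))))
 (.one (.play 67 (.both (.ref 307 0) (.play 68 (.ref 1 64)))))))
 (.seq (.seq (.one (.play 131 (.both (.play 195 (.ref 6 2)) (.play 132 (.ref 0 64)))))
 (.one (.both (.play 4 (.ref 2 0)) (.ref 309 0))))
 (.seq (.one (.play 68 (.both (.play 66 (.ref 227 0)) (.play 128 (.ref 2 64)))))
 (.one (.both (.play 0 (.ref 0 0)) (.play 128 (.ref 2 64)))))))
 (.seq (.seq (.seq (.one (.play 260 (.both (.play 196 (.both (.play 388 (.both (.ref 267 0) (.both (.ref 248 129) (.ref 55 194)))) (.play 132 (.ref 4 132)))) (.both (.play 326 (.both (.play 323 (.both (.play 262 (.both (.play 259 (.both (.play 387 (.both (.play 198 (.both (.play 261 (.both (.ref 241 66) (.play 199 (.ref 2 195)))) (.play 134 (.ref 6 133)))) (.play 386 (.ref 1 322)))) (.play 258 (.ref 3 258)))) (.play 263 (.ref 2 259)))) (.both (.ref 13 257) (.both (.play 262 (.ref 126 257)) (.ref 62 257))))) (.both (.play 323 (.both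 (.ref 115 256) (.both (.ref 62 257) (.both (.play 387 (.ref 74 258)) (.play 387 (.both (.play 327 (.both (.ref 59 260) (.play 388 (.ref 1 323)))) (.play 386 (.ref 1 322)))))))) (.both (.ref 49 259) (.play 327 (.ref 71 259)))))) (.both (.play 196 (.both (.play 259 (.both (.play 258 (.both (.play 261 (.both (.ref 152 66) (.ref 144 129))) (.play 257 (.ref 0 257)))) (.both (.play 326 (.both (.play 323 (.both (.ref 63 194) (.ref 149 256))) (.play 327 (.ref 3 259)))) (.both (.play 258 (.ref 85 257)) (.play 258 (.ref 102 257)))))) (.play 132 (.ref 4 132)))) (.both (.ref 113 65) (.both (.play 196 (.both (.play 259 (.both (.play 258 (.both (.play 261 (.both (.ref 152 66) (.ref 106 193))) (.play 257 (.ref 0 257)))) (.both (.play 326 (.both (.play 262 (.both (.ref 225 131) (.both (.play 198 (.both (.play 134 (.ref 6 133)) (.play 197 (.both (.play 199 (.ref 1 195)) (.play 263 (.ref 312 195)))))) (.ref 311 195)))) (.play 327 (.ref 3 259)))) (.both (.play 258 (.ref 85 257)) (.play 258 (.ref 102 257)))))) (.play 132 (.ref 4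 132)))) (.both (.play 196 (.both (.play 388 (.both (.play 197 (.both (.play 195 (.both (.play 194 (.both (.ref 124 128) (.both (.play 198 (.both (.play 134 (.ref 310 131)) (.both (.ref 87 131) (.ref 58 194)))) (.play 261 (.ref 240 193))))) (.play 131 (.ref 7 131)))) (.play 133 (.ref 5 132)))) (.both (.ref 305 129) (.ref 68 193)))) (.play 132 (.ref 4 132)))) (.both (.play 196 (.both (.play 388 (.both (.ref 89 129) (.both (.ref 99 130) (.ref 55 194)))) (.play 132 (.ref 4 132)))) (.both (.play 326 (.both (.ref 95 129) (.both (.play 196 (.both (.play 388 (.both (.play 195 (.both (.play 197 (.both (.play 259 (.both (.ref 308 131) (.both (.ref 86 193) (.play 258 (.ref 92 257))))) (.play 133 (.ref 5 132)))) (.play 131 (.ref 7 131)))) (.ref 52 194))) (.play 132 (.ref 4 132)))) (.both (.ref 54 130) (.ref 306 259))))) (.both (.play 196 (.both (.play 388 (.both (.ref 247 129) (.both (.ref 305 129) (.both (.ref 294 129) (.both (.ref 303 129) (.ref 301 130)))))) (.play 132 (.ref 4 132)))) (.play 196 (.both (.play 388 (.both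 (.ref 300 130) (.ref 55 194))) (.play 132 (.ref 4 132)))))))))))))))
 (.one (.play 65 (.both (.play 258 (.ref 132 1)) (.play 64 (.ref 3 64))))))
 (.seq (.one (.play 129 (.both (.play 132 (.both (.ref 230 1) (.ref 151 64))) (.play 128 (.ref 0 128)))))
 (.one (.play 68 (.both (.play 131 (.both (.play 65 (.ref 260 0)) (.play 69 (.ref 2 65)))) (.play 4 (.ref 6 3)))))))
 (.seq (.seq (.one (.play 65 (.both (.ref 292 1) (.play 64 (.ref 0 64)))))
 (.one (.play 65 (.both (.play 5 (.ref 116 1)) (.play 64 (.ref 0 64))))))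
 (.seq (.one (.play 67 (.both (.play 68 (.both (.play 259 (.both (.play 4 (.ref 5 3)) (.play 323 (.both (.play 66 (.ref 7 66)) (.play 132 (.ref 6 67)))))) (.both (.ref 318 64) (.ref 317 64)))) (.play 3 (.ref 4 3)))))
 (.one (.play 195 (.both (.play 131 (.both (.ref 225 0) (.both (.play 67 (.both (.play 3 (.ref 6 2)) (.play 132 (.both (.play 66 (.both (.play 64 (.ref 0 64)) (.play 68 (.ref 1 64)))) (.play 192 (.ref 2 128)))))) (.ref 311 64)))) (.play 196 (.ref 3 128)))))))))))
 (.seq (.seq (.seq (.seq (.seq (.one (.both (.play 68 (.both (.play 129 (.both (.ref 142 0) (.play 69 (.ref 2 65)))) (.play 195 (.ref 5 67)))) (.play 133 (.ref 1 129))))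
 (.seq (.one (.play 131 (.both (.play 132 (.both (.play 193 (.both (.play 196 (.both (.ref 110 0) (.both (.play 129 (.both (.play 257 (.both (.play 258 (.both (.play 65 (.ref 212 1)) (.play 197 (.ref 2 193)))) (.play 256 (.ref 1 192)))) (.play 128 (.ref 3 128)))) (.ref 141 128)))) (.play 192 (.ref 0 192)))) (.both (.play 133 (.ref 321 1)) (.both (.ref 318 128) (.ref 317 128))))) (.play 67 (.ref 4 67)))))
 (.one (.play 257 (.both (.play 2 (.ref 5 1)) (.play 321 (.ref 7 64)))))))
 (.seq (.seq (.one (.play 67 (.both (.ref 323 1) (.play 68 (.ref 1 64)))))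
 (.one (.play 195 (.both (.play 132 (.both (.play 194 (.both (.play 131 (.both (.play 133 (.both (.play 67 (.both (.play 130 (.both (.ref 314 1) (.play 129 (.ref 240 128)))) (.play 3 (.ref 4 3)))) (.play 134 (.ref 1 130)))) (.both (.play 67 (.ref 127 3)) (.ref 324 66)))) (.play 193 (.ref 0 193)))) (.play 68 (.ref 4 68)))) (.both (.ref 239 65) (.both (.play 132 (.both (.play 262 (.both (.play 324 (.both (.play 131 (.both (.play 133 (.both (.play 323 (.both (.ref 88 67) (.play 322 (.ref 2 258)))) (.play 69 (.ref 5 68)))) (.play 67 (.ref 7 67)))) (.both (.play 131 (.ref 132 67)) (.play 133 (.ref 236 67))))) (.play 263 (.ref 3 195)))) (.play 68 (.ref 4 68)))) (.play 194 (.ref 85 193))))))))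
 (.seq (.one (.play 65 (.both (.play 64 (.ref 1 0)) (.play 66 (.ref 2 1)))))
 (.one (.play 192 (.both (.play 256 (.ref 6 0)) (.play 130 (.ref 1 128))))))))
 (.seq (.seq (.seq (.one (.play 194 (.both (.play 258 (.ref 6 2)) (.play 193 (.ref 287 128)))))
 (.one (.both (.play 0 (.ref 0 0)) (.play 64 (.ref 1 0)))))
 (.seq (.one (.both (.ref 16 0) (.play 64 (.ref 0 64))))
 (.one (.play 321 (.both (.ref 29 0) (.ref 96 64))))))
 (.seq (.seq (.one (.play 196 (.both (.play 257 (.both (.play 195 (.both (.play 388 (.both (.play 197 (.both (.play 193 (.both (.play 321 (.both (.play 129 (.both (.play 320 (.ref 36 0)) (.both (.play 320 (.both (.play 322 (.both (.ref 33 0) (.play 323 (.ref 0 321)))) (.play 384 (.ref 6 128)))) (.both (.play 198 (.both (.play 65 (.both (.ref 29 0) (.ref 27 1))) (.play 199 (.ref 1 195)))) (.play 322 (.both (.ref 331 64) (.play 323 (.ref 0 321)))))))) (.both (.play 198 (.both (.play 385 (.both (.play 192 (.ref 281 128)) (.play 386 (.both (.play 450 (.ref 4 193)) (.play 387 (.ref 2 321)))))) (.play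 199 (.ref 1 195)))) (.play 322 (.both (.play 386 (.both (.play 129 (.ref 4 129)) (.play 387 (.ref 3 321)))) (.play 323 (.ref 0 321))))))) (.both (.play 194 (.ref 123 128)) (.both (.play 194 (.ref 330 128)) (.play 194 (.ref 329 192)))))) (.play 133 (.ref 5 132)))) (.play 452 (.ref 7 195)))) (.both (.play 131 (.both (.play 130 (.both (.play 323 (.both (.play 66 (.ref 7 66)) (.ref 328 128))) (.play 197 (.ref 94 128)))) (.play 67 (.ref 4 67)))) (.play 131 (.ref 127 67))))) (.play 258 (.ref 0 257)))) (.play 132 (.ref 4 132)))))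
 (.one (.play 259 (.both (.ref 332 0) (.both (.ref 297 65) (.both (.play 258 (.both (.play 196 (.both (.play 195 (.both (.play 131 (.ref 127 67)) (.play 261 (.both (.play 194 (.ref 25 193)) (.both (.play 194 (.both (.play 193 (.ref 0 193)) (.play 322 (.both (.play 386 (.both (.ref 327 193) (.play 450 (.ref 5 194)))) (.play 321 (.ref 1 257)))))) (.play 262 (.both (.play 263 (.ref 3 195)) (.ref 326 257)))))))) (.play 132 (.ref 4 132)))) (.play 257 (.ref 0 257)))) (.both (.ref 322 65) (.both (.ref 319 129) (.both (.ref 315 129) (.play 196 (.both (.play 388 (.both (.play 195 (.ref 132 131)) (.both (.play 195 (.both (.play 131 (.ref 7 131)) (.play 197 (.both (.ref 88 131) (.play 133 (.ref 5 132)))))) (.play 197 (.both (.play 261 (.both (.ref 135 131) (.play 452 (.ref 6 196)))) (.play 133 (.ref 5 132))))))) (.play 132 (.ref 4 132)))))))))))))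
 (.seq (.one (.play 65 (.both (.play 1 (.ref 329 0)) (.play 66 (.ref 0 65)))))
 (.one (.both (.play 0 (.ref 4 0)) (.play 1 (.ref 5 0))))))))
 (.seq (.seq (.seq (.seq (.one (.play 129 (.both (.play 65 (.ref 335 1)) (.play 128 (.ref 3 128)))))
 (.one (.play 67 (.both (.play 197 (.both (.play 194 (.both (.play 258 (.both (.ref 336 1) (.play 257 (.ref 0 257)))) (.both (.play 193 (.ref 330 128)) (.ref 334 192)))) (.both (.ref 238 131) (.ref 86 193)))) (.play 131 (.ref 4 67))))))
 (.seq (.one (.both (.play 0 (.ref 7 0)) (.play 2 (.ref 5 1))))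
 (.one (.play 68 (.both (.play 0 (.ref 3 0)) (.ref 10 1))))))
 (.seq (.seq (.one (.play 1 (.both (.ref 339 0) (.play 258 (.ref 7 1)))))
 (.one (.play 4 (.both (.play 3 (.ref 2 0)) (.play 68 (.ref 310 1))))))
 (.seq (.one (.play 66 (.both (.ref 124 0) (.ref 341 2))))
 (.one (.play 65 (.both (.play 1 (.ref 6 0)) (.play 257 (.ref 6 64))))))))
 (.seq (.seq (.seq (.one (.play 64 (.both (.play 67 (.ref 2 0)) (.play 2 (.ref 1 0)))))
 (.one (.play 68 (.both (.play 69 (.ref 3 1)) (.play 128 (.ref 1 64))))))
 (.seq (.one (.both (.play 3 (.ref 6 2)) (.play 192 (.ref 2 128))))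
 (.one (.both (.play 195 (.ref 346 0)) (.play 64 (.ref 0 64))))))
 (.seq (.seq (.one (.play 4 (.both (.play 64 (.ref 2 0)) (.ref 292 1))))
 (.one (.play 3 (.both (.play 64 (.ref 310 0)) (.play 130 (.ref 5 2))))))
 (.seq (.one (.both (.ref 348 0) (.play 130 (.ref 5 2))))
 (.one (.play 196 (.both (.play 260 (.both (.play 259 (.both (.ref 152 1) (.play 192 (.ref 0 192)))) (.play 261 (.ref 0 193)))) (.both (.ref 73 129) (.play 260 (.both (.play 259 (.both (.play 192 (.ref 0 192)) (.ref 344 256))) (.play 261 (.ref 0 193)))))))))))))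
 (.seq (.seq (.seq (.seq (.seq (.one (.play 260 (.both (.play 196 (.both (.play 197 (.both (.play 198 (.both (.ref 351 3) (.both (.play 134 (.ref 350 131)) (.both (.ref 349 131) (.both (.play 262 (.both (.play 134 (.both (.ref 348 131) (.play 326 (.ref 6 133)))) (.both (.play 263 (.ref 347 131)) (.both (.play 326 (.ref 276 131)) (.play 263 (.ref 85 195)))))) (.play 262 (.both (.play 326 (.ref 276 131)) (.both (.play 261 (.both (.play 134 (.ref 5 133)) (.ref 345 195))) (.both (.play 134 (.both (.play 326 (.ref 6 133)) (.play 261 (.ref 5 133)))) (.play 263 (.both (.ref 84 196) (.ref 344 259)))))))))))) (.both (.play 133 (.both (.ref 343 4) (.play 388 (.ref 5 132)))) (.play 195 (.both (.ref 342 128) (.both (.ref 340 130) (.play 388 (.ref 338 131)))))))) (.play 132 (.ref 4 132)))) (.both (.play 259 (.both (.play 326 (.both (.play 196 (.both (.play 195 (.both (.ref 337 0) (.both (.play 388 (.ref 214 129)) (.play 388 (.ref 132 131))))) (.play 132 (.ref 4 132)))) (.play 327 (.ref 3 259)))) (.both (.ref 332 0) (.both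 (.play 326 (.both (.play 196 (.both (.play 388 (.both (.play 386 (.both (.play 197 (.both (.play 198 (.both (.play 262 (.both (.play 134 (.ref 6 133)) (.play 323 (.both (.play 263 (.ref 2 259)) (.play 322 (.ref 329 321)))))) (.play 199 (.ref 1 195)))) (.play 133 (.ref 5 132)))) (.play 387 (.ref 2 322)))) (.play 195 (.ref 132 131)))) (.play 132 (.ref 4 132)))) (.play 327 (.ref 3 259)))) (.play 326 (.ref 94 257)))))) (.both (.ref 333 0) (.both (.ref 298 64) (.both (.ref 325 64) (.both (.play 259 (.both (.ref 322 65) (.both (.ref 239 129) (.both (.play 196 (.both (.ref 320 131) (.play 132 (.ref 4 132)))) (.play 258 (.ref 85 257)))))) (.both (.play 259 (.both (.play 326 (.both (.play 323 (.both (.play 196 (.both (.play 132 (.ref 4 132)) (.ref 148 256))) (.both (.ref 103 130) (.play 196 (.both (.ref 226 131) (.play 132 (.ref 4 132))))))) (.play 327 (.ref 3 259)))) (.both (.ref 319 129) (.both (.play 326 (.ref 146 257)) (.play 326 (.ref 94 257)))))) (.both (.play 259 (.both (.play 326 (.both (.play 323 (.both (.play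 262 (.both (.play 387 (.both (.ref 316 130) (.play 386 (.ref 1 322)))) (.play 263 (.ref 2 259)))) (.both (.ref 149 256) (.both (.ref 148 256) (.ref 62 257))))) (.play 327 (.ref 3 259)))) (.both (.ref 315 129) (.both (.play 326 (.ref 146 257)) (.play 258 (.ref 102 257)))))) (.both (.play 196 (.both (.play 326 (.both (.play 323 (.both (.play 262 (.both (.play 259 (.both (.play 387 (.both (.play 198 (.both (.play 261 (.both (.ref 314 130) (.play 199 (.ref 2 195)))) (.play 134 (.ref 6 133)))) (.play 386 (.ref 1 322)))) (.play 258 (.ref 3 258)))) (.play 263 (.ref 2 259)))) (.both (.play 259 (.both (.ref 148 256) (.play 258 (.ref 3 258)))) (.both (.play 262 (.ref 126 257)) (.ref 62 257))))) (.both (.play 323 (.both (.play 387 (.both (.play 388 (.both (.play 322 (.both (.play 258 (.both (.play 261 (.both (.play 516 (.both (.play 194 (.both (.play 195 (.both (.play 131 (.ref 7 131)) (.play 193 (.ref 0 193)))) (.play 130 (.ref 4 130)))) (.play 452 (.ref 5 260)))) (.play 262 (.ref 2 258)))) (.play 257 (.ref 3 257)))) (.play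 321 (.ref 0 321)))) (.play 327 (.ref 1 323)))) (.play 386 (.ref 1 322)))) (.both (.ref 115 256) (.both (.ref 62 257) (.both (.play 387 (.ref 74 258)) (.ref 72 258)))))) (.both (.ref 49 259) (.play 327 (.ref 71 259)))))) (.play 132 (.ref 4 132)))) (.both (.ref 258 129) (.play 196 (.both (.play 388 (.both (.ref 300 130) (.both (.play 197 (.ref 45 130)) (.both (.ref 44 131) (.both (.ref 291 131) (.play 197 (.both (.play 195 (.both (.play 131 (.ref 7 131)) (.play 259 (.both (.play 326 (.both (.ref 308 131) (.play 327 (.ref 3 259)))) (.play 452 (.ref 7 195)))))) (.play 133 (.ref 5 132))))))))) (.play 132 (.ref 4 132))))))))))))))))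
 (.one (.play 196 (.both (.play 258 (.both (.ref 44 1) (.ref 52 64))) (.both (.play 197 (.both (.play 258 (.both (.play 133 (.both (.play 261 (.both (.play 65 (.both (.play 1 (.ref 7 1)) (.play 132 (.both (.play 68 (.ref 127 4)) (.play 131 (.ref 3 65)))))) (.play 262 (.ref 0 194)))) (.play 134 (.ref 2 130)))) (.play 257 (.ref 1 193)))) (.both (.ref 9 130) (.play 258 (.ref 21 193))))) (.both (.ref 49 129) (.play 197 (.ref 71 129))))))))
 (.seq (.one (.play 259 (.both (.play 258 (.both (.play 257 (.both (.play 68 (.both (.play 66 (.both (.play 2 (.ref 7 2)) (.play 321 (.both (.play 193 (.both (.play 129 (.both (.play 128 (.both (.play 64 (.ref 7 64)) (.play 65 (.ref 1 64)))) (.play 130 (.ref 5 65)))) (.play 192 (.ref 3 192)))) (.play 320 (.ref 1 256)))))) (.play 4 (.ref 5 3)))) (.play 256 (.ref 2 192)))) (.play 322 (.ref 6 66)))) (.both (.play 258 (.both (.play 257 (.both (.ref 44 2) (.play 256 (.ref 2 192)))) (.play 322 (.ref 6 66)))) (.both (.ref 97 2) (.ref 243 2))))))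
 (.one (.play 259 (.both (.ref 215 0) (.ref 55 65))))))
 (.seq (.seq (.one (.play 0 (.both (.play 66 (.ref 3 0)) (.play 2 (.ref 0 0)))))
 (.one (.both (.play 68 (.both (.play 67 (.ref 108 0)) (.play 132 (.ref 5 67)))) (.play 66 (.ref 7 66)))))
 (.seq (.one (.both (.play 5 (.ref 2 1)) (.play 64 (.ref 0 64))))
 (.one (.play 193 (.both (.ref 142 0) (.play 192 (.ref 1 128))))))))
 (.seq (.seq (.seq (.one (.both (.play 65 (.both (.play 2 (.ref 1 1)) (.play 64 (.ref 0 64)))) (.play 6 (.ref 1 2))))
 (.one (.both (.play 0 (.ref 3 0)) (.play 133 (.ref 0 65)))))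
 (.seq (.one (.play 66 (.both (.play 2 (.ref 4 2)) (.ref 63 64))))
 (.one (.play 326 (.both (.play 198 (.both (.play 259 (.both (.play 262 (.both (.play 195 (.both (.play 131 (.both (.play 194 (.both (.play 130 (.both (.play 193 (.both (.play 129 (.both (.ref 362 0) (.play 128 (.ref 0 128)))) (.play 192 (.ref 0 192)))) (.play 197 (.ref 3 130)))) (.play 261 (.ref 3 194)))) (.play 67 (.ref 4 67)))) (.both (.play 131 (.both (.play 67 (.ref 4 67)) (.play 197 (.ref 361 130)))) (.play 261 (.ref 15 194))))) (.both (.play 197 (.both (.play 195 (.both (.ref 142 66) (.play 263 (.ref 0 195)))) (.play 199 (.ref 1 195)))) (.both (.play 261 (.both (.play 195 (.ref 15 194)) (.play 199 (.ref 2 195)))) (.ref 224 195))))) (.both (.play 258 (.both (.play 197 (.ref 116 194)) (.play 257 (.ref 0 257)))) (.both (.play 258 (.both (.play 197 (.ref 116 194)) (.play 261 (.ref 0 258)))) (.play 258 (.ref 145 257)))))) (.both (.play 259 (.both (.play 197 (.ref 321 66)) (.both (.play 197 (.ref 360 193)) (.play 258 (.ref 145 257))))) (.both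 (.play 262 (.both (.play 197 (.both (.play 195 (.both (.ref 359 66) (.play 263 (.ref 0 195)))) (.both (.ref 277 67) (.both (.play 259 (.ref 360 193)) (.play 263 (.ref 85 195)))))) (.play 134 (.ref 6 133)))) (.both (.play 134 (.both (.play 197 (.both (.play 195 (.both (.ref 359 66) (.play 135 (.ref 2 131)))) (.play 261 (.ref 5 133)))) (.play 262 (.ref 6 133)))) (.both (.play 134 (.both (.play 197 (.both (.play 195 (.ref 191 130)) (.play 261 (.ref 5 133)))) (.play 262 (.ref 6 133)))) (.both (.play 262 (.both (.play 134 (.ref 6 133)) (.play 261 (.both (.play 259 (.ref 358 194)) (.play 263 (.ref 227 195)))))) (.both (.play 134 (.both (.play 197 (.ref 350 131)) (.play 262 (.ref 6 133)))) (.play 134 (.both (.play 197 (.both (.play 199 (.ref 207 131)) (.play 261 (.ref 5 133)))) (.play 262 (.ref 6 133)))))))))))) (.both (.play 327 (.both (.play 263 (.both (.play 391 (.both (.play 198 (.both (.play 199 (.ref 357 68)) (.both (.play 262 (.ref 127 134)) (.play 262 (.both (.ref 356 195) (.play 455 (.ref 7 198))))))) (.play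 392 (.ref 0 324)))) (.play 264 (.ref 2 260)))) (.both (.ref 59 260) (.both (.ref 9 260) (.ref 122 260))))) (.both (.play 327 (.ref 60 259)) (.ref 259 259))))))))
 (.seq (.seq (.one (.both (.play 3 (.both (.play 4 (.ref 2 0)) (.play 195 (.ref 6 2)))) (.play 132 (.ref 0 64))))
 (.one (.both (.play 1 (.ref 71 0)) (.both (.play 1 (.ref 60 0)) (.play 4 (.ref 310 1))))))
 (.seq (.one (.play 68 (.both (.ref 8 0) (.ref 58 64))))
 (.one (.play 133 (.both (.ref 114 0) (.play 134 (.ref 0 66)))))))))
 (.seq (.seq (.seq (.seq (.one (.play 4 (.both (.play 3 (.ref 2 0)) (.play 68 (.both (.play 133 (.both (.play 69 (.both (.ref 16 0) (.play 134 (.ref 0 66)))) (.play 132 (.ref 0 65)))) (.play 5 (.ref 2 1)))))))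
 (.one (.play 260 (.both (.play 259 (.both (.play 131 (.both (.play 67 (.ref 212 3)) (.play 323 (.ref 6 130)))) (.play 192 (.ref 0 192)))) (.play 261 (.ref 0 193))))))
 (.seq (.one (.play 196 (.both (.play 260 (.both (.ref 363 0) (.both (.ref 69 129) (.both (.ref 355 129) (.both (.ref 354 129) (.both (.ref 56 130) (.both (.ref 244 130) (.ref 353 130)))))))) (.both (.play 197 (.both (.play 198 (.both (.play 199 (.both (.ref 369 3) (.both (.play 131 (.both (.play 195 (.both (.play 258 (.both (.play 194 (.both (.play 134 (.both (.play 133 (.ref 2 130)) (.ref 309 131))) (.play 257 (.ref 1 193)))) (.play 259 (.ref 1 194)))) (.play 130 (.ref 3 130)))) (.play 132 (.ref 3 131)))) (.both (.ref 367 130) (.play 132 (.both (.play 131 (.ref 3 131)) (.play 200 (.both (.play 133 (.ref 3 132)) (.ref 10 133))))))))) (.both (.play 199 (.both (.ref 369 3) (.both (.play 136 (.both (.play 200 (.both (.play 133 (.both (.play 134 (.both (.play 262 (.both (.play 195 (.both (.play 194 (.ref 2 130)) (.play 263 (.ref 0 195)))) (.play 326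 (.ref 6 133)))) (.play 201 (.ref 3 133)))) (.play 132 (.ref 3 132)))) (.play 137 (.ref 2 133)))) (.play 135 (.ref 2 132)))) (.both (.play 263 (.both (.play 135 (.both (.play 195 (.ref 217 131)) (.play 136 (.ref 2 132)))) (.play 264 (.ref 0 196)))) (.both (.ref 122 132) (.ref 368 132)))))) (.both (.play 199 (.both (.play 263 (.both (.play 135 (.both (.play 132 (.both (.play 134 (.both (.play 262 (.both (.ref 109 4) (.play 326 (.ref 6 133)))) (.play 70 (.ref 127 6)))) (.play 131 (.ref 3 131)))) (.play 136 (.ref 2 132)))) (.play 264 (.ref 0 196)))) (.both (.play 132 (.ref 71 131)) (.both (.play 132 (.ref 60 131)) (.ref 10 132))))) (.both (.play 195 (.both (.play 131 (.both (.play 258 (.both (.play 194 (.both (.play 132 (.both (.play 193 (.ref 11 128)) (.play 199 (.ref 3 131)))) (.play 257 (.ref 1 193)))) (.play 259 (.ref 1 194)))) (.play 130 (.ref 3 130)))) (.both (.play 134 (.ref 126 129)) (.both (.ref 62 129) (.play 131 (.ref 71 130)))))) (.both (.play 195 (.both (.ref 13 129) (.play 134 (.ref 310 131)))) (.both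 (.play 199 (.both (.ref 367 130) (.both (.play 132 (.ref 71 131)) (.ref 366 132)))) (.play 195 (.ref 365 130))))))))) (.both (.play 198 (.both (.play 195 (.both (.play 263 (.both (.play 199 (.both (.play 136 (.both (.play 200 (.both (.play 327 (.both (.play 72 (.both (.play 8 (.ref 6 7)) (.play 131 (.both (.play 130 (.ref 3 130)) (.play 388 (.both (.play 261 (.ref 80 132)) (.play 326 (.ref 21 323)))))))) (.play 391 (.ref 5 135)))) (.play 137 (.ref 2 133)))) (.play 135 (.ref 2 132)))) (.play 264 (.ref 0 196)))) (.play 262 (.ref 0 195)))) (.both (.ref 124 129) (.play 262 (.both (.play 261 (.both (.play 388 (.ref 80 132)) (.play 194 (.ref 0 194)))) (.play 263 (.ref 0 195))))))) (.both (.play 195 (.both (.ref 62 129) (.both (.play 262 (.both (.ref 124 129) (.play 263 (.ref 0 195)))) (.play 262 (.ref 364 131))))) (.both (.play 134 (.ref 350 131)) (.play 261 (.both (.play 388 (.ref 80 132)) (.play 134 (.ref 5 133)))))))) (.both (.play 198 (.both (.play 195 (.both (.play 194 (.both (.ref 16 129) (.ref 12 193))) (.both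 (.play 132 (.both (.play 131 (.ref 15 130)) (.play 261 (.ref 7 132)))) (.play 261 (.both (.play 132 (.ref 7 132)) (.play 262 (.ref 240 194))))))) (.both (.play 195 (.both (.ref 13 129) (.ref 10 131))) (.play 261 (.ref 338 132))))) (.play 261 (.both (.play 132 (.ref 7 132)) (.play 388 (.ref 80 132)))))))) (.both (.play 260 (.both (.ref 363 0) (.play 132 (.ref 4 132)))) (.both (.play 260 (.both (.ref 355 129) (.play 132 (.ref 4 132)))) (.both (.play 260 (.ref 70 129)) (.both (.play 260 (.both (.ref 354 129) (.play 132 (.ref 4 132)))) (.both (.play 260 (.ref 245 130)) (.both (.play 260 (.both (.play 326 (.both (.play 388 (.both (.play 197 (.both (.play 261 (.both (.ref 213 130) (.play 452 (.ref 6 196)))) (.play 133 (.ref 5 132)))) (.ref 52 194))) (.both (.play 327 (.both (.play 388 (.both (.play 197 (.ref 155 131)) (.play 387 (.ref 1 323)))) (.both (.ref 9 260) (.play 388 (.ref 21 323))))) (.both (.ref 49 259) (.play 327 (.ref 71 259)))))) (.play 132 (.ref 4 132)))) (.play 260 (.both (.ref 353 130) (.play 132 (.ref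 4 132))))))))))))))
 (.one (.play 68 (.both (.play 3 (.ref 0 0)) (.play 128 (.ref 2 64)))))))
 (.seq (.seq (.one (.both (.ref 8 1) (.play 64 (.ref 0 64))))
 (.one (.play 68 (.both (.play 1 (.ref 3 0)) (.play 128 (.ref 1 64))))))
 (.seq (.one (.play 196 (.both (.ref 128 0) (.ref 373 129))))
 (.one (.play 64 (.both (.play 4 (.ref 2 0)) (.play 131 (.ref 0 64))))))))
 (.seq (.seq (.seq (.one (.play 132 (.both (.play 129 (.both (.ref 316 0) (.play 128 (.ref 3 128)))) (.play 133 (.ref 2 129)))))
 (.one (.play 66 (.both (.ref 61 0) (.play 133 (.ref 0 66))))))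
 (.seq (.one (.play 131 (.both (.play 194 (.both (.ref 112 0) (.both (.ref 320 66) (.both (.play 193 (.ref 85 192)) (.play 193 (.ref 102 192)))))) (.play 67 (.ref 4 67)))))
 (.one (.play 257 (.both (.play 66 (.both (.ref 308 0) (.play 2 (.ref 5 1)))) (.play 321 (.ref 7 64)))))))
 (.seq (.seq (.one (.play 257 (.both (.play 0 (.ref 7 0)) (.ref 140 64))))
 (.one (.play 194 (.both (.play 258 (.both (.play 67 (.both (.ref 336 1) (.play 131 (.ref 4 67)))) (.play 257 (.ref 0 257)))) (.both (.play 193 (.ref 330 128)) (.ref 334 192))))))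
 (.seq (.one (.play 261 (.both (.play 327 (.both (.play 197 (.both (.play 260 (.both (.play 196 (.both (.play 198 (.both (.ref 381 1) (.both (.ref 238 132) (.ref 86 194)))) (.both (.play 389 (.ref 214 130)) (.play 389 (.ref 132 132))))) (.both (.play 196 (.both (.play 132 (.both (.play 131 (.both (.ref 380 67) (.both (.play 324 (.both (.play 67 (.ref 7 67)) (.play 199 (.both (.play 198 (.ref 3 131)) (.ref 275 132))))) (.play 198 (.ref 94 129))))) (.play 68 (.ref 4 68)))) (.both (.play 389 (.ref 132 132)) (.ref 379 132)))) (.play 259 (.ref 92 258))))) (.play 133 (.ref 4 133)))) (.both (.ref 95 130) (.both (.play 197 (.both (.ref 158 132) (.play 133 (.ref 4 133)))) (.ref 49 260))))) (.both (.ref 378 66) (.both (.ref 279 66) (.both (.play 327 (.both (.play 324 (.both (.play 263 (.both (.play 199 (.both (.play 135 (.ref 6 134)) (.play 323 (.both (.ref 377 256) (.both (.ref 114 257) (.ref 16 258)))))) (.play 264 (.ref 2 260)))) (.both (.ref 376 131) (.both (.ref 118 131) (.both (.ref 115 257) (.play 259 (.both (.play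 323 (.both (.play 258 (.ref 3 258)) (.ref 375 258))) (.play 260 (.ref 3 259))))))))) (.both (.ref 374 132) (.both (.ref 49 260) (.play 328 (.ref 71 260)))))) (.both (.play 197 (.both (.play 389 (.both (.play 198 (.both (.play 196 (.both (.play 388 (.both (.play 327 (.both (.play 263 (.both (.ref 159 129) (.ref 371 196))) (.play 328 (.ref 1 324)))) (.play 452 (.ref 6 196)))) (.play 132 (.ref 7 132)))) (.play 134 (.ref 5 133)))) (.both (.play 198 (.ref 45 131)) (.both (.ref 97 132) (.both (.play 198 (.both (.play 453 (.both (.play 517 (.both (.play 196 (.both (.play 132 (.ref 7 132)) (.play 199 (.both (.ref 10 132) (.both (.play 263 (.ref 364 132)) (.both (.play 200 (.both (.ref 8 132) (.both (.play 328 (.both (.play 264 (.both (.play 392 (.both (.play 135 (.ref 7 135)) (.play 457 (.both (.play 393 (.ref 4 200)) (.play 456 (.both (.play 519 (.both (.play 455 (.ref 6 263)) (.play 520 (.ref 2 453)))) (.play 521 (.ref 4 264)))))))) (.play 265 (.ref 0 197)))) (.play 327 (.ref 21 324)))) (.ref 10 133)))) (.both (.play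 264 (.both (.play 200 (.both (.play 137 (.both (.play 201 (.both (.play 328 (.both (.play 392 (.ref 5 136)) (.play 327 (.ref 21 324)))) (.play 138 (.ref 2 134)))) (.play 136 (.ref 2 133)))) (.play 265 (.ref 0 197)))) (.play 263 (.ref 0 196)))) (.both (.play 135 (.both (.play 136 (.ref 2 132)) (.play 327 (.both (.play 263 (.ref 6 134)) (.play 328 (.ref 21 324)))))) (.play 263 (.both (.play 327 (.both (.play 135 (.ref 6 134)) (.play 328 (.ref 21 324)))) (.play 264 (.ref 0 196)))))))))))) (.play 581 (.ref 5 325)))) (.both (.ref 96 196) (.ref 130 260)))) (.play 134 (.ref 5 133)))) (.ref 272 196)))))) (.play 133 (.ref 4 133)))) (.both (.play 197 (.both (.play 389 (.both (.play 198 (.ref 91 130)) (.both (.ref 301 131) (.both (.ref 44 132) (.ref 97 132))))) (.play 133 (.ref 4 133)))) (.both (.play 197 (.both (.play 389 (.both (.ref 257 130) (.both (.play 388 (.both (.play 327 (.both (.play 196 (.both (.play 324 (.both (.play 260 (.both (.play 263 (.both (.play 195 (.ref 150 131)) (.play 264 (.ref 2 260)))) (.play 259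 (.ref 3 259)))) (.both (.play 323 (.ref 330 258)) (.play 323 (.ref 372 258))))) (.play 132 (.ref 7 132)))) (.play 328 (.ref 1 324)))) (.play 452 (.ref 6 196)))) (.both (.play 388 (.both (.play 327 (.both (.ref 93 130) (.play 328 (.ref 1 324)))) (.play 452 (.ref 6 196)))) (.ref 272 196))))) (.play 133 (.ref 4 133)))) (.play 197 (.both (.play 389 (.both (.play 198 (.both (.play 388 (.both (.play 327 (.both (.play 196 (.both (.play 263 (.both (.play 262 (.both (.play 199 (.both (.play 135 (.ref 6 134)) (.play 200 (.ref 37 196)))) (.play 195 (.ref 0 195)))) (.both (.ref 371 196) (.play 264 (.both (.play 262 (.ref 3 196)) (.play 324 (.ref 2 260))))))) (.play 132 (.ref 7 132)))) (.play 328 (.ref 1 324)))) (.play 452 (.ref 6 196)))) (.play 134 (.ref 5 133)))) (.both (.ref 44 132) (.both (.ref 97 132) (.play 198 (.both (.play 196 (.ref 281 132)) (.play 134 (.ref 5 133)))))))) (.play 133 (.ref 4 133)))))))))))))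
 (.one (.play 129 (.both (.ref 246 0) (.play 128 (.ref 3 128))))))))))))
 (.seq (.seq (.seq (.seq (.seq (.seq (.one (.play 68 (.both (.play 258 (.both (.play 257 (.both (.play 66 (.both (.play 2 (.ref 7 2)) (.ref 383 64))) (.play 256 (.ref 2 192)))) (.play 322 (.ref 6 66)))) (.play 4 (.ref 5 3)))))
 (.seq (.one (.play 192 (.both (.play 256 (.ref 6 0)) (.play 194 (.ref 0 192)))))
 (.one (.play 258 (.both (.play 257 (.both (.play 66 (.both (.play 2 (.ref 7 2)) (.play 130 (.both (.ref 249 64) (.play 323 (.ref 7 66)))))) (.play 256 (.ref 2 192)))) (.play 322 (.ref 6 66)))))))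
 (.seq (.seq (.one (.play 321 (.both (.ref 29 0) (.play 385 (.ref 5 129)))))
 (.one (.play 68 (.both (.play 1 (.ref 3 0)) (.play 129 (.ref 1 64))))))
 (.seq (.one (.play 131 (.both (.play 132 (.both (.play 66 (.both (.play 65 (.both (.play 4 (.ref 2 1)) (.play 64 (.ref 0 64)))) (.play 133 (.ref 0 66)))) (.play 71 (.ref 1 67)))) (.play 130 (.ref 1 66)))))
 (.one (.play 68 (.both (.play 0 (.ref 3 0)) (.ref 373 1)))))))
 (.seq (.seq (.seq (.one (.play 130 (.both (.play 65 (.both (.play 3 (.both (.play 64 (.ref 2 0)) (.play 70 (.both (.play 71 (.ref 3 3)) (.play 131 (.ref 1 66)))))) (.play 5 (.ref 2 1)))) (.play 129 (.ref 1 65)))))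
 (.one (.both (.ref 193 0) (.play 1 (.ref 3 1)))))
 (.seq (.one (.play 193 (.both (.ref 179 0) (.play 192 (.ref 1 128)))))
 (.one (.play 129 (.both (.play 130 (.both (.ref 262 0) (.play 197 (.ref 3 129)))) (.play 128 (.ref 3 128)))))))
 (.seq (.seq (.one (.play 198 (.both (.play 195 (.both (.play 194 (.both (.play 323 (.both (.play 131 (.both (.ref 32 2) (.both (.play 324 (.ref 212 67)) (.ref 219 129)))) (.both (.ref 288 2) (.both (.play 324 (.both (.play 322 (.both (.play 386 (.both (.play 131 (.ref 6 130)) (.play 387 (.ref 1 322)))) (.play 321 (.ref 2 257)))) (.both (.play 388 (.ref 127 131)) (.play 322 (.both (.play 452 (.both (.play 388 (.ref 7 195)) (.ref 12 321))) (.play 321 (.ref 2 257))))))) (.play 387 (.both (.play 130 (.ref 7 130)) (.ref 327 194))))))) (.play 262 (.ref 3 194)))) (.both (.play 131 (.both (.play 196 (.both (.play 68 (.both (.play 67 (.ref 335 3)) (.play 132 (.ref 4 68)))) (.play 130 (.ref 3 130)))) (.both (.play 196 (.both (.play 132 (.both (.play 68 (.ref 4 68)) (.play 323 (.both (.play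 324 (.both (.ref 52 129) (.play 388 (.ref 7 131)))) (.play 387 (.ref 5 131)))))) (.play 130 (.ref 3 130)))) (.both (.play 196 (.ref 260 66)) (.play 324 (.ref 285 67)))))) (.play 194 (.ref 146 192))))) (.both (.ref 292 195) (.play 199 (.ref 116 195))))))
 (.one (.play 258 (.both (.play 257 (.both (.play 192 (.both (.play 256 (.ref 6 0)) (.play 259 (.ref 3 192)))) (.play 322 (.ref 4 65)))) (.play 194 (.ref 4 1))))))
 (.seq (.one (.play 66 (.both (.play 64 (.both (.play 0 (.ref 7 0)) (.play 132 (.ref 0 64)))) (.play 2 (.ref 5 1)))))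
 (.one (.play 320 (.both (.play 386 (.both (.play 385 (.both (.ref 33 0) (.play 450 (.ref 4 193)))) (.play 322 (.ref 4 129)))) (.play 384 (.ref 6 128)))))))))
 (.seq (.seq (.seq (.seq (.one (.both (.play 320 (.ref 36 0)) (.both (.ref 398 0) (.ref 397 64))))
 (.one (.play 67 (.both (.play 3 (.ref 5 2)) (.play 129 (.both (.play 65 (.both (.play 128 (.ref 1 64)) (.play 133 (.ref 0 65)))) (.play 69 (.ref 1 65))))))))
 (.seq (.one (.play 256 (.both (.play 192 (.both (.play 1 (.ref 6 0)) (.play 322 (.both (.play 321 (.both (.play 128 (.ref 132 64)) (.play 386 (.ref 4 129)))) (.play 258 (.ref 4 65)))))) (.play 320 (.ref 6 64)))))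
 (.one (.play 192 (.both (.play 1 (.ref 6 0)) (.play 385 (.ref 132 128)))))))
 (.seq (.seq (.one (.play 256 (.both (.play 322 (.both (.play 321 (.both (.ref 402 0) (.play 386 (.ref 4 129)))) (.play 258 (.ref 4 65)))) (.play 320 (.ref 6 64)))))
 (.one (.play 194 (.both (.play 196 (.both (.play 132 (.both (.ref 343 3) (.play 133 (.ref 2 129)))) (.play 256 (.ref 1 192)))) (.play 130 (.ref 5 129))))))
 (.seq (.one (.play 384 (.both (.play 129 (.both (.play 450 (.both (.play 449 (.both (.ref 201 0) (.play 514 (.ref 4 257)))) (.play 386 (.ref 4 193)))) (.play 320 (.ref 6 128)))) (.play 448 (.ref 6 192)))))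
 (.one (.play 130 (.both (.ref 34 1) (.play 129 (.both (.play 65 (.ref 7 65)) (.play 195 (.both (.play 193 (.ref 361 128)) (.play 197 (.ref 3 129))))))))))))
 (.seq (.seq (.seq (.one (.both (.play 192 (.ref 23 0)) (.play 258 (.ref 4 1))))
 (.one (.play 261 (.both (.play 197 (.both (.play 259 (.both (.play 323 (.both (.play 195 (.both (.ref 406 1) (.both (.play 131 (.both (.play 130 (.both (.play 66 (.ref 7 66)) (.play 196 (.ref 94 128)))) (.play 324 (.ref 407 130)))) (.both (.play 324 (.both (.play 131 (.ref 407 130)) (.play 258 (.ref 3 258)))) (.play 258 (.both (.play 196 (.ref 188 192)) (.play 324 (.ref 3 258)))))))) (.both (.play 195 (.both (.ref 406 1) (.both (.play 387 (.both (.ref 405 2) (.both (.play 386 (.ref 36 66)) (.both (.play 194 (.ref 197 130)) (.ref 401 130))))) (.both (.play 387 (.both (.ref 405 2) (.both (.ref 404 2) (.ref 403 130)))) (.both (.play 387 (.both (.ref 404 2) (.both (.play 194 (.ref 197 130)) (.ref 397 130)))) (.both (.play 387 (.both (.play 386 (.ref 36 66)) (.both (.play 194 (.both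 (.play 130 (.ref 7 130)) (.play 196 (.both (.play 258 (.ref 21 193)) (.play 262 (.ref 0 194)))))) (.ref 403 130)))) (.both (.play 387 (.both (.ref 398 66) (.both (.ref 400 129) (.ref 401 130)))) (.both (.play 387 (.both (.play 386 (.ref 36 66)) (.both (.ref 400 129) (.both (.ref 397 130) (.play 196 (.both (.play 198 (.both (.play 131 (.both (.ref 96 130) (.play 130 (.ref 3 130)))) (.play 258 (.ref 1 194)))) (.play 132 (.ref 5 131)))))))) (.play 387 (.ref 399 66)))))))))) (.both (.play 324 (.both (.play 262 (.both (.play 195 (.both (.play 196 (.both (.ref 171 3) (.play 194 (.ref 0 194)))) (.both (.play 196 (.both (.play 131 (.both (.play 130 (.both (.play 66 (.ref 7 66)) (.play 198 (.ref 3 130)))) (.play 388 (.ref 4 131)))) (.play 194 (.ref 0 194)))) (.both (.play 196 (.both (.play 387 (.both (.play 132 (.ref 5 131)) (.play 388 (.both (.play 452 (.ref 4 195)) (.play 327 (.ref 1 323)))))) (.play 194 (.ref 0 194)))) (.play 388 (.ref 285 131)))))) (.play 322 (.ref 2 258)))) (.play 258 (.ref 3 258)))) (.both (.play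 387 (.both (.play 386 (.both (.play 195 (.ref 36 66)) (.play 324 (.ref 1 322)))) (.both (.play 195 (.ref 399 66)) (.both (.play 195 (.both (.ref 397 130) (.play 388 (.both (.play 324 (.both (.play 131 (.ref 4 131)) (.play 327 (.ref 1 323)))) (.play 452 (.ref 4 195)))))) (.both (.play 324 (.ref 194 194)) (.play 451 (.both (.play 452 (.both (.play 450 (.both (.play 514 (.ref 6 258)) (.play 386 (.both (.play 324 (.ref 1 322)) (.play 385 (.ref 25 384)))))) (.play 516 (.ref 4 259)))) (.both (.ref 396 258) (.both (.play 324 (.both (.play 388 (.both (.ref 130 258) (.play 327 (.ref 1 323)))) (.play 386 (.ref 1 322)))) (.play 324 (.both (.play 516 (.both (.play 452 (.ref 4 259)) (.play 515 (.both (.play 580 (.ref 4 323)) (.play 388 (.both (.play 579 (.ref 5 323)) (.play 327 (.ref 1 323)))))))) (.play 386 (.ref 1 322))))))))))))) (.both (.play 324 (.ref 195 194)) (.play 324 (.ref 392 257)))))))) (.both (.play 260 (.both (.ref 395 0) (.both (.ref 84 259) (.ref 101 259)))) (.both (.play 260 (.both (.ref 395 0) (.play 258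 (.ref 0 258)))) (.both (.play 260 (.ref 102 258)) (.play 260 (.ref 85 258))))))) (.play 133 (.ref 4 133)))) (.both (.play 324 (.both (.play 323 (.both (.play 259 (.both (.play 260 (.both (.play 195 (.both (.play 131 (.both (.play 132 (.both (.play 68 (.ref 5 67)) (.play 194 (.ref 146 192)))) (.play 67 (.ref 4 67)))) (.both (.play 131 (.ref 212 67)) (.play 452 (.both (.play 194 (.ref 146 192)) (.play 388 (.ref 7 195))))))) (.play 327 (.ref 3 259)))) (.play 258 (.ref 3 258)))) (.both (.play 259 (.both (.play 260 (.both (.ref 147 257) (.play 327 (.ref 3 259)))) (.play 258 (.ref 3 258)))) (.ref 375 258)))) (.both (.play 323 (.both (.ref 394 130) (.both (.play 322 (.both (.ref 16 257) (.play 262 (.ref 2 258)))) (.ref 391 257)))) (.both (.play 260 (.both (.play 259 (.both (.play 389 (.both (.ref 221 130) (.both (.play 453 (.both (.play 262 (.both (.play 452 (.both (.play 195 (.both (.play 194 (.ref 3 194)) (.play 388 (.ref 7 195)))) (.play 516 (.ref 6 260)))) (.play 198 (.ref 6 197)))) (.play 517 (.ref 7 260)))) (.play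 453 (.ref 132 196))))) (.play 258 (.ref 0 258)))) (.both (.play 327 (.both (.play 388 (.both (.play 452 (.both (.play 453 (.both (.play 389 (.both (.play 196 (.ref 7 196)) (.ref 52 258))) (.play 517 (.ref 4 260)))) (.play 516 (.ref 5 260)))) (.play 387 (.ref 1 323)))) (.play 328 (.ref 3 260)))) (.play 259 (.ref 25 258))))) (.both (.play 323 (.both (.ref 394 130) (.ref 375 258))) (.both (.play 323 (.both (.play 259 (.both (.ref 393 194) (.play 258 (.ref 3 258)))) (.both (.play 259 (.ref 392 257)) (.ref 375 258)))) (.both (.play 323 (.both (.play 387 (.both (.play 388 (.both (.ref 143 194) (.play 327 (.ref 1 323)))) (.play 386 (.ref 1 322)))) (.ref 375 258))) (.both (.play 323 (.both (.ref 389 256) (.both (.ref 391 257) (.both (.ref 375 258) (.play 387 (.both (.play 327 (.both (.ref 390 260) (.play 388 (.ref 1 323)))) (.play 386 (.ref 1 322)))))))) (.play 323 (.both (.ref 389 256) (.both (.ref 114 257) (.play 259 (.both (.play 258 (.ref 3 258)) (.play 387 (.both (.ref 388 259) (.play 386 (.ref 1 322)))))))))))))))))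 (.both (.ref 325 65) (.both (.play 260 (.both (.play 197 (.both (.play 259 (.both (.play 196 (.both (.play 132 (.both (.play 198 (.both (.play 324 (.both (.play 323 (.both (.play 131 (.both (.play 67 (.ref 7 67)) (.play 130 (.ref 92 129)))) (.play 387 (.ref 6 131)))) (.both (.ref 387 67) (.play 387 (.both (.play 323 (.ref 6 131)) (.play 388 (.both (.play 451 (.ref 6 195)) (.play 452 (.ref 5 196))))))))) (.play 199 (.ref 1 195)))) (.play 68 (.ref 4 68)))) (.both (.play 132 (.ref 127 68)) (.play 389 (.both (.ref 135 131) (.play 453 (.ref 7 196))))))) (.play 258 (.ref 0 258)))) (.play 133 (.ref 4 133)))) (.both (.ref 139 131) (.play 259 (.ref 102 258))))) (.both (.play 197 (.both (.play 389 (.both (.ref 386 130) (.both (.ref 384 130) (.both (.ref 97 132) (.ref 243 132))))) (.play 133 (.ref 4 133)))) (.both (.play 197 (.both (.play 389 (.both (.play 198 (.both (.play 262 (.both (.play 196 (.both (.play 199 (.both (.play 200 (.both (.play 195 (.both (.play 259 (.both (.play 131 (.both (.play 130 (.ref 3 130)) (.play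 323 (.both (.play 386 (.both (.play 322 (.ref 6 130)) (.play 387 (.ref 264 194)))) (.both (.ref 385 130) (.both (.play 388 (.both (.play 324 (.ref 4 131)) (.play 387 (.ref 11 322)))) (.play 324 (.both (.play 388 (.ref 4 131)) (.play 322 (.ref 0 322)))))))))) (.play 258 (.ref 1 194)))) (.play 194 (.ref 0 194)))) (.play 201 (.ref 1 197)))) (.play 135 (.ref 5 134)))) (.play 132 (.ref 7 132)))) (.play 453 (.ref 6 197)))) (.play 134 (.ref 5 133)))) (.both (.play 198 (.ref 155 132)) (.ref 68 194)))) (.play 133 (.ref 4 133)))) (.both (.play 197 (.both (.play 389 (.both (.ref 384 130) (.both (.ref 89 130) (.ref 55 195)))) (.play 133 (.ref 4 133)))) (.both (.play 197 (.both (.play 389 (.both (.play 198 (.ref 91 130)) (.both (.ref 89 130) (.both (.ref 44 132) (.play 198 (.ref 155 132)))))) (.play 133 (.ref 4 133)))) (.both (.ref 134 131) (.ref 57 131)))))))))))))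
 (.seq (.one (.play 4 (.both (.play 3 (.ref 2 0)) (.play 68 (.both (.play 1 (.ref 60 0)) (.play 5 (.ref 2 1)))))))
 (.one (.play 6 (.both (.ref 173 0) (.play 7 (.ref 2 3)))))))
 (.seq (.seq (.one (.both (.ref 8 1) (.play 128 (.ref 1 64))))
 (.one (.both (.play 0 (.ref 7 0)) (.play 1 (.ref 6 0)))))
 (.seq (.one (.play 64 (.both (.play 65 (.ref 412 0)) (.play 128 (.ref 7 64)))))
 (.one (.both (.play 1 (.ref 6 0)) (.ref 27 1))))))))
 (.seq (.seq (.seq (.seq (.seq (.one (.play 132 (.both (.play 68 (.both (.ref 192 0) (.play 133 (.ref 0 65)))) (.play 131 (.ref 0 64)))))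
 (.one (.play 193 (.both (.play 0 (.ref 4 0)) (.play 260 (.ref 3 192))))))
 (.seq (.one (.both (.play 1 (.ref 6 0)) (.play 449 (.ref 7 192))))
 (.one (.play 65 (.both (.play 1 (.ref 7 1)) (.play 64 (.ref 0 64)))))))
 (.seq (.seq (.one (.play 66 (.both (.ref 124 0) (.both (.play 129 (.both (.play 65 (.both (.play 4 (.both (.play 3 (.both (.play 64 (.ref 2 0)) (.play 71 (.ref 3 3)))) (.play 5 (.ref 2 1)))) (.play 128 (.ref 1 64)))) (.play 130 (.ref 1 65)))) (.ref 16 1)))))
 (.one (.play 64 (.both (.play 0 (.ref 7 0)) (.play 128 (.both (.play 321 (.ref 7 64)) (.play 68 (.ref 1 64))))))))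
 (.seq (.one (.both (.play 0 (.ref 3 0)) (.play 130 (.ref 7 1))))
 (.one (.both (.play 1 (.ref 421 0)) (.play 133 (.ref 0 65)))))))
 (.seq (.seq (.seq (.one (.both (.play 66 (.ref 422 0)) (.play 3 (.ref 7 3))))
 (.one (.play 324 (.both (.play 323 (.both (.play 262 (.both (.play 261 (.both (.play 133 (.both (.play 327 (.both (.play 328 (.both (.play 264 (.both (.play 392 (.both (.play 200 (.both (.play 136 (.both (.play 135 (.ref 357 5)) (.both (.play 135 (.ref 423 68)) (.ref 27 72)))) (.both (.play 135 (.both (.play 136 (.ref 357 5)) (.play 199 (.ref 7 135)))) (.both (.play 135 (.both (.play 136 (.ref 423 68)) (.play 199 (.ref 7 135)))) (.both (.play 201 (.both (.play 198 (.both (.play 134 (.ref 412 69)) (.play 199 (.ref 1 197)))) (.play 137 (.ref 5 136)))) (.play 199 (.both (.play 201 (.both (.play 137 (.ref 5 136)) (.play 198 (.ref 1 197)))) (.play 135 (.ref 7 135))))))))) (.play 393 (.ref 0 325)))) (.play 265 (.ref 2 261)))) (.play 329 (.ref 3 261)))) (.both (.play 134 (.both (.play 260 (.both (.play 132 (.both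 (.play 135 (.both (.play 71 (.ref 126 66)) (.both (.play 68 (.ref 60 67)) (.ref 366 68)))) (.both (.play 196 (.both (.ref 420 67) (.play 69 (.ref 5 68)))) (.both (.play 196 (.both (.ref 420 67) (.play 68 (.ref 4 68)))) (.play 196 (.ref 335 68)))))) (.play 259 (.ref 0 259)))) (.both (.play 260 (.both (.play 198 (.ref 31 69)) (.play 259 (.ref 0 259)))) (.both (.play 260 (.both (.play 198 (.ref 414 69)) (.play 259 (.ref 0 259)))) (.play 198 (.ref 412 69)))))) (.play 260 (.ref 25 259))))) (.play 197 (.ref 4 133)))) (.play 322 (.ref 2 258)))) (.play 263 (.ref 2 259)))) (.both (.ref 419 256) (.both (.ref 410 256) (.play 259 (.ref 71 258)))))) (.both (.play 388 (.both (.play 260 (.both (.play 452 (.both (.play 517 (.both (.play 196 (.both (.play 131 (.both (.play 132 (.both (.play 69 (.both (.play 68 (.both (.play 5 (.ref 5 4)) (.play 261 (.ref 4 68)))) (.play 133 (.ref 5 68)))) (.play 67 (.ref 7 67)))) (.play 195 (.ref 7 131)))) (.both (.ref 32 67) (.both (.play 131 (.both (.play 261 (.both (.ref 167 67) (.play 197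 (.ref 5 196)))) (.play 195 (.ref 7 131)))) (.ref 27 132))))) (.play 453 (.ref 4 260)))) (.both (.play 261 (.ref 42 196)) (.play 517 (.ref 185 259))))) (.both (.ref 205 195) (.play 259 (.ref 146 257))))) (.both (.play 452 (.both (.play 260 (.both (.play 517 (.both (.play 451 (.ref 36 131)) (.play 453 (.ref 4 260)))) (.both (.play 517 (.both (.ref 200 131) (.play 453 (.ref 4 260)))) (.play 261 (.both (.ref 418 194) (.play 197 (.ref 5 196))))))) (.both (.ref 171 132) (.both (.play 516 (.both (.play 515 (.both (.play 451 (.both (.play 260 (.ref 6 259)) (.play 517 (.ref 15 450)))) (.play 579 (.ref 6 323)))) (.both (.play 580 (.both (.play 645 (.both (.play 644 (.both (.play 451 (.both (.play 515 (.ref 417 259)) (.play 387 (.ref 7 387)))) (.play 709 (.ref 4 452)))) (.play 581 (.ref 4 388)))) (.both (.ref 96 323) (.play 645 (.ref 185 387))))) (.both (.play 517 (.both (.play 519 (.both (.ref 416 260) (.play 451 (.ref 3 451)))) (.play 581 (.ref 4 324)))) (.play 517 (.ref 208 323)))))) (.play 516 (.both (.play 261 (.ref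 5 260)) (.play 517 (.both (.play 519 (.ref 161 323)) (.play 581 (.ref 4 324)))))))))) (.both (.play 327 (.ref 266 131)) (.both (.ref 211 131) (.play 327 (.both (.play 328 (.both (.ref 8 260) (.both (.play 393 (.both (.play 329 (.both (.play 263 (.both (.play 264 (.ref 2 260)) (.play 262 (.ref 15 261)))) (.play 394 (.ref 0 326)))) (.play 392 (.ref 0 325)))) (.both (.ref 10 261) (.ref 415 261))))) (.play 387 (.ref 1 323))))))))) (.both (.play 387 (.both (.play 323 (.both (.play 262 (.both (.play 261 (.both (.play 198 (.both (.play 134 (.ref 414 69)) (.both (.ref 413 69) (.play 197 (.both (.ref 290 132) (.play 133 (.ref 7 133))))))) (.play 322 (.ref 2 258)))) (.play 263 (.ref 2 259)))) (.play 386 (.ref 1 322)))) (.both (.play 327 (.both (.ref 409 260) (.play 388 (.ref 1 323)))) (.play 388 (.ref 188 321))))) (.both (.ref 202 65) (.both (.play 323 (.both (.play 262 (.both (.play 259 (.both (.play 387 (.both (.play 195 (.both (.play 196 (.both (.play 260 (.both (.play 194 (.ref 150 130)) (.play 451 (.ref 5 195)))) (.play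 132 (.ref 5 131)))) (.play 388 (.ref 212 131)))) (.play 386 (.ref 1 322)))) (.play 258 (.ref 3 258)))) (.play 263 (.ref 2 259)))) (.both (.ref 13 257) (.both (.play 262 (.ref 126 257)) (.ref 62 257))))) (.both (.play 323 (.both (.ref 183 194) (.both (.play 262 (.ref 126 257)) (.ref 62 257)))) (.both (.ref 203 257) (.play 327 (.both (.play 259 (.both (.play 323 (.both (.play 386 (.both (.play 322 (.ref 411 257)) (.play 387 (.ref 1 322)))) (.play 258 (.ref 3 258)))) (.play 260 (.ref 3 259)))) (.both (.ref 410 257) (.both (.play 263 (.ref 126 258)) (.both (.play 260 (.both (.play 259 (.ref 3 259)) (.play 328 (.both (.play 261 (.ref 3 260)) (.ref 122 261))))) (.ref 409 260))))))))))))))))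
 (.seq (.one (.play 67 (.both (.play 259 (.both (.play 68 (.ref 91 0)) (.both (.ref 301 1) (.both (.ref 44 2) (.play 68 (.ref 155 2)))))) (.play 3 (.ref 4 3)))))
 (.one (.play 66 (.both (.play 2 (.ref 7 2)) (.play 258 (.both (.play 257 (.both (.ref 383 64) (.play 256 (.ref 2 192)))) (.play 322 (.ref 6 66)))))))))
 (.seq (.seq (.one (.both (.ref 426 0) (.both (.ref 44 2) (.ref 272 66))))
 (.one (.play 257 (.both (.play 192 (.ref 4 0)) (.play 194 (.ref 6 1))))))
 (.seq (.one (.play 193 (.both (.play 258 (.both (.play 194 (.both (.play 129 (.both (.play 1 (.ref 4 1)) (.play 128 (.ref 3 128)))) (.play 192 (.ref 0 192)))) (.play 322 (.ref 6 66)))) (.both (.play 129 (.both (.play 192 (.both (.ref 206 0) (.play 194 (.ref 0 192)))) (.play 128 (.ref 1 64)))) (.both (.ref 328 64) (.play 257 (.both (.ref 190 64) (.both (.play 129 (.both (.play 128 (.ref 1 64)) (.ref 327 64))) (.play 129 (.both (.play 128 (.ref 1 64)) (.play 322 (.both (.play 258 (.ref 4 65)) (.ref 428 129)))))))))))))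
 (.one (.play 259 (.both (.play 258 (.both (.play 194 (.both (.play 1 (.both (.play 65 (.ref 421 0)) (.play 2 (.ref 3 1)))) (.play 193 (.ref 3 193)))) (.play 257 (.ref 2 193)))) (.play 323 (.ref 6 67)))))))))
 (.seq (.seq (.seq (.seq (.one (.play 260 (.both (.play 258 (.both (.play 66 (.both (.play 129 (.both (.play 65 (.both (.play 1 (.both (.play 0 (.ref 3 0)) (.play 193 (.ref 185 0)))) (.play 128 (.ref 1 64)))) (.play 130 (.ref 1 65)))) (.both (.ref 16 1) (.play 130 (.both (.play 3 (.both (.play 2 (.ref 3 2)) (.play 194 (.ref 5 2)))) (.play 129 (.ref 1 65))))))) (.play 259 (.ref 2 194)))) (.play 324 (.ref 6 68)))))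
 (.one (.play 65 (.both (.play 64 (.ref 1 0)) (.play 66 (.ref 7 1))))))
 (.seq (.one (.play 70 (.both (.play 68 (.both (.play 67 (.both (.play 260 (.both (.play 259 (.both (.play 195 (.both (.play 323 (.both (.play 66 (.both (.ref 124 0) (.both (.play 2 (.ref 421 1)) (.ref 432 65)))) (.play 322 (.ref 1 258)))) (.play 194 (.ref 3 194)))) (.play 258 (.ref 2 194)))) (.play 324 (.ref 6 68)))) (.both (.ref 431 0) (.both (.ref 124 1) (.both (.ref 430 1) (.ref 429 2)))))) (.play 4 (.ref 7 4)))) (.play 6 (.ref 5 5)))))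
 (.one (.both (.ref 289 1) (.both (.ref 433 64) (.both (.play 134 (.ref 91 66)) (.both (.ref 386 66) (.ref 384 66))))))))
 (.seq (.seq (.one (.both (.play 196 (.both (.play 257 (.both (.play 132 (.both (.play 68 (.both (.play 129 (.both (.play 69 (.both (.play 67 (.both (.play 66 (.both (.play 2 (.both (.play 65 (.ref 5 1)) (.play 1 (.ref 3 1)))) (.play 130 (.ref 1 65)))) (.play 3 (.ref 7 3)))) (.play 5 (.ref 5 4)))) (.play 128 (.ref 3 128)))) (.play 4 (.ref 6 3)))) (.play 133 (.ref 2 129)))) (.play 256 (.ref 1 192)))) (.both (.play 132 (.both (.play 68 (.both (.play 4 (.ref 6 3)) (.ref 228 128))) (.play 133 (.ref 2 129)))) (.both (.play 257 (.ref 107 128)) (.ref 151 128))))) (.play 192 (.ref 0 192))))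
 (.one (.play 131 (.both (.play 67 (.ref 412 2)) (.play 132 (.ref 2 128))))))
 (.seq (.one (.play 68 (.both (.play 4 (.ref 5 3)) (.play 128 (.ref 2 64)))))
 (.one (.play 131 (.both (.play 3 (.ref 6 2)) (.play 132 (.ref 312 64))))))))
 (.seq (.seq (.seq (.one (.play 259 (.both (.play 4 (.ref 5 3)) (.ref 68 64))))
 (.one (.both (.play 0 (.ref 7 0)) (.ref 272 64))))
 (.seq (.one (.play 1 (.both (.play 65 (.ref 287 0)) (.play 2 (.ref 0 1)))))
 (.one (.play 67 (.both (.play 68 (.both (.play 259 (.ref 91 0)) (.play 132 (.ref 4 68)))) (.play 3 (.ref 4 3)))))))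
 (.seq (.seq (.one (.play 193 (.both (.play 257 (.ref 6 1)) (.play 132 (.ref 11 128)))))
 (.one (.play 130 (.both (.play 257 (.both (.ref 265 1) (.play 256 (.ref 1 192)))) (.play 197 (.ref 3 129))))))
 (.seq (.one (.play 129 (.both (.ref 444 0) (.play 128 (.ref 3 128)))))
 (.one (.play 68 (.both (.play 0 (.ref 3 0)) (.ref 87 1))))))))))
 (.seq (.seq (.seq (.seq (.seq (.one (.play 66 (.both (.play 0 (.ref 3 0)) (.play 4 (.ref 11 0)))))
 (.seq (.one (.play 132 (.both (.ref 230 1) (.play 192 (.ref 1 128)))))
 (.one (.both (.play 0 (.ref 7 0)) (.play 320 (.ref 6 64))))))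
 (.seq (.seq (.one (.play 67 (.both (.ref 218 0) (.play 134 (.ref 0 67)))))
 (.one (.play 131 (.both (.play 67 (.both (.play 68 (.ref 108 0)) (.play 258 (.ref 80 2)))) (.play 132 (.ref 2 128))))))
 (.seq (.one (.play 129 (.both (.ref 201 0) (.play 322 (.ref 4 129)))))
 (.one (.play 132 (.both (.play 387 (.both (.play 133 (.both (.play 386 (.both (.ref 452 0) (.both (.play 322 (.ref 127 129)) (.play 385 (.both (.play 384 (.both (.play 448 (.ref 6 192)) (.play 451 (.ref 0 384)))) (.play 450 (.ref 4 193))))))) (.play 69 (.ref 5 68)))) (.play 323 (.ref 6 131)))) (.both (.play 68 (.ref 80 3)) (.play 68 (.ref 414 3)))))))))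
 (.seq (.seq (.seq (.one (.play 196 (.both (.play 321 (.both (.ref 453 0) (.play 320 (.ref 1 256)))) (.play 197 (.ref 2 193)))))
 (.one (.play 66 (.both (.play 4 (.ref 11 0)) (.play 128 (.ref 1 64))))))
 (.seq (.one (.play 196 (.both (.ref 453 0) (.play 197 (.ref 2 193)))))
 (.one (.play 194 (.both (.play 258 (.ref 4 1)) (.play 195 (.ref 287 128)))))))
 (.seq (.seq (.one (.play 194 (.both (.play 258 (.ref 4 1)) (.play 195 (.ref 2 128)))))
 (.one (.play 192 (.both (.play 256 (.ref 6 0)) (.ref 458 0)))))
 (.seq (.one (.play 129 (.both (.ref 34 0) (.both (.play 322 (.both (.play 323 (.both (.play 385 (.both (.ref 201 0) (.play 384 (.ref 1 320)))) (.play 256 (.ref 3 256)))) (.play 386 (.ref 4 129)))) (.both (.ref 459 128) (.ref 457 128))))))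
 (.one (.play 321 (.both (.play 258 (.both (.play 323 (.both (.play 386 (.both (.ref 452 0) (.ref 428 193))) (.play 256 (.ref 0 256)))) (.both (.ref 456 0) (.play 196 (.ref 11 192))))) (.both (.ref 460 0) (.both (.play 258 (.both (.ref 456 0) (.play 320 (.ref 1 256)))) (.ref 455 192))))))))))
 (.seq (.seq (.seq (.seq (.one (.play 66 (.both (.play 2 (.ref 5 1)) (.play 130 (.both (.play 132 (.ref 15 64)) (.play 321 (.ref 5 65)))))))
 (.one (.play 195 (.both (.ref 82 1) (.both (.play 131 (.both (.play 130 (.both (.ref 418 64) (.play 323 (.ref 132 66)))) (.play 67 (.ref 6 66)))) (.play 131 (.ref 77 66)))))))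
 (.seq (.one (.both (.play 258 (.ref 4 1)) (.play 195 (.ref 3 128))))
 (.one (.play 322 (.both (.play 321 (.both (.ref 29 0) (.play 386 (.ref 4 129)))) (.play 258 (.ref 4 65)))))))
 (.seq (.seq (.one (.play 258 (.both (.play 194 (.ref 4 1)) (.play 257 (.both (.play 320 (.both (.play 256 (.ref 6 64)) (.play 321 (.both (.play 384 (.ref 6 128)) (.play 259 (.ref 1 256)))))) (.play 322 (.ref 4 65)))))))
 (.one (.play 130 (.both (.play 129 (.both (.ref 35 0) (.play 66 (.ref 5 65)))) (.play 194 (.ref 5 129))))))
 (.seq (.one (.play 260 (.both (.play 324 (.both (.play 388 (.both (.play 196 (.both (.play 195 (.both (.play 133 (.both (.play 132 (.both (.play 259 (.both (.play 68 (.ref 80 3)) (.play 452 (.ref 7 195)))) (.play 69 (.ref 5 68)))) (.play 197 (.ref 5 132)))) (.play 131 (.ref 7 131)))) (.both (.ref 34 67) (.play 451 (.both (.play 452 (.both (.ref 29 131) (.play 515 (.ref 6 259)))) (.play 387 (.ref 6 195))))))) (.both (.play 196 (.both (.play 389 (.both (.play 323 (.both (.ref 467 3) (.play 390 (.ref 3 323))))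 (.play 453 (.ref 4 196)))) (.both (.ref 34 67) (.ref 459 195)))) (.both (.play 196 (.both (.ref 32 67) (.ref 459 195))) (.both (.play 196 (.both (.play 195 (.both (.play 452 (.both (.play 133 (.both (.play 132 (.both (.play 69 (.ref 5 68)) (.ref 466 259))) (.play 197 (.ref 5 132)))) (.play 259 (.ref 7 195)))) (.play 131 (.ref 7 131)))) (.both (.play 195 (.both (.play 133 (.both (.play 132 (.both (.play 259 (.both (.play 323 (.ref 80 67)) (.play 452 (.ref 7 195)))) (.play 69 (.ref 5 68)))) (.play 197 (.ref 5 132)))) (.play 131 (.ref 7 131)))) (.ref 457 195)))) (.both (.play 196 (.both (.play 195 (.ref 281 131)) (.both (.play 195 (.ref 197 131)) (.ref 459 195)))) (.play 452 (.both (.ref 465 195) (.both (.play 451 (.both (.play 390 (.both (.play 454 (.both (.play 263 (.ref 77 198)) (.play 453 (.ref 2 387)))) (.play 389 (.ref 1 387)))) (.play 515 (.ref 6 259)))) (.play 451 (.both (.play 389 (.both (.play 259 (.both (.play 195 (.ref 7 195)) (.play 516 (.both (.play 323 (.ref 7 259)) (.play 517 (.ref 464 323)))))) (.play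 390 (.ref 1 387)))) (.play 515 (.ref 6 259))))))))))))) (.both (.play 325 (.both (.ref 454 67) (.play 259 (.ref 3 259)))) (.both (.ref 461 67) (.both (.play 325 (.ref 177 258)) (.ref 447 259)))))) (.both (.play 324 (.both (.play 388 (.both (.ref 460 67) (.both (.play 196 (.both (.play 387 (.ref 36 67)) (.both (.play 197 (.both (.play 133 (.ref 5 132)) (.play 261 (.both (.ref 345 195) (.play 452 (.ref 5 196)))))) (.ref 462 131)))) (.both (.play 196 (.both (.play 387 (.ref 36 67)) (.both (.play 389 (.both (.play 263 (.both (.ref 293 131) (.play 390 (.both (.play 199 (.ref 80 134)) (.play 323 (.ref 3 323)))))) (.play 453 (.ref 4 196)))) (.ref 459 195)))) (.both (.play 196 (.both (.play 195 (.both (.play 261 (.both (.play 197 (.both (.play 133 (.ref 5 132)) (.play 194 (.ref 0 194)))) (.play 263 (.ref 3 195)))) (.play 131 (.ref 7 131)))) (.ref 459 195))) (.both (.play 196 (.both (.ref 462 131) (.ref 457 195))) (.play 452 (.both (.play 261 (.both (.ref 448 131) (.play 197 (.ref 5 196)))) (.both (.play 451 (.both (.play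 515 (.ref 6 259)) (.play 390 (.both (.ref 458 259) (.play 389 (.ref 1 387)))))) (.play 451 (.both (.play 515 (.ref 6 259)) (.play 517 (.both (.play 453 (.ref 4 260)) (.play 516 (.ref 464 323))))))))))))))) (.both (.play 388 (.both (.play 325 (.both (.ref 463 66) (.play 263 (.ref 11 259)))) (.both (.play 325 (.both (.ref 463 66) (.play 387 (.ref 1 323)))) (.both (.play 196 (.both (.play 387 (.ref 36 67)) (.both (.play 197 (.both (.play 133 (.ref 5 132)) (.ref 169 195))) (.ref 462 131)))) (.ref 455 259))))) (.both (.ref 461 67) (.both (.play 325 (.both (.ref 454 67) (.both (.play 263 (.both (.play 388 (.both (.play 261 (.both (.play 196 (.ref 260 131)) (.play 197 (.ref 77 132)))) (.play 387 (.ref 1 323)))) (.play 264 (.ref 2 260)))) (.both (.ref 451 132) (.ref 393 195))))) (.both (.play 325 (.both (.ref 451 132) (.both (.ref 450 256) (.play 263 (.ref 11 259))))) (.both (.play 325 (.both (.ref 451 132) (.both (.ref 377 257) (.play 263 (.ref 11 259))))) (.play 325 (.both (.play 323 (.both (.play 322 (.both (.play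 388 (.both (.play 389 (.both (.play 453 (.ref 127 196)) (.play 321 (.ref 0 321)))) (.play 387 (.ref 1 323)))) (.play 261 (.ref 2 258)))) (.both (.ref 218 256) (.ref 12 322)))) (.both (.ref 393 195) (.both (.ref 450 256) (.ref 75 322)))))))))))) (.both (.play 261 (.ref 153 67)) (.both (.play 261 (.both (.play 263 (.both (.ref 445 67) (.ref 230 132))) (.play 259 (.ref 0 259)))) (.both (.play 261 (.both (.play 390 (.both (.play 388 (.both (.play 324 (.both (.ref 171 68) (.play 325 (.ref 329 323)))) (.both (.play 324 (.both (.ref 171 68) (.ref 356 323))) (.both (.play 389 (.both (.play 324 (.both (.play 452 (.both (.play 197 (.ref 5 196)) (.play 451 (.ref 1 387)))) (.play 323 (.ref 3 323)))) (.play 387 (.ref 2 323)))) (.both (.play 389 (.both (.play 452 (.both (.play 325 (.both (.play 197 (.ref 6 196)) (.play 453 (.ref 449 196)))) (.play 451 (.ref 1 387)))) (.play 387 (.ref 2 323)))) (.play 389 (.both (.play 324 (.both (.play 453 (.both (.play 196 (.ref 4 196)) (.play 517 (.both (.play 325 (.ref 7 260)) (.play 581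 (.ref 7 324)))))) (.play 323 (.ref 3 323)))) (.play 387 (.ref 2 323))))))))) (.both (.play 454 (.both (.play 453 (.both (.play 452 (.both (.play 325 (.both (.play 324 (.both (.play 196 (.both (.play 132 (.both (.play 131 (.both (.play 67 (.ref 7 67)) (.play 388 (.both (.play 195 (.ref 7 131)) (.play 387 (.ref 1 323)))))) (.play 68 (.ref 4 68)))) (.play 389 (.ref 7 196)))) (.play 323 (.ref 0 323)))) (.both (.play 389 (.ref 449 196)) (.play 324 (.both (.ref 270 259) (.play 323 (.ref 0 323))))))) (.play 451 (.ref 2 387)))) (.play 517 (.ref 6 261)))) (.both (.ref 130 261) (.ref 140 261)))) (.both (.ref 380 197) (.play 454 (.both (.play 197 (.ref 7 197)) (.ref 130 261))))))) (.play 259 (.ref 0 259)))) (.both (.play 261 (.ref 435 67)) (.both (.play 324 (.both (.play 261 (.both (.play 325 (.both (.ref 262 131) (.ref 147 258))) (.both (.ref 448 131) (.both (.play 325 (.both (.ref 262 131) (.play 263 (.both (.ref 230 132) (.play 264 (.ref 2 260)))))) (.play 263 (.ref 107 195)))))) (.both (.play 261 (.both (.ref 448 131)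 (.play 259 (.ref 0 259)))) (.both (.ref 356 259) (.ref 447 259))))) (.both (.play 261 (.ref 231 131)) (.play 261 (.both (.play 263 (.both (.ref 261 131) (.ref 230 132))) (.play 259 (.ref 0 259))))))))))))))
 (.one (.play 66 (.both (.ref 124 0) (.play 6 (.ref 2 2))))))))
 (.seq (.seq (.seq (.one (.play 68 (.both (.ref 429 0) (.play 4 (.ref 5 3)))))
 (.one (.play 69 (.both (.ref 430 0) (.play 5 (.ref 5 4))))))
 (.seq (.one (.play 69 (.both (.ref 124 0) (.play 5 (.ref 5 4)))))
 (.one (.play 260 (.both (.play 259 (.both (.play 195 (.both (.play 323 (.both (.play 66 (.both (.ref 13 0) (.both (.play 2 (.ref 421 1)) (.ref 432 65)))) (.play 322 (.ref 1 258)))) (.play 194 (.ref 3 194)))) (.play 258 (.ref 2 194)))) (.play 324 (.ref 6 68)))))))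
 (.seq (.seq (.one (.play 70 (.both (.ref 431 0) (.play 6 (.ref 5 5)))))
 (.one (.play 129 (.both (.play 193 (.both (.ref 323 0) (.play 194 (.ref 3 128)))) (.play 68 (.ref 1 64))))))
 (.seq (.one (.play 1 (.both (.play 0 (.ref 3 0)) (.ref 388 1))))
 (.one (.play 129 (.both (.play 258 (.both (.ref 156 0) (.both (.play 322 (.ref 127 65)) (.play 322 (.both (.play 386 (.ref 7 129)) (.play 323 (.ref 3 257))))))) (.play 128 (.ref 3 128))))))))))
 (.seq (.seq (.seq (.seq (.seq (.one (.play 257 (.both (.ref 477 0) (.play 256 (.ref 1 192)))))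
 (.one (.play 195 (.both (.play 259 (.both (.play 131 (.both (.play 132 (.both (.play 68 (.ref 77 3)) (.play 199 (.ref 3 131)))) (.play 130 (.ref 3 130)))) (.both (.ref 477 2) (.both (.ref 476 130) (.ref 475 131))))) (.both (.ref 478 2) (.both (.ref 419 128) (.both (.play 259 (.both (.ref 476 130) (.play 258 (.ref 1 194)))) (.play 259 (.both (.ref 475 131) (.play 258 (.ref 1 194)))))))))))
 (.seq (.one (.play 262 (.both (.play 198 (.both (.play 197 (.both (.play 196 (.both (.ref 479 0) (.both (.play 195 (.both (.ref 478 2) (.play 263 (.ref 0 195)))) (.both (.play 199 (.both (.play 132 (.both (.play 263 (.both (.ref 444 3) (.play 264 (.ref 0 196)))) (.play 131 (.ref 3 131)))) (.both (.play 263 (.ref 111 68)) (.play 132 (.ref 71 131))))) (.play 263 (.ref 85 195)))))) (.both (.play 196 (.both (.ref 479 0) (.both (.play 390 (.both (.ref 474 129) (.play 133 (.ref 7 133)))) (.both (.play 390 (.both (.ref 474 129) (.both (.ref 473 129) (.both (.ref 472 130) (.both (.ref 471 130) (.ref 470 131)))))) (.both (.play 390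 (.both (.ref 473 129) (.play 133 (.ref 7 133)))) (.both (.play 390 (.both (.ref 472 130) (.play 133 (.ref 7 133)))) (.both (.play 390 (.both (.ref 471 130) (.play 133 (.ref 7 133)))) (.play 390 (.both (.ref 470 131) (.play 133 (.ref 7 133))))))))))) (.both (.play 199 (.both (.play 135 (.both (.play 263 (.both (.play 71 (.ref 6 70)) (.play 136 (.both (.play 196 (.ref 2 132)) (.play 200 (.ref 5 135)))))) (.both (.play 263 (.both (.play 71 (.ref 6 70)) (.play 264 (.ref 25 196)))) (.both (.play 263 (.ref 414 70)) (.ref 469 130))))) (.both (.play 135 (.both (.play 263 (.ref 414 70)) (.play 390 (.ref 5 134)))) (.both (.play 135 (.both (.ref 469 130) (.play 390 (.ref 5 134)))) (.both (.play 263 (.both (.play 390 (.both (.play 200 (.both (.play 201 (.both (.play 196 (.both (.play 389 (.both (.play 388 (.both (.play 324 (.both (.ref 304 131) (.play 323 (.ref 3 323)))) (.play 387 (.ref 2 323)))) (.play 453 (.ref 6 197)))) (.play 195 (.ref 0 195)))) (.play 202 (.ref 1 198)))) (.play 136 (.ref 5 135)))) (.play 454 (.ref 6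 198)))) (.both (.play 390 (.both (.play 265 (.both (.play 200 (.both (.play 136 (.ref 5 135)) (.ref 232 198))) (.play 264 (.ref 3 197)))) (.play 454 (.ref 6 198)))) (.play 264 (.ref 25 196))))) (.play 390 (.ref 252 132))))))) (.both (.play 390 (.ref 253 132)) (.play 390 (.ref 440 133))))))) (.play 134 (.ref 4 134)))) (.both (.ref 468 0) (.both (.play 198 (.both (.play 197 (.both (.play 133 (.both (.play 199 (.both (.play 69 (.both (.play 5 (.ref 4 5)) (.play 196 (.both (.play 263 (.ref 111 68)) (.both (.play 195 (.both (.play 135 (.both (.ref 19 128) (.play 136 (.ref 2 132)))) (.both (.play 135 (.both (.ref 13 129) (.play 136 (.ref 2 132)))) (.both (.play 135 (.both (.ref 17 129) (.play 136 (.ref 2 132)))) (.ref 16 130))))) (.play 263 (.ref 240 195))))))) (.both (.ref 95 2) (.both (.play 69 (.both (.play 5 (.ref 4 5)) (.play 263 (.both (.play 135 (.ref 414 70)) (.play 264 (.ref 25 196)))))) (.ref 446 132))))) (.both (.ref 234 5) (.play 199 (.both (.play 196 (.both (.play 263 (.ref 111 68)) (.both (.ref 178 129)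 (.play 263 (.ref 240 195))))) (.both (.ref 446 132) (.both (.play 200 (.both (.play 132 (.ref 3 132)) (.ref 175 197))) (.play 200 (.both (.ref 87 133) (.ref 175 197)))))))))) (.both (.play 133 (.ref 235 5)) (.both (.play 390 (.both (.play 199 (.both (.ref 302 131) (.play 135 (.ref 5 134)))) (.both (.play 199 (.ref 252 132)) (.both (.play 199 (.both (.play 135 (.ref 5 134)) (.ref 280 197))) (.ref 43 197))))) (.play 390 (.ref 253 132)))))) (.play 134 (.ref 4 134)))) (.both (.ref 333 2) (.both (.play 261 (.both (.play 197 (.both (.play 198 (.both (.play 196 (.both (.play 195 (.both (.ref 445 2) (.play 194 (.ref 0 194)))) (.both (.play 199 (.both (.play 263 (.ref 111 68)) (.both (.ref 189 132) (.play 200 (.both (.ref 58 196) (.play 201 (.ref 1 197))))))) (.play 263 (.ref 25 195))))) (.play 134 (.ref 4 134)))) (.both (.play 133 (.both (.play 325 (.both (.ref 215 66) (.ref 443 131))) (.play 69 (.ref 4 69)))) (.both (.play 133 (.both (.play 134 (.both (.ref 439 66) (.play 198 (.ref 4 134)))) (.play 69 (.ref 4 69))))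 (.both (.ref 442 66) (.play 133 (.both (.play 325 (.both (.ref 44 68) (.ref 443 131))) (.play 69 (.ref 4 69))))))))) (.both (.play 197 (.both (.play 198 (.both (.play 199 (.both (.ref 381 2) (.both (.play 200 (.both (.ref 142 68) (.play 201 (.ref 1 197)))) (.ref 86 195)))) (.play 134 (.ref 4 134)))) (.both (.ref 442 66) (.both (.play 198 (.both (.play 199 (.both (.play 196 (.both (.play 260 (.both (.play 132 (.ref 260 67)) (.play 259 (.ref 0 259)))) (.both (.play 195 (.ref 330 130)) (.ref 334 194)))) (.both (.play 200 (.both (.play 136 (.both (.play 196 (.both (.play 195 (.ref 330 130)) (.play 135 (.ref 2 132)))) (.play 137 (.ref 2 133)))) (.play 201 (.ref 1 197)))) (.ref 86 195)))) (.play 134 (.ref 4 134)))) (.both (.play 133 (.both (.play 134 (.both (.play 325 (.both (.play 70 (.ref 5 69)) (.play 324 (.both (.play 388 (.ref 6 132)) (.ref 441 258))))) (.play 198 (.ref 4 134)))) (.play 69 (.ref 4 69)))) (.both (.play 133 (.both (.play 259 (.both (.play 325 (.both (.ref 137 66) (.ref 328 130))) (.play 260 (.ref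 0 259)))) (.play 69 (.ref 4 69)))) (.play 133 (.both (.play 260 (.both (.play 325 (.both (.play 132 (.both (.play 68 (.ref 7 68)) (.play 324 (.both (.play 323 (.both (.ref 26 130) (.play 322 (.ref 2 258)))) (.play 388 (.ref 6 132)))))) (.both (.ref 44 68) (.both (.play 132 (.ref 440 68)) (.ref 283 132))))) (.play 259 (.ref 0 259)))) (.play 69 (.ref 4 69)))))))))) (.both (.play 134 (.both (.play 197 (.both (.play 133 (.both (.play 325 (.ref 91 66)) (.play 69 (.ref 4 69)))) (.both (.play 133 (.both (.ref 439 66) (.play 69 (.ref 4 69)))) (.both (.play 133 (.both (.play 196 (.both (.play 263 (.both (.play 135 (.both (.ref 438 68) (.play 136 (.ref 1 132)))) (.play 264 (.ref 3 196)))) (.both (.ref 318 130) (.play 195 (.ref 102 194))))) (.play 69 (.ref 4 69)))) (.play 263 (.both (.play 199 (.both (.play 135 (.ref 412 70)) (.ref 437 132))) (.play 264 (.both (.play 196 (.ref 3 196)) (.play 325 (.ref 37 260)))))))))) (.play 198 (.ref 4 134)))) (.both (.play 260 (.both (.play 134 (.both (.play 263 (.both (.play 196 (.both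 (.play 197 (.both (.ref 362 67) (.play 264 (.ref 3 196)))) (.play 195 (.ref 3 195)))) (.ref 436 68))) (.play 198 (.ref 4 134)))) (.play 259 (.ref 0 259)))) (.both (.play 260 (.both (.play 134 (.both (.play 263 (.both (.ref 436 68) (.ref 261 131))) (.play 198 (.ref 4 134)))) (.play 259 (.ref 0 259)))) (.both (.play 198 (.both (.ref 229 67) (.play 134 (.ref 4 134)))) (.both (.play 260 (.both (.play 134 (.both (.play 263 (.both (.ref 436 68) (.ref 263 131))) (.play 198 (.ref 4 134)))) (.play 259 (.ref 0 259)))) (.both (.play 260 (.both (.play 198 (.both (.play 263 (.both (.play 324 (.ref 266 67)) (.both (.ref 144 131) (.both (.play 324 (.both (.play 196 (.both (.play 325 (.both (.ref 262 131) (.play 389 (.ref 127 132)))) (.play 195 (.ref 3 195)))) (.play 323 (.ref 1 259)))) (.both (.ref 228 195) (.play 324 (.both (.play 325 (.both (.play 388 (.both (.play 452 (.ref 42 196)) (.play 387 (.ref 1 323)))) (.play 264 (.ref 2 260)))) (.play 323 (.ref 1 259))))))))) (.play 134 (.ref 4 134)))) (.play 259 (.ref 0 259)))) (.both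 (.play 260 (.both (.play 263 (.both (.play 324 (.both (.play 199 (.both (.play 196 (.both (.play 135 (.both (.play 136 (.both (.play 197 (.both (.ref 265 68) (.play 198 (.ref 2 132)))) (.play 72 (.ref 5 71)))) (.play 71 (.ref 6 70)))) (.play 195 (.ref 3 195)))) (.play 200 (.ref 2 196)))) (.play 323 (.ref 1 259)))) (.both (.play 324 (.ref 107 195)) (.both (.ref 151 195) (.play 199 (.both (.ref 228 195) (.play 200 (.ref 2 196)))))))) (.play 259 (.ref 0 259)))) (.play 260 (.ref 435 67)))))))))))) (.both (.play 198 (.both (.play 390 (.ref 434 65)) (.play 134 (.ref 4 134)))) (.both (.play 390 (.both (.play 198 (.ref 434 65)) (.both (.play 198 (.ref 295 66)) (.both (.play 198 (.both (.ref 433 129) (.both (.ref 305 131) (.both (.play 199 (.ref 45 132)) (.both (.ref 97 133) (.ref 272 197)))))) (.both (.play 198 (.both (.ref 426 131) (.both (.ref 305 131) (.both (.ref 294 131) (.both (.ref 303 131) (.ref 301 132)))))) (.both (.play 198 (.both (.play 197 (.both (.play 199 (.both (.play 135 (.ref 5 134)) (.ref 90 195)))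 (.play 133 (.ref 7 133)))) (.both (.ref 301 132) (.both (.play 199 (.ref 45 132)) (.both (.ref 44 133) (.ref 291 133)))))) (.both (.play 198 (.ref 427 131)) (.both (.play 454 (.both (.play 263 (.both (.play 453 (.both (.play 261 (.both (.play 389 (.both (.play 198 (.ref 6 197)) (.play 388 (.both (.play 452 (.both (.play 325 (.both (.play 324 (.ref 358 259)) (.play 516 (.ref 6 260)))) (.play 451 (.ref 2 387)))) (.play 387 (.ref 2 323)))))) (.play 197 (.ref 7 197)))) (.play 517 (.ref 6 261)))) (.play 199 (.ref 6 198)))) (.both (.play 453 (.both (.ref 387 197) (.play 517 (.ref 6 261)))) (.play 263 (.ref 77 198))))) (.play 454 (.both (.play 263 (.both (.ref 255 195) (.play 199 (.ref 6 198)))) (.both (.play 263 (.ref 77 198)) (.ref 130 261)))))))))))) (.both (.ref 296 66) (.both (.play 198 (.both (.play 390 (.ref 427 131)) (.play 134 (.ref 4 134)))) (.ref 425 131))))))))))))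
 (.one (.play 66 (.both (.ref 124 0) (.both (.play 2 (.ref 71 1)) (.play 129 (.both (.ref 341 2) (.play 130 (.ref 1 65))))))))))
 (.seq (.seq (.one (.play 195 (.both (.play 322 (.both (.play 130 (.both (.play 129 (.both (.play 67 (.both (.play 66 (.both (.play 2 (.both (.play 193 (.ref 6 1)) (.play 259 (.ref 4 2)))) (.play 3 (.ref 5 2)))) (.play 131 (.ref 5 66)))) (.play 65 (.ref 7 65)))) (.both (.ref 41 1) (.both (.play 323 (.both (.play 259 (.both (.play 66 (.ref 4 66)) (.play 324 (.ref 0 256)))) (.play 387 (.ref 4 130)))) (.play 323 (.both (.play 387 (.ref 4 130)) (.ref 84 256))))))) (.play 386 (.ref 6 193)))) (.both (.ref 292 192) (.play 322 (.both (.play 196 (.ref 116 192)) (.play 386 (.ref 6 193))))))))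
 (.one (.play 324 (.both (.play 260 (.both (.play 261 (.both (.play 262 (.both (.play 198 (.both (.ref 482 4) (.both (.ref 348 195) (.both (.play 259 (.ref 310 195)) (.play 326 (.both (.play 390 (.ref 6 197)) (.play 327 (.ref 85 259)))))))) (.both (.play 198 (.both (.ref 482 4) (.play 325 (.ref 5 197)))) (.both (.ref 351 67) (.both (.play 198 (.ref 350 195)) (.both (.ref 349 195) (.play 325 (.both (.play 198 (.ref 5 197)) (.play 263 (.both (.play 327 (.both (.play 326 (.both (.play 259 (.ref 0 259)) (.play 387 (.ref 1 323)))) (.play 328 (.ref 0 260)))) (.play 264 (.ref 1 260)))))))))))) (.both (.play 259 (.both (.play 258 (.both (.ref 124 192) (.both (.play 326 (.both (.play 262 (.ref 364 195)) (.play 325 (.ref 0 258)))) (.play 325 (.ref 240 257))))) (.both (.ref 340 194) (.both (.play 452 (.both (.play 195 (.ref 7 195)) (.ref 251 258))) (.play 452 (.both (.play 195 (.ref 7 195)) (.ref 154 259))))))) (.both (.play 259 (.both (.ref 481 192) (.both (.play 197 (.both (.ref 348 194) (.play 452 (.ref 5 196)))) (.both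 (.ref 340 194) (.play 452 (.ref 338 195)))))) (.both (.play 452 (.ref 45 194)) (.play 452 (.ref 155 195))))))) (.play 196 (.ref 4 196)))) (.both (.play 390 (.both (.play 260 (.both (.play 323 (.both (.play 259 (.both (.ref 337 64) (.both (.play 195 (.ref 127 131)) (.play 322 (.both (.ref 324 194) (.play 321 (.ref 0 321))))))) (.both (.play 259 (.both (.play 195 (.both (.play 194 (.both (.play 387 (.both (.play 130 (.ref 7 130)) (.play 386 (.both (.play 385 (.both (.play 326 (.both (.play 192 (.both (.play 193 (.ref 0 192)) (.play 321 (.both (.play 449 (.both (.play 257 (.both (.play 256 (.ref 7 192)) (.play 258 (.ref 5 193)))) (.play 448 (.ref 1 384)))) (.play 320 (.ref 3 320)))))) (.play 327 (.ref 2 323)))) (.play 384 (.ref 2 320)))) (.play 450 (.ref 6 194)))))) (.both (.play 262 (.both (.play 387 (.both (.play 130 (.ref 7 130)) (.ref 275 195))) (.play 261 (.ref 3 194)))) (.play 261 (.ref 94 192))))) (.play 131 (.ref 4 131)))) (.both (.play 195 (.ref 127 131)) (.ref 379 195)))) (.both (.play 387 (.both (.play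 326 (.both (.play 262 (.both (.play 261 (.both (.play 452 (.both (.play 259 (.ref 132 195)) (.play 197 (.ref 5 196)))) (.play 263 (.ref 1 259)))) (.play 198 (.ref 6 197)))) (.play 327 (.ref 2 323)))) (.play 322 (.ref 3 322)))) (.play 322 (.ref 92 321)))))) (.play 196 (.ref 4 196)))) (.both (.ref 95 193) (.both (.play 260 (.both (.play 391 (.both (.ref 50 195) (.both (.play 327 (.both (.play 452 (.both (.play 326 (.both (.play 262 (.both (.play 261 (.both (.play 197 (.ref 5 196)) (.play 259 (.ref 0 259)))) (.play 198 (.ref 6 197)))) (.play 387 (.ref 2 323)))) (.play 392 (.ref 1 388)))) (.play 328 (.ref 2 324)))) (.ref 175 388)))) (.play 196 (.ref 4 196)))) (.ref 306 323))))) (.both (.ref 268 64) (.both (.ref 378 129) (.both (.ref 271 129) (.both (.play 390 (.both (.play 387 (.both (.ref 376 194) (.both (.ref 178 320) (.both (.ref 76 320) (.play 326 (.ref 126 321)))))) (.both (.ref 374 195) (.both (.ref 390 323) (.both (.play 391 (.ref 71 323)) (.ref 306 323)))))) (.both (.ref 425 193) (.play 260 (.both (.play 452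 (.both (.ref 300 194) (.both (.ref 44 195) (.both (.play 261 (.ref 155 195)) (.play 261 (.both (.play 259 (.both (.play 195 (.ref 7 195)) (.play 516 (.both (.play 323 (.ref 7 259)) (.ref 130 323))))) (.play 197 (.ref 5 196)))))))) (.play 196 (.ref 4 196))))))))))))))
 (.seq (.one (.play 68 (.both (.play 67 (.ref 312 0)) (.play 69 (.ref 0 1)))))
 (.one (.both (.ref 16 0) (.ref 8 1))))))
 (.seq (.seq (.seq (.one (.play 3 (.both (.ref 348 0) (.play 131 (.ref 6 2)))))
 (.one (.both (.play 0 (.ref 4 0)) (.play 2 (.ref 6 1)))))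
 (.seq (.one (.play 192 (.both (.ref 206 0) (.play 194 (.ref 2 128)))))
 (.one (.play 194 (.both (.play 258 (.ref 487 1)) (.play 192 (.ref 2 128)))))))
 (.seq (.seq (.one (.play 257 (.both (.play 321 (.both (.play 320 (.ref 36 0)) (.both (.play 128 (.ref 197 64)) (.ref 131 128)))) (.both (.ref 489 64) (.both (.ref 488 64) (.both (.play 258 (.both (.play 322 (.both (.play 67 (.ref 6 66)) (.ref 284 129))) (.play 256 (.ref 2 192)))) (.play 321 (.both (.play 128 (.ref 281 64)) (.play 322 (.both (.play 258 (.ref 487 65)) (.play 386 (.ref 4 129))))))))))))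
 (.one (.play 259 (.both (.play 258 (.both (.play 194 (.both (.play 3 (.ref 6 2)) (.play 193 (.ref 25 192)))) (.play 322 (.ref 6 66)))) (.play 323 (.ref 5 67))))))
 (.seq (.one (.both (.play 1 (.ref 4 1)) (.ref 96 64)))
 (.one (.play 3 (.both (.play 64 (.ref 2 0)) (.play 70 (.ref 15 2)))))))))
 (.seq (.seq (.seq (.seq (.one (.play 69 (.both (.play 5 (.ref 126 0)) (.both (.play 2 (.ref 60 1)) (.play 5 (.both (.play 134 (.both (.play 70 (.both (.ref 493 1) (.play 135 (.ref 0 67)))) (.play 133 (.ref 0 66)))) (.play 6 (.ref 2 2))))))))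
 (.one (.play 68 (.both (.play 69 (.ref 3 1)) (.play 128 (.ref 2 64))))))
 (.seq (.one (.play 68 (.both (.ref 494 0) (.both (.ref 275 1) (.both (.ref 486 1) (.play 133 (.both (.play 69 (.both (.play 2 (.ref 71 1)) (.play 134 (.ref 0 66)))) (.play 132 (.ref 2 129)))))))))
 (.one (.both (.play 3 (.both (.play 2 (.ref 94 0)) (.play 131 (.ref 4 3)))) (.play 5 (.ref 6 4))))))
 (.seq (.seq (.one (.play 193 (.both (.ref 160 0) (.play 258 (.ref 4 1)))))
 (.one (.play 259 (.both (.play 68 (.ref 6 3)) (.ref 491 64)))))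
 (.seq (.one (.play 131 (.both (.play 3 (.ref 6 2)) (.play 132 (.ref 85 64)))))
 (.one (.play 384 (.both (.play 129 (.both (.ref 201 0) (.play 320 (.ref 6 128)))) (.play 448 (.ref 6 192))))))))
 (.seq (.seq (.seq (.one (.play 321 (.both (.play 320 (.ref 36 0)) (.both (.play 386 (.both (.play 385 (.both (.play 320 (.both (.ref 35 0) (.play 387 (.ref 3 320)))) (.play 450 (.ref 4 193)))) (.play 322 (.ref 4 129)))) (.both (.ref 459 128) (.ref 466 128))))))
 (.one (.play 388 (.both (.play 324 (.both (.play 260 (.both (.play 452 (.both (.play 517 (.both (.play 196 (.both (.play 133 (.both (.play 132 (.both (.play 67 (.both (.play 68 (.both (.play 3 (.ref 7 3)) (.ref 96 67))) (.play 131 (.ref 7 67)))) (.play 69 (.ref 5 68)))) (.play 197 (.ref 5 132)))) (.both (.ref 201 67) (.both (.play 133 (.both (.play 132 (.both (.play 259 (.both (.play 323 (.ref 80 67)) (.play 195 (.ref 7 195)))) (.play 69 (.ref 5 68)))) (.play 197 (.ref 5 132)))) (.ref 29 131))))) (.play 453 (.ref 4 260)))) (.both (.play 196 (.both (.ref 201 67)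 (.both (.play 133 (.both (.play 132 (.both (.play 323 (.both (.play 259 (.ref 417 67)) (.play 387 (.ref 6 131)))) (.play 69 (.ref 5 68)))) (.play 197 (.ref 5 132)))) (.ref 29 131)))) (.both (.ref 465 195) (.ref 466 259))))) (.both (.play 196 (.both (.play 387 (.ref 36 67)) (.both (.ref 32 67) (.both (.ref 34 67) (.play 387 (.both (.play 197 (.both (.play 195 (.both (.play 198 (.both (.play 134 (.both (.play 135 (.ref 2 131)) (.play 262 (.ref 4 134)))) (.play 259 (.ref 21 194)))) (.play 131 (.ref 7 131)))) (.play 133 (.ref 5 132)))) (.play 451 (.ref 6 195)))))))) (.both (.play 452 (.both (.ref 501 67) (.both (.play 517 (.both (.play 516 (.both (.play 451 (.both (.ref 402 195) (.play 518 (.ref 3 451)))) (.play 581 (.ref 4 324)))) (.play 453 (.ref 4 260)))) (.both (.ref 459 259) (.ref 466 259))))) (.both (.ref 502 131) (.both (.play 452 (.both (.play 451 (.both (.play 387 (.both (.play 196 (.ref 6 195)) (.play 453 (.both (.play 450 (.both (.play 386 (.both (.ref 262 257) (.play 385 (.ref 0 385)))) (.both (.ref 40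 384) (.ref 441 384)))) (.play 454 (.ref 2 387)))))) (.play 515 (.ref 6 259)))) (.both (.play 517 (.both (.play 516 (.both (.play 451 (.both (.play 387 (.both (.play 196 (.ref 6 195)) (.play 323 (.ref 132 259)))) (.play 518 (.ref 3 451)))) (.play 581 (.ref 4 324)))) (.play 453 (.ref 4 260)))) (.both (.play 515 (.both (.play 451 (.ref 6 259)) (.play 516 (.both (.ref 465 259) (.play 579 (.ref 6 323)))))) (.both (.ref 459 259) (.ref 466 259)))))) (.play 452 (.both (.play 259 (.ref 281 195)) (.both (.ref 465 195) (.ref 459 259)))))))))) (.both (.play 323 (.both (.play 452 (.both (.play 260 (.both (.play 196 (.both (.ref 467 3) (.both (.ref 201 67) (.both (.play 133 (.both (.play 132 (.both (.play 259 (.both (.play 68 (.ref 6 67)) (.play 195 (.ref 7 195)))) (.play 69 (.ref 5 68)))) (.play 197 (.ref 5 132)))) (.ref 29 131))))) (.play 453 (.both (.play 451 (.both (.play 515 (.ref 6 259)) (.play 454 (.ref 2 387)))) (.play 517 (.ref 4 260)))))) (.both (.ref 288 131) (.both (.play 516 (.both (.play 259 (.ref 7 259)) (.play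 517 (.ref 162 323)))) (.play 517 (.both (.play 453 (.both (.play 454 (.ref 346 259)) (.play 260 (.ref 4 260)))) (.both (.play 516 (.both (.play 453 (.both (.play 260 (.ref 4 260)) (.play 518 (.both (.ref 160 323) (.play 520 (.ref 3 452)))))) (.play 581 (.ref 4 324)))) (.play 516 (.ref 162 323))))))))) (.play 325 (.ref 0 323)))) (.both (.play 260 (.both (.ref 502 131) (.both (.play 387 (.both (.ref 206 195) (.play 325 (.ref 1 323)))) (.both (.play 259 (.both (.play 452 (.both (.play 195 (.ref 7 195)) (.ref 396 259))) (.play 325 (.ref 3 259)))) (.play 325 (.ref 204 259)))))) (.play 325 (.ref 329 323)))))) (.both (.play 328 (.both (.ref 274 133) (.play 389 (.ref 2 324)))) (.play 389 (.ref 11 323)))))))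
 (.seq (.one (.play 4 (.both (.ref 493 0) (.play 5 (.ref 2 1)))))
 (.one (.play 193 (.both (.play 131 (.both (.ref 413 2) (.ref 437 64))) (.both (.play 260 (.both (.play 131 (.both (.play 67 (.ref 414 2)) (.both (.play 67 (.both (.play 3 (.ref 6 2)) (.ref 29 2))) (.ref 223 65)))) (.play 261 (.ref 3 193)))) (.play 260 (.ref 25 192))))))))
 (.seq (.seq (.one (.play 262 (.both (.play 261 (.both (.play 260 (.both (.play 263 (.both (.play 199 (.both (.play 198 (.both (.play 327 (.both (.ref 505 4) (.play 391 (.ref 6 198)))) (.play 259 (.ref 2 195)))) (.play 200 (.ref 2 196)))) (.both (.play 327 (.both (.play 199 (.both (.play 198 (.both (.ref 505 4) (.play 259 (.ref 2 195)))) (.play 391 (.ref 6 198)))) (.play 328 (.ref 0 260)))) (.both (.play 199 (.ref 310 196)) (.both (.ref 368 196) (.ref 415 196)))))) (.both (.play 259 (.both (.ref 394 66) (.both (.play 258 (.both (.play 197 (.ref 126 192)) (.both (.ref 16 193) (.ref 504 193)))) (.both (.play 322 (.both (.play 258 (.both (.play 193 (.both (.play 257 (.both (.play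 192 (.ref 3 192)) (.ref 8 193))) (.play 194 (.ref 3 193)))) (.play 321 (.ref 1 257)))) (.play 323 (.ref 1 258)))) (.both (.ref 13 193) (.play 322 (.both (.play 258 (.both (.ref 504 193) (.play 321 (.ref 1 257)))) (.play 323 (.ref 1 258))))))))) (.both (.play 259 (.both (.play 198 (.both (.play 323 (.both (.play 195 (.both (.play 387 (.both (.play 196 (.ref 42 131)) (.ref 385 194))) (.play 194 (.ref 3 194)))) (.play 322 (.ref 1 258)))) (.play 199 (.ref 2 195)))) (.both (.ref 13 193) (.both (.play 198 (.ref 126 193)) (.ref 62 193))))) (.both (.ref 342 193) (.play 263 (.ref 365 195))))))) (.both (.play 197 (.both (.play 263 (.both (.play 328 (.both (.play 264 (.both (.play 200 (.both (.play 199 (.both (.play 135 (.ref 127 71)) (.play 260 (.ref 2 196)))) (.play 201 (.ref 2 197)))) (.play 329 (.ref 0 261)))) (.both (.play 327 (.ref 347 196)) (.both (.play 264 (.both (.play 201 (.both (.play 265 (.both (.play 392 (.both (.play 391 (.both (.play 327 (.ref 346 196)) (.play 393 (.ref 1 389)))) (.play 456 (.ref 5 200))))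 (.play 202 (.ref 2 198)))) (.play 200 (.ref 2 197)))) (.play 329 (.ref 0 261)))) (.play 264 (.both (.play 201 (.both (.play 265 (.both (.play 327 (.both (.play 392 (.both (.play 456 (.ref 5 200)) (.play 391 (.both (.play 388 (.ref 2 324)) (.play 393 (.ref 1 389)))))) (.play 260 (.ref 0 260)))) (.play 202 (.ref 2 198)))) (.play 200 (.ref 2 197)))) (.play 329 (.ref 0 261)))))))) (.both (.play 260 (.both (.play 259 (.both (.ref 19 192) (.both (.ref 124 193) (.both (.ref 17 193) (.ref 16 194))))) (.play 327 (.ref 364 196)))) (.both (.play 196 (.ref 94 194)) (.ref 339 196))))) (.play 325 (.ref 4 197)))) (.both (.play 260 (.both (.ref 481 193) (.both (.play 198 (.ref 350 195)) (.both (.play 196 (.both (.ref 339 195) (.play 325 (.ref 7 196)))) (.play 325 (.ref 338 196)))))) (.play 325 (.ref 335 197)))))) (.both (.play 326 (.ref 80 197)) (.ref 499 258)))))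
 (.one (.play 454 (.both (.ref 506 1) (.both (.ref 503 64) (.both (.play 392 (.both (.play 452 (.both (.play 327 (.both (.play 263 (.both (.play 262 (.both (.play 328 (.both (.play 200 (.both (.play 388 (.both (.play 260 (.both (.play 324 (.both (.ref 501 67) (.both (.play 196 (.both (.ref 34 67) (.ref 29 131))) (.both (.play 451 (.ref 36 131)) (.both (.play 259 (.both (.play 195 (.ref 7 195)) (.play 516 (.both (.play 323 (.ref 7 259)) (.ref 396 323))))) (.play 516 (.both (.ref 96 259) (.play 323 (.ref 197 259))))))))) (.play 261 (.ref 0 260)))) (.play 389 (.ref 2 324)))) (.play 264 (.ref 6 199)))) (.both (.play 329 (.both (.play 264 (.both (.play 200 (.ref 6 199)) (.play 261 (.ref 0 261)))) (.play 330 (.ref 3 262)))) (.ref 495 261)))) (.play 198 (.ref 7 198)))) (.play 199 (.ref 6 198)))) (.both (.play 388 (.both (.play 516 (.both (.play 518 (.both (.play 515 (.both (.play 324 (.ref 36 195)) (.play 517 (.ref 2 451)))) (.play 582 (.ref 5 326)))) (.both (.play 518 (.both (.ref 488 323) (.play 582 (.ref 5 326))))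 (.both (.play 580 (.both (.ref 331 323) (.play 582 (.both (.play 518 (.ref 5 326)) (.play 581 (.both (.play 645 (.ref 4 388)) (.play 515 (.ref 3 515)))))))) (.both (.play 582 (.both (.play 581 (.both (.ref 416 324) (.ref 498 387))) (.play 518 (.ref 5 326)))) (.both (.play 518 (.both (.play 517 (.both (.play 581 (.ref 285 324)) (.play 515 (.ref 2 451)))) (.play 582 (.ref 5 326)))) (.play 580 (.both (.ref 331 323) (.both (.play 387 (.ref 197 323)) (.ref 39 323)))))))))) (.both (.play 389 (.ref 358 323)) (.play 389 (.both (.play 328 (.ref 2 324)) (.play 451 (.ref 1 387))))))) (.play 263 (.ref 80 198))))) (.play 453 (.ref 2 388)))) (.both (.ref 53 197) (.play 453 (.ref 37 388))))) (.both (.play 392 (.both (.play 452 (.both (.play 263 (.both (.play 262 (.both (.play 264 (.both (.play 265 (.both (.play 329 (.both (.play 201 (.both (.play 328 (.both (.play 137 (.ref 6 136)) (.play 261 (.ref 0 261)))) (.play 202 (.ref 2 198)))) (.play 330 (.ref 0 262)))) (.both (.ref 367 196) (.play 198 (.ref 71 197))))) (.both (.play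 265 (.both (.play 198 (.both (.play 201 (.both (.play 328 (.both (.play 329 (.both (.play 137 (.ref 6 136)) (.play 330 (.ref 0 262)))) (.play 200 (.ref 6 199)))) (.play 202 (.ref 2 198)))) (.play 197 (.ref 3 197)))) (.both (.play 198 (.ref 71 197)) (.both (.play 198 (.ref 60 197)) (.ref 10 198))))) (.both (.play 200 (.both (.play 261 (.ref 126 195)) (.play 328 (.ref 6 199)))) (.both (.ref 494 196) (.both (.ref 486 197) (.ref 500 197))))))) (.both (.play 261 (.both (.play 260 (.both (.play 324 (.both (.play 388 (.both (.play 195 (.both (.play 259 (.ref 7 195)) (.play 196 (.ref 3 195)))) (.play 197 (.ref 5 196)))) (.play 323 (.ref 1 259)))) (.play 200 (.both (.play 199 (.ref 2 196)) (.play 264 (.ref 237 197)))))) (.both (.play 199 (.both (.play 200 (.both (.play 260 (.ref 2 196)) (.play 264 (.ref 237 197)))) (.play 326 (.ref 5 198)))) (.both (.play 197 (.both (.play 264 (.both (.play 196 (.ref 3 196)) (.ref 307 197))) (.play 326 (.ref 7 197)))) (.play 326 (.ref 338 197)))))) (.both (.play 264 (.both (.play 328 (.ref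 497 195)) (.both (.play 328 (.both (.play 261 (.ref 422 196)) (.play 200 (.ref 6 199)))) (.both (.ref 500 197) (.play 198 (.both (.ref 259 197) (.play 326 (.ref 4 198)))))))) (.play 326 (.ref 335 198)))))) (.both (.play 327 (.ref 80 198)) (.ref 499 259)))) (.play 453 (.ref 2 388)))) (.both (.play 393 (.both (.play 329 (.both (.play 457 (.both (.play 521 (.both (.play 264 (.both (.play 265 (.both (.play 202 (.both (.play 201 (.both (.play 138 (.ref 5 137)) (.play 263 (.both (.play 262 (.ref 2 198)) (.play 327 (.ref 80 198)))))) (.play 266 (.ref 5 201)))) (.play 200 (.ref 7 200)))) (.play 328 (.ref 7 264)))) (.both (.play 328 (.ref 132 264)) (.ref 131 328)))) (.play 458 (.ref 0 390)))) (.play 330 (.ref 2 326)))) (.play 394 (.ref 1 390)))) (.play 393 (.ref 21 389))))) (.both (.play 327 (.both (.play 388 (.both (.play 389 (.both (.play 452 (.both (.play 518 (.both (.play 324 (.both (.play 517 (.both (.ref 452 131) (.both (.play 581 (.both (.play 453 (.ref 7 324)) (.play 326 (.ref 6 325)))) (.play 581 (.both (.play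 516 (.ref 4 324)) (.play 326 (.ref 6 325))))))) (.play 323 (.ref 3 323)))) (.play 582 (.ref 5 326)))) (.play 451 (.ref 1 387)))) (.play 328 (.ref 2 324)))) (.both (.play 452 (.both (.play 518 (.both (.ref 490 259) (.play 582 (.ref 5 326)))) (.both (.play 518 (.both (.play 387 (.both (.play 516 (.both (.ref 489 323) (.both (.play 580 (.both (.play 323 (.ref 7 323)) (.ref 131 387))) (.play 580 (.both (.play 323 (.ref 7 323)) (.play 579 (.both (.play 515 (.both (.play 324 (.ref 6 323)) (.play 517 (.ref 2 451)))) (.play 643 (.ref 6 387))))))))) (.play 453 (.ref 3 387)))) (.play 582 (.ref 5 326)))) (.both (.play 453 (.both (.play 516 (.both (.play 582 (.both (.play 581 (.both (.play 517 (.ref 127 324)) (.both (.ref 416 324) (.ref 498 387)))) (.play 518 (.ref 5 326)))) (.play 515 (.ref 1 451)))) (.play 451 (.ref 2 387)))) (.play 453 (.ref 287 387)))))) (.play 389 (.ref 358 323))))) (.both (.play 388 (.both (.play 263 (.both (.play 387 (.both (.play 262 (.both (.play 453 (.both (.play 326 (.both (.play 261 (.both (.play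 260 (.both (.play 264 (.both (.play 265 (.both (.play 324 (.both (.play 196 (.both (.play 451 (.ref 6 195)) (.play 195 (.ref 3 195)))) (.play 323 (.ref 1 259)))) (.play 266 (.ref 1 262)))) (.play 200 (.ref 5 199)))) (.play 259 (.ref 0 259)))) (.play 197 (.ref 7 197)))) (.play 517 (.ref 6 261)))) (.play 452 (.ref 3 387)))) (.play 198 (.ref 7 198)))) (.play 389 (.ref 0 387)))) (.play 199 (.ref 6 198)))) (.both (.play 263 (.both (.play 262 (.both (.play 264 (.both (.play 261 (.both (.play 197 (.ref 421 196)) (.play 328 (.ref 240 260)))) (.play 200 (.ref 5 199)))) (.play 198 (.ref 7 198)))) (.play 199 (.ref 6 198)))) (.play 389 (.ref 358 323))))) (.play 263 (.ref 80 198))))) (.both (.play 518 (.both (.play 326 (.both (.play 452 (.both (.play 327 (.both (.play 388 (.both (.play 517 (.both (.play 324 (.both (.play 260 (.both (.ref 32 131) (.play 515 (.both (.play 451 (.ref 6 259)) (.play 516 (.ref 2 451)))))) (.both (.play 516 (.both (.ref 293 259) (.play 515 (.ref 2 451)))) (.play 389 (.ref 204 323))))) (.play 581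 (.ref 6 325)))) (.both (.play 387 (.both (.play 517 (.both (.play 516 (.both (.ref 288 195) (.play 515 (.ref 2 451)))) (.play 581 (.ref 6 325)))) (.play 389 (.ref 0 387)))) (.both (.play 516 (.both (.ref 286 259) (.both (.ref 190 323) (.both (.ref 488 323) (.play 581 (.both (.play 580 (.both (.play 387 (.ref 281 323)) (.play 645 (.ref 4 388)))) (.play 517 (.ref 6 325)))))))) (.play 389 (.ref 329 387)))))) (.play 263 (.ref 6 262)))) (.both (.play 327 (.both (.play 453 (.both (.play 517 (.both (.play 516 (.both (.play 388 (.both (.play 324 (.both (.ref 293 259) (.play 260 (.ref 4 260)))) (.play 387 (.ref 3 387)))) (.play 515 (.ref 2 451)))) (.play 581 (.ref 6 325)))) (.play 392 (.ref 2 388)))) (.play 263 (.ref 6 262)))) (.play 453 (.ref 11 387))))) (.both (.play 262 (.ref 492 197)) (.play 263 (.both (.play 262 (.ref 335 198)) (.play 327 (.ref 6 262))))))) (.both (.play 327 (.ref 77 262)) (.ref 491 323)))) (.both (.play 392 (.both (.play 389 (.both (.play 453 (.both (.play 262 (.both (.play 326 (.both (.play 263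 (.both (.play 328 (.both (.play 264 (.both (.play 261 (.both (.ref 159 194) (.play 197 (.ref 7 197)))) (.play 200 (.ref 6 199)))) (.play 329 (.ref 2 325)))) (.play 199 (.ref 5 198)))) (.play 517 (.ref 6 261)))) (.both (.play 263 (.both (.play 328 (.both (.play 264 (.both (.play 198 (.both (.play 197 (.ref 94 195)) (.play 327 (.ref 7 198)))) (.play 200 (.ref 6 199)))) (.play 329 (.ref 2 325)))) (.both (.ref 496 196) (.both (.play 264 (.both (.ref 275 197) (.both (.play 265 (.both (.play 202 (.both (.play 328 (.both (.play 327 (.both (.play 199 (.ref 6 198)) (.play 266 (.both (.play 203 (.ref 2 199)) (.play 267 (.ref 1 263)))))) (.play 329 (.ref 2 325)))) (.play 201 (.ref 2 198)))) (.both (.ref 122 198) (.both (.play 202 (.both (.play 201 (.ref 2 198)) (.play 266 (.both (.play 331 (.both (.play 267 (.both (.play 327 (.both (.play 199 (.ref 6 198)) (.play 328 (.ref 1 263)))) (.play 332 (.ref 0 264)))) (.play 330 (.ref 0 263)))) (.play 203 (.ref 2 199)))))) (.play 329 (.both (.play 330 (.ref 0 262)) (.play 328 (.ref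 2 325)))))))) (.play 327 (.both (.play 199 (.ref 6 198)) (.play 200 (.ref 5 199))))))) (.play 327 (.ref 412 198)))))) (.play 326 (.both (.play 198 (.ref 4 198)) (.play 517 (.ref 6 261))))))) (.play 452 (.ref 2 388)))) (.both (.play 388 (.ref 372 323)) (.play 388 (.both (.play 387 (.ref 0 387)) (.ref 326 387)))))) (.both (.ref 53 197) (.play 453 (.ref 37 388))))) (.both (.play 392 (.both (.play 263 (.both (.play 452 (.both (.play 389 (.both (.play 262 (.both (.play 328 (.both (.play 261 (.both (.play 200 (.both (.ref 218 194) (.play 264 (.ref 6 199)))) (.both (.play 264 (.both (.play 197 (.ref 421 196)) (.play 200 (.ref 6 199)))) (.play 326 (.ref 338 197))))) (.play 329 (.ref 2 325)))) (.both (.play 328 (.both (.play 264 (.ref 497 195)) (.play 329 (.ref 2 325)))) (.both (.ref 496 196) (.play 326 (.ref 335 198)))))) (.play 388 (.ref 329 387)))) (.play 453 (.ref 2 388)))) (.both (.play 327 (.both (.play 452 (.both (.play 262 (.both (.play 264 (.both (.play 328 (.both (.play 388 (.both (.play 261 (.both (.play 197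 (.ref 421 196)) (.play 260 (.ref 0 260)))) (.play 389 (.ref 2 324)))) (.both (.play 329 (.ref 25 261)) (.ref 495 261)))) (.play 200 (.ref 5 199)))) (.play 198 (.ref 7 198)))) (.play 453 (.ref 2 388)))) (.play 518 (.ref 6 262)))) (.play 327 (.ref 80 198))))) (.both (.ref 53 197) (.play 393 (.ref 21 389))))) (.both (.play 392 (.both (.play 518 (.both (.play 263 (.both (.play 262 (.both (.play 264 (.both (.ref 494 196) (.both (.ref 438 197) (.both (.ref 486 197) (.both (.play 328 (.ref 276 197)) (.play 265 (.both (.play 198 (.ref 71 197)) (.ref 484 261)))))))) (.both (.play 326 (.ref 199 197)) (.both (.play 326 (.ref 492 197)) (.play 326 (.ref 335 198)))))) (.play 327 (.ref 6 262)))) (.both (.play 327 (.ref 77 262)) (.ref 491 323)))) (.both (.ref 53 197) (.play 393 (.ref 21 389))))) (.both (.play 392 (.both (.ref 274 197) (.both (.play 452 (.both (.play 388 (.both (.play 518 (.both (.ref 490 259) (.play 582 (.ref 42 326)))) (.both (.play 389 (.ref 411 323)) (.both (.play 389 (.ref 372 323)) (.play 389 (.ref 329 387))))))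 (.play 453 (.ref 2 388)))) (.play 453 (.ref 37 388))))) (.play 392 (.both (.play 263 (.both (.play 327 (.both (.play 453 (.both (.play 262 (.both (.play 264 (.both (.play 326 (.both (.play 261 (.both (.play 197 (.ref 7 197)) (.play 328 (.ref 240 260)))) (.play 517 (.ref 6 261)))) (.play 200 (.ref 5 199)))) (.play 198 (.ref 7 198)))) (.play 452 (.ref 2 388)))) (.play 518 (.ref 6 262)))) (.both (.play 262 (.both (.play 326 (.both (.play 199 (.ref 5 198)) (.ref 52 260))) (.both (.play 264 (.both (.play 265 (.both (.play 261 (.ref 485 196)) (.both (.play 266 (.both (.ref 16 197) (.ref 58 262))) (.ref 366 198)))) (.both (.play 453 (.both (.ref 486 197) (.play 452 (.ref 2 388)))) (.both (.ref 438 197) (.both (.play 328 (.ref 276 197)) (.play 265 (.both (.play 266 (.ref 485 197)) (.ref 484 261)))))))) (.both (.play 326 (.both (.play 198 (.ref 4 198)) (.ref 52 260))) (.play 326 (.ref 335 198)))))) (.play 327 (.ref 80 198))))) (.both (.ref 53 197) (.play 453 (.ref 37 388))))))))))))))))))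
 (.seq (.one (.play 390 (.both (.ref 507 0) (.both (.ref 483 2) (.both (.ref 480 64) (.both (.ref 424 65) (.both (.ref 408 65) (.both (.ref 382 65) (.both (.ref 370 66) (.both (.ref 352 66) (.both (.ref 313 66) (.both (.ref 299 66) (.both (.play 326 (.both (.ref 268 66) (.both (.play 325 (.both (.play 392 (.both (.play 389 (.both (.ref 119 132) (.both (.ref 149 322) (.ref 62 323)))) (.play 393 (.ref 3 325)))) (.both (.play 324 (.both (.play 327 (.both (.play 388 (.ref 266 131)) (.both (.play 260 (.both (.play 261 (.both (.play 454 (.ref 235 133)) (.play 328 (.ref 3 260)))) (.play 259 (.ref 3 259)))) (.both (.play 388 (.both (.play 260 (.both (.play 261 (.both (.ref 265 132) (.both (.play 454 (.ref 235 133)) (.play 454 (.both (.play 452 (.both (.play 451 (.ref 264 259)) (.play 516 (.ref 5 260)))) (.play 518 (.ref 7 261))))))) (.play 259 (.ref 3 259)))) (.play 387 (.ref 1 323)))) (.both (.ref 263 195) (.ref 261 195)))))) (.play 323 (.ref 0 323)))) (.both (.play 392 (.ref 146 323)) (.play 324 (.ref 102 323))))))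 (.both (.play 262 (.both (.play 198 (.ref 4 198)) (.play 392 (.both (.play 389 (.both (.play 325 (.ref 64 260)) (.both (.play 328 (.ref 126 323)) (.ref 62 323)))) (.both (.play 393 (.both (.play 329 (.both (.play 389 (.both (.play 452 (.both (.play 388 (.both (.play 323 (.both (.play 387 (.ref 129 322)) (.play 324 (.ref 3 323)))) (.play 451 (.ref 1 387)))) (.play 453 (.ref 1 388)))) (.play 328 (.ref 2 325)))) (.play 330 (.ref 2 326)))) (.both (.ref 59 326) (.ref 122 326)))) (.both (.play 325 (.ref 146 323)) (.ref 259 325))))))) (.both (.ref 258 195) (.both (.play 262 (.both (.play 454 (.both (.play 261 (.ref 253 196)) (.ref 68 259))) (.play 198 (.ref 4 198)))) (.both (.play 262 (.both (.play 454 (.both (.ref 250 195) (.both (.play 263 (.both (.play 453 (.both (.play 452 (.both (.play 261 (.both (.play 197 (.ref 7 197)) (.play 325 (.both (.play 324 (.both (.ref 249 259) (.play 323 (.ref 0 323)))) (.play 518 (.ref 7 261)))))) (.play 451 (.ref 2 387)))) (.play 517 (.ref 6 261)))) (.play 199 (.ref 5 198)))) (.ref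 68 259)))) (.play 198 (.ref 4 198)))) (.both (.play 262 (.both (.play 454 (.both (.ref 248 195) (.both (.ref 44 197) (.ref 97 197)))) (.play 198 (.ref 4 198)))) (.play 262 (.ref 245 196)))))))))) (.both (.ref 242 67) (.both (.ref 220 129) (.both (.play 389 (.both (.ref 202 130) (.both (.play 392 (.both (.play 328 (.both (.play 264 (.both (.play 200 (.ref 6 199)) (.play 388 (.both (.ref 159 321) (.both (.play 387 (.both (.play 325 (.both (.ref 193 321) (.play 324 (.ref 3 324)))) (.play 454 (.ref 0 387)))) (.ref 16 323)))))) (.play 329 (.ref 2 325)))) (.both (.ref 192 324) (.both (.play 325 (.both (.play 324 (.ref 3 324)) (.play 393 (.both (.play 326 (.ref 3 325)) (.play 454 (.ref 21 389)))))) (.play 329 (.both (.play 328 (.ref 2 325)) (.play 393 (.ref 191 325)))))))) (.both (.play 452 (.both (.play 388 (.both (.play 516 (.both (.play 454 (.both (.play 392 (.both (.play 328 (.both (.ref 168 195) (.play 329 (.ref 2 325)))) (.both (.play 393 (.both (.play 518 (.both (.ref 166 323) (.both (.play 326 (.both (.ref 190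 323) (.play 325 (.ref 3 325)))) (.both (.play 517 (.both (.ref 165 325) (.play 515 (.ref 2 451)))) (.play 325 (.both (.play 582 (.ref 7 325)) (.play 326 (.ref 3 325)))))))) (.play 394 (.ref 1 390)))) (.ref 189 325)))) (.play 387 (.ref 0 387)))) (.both (.ref 164 322) (.ref 163 323)))) (.play 451 (.ref 1 387)))) (.both (.play 392 (.both (.ref 176 325) (.play 453 (.ref 1 388)))) (.both (.play 453 (.ref 188 386)) (.play 451 (.both (.play 453 (.ref 186 386)) (.play 388 (.ref 1 387)))))))) (.both (.play 392 (.both (.play 453 (.both (.play 325 (.both (.play 328 (.both (.play 264 (.both (.play 517 (.both (.play 262 (.both (.ref 174 197) (.play 326 (.ref 5 261)))) (.both (.play 326 (.ref 42 261)) (.play 582 (.ref 185 324))))) (.play 200 (.ref 6 199)))) (.play 329 (.ref 2 325)))) (.play 324 (.ref 3 324)))) (.play 452 (.ref 1 388)))) (.both (.play 325 (.ref 71 324)) (.both (.ref 184 324) (.play 453 (.ref 74 324)))))) (.both (.play 388 (.both (.ref 183 259) (.both (.ref 114 322) (.ref 75 386)))) (.both (.play 388 (.both (.ref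 180 259) (.both (.ref 13 322) (.both (.ref 114 322) (.ref 75 386))))) (.play 392 (.both (.ref 178 322) (.both (.play 325 (.ref 71 324)) (.ref 176 325))))))))))) (.both (.play 392 (.both (.play 389 (.both (.play 328 (.both (.play 453 (.both (.play 264 (.both (.play 517 (.both (.play 262 (.both (.play 325 (.both (.ref 172 132) (.both (.ref 174 197) (.play 518 (.both (.play 516 (.both (.play 580 (.ref 6 324)) (.ref 173 449))) (.play 582 (.ref 4 325))))))) (.both (.play 325 (.both (.ref 172 132) (.play 326 (.ref 5 261)))) (.both (.play 326 (.ref 170 197)) (.play 326 (.both (.play 454 (.ref 6 261)) (.play 325 (.ref 5 261)))))))) (.both (.ref 171 197) (.both (.play 326 (.both (.play 262 (.ref 170 197)) (.play 581 (.ref 5 325)))) (.play 581 (.both (.play 582 (.both (.play 518 (.both (.play 325 (.ref 4 325)) (.play 516 (.ref 25 515)))) (.play 646 (.ref 4 389)))) (.ref 169 388))))))) (.play 200 (.ref 6 199)))) (.play 452 (.ref 1 388)))) (.play 329 (.ref 2 325)))) (.both (.play 452 (.both (.play 328 (.both (.play 388 (.both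 (.play 516 (.both (.play 454 (.both (.ref 168 195) (.play 387 (.ref 0 387)))) (.both (.ref 164 322) (.ref 163 323)))) (.play 327 (.ref 2 324)))) (.play 329 (.ref 2 325)))) (.play 453 (.ref 1 388)))) (.both (.play 452 (.both (.play 388 (.both (.play 387 (.both (.play 326 (.ref 126 321)) (.play 454 (.ref 0 387)))) (.play 451 (.ref 1 387)))) (.play 453 (.ref 1 388)))) (.both (.play 328 (.both (.play 388 (.both (.ref 159 321) (.play 327 (.ref 2 324)))) (.play 329 (.ref 2 325)))) (.ref 62 323)))))) (.both (.play 393 (.both (.ref 50 197) (.both (.play 326 (.ref 71 325)) (.play 326 (.ref 60 325))))) (.both (.ref 158 197) (.both (.play 393 (.both (.ref 157 197) (.both (.play 326 (.ref 71 325)) (.play 454 (.ref 21 389))))) (.play 393 (.both (.ref 157 197) (.both (.play 326 (.ref 60 325)) (.play 454 (.ref 21 389)))))))))) (.both (.play 326 (.both (.play 325 (.both (.play 324 (.ref 153 131)) (.both (.play 392 (.both (.play 389 (.both (.play 328 (.both (.play 453 (.both (.play 261 (.both (.play 260 (.ref 150 196)) (.play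 454 (.ref 127 197)))) (.play 452 (.ref 1 388)))) (.play 329 (.ref 2 325)))) (.both (.ref 149 322) (.both (.ref 148 322) (.ref 62 323))))) (.play 393 (.ref 3 325)))) (.both (.play 392 (.ref 146 323)) (.play 392 (.ref 94 323)))))) (.both (.play 262 (.both (.play 325 (.both (.play 324 (.both (.play 327 (.both (.play 263 (.both (.play 199 (.both (.play 260 (.both (.play 200 (.ref 108 132)) (.play 259 (.ref 3 259)))) (.play 135 (.ref 6 134)))) (.play 264 (.ref 2 260)))) (.both (.ref 144 195) (.both (.ref 106 259) (.play 263 (.both (.ref 141 259) (.play 264 (.ref 2 260)))))))) (.play 323 (.ref 0 323)))) (.both (.ref 105 196) (.both (.play 324 (.ref 85 323)) (.play 392 (.ref 94 323)))))) (.play 198 (.ref 4 198)))) (.both (.play 262 (.ref 70 195)) (.both (.play 325 (.both (.play 262 (.both (.play 454 (.both (.play 261 (.both (.ref 136 195) (.play 197 (.ref 7 197)))) (.both (.play 261 (.ref 132 197)) (.play 518 (.both (.ref 96 261) (.ref 140 325)))))) (.play 198 (.ref 4 198)))) (.both (.ref 139 196) (.play 392 (.ref 94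 323))))) (.both (.play 262 (.both (.play 454 (.both (.ref 137 195) (.both (.ref 89 195) (.both (.ref 47 196) (.both (.play 263 (.ref 45 196)) (.ref 44 197)))))) (.play 198 (.ref 4 198)))) (.both (.ref 100 195) (.both (.ref 134 196) (.ref 57 196))))))))) (.both (.ref 133 130) (.both (.play 326 (.both (.play 392 (.both (.play 389 (.both (.play 325 (.both (.ref 119 132) (.play 324 (.ref 3 324)))) (.both (.play 325 (.both (.ref 103 196) (.play 324 (.ref 3 324)))) (.both (.ref 118 196) (.play 328 (.both (.play 388 (.both (.play 453 (.both (.ref 114 322) (.play 452 (.ref 1 388)))) (.play 327 (.ref 2 324)))) (.play 329 (.ref 2 325)))))))) (.both (.play 389 (.both (.ref 79 259) (.both (.ref 115 322) (.both (.play 453 (.ref 74 324)) (.both (.ref 72 324) (.play 329 (.both (.play 328 (.ref 2 325)) (.play 393 (.both (.play 330 (.ref 2 326)) (.ref 59 326)))))))))) (.both (.ref 49 325) (.play 393 (.ref 71 325)))))) (.both (.ref 113 131) (.both (.ref 100 195) (.both (.play 392 (.both (.ref 95 195) (.both (.play 262 (.both (.play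 454 (.both (.ref 93 195) (.ref 52 260))) (.play 198 (.ref 4 198)))) (.both (.ref 54 196) (.ref 49 325))))) (.both (.play 262 (.both (.play 454 (.both (.play 263 (.ref 91 195)) (.both (.ref 89 195) (.both (.ref 47 196) (.both (.play 263 (.ref 45 196)) (.ref 44 197)))))) (.play 198 (.ref 4 198)))) (.both (.ref 57 196) (.ref 83 196)))))))) (.play 326 (.both (.play 392 (.both (.play 389 (.both (.play 453 (.both (.play 325 (.both (.ref 82 132) (.play 324 (.ref 3 324)))) (.play 452 (.ref 1 388)))) (.both (.ref 67 196) (.ref 62 323)))) (.both (.play 389 (.both (.ref 81 196) (.both (.ref 79 259) (.both (.ref 76 322) (.both (.ref 62 323) (.both (.play 453 (.ref 74 324)) (.ref 72 324))))))) (.both (.ref 49 325) (.play 393 (.ref 71 325)))))) (.both (.play 262 (.ref 70 195)) (.both (.play 262 (.both (.play 392 (.both (.play 389 (.both (.ref 67 196) (.both (.play 325 (.ref 64 260)) (.ref 62 323)))) (.both (.ref 51 197) (.both (.play 393 (.both (.ref 50 197) (.both (.ref 59 326) (.ref 9 326)))) (.play 393 (.ref 60 325))))))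 (.play 198 (.ref 4 198)))) (.both (.ref 57 196) (.both (.play 392 (.both (.ref 54 196) (.both (.play 262 (.both (.play 454 (.both (.ref 48 196) (.ref 52 260))) (.play 198 (.ref 4 198)))) (.both (.play 262 (.both (.ref 51 197) (.play 198 (.ref 4 198)))) (.ref 49 325))))) (.play 262 (.both (.play 454 (.both (.ref 48 196) (.both (.play 263 (.both (.play 261 (.both (.play 327 (.both (.ref 46 196) (.play 328 (.ref 25 260)))) (.play 197 (.ref 7 197)))) (.play 199 (.ref 5 198)))) (.both (.ref 47 196) (.both (.play 263 (.ref 45 196)) (.ref 44 197)))))) (.play 198 (.ref 4 198))))))))))))))))))))))))))))))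
 (.one (.play 391 (.both (.ref 508 0) (.both (.play 519 (.both (.play 582 (.ref 36 262)) (.both (.ref 41 262) (.ref 20 386)))) (.both (.play 519 (.both (.ref 34 262) (.both (.ref 28 263) (.both (.play 584 (.both (.play 582 (.both (.play 392 (.both (.play 585 (.both (.play 521 (.both (.play 581 (.both (.play 650 (.both (.play 586 (.both (.play 393 (.both (.play 394 (.both (.ref 10 327) (.play 454 (.ref 1 390)))) (.play 457 (.ref 4 393)))) (.play 651 (.ref 0 583)))) (.play 649 (.ref 0 582)))) (.play 520 (.ref 2 517)))) (.play 522 (.ref 2 518)))) (.both (.play 518 (.both (.play 521 (.both (.play 581 (.both (.ref 40 515) (.play 520 (.ref 2 517)))) (.play 522 (.ref 2 518)))) (.play 517 (.ref 3 517)))) (.play 518 (.ref 15 517))))) (.play 328 (.ref 5 327)))) (.play 646 (.ref 6 390)))) (.play 648 (.ref 4 391)))) (.ref 39 326))))) (.both (.play 519 (.both (.ref 30 262) (.both (.play 582 (.both (.ref 32 262) (.play 646 (.ref 6 390)))) (.ref 14 387)))) (.both (.play 519 (.both (.play 582 (.ref 36 262)) (.both (.ref 30 262)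 (.both (.play 582 (.both (.play 584 (.both (.play 390 (.both (.play 326 (.ref 7 326)) (.play 581 (.both (.play 517 (.both (.play 518 (.both (.ref 26 388) (.play 585 (.ref 3 517)))) (.play 516 (.ref 3 516)))) (.play 520 (.ref 11 516)))))) (.play 648 (.ref 4 391)))) (.play 646 (.ref 6 390)))) (.play 582 (.both (.play 584 (.both (.play 520 (.both (.play 327 (.ref 4 327)) (.play 521 (.ref 37 517)))) (.play 648 (.ref 4 391)))) (.play 646 (.ref 6 390)))))))) (.both (.play 519 (.both (.play 582 (.ref 36 262)) (.both (.ref 32 262) (.both (.ref 34 262) (.ref 24 324))))) (.both (.play 519 (.both (.ref 32 262) (.both (.ref 30 262) (.both (.ref 28 263) (.ref 22 325))))) (.play 519 (.both (.play 582 (.both (.play 584 (.both (.play 390 (.both (.play 326 (.ref 7 326)) (.play 518 (.both (.play 581 (.both (.ref 26 388) (.play 580 (.ref 11 515)))) (.play 517 (.ref 25 516)))))) (.play 648 (.ref 4 391)))) (.play 646 (.ref 6 390)))) (.both (.ref 24 324) (.both (.ref 22 325) (.both (.ref 20 386) (.ref 14 387))))))))))))))))))))))))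
    (by decide +kernel)

theorem Cert_L29 : PW ⟨19, nat_lit 126633165554229521438977290762059361298359392166659812763961538509202037576133380367873904190220562016654495085634323078490908715530503565070494042474577585075272383373984661504, nat_lit 122875175380157664711119823652277218566301776686083283142929052481090890100816241690420619829090703494413847312951140137694001648787591005760902373072074243138030357878186445678832869434921146265118688005222524862004374870086679468895391897056424965849870263014607298545193899908822425256020610302217566855785737171426480390481475496080126936113693032551879923638409361389048536471165218529649803563381032288, 18, nat_lit 122875175380157664711119823652277218566301776686083283142929052481090890100816241690420619829090703494413847312951140137694001648787591005760902373072074243138030357878186445678832869434921146265118688005222524862004374870086679468895391897056424965849870263014607298545193899908822425256020610302217566855785737171426480390481475496080126936113693032551879923638409361389048536471165218529649803563381032288⟩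 :=
  sound2 baseTbl baseTbl_ok
    (.seq (.seq (.seq (.seq (.seq (.seq (.seq (.seq (.seq (.one (.both (.play 0 (.ref 7 0)) (.play 320 (.ref 6 64))))
 (.one (.play 256 (.both (.play 192 (.ref 6 0)) (.play 257 (.ref 8 0))))))
 (.seq (.one (.play 257 (.both (.play 64 (.ref 7 0)) (.play 320 (.ref 6 64)))))
 (.seq (.one (.play 256 (.both (.play 192 (.ref 6 0)) (.ref 10 0))))
 (.one (.both (.play 0 (.ref 7 0)) (.ref 11 64))))))
 (.seq (.seq (.one (.both (.play 0 (.ref 7 0)) (.play 321 (.ref 7 64))))
 (.seq (.one (.both (.play 192 (.ref 6 0)) (.play 320 (.ref 6 64))))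
 (.one (.play 257 (.both (.play 256 (.ref 14 0)) (.both (.play 192 (.both (.play 256 (.ref 6 0)) (.play 321 (.ref 13 64)))) (.both (.play 321 (.ref 12 64)) (.ref 9 64))))))))
 (.seq (.one (.both (.play 193 (.ref 4 0)) (.play 321 (.ref 4 64))))
 (.seq (.one (.play 257 (.both (.play 258 (.ref 16 1)) (.play 321 (.ref 12 64)))))
 (.one (.play 257 (.both (.play 258 (.ref 16 1)) (.ref 9 64))))))))
 (.seq (.seq (.seq (.one (.both (.play 0 (.ref 3 0)) (.play 69 (.ref 3 1))))
 (.seq (.one (.play 195 (.both (.play 193 (.both (.play 257 (.ref 6 1)) (.play 196 (.ref 19 128)))) (.play 259 (.ref 4 2)))))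
 (.one (.both (.play 256 (.ref 6 0)) (.play 258 (.ref 4 1))))))
 (.seq (.one (.both (.play 192 (.ref 6 0)) (.play 258 (.both (.play 194 (.ref 4 1)) (.play 257 (.ref 21 64))))))
 (.seq (.one (.both (.play 0 (.ref 3 0)) (.play 128 (.ref 1 64))))
 (.one (.both (.play 1 (.both (.play 65 (.ref 23 0)) (.play 2 (.ref 3 1)))) (.play 130 (.ref 1 65)))))))
 (.seq (.seq (.one (.play 66 (.both (.play 129 (.ref 24 0)) (.play 6 (.ref 2 2)))))
 (.seq (.one (.both (.play 4 (.ref 2 0)) (.play 132 (.ref 0 64))))
 (.one (.play 4 (.both (.play 3 (.ref 2 0)) (.play 132 (.both (.play 68 (.ref 26 1)) (.play 131 (.ref 0 64)))))))))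
 (.seq (.one (.play 68 (.both (.play 67 (.ref 0 0)) (.play 69 (.ref 0 1)))))
 (.seq (.one (.play 68 (.both (.play 1 (.ref 3 0)) (.play 5 (.ref 2 1)))))
 (.one (.play 4 (.both (.play 3 (.ref 2 0)) (.ref 29 0)))))))))
 (.seq (.seq (.seq (.seq (.one (.play 68 (.both (.ref 30 1) (.ref 28 64))))
 (.seq (.one (.play 69 (.both (.play 3 (.both (.play 4 (.ref 2 0)) (.play 70 (.ref 3 2)))) (.ref 28 65))))
 (.one (.play 4 (.both (.play 3 (.ref 2 0)) (.play 5 (.ref 2 1)))))))
 (.seq (.one (.play 68 (.both (.ref 33 0) (.both (.ref 32 0) (.both (.ref 31 1) (.ref 27 1))))))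
 (.seq (.one (.play 65 (.both (.play 0 (.ref 3 0)) (.play 4 (.ref 2 1)))))
 (.one (.play 1 (.both (.ref 35 0) (.play 2 (.ref 3 1))))))))
 (.seq (.seq (.one (.play 65 (.both (.play 64 (.ref 1 0)) (.play 66 (.ref 1 1)))))
 (.seq (.one (.play 194 (.both (.play 198 (.both (.play 262 (.ref 4 5)) (.ref 37 193))) (.ref 36 128))))
 (.one (.play 196 (.both (.play 195 (.both (.ref 38 0) (.both (.play 198 (.both (.play 262 (.ref 4 5)) (.ref 34 131))) (.ref 25 128)))) (.play 260 (.ref 6 4)))))))
 (.seq (.one (.both (.play 64 (.ref 5 0)) (.play 320 (.ref 5 64))))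
 (.seq (.one (.play 1 (.both (.play 0 (.ref 3 0)) (.play 2 (.ref 3 1)))))
 (.one (.both (.ref 41 0) (.ref 33 1)))))))
 (.seq (.seq (.seq (.one (.both (.ref 41 0) (.ref 28 65)))
 (.seq (.one (.play 69 (.both (.play 65 (.ref 42 0)) (.both (.play 70 (.ref 43 1)) (.both (.play 70 (.ref 42 1)) (.ref 27 2))))))
 (.one (.both (.play 258 (.ref 6 2)) (.ref 44 128)))))
 (.seq (.one (.play 196 (.both (.play 194 (.ref 45 0)) (.play 260 (.ref 4 3)))))
 (.seq (.one (.both (.play 0 (.ref 7 0)) (.play 128 (.ref 7 64))))
 (.one (.both (.play 64 (.ref 47 0)) (.play 322 (.ref 16 65)))))))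
 (.seq (.seq (.one (.both (.play 64 (.ref 47 0)) (.play 320 (.ref 14 64))))
 (.seq (.one (.both (.play 323 (.ref 49 2)) (.both (.play 323 (.ref 48 2)) (.ref 46 64))))
 (.one (.both (.play 64 (.ref 2 0)) (.play 68 (.ref 2 1))))))
 (.seq (.one (.both (.play 65 (.ref 51 0)) (.play 6 (.ref 1 2))))
 (.seq (.one (.both (.ref 36 0) (.play 6 (.ref 2 2))))
 (.one (.both (.play 67 (.ref 2 0)) (.play 5 (.ref 1 1))))))))))
 (.seq (.seq (.seq (.seq (.seq (.one (.both (.play 64 (.ref 2 0)) (.play 5 (.ref 54 1))))
 (.seq (.one (.both (.play 64 (.ref 2 0)) (.play 2 (.ref 1 1))))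
 (.one (.both (.play 65 (.ref 56 0)) (.play 6 (.ref 1 2))))))
 (.seq (.one (.both (.play 65 (.both (.play 3 (.ref 56 0)) (.play 68 (.ref 2 1)))) (.both (.play 3 (.ref 57 0)) (.both (.play 68 (.ref 55 1)) (.play 6 (.both (.play 3 (.ref 1 2)) (.play 68 (.ref 54 2))))))))
 (.seq (.one (.both (.play 129 (.both (.play 65 (.ref 23 0)) (.play 130 (.ref 1 65)))) (.play 2 (.ref 3 1))))
 (.one (.play 66 (.both (.ref 36 0) (.ref 37 65)))))))
 (.seq (.seq (.one (.both (.play 0 (.ref 3 0)) (.ref 30 1)))
 (.seq (.one (.both (.play 0 (.ref 3 0)) (.play 5 (.ref 2 1))))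
 (.one (.play 4 (.both (.play 3 (.ref 2 0)) (.play 68 (.ref 62 0)))))))
 (.seq (.one (.play 68 (.both (.ref 33 0) (.both (.play 3 (.both (.play 4 (.ref 2 0)) (.play 69 (.ref 19 1)))) (.both (.ref 63 1) (.play 69 (.ref 61 1)))))))
 (.seq (.one (.play 68 (.both (.play 69 (.ref 61 1)) (.ref 28 64))))
 (.one (.play 68 (.both (.ref 63 1) (.ref 28 64))))))))
 (.seq (.seq (.seq (.one (.play 195 (.both (.play 259 (.ref 7 2)) (.play 196 (.ref 0 128)))))
 (.seq (.one (.play 67 (.both (.ref 67 0) (.play 68 (.ref 2 64)))))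
 (.one (.both (.ref 37 0) (.ref 28 1)))))
 (.seq (.one (.both (.play 0 (.ref 4 0)) (.play 321 (.ref 4 64))))
 (.seq (.one (.play 193 (.both (.play 257 (.both (.play 258 (.both (.play 65 (.ref 70 1)) (.play 197 (.ref 1 193)))) (.play 256 (.ref 1 192)))) (.play 128 (.ref 3 128)))))
 (.one (.play 129 (.both (.ref 71 0) (.play 130 (.ref 3 129))))))))
 (.seq (.seq (.one (.play 194 (.both (.ref 72 0) (.both (.play 198 (.ref 43 129)) (.play 198 (.ref 69 193))))))
 (.seq (.one (.play 68 (.both (.play 5 (.ref 2 1)) (.play 129 (.ref 1 64)))))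
 (.one (.play 5 (.both (.play 129 (.both (.ref 74 1) (.play 128 (.ref 1 64)))) (.play 4 (.ref 2 1)))))))
 (.seq (.one (.both (.play 256 (.both (.play 192 (.ref 6 0)) (.play 257 (.ref 21 64)))) (.play 194 (.ref 4 1))))
 (.seq (.one (.play 65 (.both (.play 1 (.ref 5 0)) (.play 129 (.ref 5 64)))))
 (.one (.both (.ref 77 0) (.play 321 (.ref 16 64)))))))))
 (.seq (.seq (.seq (.seq (.one (.both (.ref 77 1) (.play 320 (.ref 14 64))))
 (.seq (.one (.play 321 (.both (.play 65 (.ref 78 1)) (.both (.play 385 (.ref 79 64)) (.both (.play 385 (.ref 78 65)) (.play 386 (.ref 76 128)))))))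
 (.one (.both (.ref 80 0) (.play 128 (.ref 3 128))))))
 (.seq (.one (.play 257 (.both (.play 129 (.ref 81 0)) (.play 256 (.ref 1 192)))))
 (.seq (.one (.play 65 (.both (.play 67 (.ref 51 0)) (.play 2 (.ref 1 1)))))
 (.one (.both (.play 1 (.ref 5 0)) (.play 320 (.ref 5 64)))))))
 (.seq (.seq (.one (.play 129 (.both (.play 65 (.both (.play 66 (.both (.play 257 (.ref 84 1)) (.play 133 (.ref 3 65)))) (.play 64 (.ref 3 64)))) (.play 192 (.ref 1 128)))))
 (.seq (.one (.play 68 (.both (.play 1 (.ref 3 0)) (.play 129 (.ref 1 64)))))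
 (.one (.both (.play 0 (.ref 0 0)) (.play 70 (.ref 3 2))))))
 (.seq (.one (.both (.play 0 (.ref 4 0)) (.play 321 (.ref 7 64))))
 (.seq (.one (.play 258 (.both (.play 130 (.both (.play 194 (.ref 81 1)) (.both (.play 259 (.both (.play 194 (.both (.play 323 (.ref 88 66)) (.play 129 (.ref 3 129)))) (.play 198 (.ref 1 194)))) (.both (.play 129 (.both (.play 131 (.ref 87 128)) (.play 194 (.ref 3 129)))) (.ref 86 130))))) (.both (.ref 85 65) (.both (.ref 83 192) (.play 259 (.ref 52 192)))))))
 (.one (.play 195 (.both (.ref 89 0) (.both (.play 194 (.both (.ref 82 1) (.play 134 (.ref 2 130)))) (.both (.play 198 (.both (.ref 68 67) (.both (.ref 75 130) (.play 199 (.ref 69 194))))) (.play 134 (.ref 55 130)))))))))))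
 (.seq (.seq (.seq (.one (.play 257 (.both (.play 258 (.ref 16 1)) (.ref 11 64))))
 (.seq (.one (.play 321 (.both (.play 192 (.both (.play 256 (.ref 6 0)) (.play 385 (.ref 7 128)))) (.play 322 (.ref 16 65)))))
 (.one (.play 257 (.both (.play 256 (.ref 14 0)) (.both (.ref 92 0) (.both (.play 320 (.ref 22 64)) (.ref 91 64))))))))
 (.seq (.one (.both (.play 0 (.ref 0 0)) (.play 4 (.ref 0 1))))
 (.seq (.one (.both (.play 1 (.ref 94 0)) (.play 70 (.ref 3 2))))
 (.one (.play 196 (.both (.play 260 (.ref 4 3)) (.play 197 (.ref 95 128))))))))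
 (.seq (.seq (.one (.play 1 (.both (.play 0 (.ref 3 0)) (.play 193 (.ref 76 0)))))
 (.seq (.one (.both (.play 192 (.ref 4 0)) (.play 321 (.ref 7 64))))
 (.one (.both (.play 0 (.ref 4 0)) (.play 321 (.ref 98 64))))))
 (.seq (.one (.both (.play 193 (.ref 6 0)) (.play 320 (.ref 5 64))))
 (.seq (.one (.both (.play 1 (.ref 6 0)) (.play 320 (.ref 100 64))))
 (.one (.play 66 (.both (.play 1 (.ref 59 0)) (.ref 34 2)))))))))))
 (.seq (.seq (.seq (.seq (.seq (.seq (.one (.both (.play 65 (.ref 7 0)) (.play 321 (.ref 7 64))))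
 (.seq (.one (.both (.play 0 (.ref 4 0)) (.play 321 (.ref 103 64))))
 (.one (.both (.play 2 (.ref 4 2)) (.play 260 (.ref 0 192))))))
 (.seq (.one (.play 197 (.both (.play 194 (.both (.play 261 (.ref 105 2)) (.play 257 (.ref 24 128)))) (.both (.play 261 (.ref 104 4)) (.ref 102 128)))))
 (.seq (.one (.both (.play 1 (.ref 6 0)) (.play 128 (.ref 5 64))))
 (.one (.both (.play 65 (.ref 107 0)) (.play 384 (.ref 5 128)))))))
 (.seq (.seq (.one (.both (.play 192 (.ref 107 0)) (.play 257 (.ref 6 64))))
 (.seq (.one (.both (.play 65 (.ref 109 0)) (.both (.play 192 (.ref 108 0)) (.both (.play 257 (.ref 101 64)) (.play 384 (.both (.play 192 (.ref 5 128)) (.play 257 (.ref 100 128))))))))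
 (.one (.play 67 (.both (.ref 60 0) (.both (.play 2 (.ref 59 1)) (.both (.play 66 (.both (.play 4 (.both (.play 65 (.ref 2 1)) (.play 3 (.ref 3 3)))) (.ref 37 65))) (.ref 41 2))))))))
 (.seq (.one (.play 71 (.both (.ref 111 0) (.ref 27 4))))
 (.seq (.one (.both (.play 198 (.both (.play 262 (.ref 4 5)) (.ref 112 128))) (.play 260 (.ref 6 4))))
 (.one (.both (.play 65 (.ref 3 0)) (.play 69 (.ref 3 1))))))))
 (.seq (.seq (.seq (.one (.both (.play 0 (.ref 0 0)) (.play 69 (.ref 114 1))))
 (.seq (.one (.play 66 (.both (.play 2 (.ref 7 2)) (.play 65 (.ref 115 64)))))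
 (.one (.play 68 (.both (.play 0 (.ref 3 0)) (.play 129 (.ref 1 64)))))))
 (.seq (.one (.play 65 (.both (.play 1 (.both (.play 64 (.ref 1 0)) (.play 68 (.ref 0 1)))) (.play 66 (.ref 1 1)))))
 (.seq (.one (.both (.ref 118 0) (.play 70 (.ref 0 2))))
 (.one (.play 68 (.both (.play 0 (.ref 3 0)) (.ref 33 0)))))))
 (.seq (.seq (.one (.both (.play 64 (.ref 1 0)) (.play 69 (.ref 0 1))))
 (.seq (.one (.play 65 (.both (.ref 41 0) (.ref 37 64))))
 (.one (.play 66 (.both (.ref 122 0) (.ref 28 66))))))
 (.seq (.one (.play 66 (.both (.ref 41 1) (.ref 118 64))))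
 (.seq (.one (.play 68 (.both (.ref 33 0) (.play 69 (.ref 69 64)))))
 (.one (.play 68 (.both (.ref 33 0) (.ref 28 64)))))))))
 (.seq (.seq (.seq (.seq (.one (.play 67 (.both (.play 0 (.ref 0 0)) (.play 6 (.ref 1 2)))))
 (.seq (.one (.play 69 (.both (.ref 126 2) (.ref 37 64))))
 (.one (.play 69 (.both (.ref 128 1) (.both (.play 132 (.both (.play 130 (.both (.ref 127 64) (.play 129 (.ref 1 65)))) (.play 133 (.ref 0 65)))) (.ref 28 65)))))))
 (.seq (.one (.both (.play 0 (.ref 0 0)) (.play 69 (.ref 0 1))))
 (.seq (.one (.play 67 (.both (.play 68 (.both (.play 1 (.ref 130 0)) (.play 7 (.ref 1 3)))) (.play 66 (.ref 1 2)))))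
 (.one (.play 70 (.both (.ref 33 2) (.ref 131 64)))))))
 (.seq (.seq (.one (.both (.play 1 (.ref 6 0)) (.play 320 (.ref 5 64))))
 (.seq (.one (.play 133 (.both (.play 197 (.both (.play 69 (.both (.play 196 (.both (.play 260 (.ref 133 4)) (.play 129 (.ref 0 129)))) (.play 70 (.ref 2 66)))) (.play 198 (.ref 0 130)))) (.both (.ref 132 64) (.both (.ref 129 65) (.both (.ref 126 66) (.ref 125 66)))))))
 (.one (.play 132 (.both (.play 4 (.both (.play 3 (.ref 2 0)) (.play 68 (.ref 26 1)))) (.play 131 (.ref 0 64)))))))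
 (.seq (.one (.both (.ref 33 1) (.ref 37 64)))
 (.seq (.one (.play 69 (.both (.play 70 (.ref 136 1)) (.both (.ref 135 2) (.both (.play 65 (.ref 69 64)) (.play 70 (.ref 69 65)))))))
 (.one (.both (.play 1 (.ref 59 0)) (.both (.play 65 (.ref 42 0)) (.both (.play 65 (.ref 136 0)) (.play 70 (.ref 42 1))))))))))
 (.seq (.seq (.seq (.one (.play 257 (.both (.play 193 (.ref 4 0)) (.play 256 (.both (.play 65 (.ref 5 0)) (.play 321 (.ref 4 64)))))))
 (.seq (.one (.play 257 (.both (.play 1 (.both (.play 256 (.ref 14 0)) (.play 0 (.ref 3 0)))) (.ref 139 65))))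
 (.one (.play 193 (.both (.play 257 (.both (.play 65 (.both (.play 66 (.ref 5 1)) (.play 64 (.ref 3 64)))) (.both (.play 66 (.ref 100 1)) (.ref 140 64)))) (.play 192 (.ref 1 128)))))))
 (.seq (.one (.play 132 (.both (.ref 141 0) (.both (.play 133 (.ref 43 64)) (.play 133 (.ref 69 128))))))
 (.seq (.one (.play 195 (.both (.play 259 (.both (.play 67 (.both (.play 66 (.ref 7 2)) (.play 68 (.ref 2 64)))) (.both (.play 66 (.ref 98 2)) (.play 323 (.both (.play 67 (.both (.play 68 (.ref 2 64)) (.play 324 (.ref 16 67)))) (.ref 11 130)))))) (.play 196 (.ref 0 128)))))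
 (.one (.both (.play 130 (.both (.ref 143 2) (.both (.play 129 (.ref 136 64)) (.play 129 (.ref 69 128))))) (.both (.ref 142 2) (.both (.play 130 (.ref 138 64)) (.both (.ref 44 65) (.ref 137 65)))))))))
 (.seq (.seq (.one (.play 257 (.both (.play 256 (.ref 14 0)) (.play 258 (.ref 16 1)))))
 (.seq (.one (.play 257 (.both (.play 64 (.ref 7 0)) (.ref 145 64))))
 (.one (.play 67 (.both (.play 195 (.both (.ref 146 2) (.play 196 (.ref 0 128)))) (.play 68 (.ref 2 64)))))))
 (.seq (.one (.play 68 (.both (.play 3 (.ref 0 0)) (.play 66 (.ref 114 0)))))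
 (.seq (.one (.play 64 (.both (.play 4 (.ref 2 0)) (.play 131 (.ref 0 64)))))
 (.one (.both (.play 192 (.ref 4 0)) (.play 129 (.ref 103 0))))))))))
 (.seq (.seq (.seq (.seq (.seq (.one (.play 196 (.both (.play 67 (.both (.play 195 (.both (.play 260 (.ref 4 3)) (.play 128 (.ref 0 128)))) (.both (.play 68 (.both (.play 132 (.both (.play 260 (.ref 7 3)) (.play 69 (.ref 2 65)))) (.play 128 (.ref 2 64)))) (.both (.play 260 (.ref 150 3)) (.ref 149 64))))) (.both (.play 132 (.both (.play 68 (.both (.play 67 (.both (.play 260 (.ref 7 3)) (.play 128 (.ref 2 64)))) (.play 69 (.ref 2 65)))) (.play 197 (.ref 0 129)))) (.both (.play 195 (.ref 115 128)) (.ref 148 129))))))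
 (.seq (.one (.both (.ref 82 0) (.ref 147 65)))
 (.one (.play 257 (.both (.play 66 (.ref 5 1)) (.ref 145 64))))))
 (.seq (.one (.play 65 (.both (.play 193 (.both (.ref 153 0) (.play 192 (.ref 1 128)))) (.play 64 (.ref 3 64)))))
 (.seq (.one (.play 132 (.both (.ref 154 0) (.ref 27 65))))
 (.one (.both (.play 1 (.ref 6 0)) (.play 320 (.ref 6 64)))))))
 (.seq (.seq (.one (.play 196 (.both (.play 260 (.both (.play 259 (.both (.play 68 (.ref 156 3)) (.play 192 (.ref 0 192)))) (.play 261 (.ref 0 193)))) (.play 133 (.ref 2 129)))))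
 (.seq (.one (.play 132 (.both (.ref 157 0) (.play 131 (.ref 2 128)))))
 (.one (.play 197 (.both (.ref 158 2) (.both (.play 193 (.ref 136 128)) (.play 193 (.ref 69 192))))))))
 (.seq (.one (.play 194 (.both (.ref 82 1) (.both (.ref 122 128) (.both (.play 193 (.ref 42 128)) (.play 193 (.ref 136 128)))))))
 (.seq (.one (.play 196 (.both (.ref 82 0) (.both (.play 197 (.ref 43 128)) (.play 197 (.ref 69 192))))))
 (.one (.both (.play 65 (.ref 43 0)) (.both (.play 129 (.ref 24 0)) (.both (.play 65 (.ref 69 64)) (.play 70 (.ref 69 65))))))))))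
 (.seq (.seq (.seq (.one (.play 321 (.both (.play 65 (.ref 49 0)) (.both (.play 385 (.ref 49 64)) (.both (.play 385 (.ref 48 64)) (.play 384 (.ref 22 128)))))))
 (.seq (.one (.both (.ref 163 2) (.play 132 (.ref 2 128))))
 (.one (.play 259 (.both (.play 131 (.ref 164 0)) (.play 260 (.ref 0 192)))))))
 (.seq (.one (.play 194 (.both (.ref 165 2) (.both (.play 193 (.ref 136 128)) (.play 193 (.ref 69 192))))))
 (.seq (.one (.play 69 (.both (.ref 41 0) (.ref 126 2))))
 (.one (.play 68 (.both (.play 69 (.ref 42 0)) (.ref 28 64)))))))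
 (.seq (.seq (.one (.play 3 (.both (.play 64 (.ref 2 0)) (.play 70 (.ref 3 2)))))
 (.seq (.one (.play 2 (.both (.ref 169 0) (.play 1 (.ref 3 1)))))
 (.one (.play 69 (.both (.play 4 (.both (.ref 170 0) (.play 5 (.ref 2 1)))) (.both (.ref 33 1) (.ref 167 1)))))))
 (.seq (.one (.both (.play 64 (.ref 2 0)) (.play 5 (.ref 2 1))))
 (.seq (.one (.play 197 (.both (.play 133 (.both (.play 261 (.both (.play 132 (.both (.play 68 (.ref 88 4)) (.play 193 (.ref 2 129)))) (.play 262 (.ref 0 194)))) (.play 134 (.ref 2 130)))) (.both (.play 198 (.both (.play 131 (.both (.play 132 (.both (.play 193 (.ref 172 128)) (.play 199 (.ref 3 131)))) (.play 130 (.ref 3 130)))) (.ref 28 194))) (.both (.ref 171 129) (.both (.ref 126 130) (.ref 168 130)))))))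
 (.one (.play 196 (.both (.play 197 (.both (.ref 173 1) (.ref 41 128))) (.both (.ref 147 65) (.both (.ref 167 128) (.both (.ref 27 129) (.play 197 (.both (.ref 167 129) (.both (.play 198 (.both (.ref 41 129) (.ref 125 131))) (.ref 28 193)))))))))))))))
 (.seq (.seq (.seq (.seq (.one (.play 257 (.both (.play 256 (.ref 14 0)) (.play 321 (.ref 78 1)))))
 (.seq (.one (.play 321 (.both (.ref 77 1) (.ref 145 128))))
 (.one (.play 193 (.both (.play 0 (.ref 4 0)) (.play 384 (.ref 5 128)))))))
 (.seq (.one (.both (.play 64 (.ref 2 0)) (.play 5 (.ref 1 1))))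
 (.seq (.one (.play 322 (.both (.play 386 (.both (.play 195 (.both (.play 259 (.both (.play 66 (.ref 70 2)) (.play 450 (.ref 5 194)))) (.play 131 (.ref 5 130)))) (.play 385 (.ref 14 129)))) (.both (.play 323 (.both (.play 321 (.both (.play 259 (.both (.play 66 (.ref 4 66)) (.play 260 (.ref 178 256)))) (.play 385 (.ref 6 129)))) (.play 387 (.ref 4 130)))) (.both (.play 386 (.both (.play 323 (.both (.play 195 (.both (.ref 177 66) (.play 131 (.ref 5 130)))) (.play 387 (.ref 4 130)))) (.both (.ref 176 129) (.play 387 (.ref 16 130))))) (.both (.ref 175 129) (.ref 145 129)))))))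
 (.one (.both (.play 0 (.ref 4 0)) (.play 256 (.ref 4 64)))))))
 (.seq (.seq (.one (.both (.play 64 (.ref 180 0)) (.play 385 (.ref 7 128))))
 (.seq (.one (.both (.play 192 (.ref 180 0)) (.play 129 (.ref 7 64))))
 (.one (.both (.play 0 (.ref 4 0)) (.play 129 (.ref 7 64))))))
 (.seq (.one (.both (.play 64 (.ref 183 0)) (.play 385 (.ref 7 128))))
 (.seq (.one (.play 257 (.both (.play 321 (.ref 49 0)) (.play 258 (.ref 16 1)))))
 (.one (.play 321 (.both (.play 64 (.ref 47 0)) (.ref 145 128))))))))
 (.seq (.seq (.seq (.one (.play 192 (.both (.play 1 (.ref 6 0)) (.play 385 (.ref 7 128)))))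
 (.seq (.one (.both (.play 0 (.ref 0 0)) (.play 69 (.ref 3 1))))
 (.one (.play 385 (.both (.play 192 (.both (.play 256 (.both (.play 65 (.ref 156 0)) (.play 449 (.ref 7 192)))) (.play 128 (.ref 7 128)))) (.play 386 (.ref 16 129)))))))
 (.seq (.one (.play 323 (.both (.ref 189 2) (.both (.play 322 (.both (.play 324 (.both (.play 258 (.both (.play 67 (.ref 6 66)) (.play 257 (.ref 188 256)))) (.play 388 (.ref 4 131)))) (.play 386 (.ref 6 130)))) (.both (.play 387 (.both (.play 322 (.both (.play 194 (.both (.ref 187 66) (.play 130 (.ref 7 130)))) (.play 386 (.ref 6 130)))) (.both (.play 386 (.ref 14 130)) (.ref 186 130)))) (.both (.ref 185 130) (.ref 145 130)))))))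
 (.seq (.one (.both (.play 261 (.ref 4 4)) (.play 194 (.ref 138 128))))
 (.one (.play 195 (.both (.play 197 (.ref 191 0)) (.play 259 (.ref 6 3))))))))
 (.seq (.seq (.one (.play 260 (.both (.play 324 (.ref 79 3)) (.both (.play 324 (.ref 78 4)) (.ref 192 64)))))
 (.seq (.one (.both (.play 257 (.ref 4 0)) (.play 256 (.ref 5 0))))
 (.one (.play 257 (.both (.play 193 (.ref 4 0)) (.play 256 (.ref 194 64)))))))
 (.seq (.one (.play 257 (.both (.play 256 (.ref 14 0)) (.play 321 (.ref 5 65)))))
 (.seq (.one (.both (.play 66 (.ref 5 1)) (.play 320 (.ref 6 64))))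
 (.one (.play 256 (.both (.play 192 (.ref 6 0)) (.play 257 (.ref 197 0)))))))))))))
 (.seq (.seq (.seq (.seq (.seq (.seq (.seq (.one (.play 257 (.both (.play 258 (.ref 16 1)) (.ref 198 64))))
 (.seq (.one (.play 1 (.both (.play 65 (.ref 62 0)) (.play 2 (.ref 3 1)))))
 (.one (.play 66 (.both (.ref 200 0) (.ref 37 65))))))
 (.seq (.one (.play 67 (.both (.play 68 (.ref 3 0)) (.play 4 (.ref 2 0)))))
 (.seq (.one (.play 195 (.both (.play 135 (.both (.play 198 (.both (.play 262 (.both (.play 69 (.ref 4 5)) (.play 263 (.ref 0 195)))) (.ref 202 132))) (.play 134 (.ref 1 131)))) (.both (.play 198 (.own 133 (.both (.ref 201 128) (.ref 31 131)))) (.play 194 (.ref 172 129))))))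
 (.one (.own 4 (.both (.ref 60 0) (.ref 66 3)))))))
 (.seq (.seq (.one (.play 131 (.both (.play 134 (.both (.play 195 (.both (.play 259 (.ref 100 3)) (.play 194 (.ref 1 130)))) (.ref 27 67))) (.both (.play 134 (.ref 204 64)) (.play 130 (.ref 172 65))))))
 (.seq (.one (.play 65 (.both (.play 321 (.both (.play 64 (.ref 47 0)) (.play 385 (.ref 84 129)))) (.play 1 (.ref 4 1)))))
 (.one (.play 4 (.both (.play 3 (.ref 2 0)) (.ref 202 1))))))
 (.seq (.one (.both (.play 0 (.ref 7 0)) (.play 322 (.ref 4 65))))
 (.seq (.one (.play 258 (.both (.play 257 (.ref 208 0)) (.play 194 (.ref 4 1)))))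
 (.one (.play 193 (.both (.play 256 (.ref 6 0)) (.ref 209 0))))))))
 (.seq (.seq (.seq (.one (.play 131 (.both (.play 3 (.both (.play 4 (.ref 2 0)) (.ref 210 2))) (.play 132 (.ref 0 64)))))
 (.seq (.one (.both (.play 64 (.ref 2 0)) (.play 133 (.ref 0 65))))
 (.one (.both (.play 196 (.both (.play 260 (.ref 7 3)) (.play 129 (.ref 212 64)))) (.both (.play 133 (.both (.play 260 (.both (.play 196 (.ref 7 3)) (.ref 211 66))) (.both (.ref 66 66) (.both (.ref 207 66) (.ref 65 66))))) (.play 129 (.ref 172 64)))))))
 (.seq (.one (.both (.play 257 (.ref 6 1)) (.play 132 (.ref 178 128))))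
 (.seq (.one (.play 195 (.both (.play 193 (.ref 214 0)) (.play 259 (.ref 7 2)))))
 (.one (.both (.play 1 (.ref 1 0)) (.play 5 (.ref 1 1)))))))
 (.seq (.seq (.one (.both (.play 64 (.ref 2 0)) (.play 5 (.ref 216 1))))
 (.seq (.one (.play 194 (.both (.play 258 (.ref 6 2)) (.play 193 (.ref 217 128)))))
 (.one (.play 66 (.both (.play 129 (.both (.play 65 (.both (.play 5 (.ref 2 1)) (.play 128 (.ref 1 64)))) (.play 130 (.ref 1 65)))) (.play 1 (.ref 3 1)))))))
 (.seq (.one (.play 130 (.both (.play 195 (.both (.play 197 (.both (.play 261 (.ref 4 4)) (.ref 219 128))) (.play 259 (.ref 6 3)))) (.play 131 (.ref 2 66)))))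
 (.seq (.one (.play 64 (.both (.play 0 (.ref 7 0)) (.play 132 (.ref 3 64)))))
 (.one (.play 134 (.both (.ref 221 3) (.ref 220 64)))))))))
 (.seq (.seq (.seq (.seq (.one (.play 65 (.both (.play 64 (.ref 47 0)) (.play 1 (.ref 4 1)))))
 (.seq (.one (.both (.play 1 (.ref 6 0)) (.play 257 (.ref 6 64))))
 (.one (.both (.play 65 (.ref 224 0)) (.play 384 (.ref 5 128))))))
 (.seq (.one (.play 257 (.both (.play 321 (.ref 225 1)) (.play 256 (.ref 1 192)))))
 (.seq (.one (.both (.play 64 (.ref 1 0)) (.play 5 (.ref 1 1))))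
 (.one (.play 258 (.both (.play 67 (.ref 101 2)) (.play 193 (.both (.play 192 (.ref 2 128)) (.play 257 (.ref 227 192))))))))))
 (.seq (.seq (.one (.play 194 (.both (.ref 228 0) (.both (.play 134 (.both (.play 197 (.both (.ref 226 1) (.ref 202 131))) (.play 133 (.ref 1 130)))) (.play 133 (.ref 178 129))))))
 (.seq (.one (.play 257 (.both (.play 256 (.ref 14 0)) (.ref 139 65))))
 (.one (.both (.ref 223 0) (.ref 230 128)))))
 (.seq (.one (.play 68 (.both (.play 69 (.ref 3 1)) (.ref 28 64))))
 (.seq (.one (.play 66 (.both (.ref 122 0) (.play 133 (.ref 0 66)))))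
 (.one (.both (.play 256 (.ref 6 0)) (.play 194 (.ref 4 1))))))))
 (.seq (.seq (.seq (.one (.play 193 (.both (.play 257 (.ref 6 1)) (.play 196 (.ref 3 128)))))
 (.seq (.one (.play 195 (.both (.play 259 (.ref 6 3)) (.ref 219 128))))
 (.one (.play 197 (.both (.play 130 (.both (.ref 236 0) (.both (.play 195 (.both (.play 259 (.ref 6 3)) (.play 131 (.ref 188 129)))) (.both (.play 131 (.both (.ref 235 2) (.play 70 (.ref 54 66)))) (.play 131 (.both (.play 70 (.ref 54 66)) (.play 129 (.ref 0 129)))))))) (.play 261 (.ref 4 4)))))))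
 (.seq (.one (.both (.play 0 (.ref 3 0)) (.play 133 (.ref 0 65))))
 (.seq (.one (.play 67 (.both (.play 4 (.ref 2 0)) (.play 132 (.both (.play 68 (.ref 238 0)) (.play 131 (.ref 0 64)))))))
 (.one (.both (.play 2 (.ref 5 1)) (.play 321 (.ref 7 64)))))))
 (.seq (.seq (.one (.both (.play 1 (.ref 6 0)) (.play 320 (.ref 40 64))))
 (.seq (.one (.play 260 (.both (.play 196 (.both (.play 195 (.both (.play 132 (.both (.play 68 (.ref 241 3)) (.play 133 (.ref 2 129)))) (.play 256 (.ref 2 192)))) (.play 197 (.ref 2 193)))) (.play 261 (.ref 3 193)))))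
 (.one (.play 259 (.both (.play 262 (.both (.ref 242 3) (.both (.play 325 (.both (.play 198 (.both (.play 389 (.ref 240 132)) (.play 199 (.ref 2 195)))) (.both (.play 326 (.both (.play 390 (.both (.play 391 (.both (.play 198 (.both (.play 199 (.ref 2 195)) (.play 455 (.ref 4 198)))) (.play 323 (.both (.play 322 (.ref 1 258)) (.play 324 (.ref 0 323)))))) (.play 454 (.ref 7 197)))) (.play 327 (.ref 0 259)))) (.play 327 (.both (.play 389 (.both (.play 453 (.ref 7 196)) (.play 390 (.both (.play 388 (.both (.play 452 (.ref 6 196)) (.ref 239 324))) (.play 454 (.ref 4 197)))))) (.play 326 (.ref 0 259))))))) (.both (.ref 128 194) (.both (.ref 27 195) (.ref 65 195)))))) (.both (.play 258 (.ref 162 192)) (.play 198 (.ref 178 194))))))))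
 (.seq (.one (.both (.play 3 (.ref 0 0)) (.play 65 (.ref 3 0))))
 (.seq (.one (.both (.play 3 (.ref 0 0)) (.play 69 (.ref 3 1))))
 (.one (.play 68 (.both (.play 1 (.ref 3 0)) (.play 128 (.ref 1 64)))))))))))
 (.seq (.seq (.seq (.seq (.seq (.one (.play 132 (.both (.play 260 (.both (.play 196 (.both (.ref 80 3) (.both (.play 195 (.ref 26 129)) (.both (.play 195 (.both (.ref 246 129) (.play 261 (.ref 0 193)))) (.play 195 (.both (.play 133 (.ref 2 129)) (.ref 246 129))))))) (.both (.play 259 (.ref 114 192)) (.both (.play 259 (.ref 245 192)) (.play 259 (.ref 244 192)))))) (.play 131 (.ref 1 128)))))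
 (.seq (.one (.play 258 (.both (.play 259 (.both (.play 195 (.both (.play 2 (.ref 4 2)) (.ref 96 64))) (.play 323 (.ref 4 66)))) (.play 322 (.ref 5 66)))))
 (.one (.play 65 (.both (.play 1 (.ref 4 1)) (.play 320 (.ref 6 64)))))))
 (.seq (.one (.play 257 (.both (.ref 249 1) (.play 196 (.ref 178 192)))))
 (.seq (.one (.both (.play 1 (.ref 5 0)) (.ref 139 64)))
 (.one (.play 257 (.both (.play 256 (.ref 14 0)) (.play 321 (.ref 251 65))))))))
 (.seq (.seq (.one (.play 194 (.both (.ref 165 2) (.both (.play 193 (.ref 43 128)) (.play 193 (.ref 42 128))))))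
 (.seq (.one (.play 68 (.both (.ref 126 1) (.play 129 (.ref 1 64)))))
 (.one (.play 129 (.both (.ref 254 1) (.play 128 (.ref 1 64)))))))
 (.seq (.one (.play 69 (.both (.ref 168 2) (.ref 37 64))))
 (.seq (.one (.play 68 (.both (.play 67 (.both (.play 0 (.ref 0 0)) (.play 6 (.ref 227 2)))) (.play 69 (.ref 0 1)))))
 (.one (.play 65 (.both (.ref 41 0) (.ref 257 64))))))))
 (.seq (.seq (.seq (.one (.play 66 (.both (.ref 41 1) (.play 65 (.ref 69 64)))))
 (.seq (.one (.play 67 (.both (.ref 123 0) (.both (.ref 37 66) (.play 132 (.both (.play 134 (.both (.ref 127 66) (.play 135 (.ref 0 67)))) (.play 131 (.ref 1 67))))))))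
 (.one (.play 132 (.both (.play 196 (.both (.play 68 (.both (.play 197 (.both (.play 261 (.ref 88 4)) (.play 136 (.ref 1 132)))) (.play 67 (.ref 3 67)))) (.play 195 (.ref 1 131)))) (.both (.ref 260 64) (.both (.ref 259 65) (.both (.ref 122 66) (.ref 258 66)))))))))
 (.seq (.one (.play 68 (.both (.play 1 (.ref 19 0)) (.ref 28 64))))
 (.seq (.one (.play 3 (.both (.play 4 (.ref 2 0)) (.ref 262 1))))
 (.one (.play 4 (.both (.play 3 (.both (.play 64 (.ref 2 0)) (.play 70 (.ref 19 2)))) (.play 5 (.ref 2 1))))))))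
 (.seq (.seq (.one (.play 133 (.both (.ref 134 1) (.ref 37 128))))
 (.seq (.one (.play 196 (.both (.play 132 (.both (.play 260 (.both (.ref 190 1) (.play 261 (.ref 0 193)))) (.play 133 (.ref 2 129)))) (.both (.ref 265 64) (.both (.play 257 (.both (.play 133 (.both (.play 132 (.ref 2 129)) (.ref 74 129))) (.play 256 (.ref 1 192)))) (.ref 135 129))))))
 (.one (.play 66 (.both (.play 65 (.ref 42 0)) (.ref 37 65))))))
 (.seq (.one (.play 67 (.both (.ref 267 0) (.ref 28 67))))
 (.seq (.one (.play 68 (.both (.ref 268 0) (.both (.ref 123 1) (.ref 41 3)))))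
 (.one (.play 65 (.both (.ref 264 0) (.ref 37 64)))))))))
 (.seq (.seq (.seq (.seq (.one (.play 66 (.both (.ref 122 0) (.ref 33 2))))
 (.seq (.one (.play 67 (.both (.ref 271 0) (.both (.ref 41 2) (.play 4 (.both (.play 6 (.both (.ref 169 2) (.play 7 (.ref 2 3)))) (.play 3 (.ref 3 3))))))))
 (.one (.play 196 (.both (.play 132 (.both (.play 260 (.both (.play 133 (.both (.play 69 (.ref 133 4)) (.play 200 (.ref 3 132)))) (.play 259 (.ref 1 195)))) (.play 131 (.ref 3 131)))) (.both (.ref 272 128) (.both (.ref 267 129) (.both (.ref 122 130) (.ref 270 130)))))))))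
 (.seq (.one (.both (.play 193 (.ref 6 0)) (.play 64 (.ref 5 0))))
 (.seq (.one (.both (.play 66 (.ref 162 0)) (.play 5 (.ref 5 4))))
 (.one (.play 67 (.both (.play 69 (.ref 275 0)) (.play 3 (.ref 7 3))))))))
 (.seq (.seq (.one (.play 324 (.both (.play 68 (.ref 48 3)) (.both (.play 388 (.both (.ref 276 128) (.both (.play 452 (.ref 49 131)) (.play 452 (.ref 79 131))))) (.ref 153 131)))))
 (.seq (.one (.play 324 (.both (.play 68 (.ref 49 3)) (.both (.play 388 (.both (.ref 276 128) (.both (.play 452 (.ref 48 131)) (.play 452 (.ref 78 132))))) (.ref 153 131)))))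
 (.one (.play 65 (.both (.play 193 (.ref 224 0)) (.play 128 (.ref 5 64)))))))
 (.seq (.one (.play 65 (.both (.play 0 (.ref 3 0)) (.play 132 (.ref 0 65)))))
 (.seq (.one (.play 1 (.both (.play 133 (.both (.ref 280 0) (.play 134 (.ref 0 66)))) (.play 2 (.ref 3 1)))))
 (.one (.play 133 (.both (.ref 261 0) (.ref 28 133))))))))
 (.seq (.seq (.seq (.one (.play 200 (.both (.play 72 (.ref 6 7)) (.play 201 (.both (.play 198 (.both (.ref 282 64) (.both (.play 133 (.ref 59 132)) (.both (.ref 281 132) (.play 262 (.both (.play 326 (.both (.play 325 (.both (.play 134 (.both (.play 389 (.ref 6 133)) (.play 133 (.ref 3 133)))) (.play 265 (.both (.play 266 (.ref 0 198)) (.play 264 (.ref 1 261)))))) (.play 390 (.ref 5 134)))) (.play 261 (.ref 1 197)))))))) (.both (.ref 137 133) (.play 202 (.ref 19 134))))))))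
 (.seq (.one (.play 65 (.both (.play 0 (.ref 7 0)) (.play 256 (.ref 6 64)))))
 (.one (.play 64 (.both (.play 320 (.both (.ref 284 0) (.play 384 (.ref 6 128)))) (.play 128 (.ref 7 64)))))))
 (.seq (.one (.play 129 (.both (.ref 285 0) (.play 130 (.ref 5 65)))))
 (.seq (.one (.play 132 (.both (.play 68 (.ref 49 3)) (.both (.play 68 (.ref 48 3)) (.ref 192 128)))))
 (.one (.play 193 (.both (.ref 85 0) (.play 194 (.ref 1 129))))))))
 (.seq (.seq (.one (.play 64 (.both (.play 65 (.ref 208 0)) (.play 128 (.ref 7 64)))))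
 (.seq (.one (.play 129 (.both (.ref 289 0) (.play 66 (.ref 5 65)))))
 (.one (.play 193 (.both (.play 321 (.both (.ref 290 0) (.play 320 (.ref 1 256)))) (.play 192 (.ref 3 192)))))))
 (.seq (.one (.both (.play 0 (.ref 7 0)) (.play 2 (.ref 5 1))))
 (.seq (.one (.both (.play 65 (.ref 292 0)) (.play 128 (.ref 7 64))))
 (.one (.both (.play 64 (.ref 293 0)) (.play 130 (.ref 5 65)))))))))))
 (.seq (.seq (.seq (.seq (.seq (.seq (.one (.play 129 (.both (.play 65 (.ref 48 0)) (.both (.play 66 (.ref 294 0)) (.both (.play 65 (.ref 78 1)) (.play 385 (.ref 78 65)))))))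
 (.seq (.one (.both (.ref 295 0) (.play 320 (.ref 1 256))))
 (.one (.play 193 (.both (.play 321 (.ref 296 0)) (.play 192 (.ref 3 192)))))))
 (.seq (.one (.play 258 (.both (.ref 297 1) (.both (.play 257 (.ref 43 192)) (.play 257 (.ref 69 256))))))
 (.seq (.one (.both (.play 3 (.ref 94 0)) (.play 66 (.ref 3 1))))
 (.one (.both (.play 64 (.ref 2 0)) (.play 6 (.ref 1 2)))))))
 (.seq (.seq (.one (.play 194 (.both (.play 322 (.both (.play 258 (.ref 296 1)) (.both (.play 195 (.both (.play 258 (.both (.play 131 (.ref 133 66)) (.play 321 (.ref 1 257)))) (.play 262 (.ref 3 194)))) (.both (.ref 86 194) (.play 321 (.both (.play 323 (.ref 300 256)) (.play 258 (.ref 1 257)))))))) (.both (.ref 71 65) (.both (.play 193 (.ref 299 192)) (.play 195 (.ref 95 192)))))))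
 (.seq (.one (.play 129 (.both (.play 64 (.ref 47 0)) (.play 384 (.ref 6 128)))))
 (.one (.both (.play 0 (.ref 7 0)) (.play 320 (.ref 22 64))))))
 (.seq (.one (.play 259 (.both (.play 131 (.both (.play 2 (.ref 7 2)) (.play 132 (.ref 2 128)))) (.play 260 (.ref 0 192)))))
 (.seq (.one (.both (.ref 82 0) (.both (.play 197 (.ref 136 128)) (.play 197 (.ref 42 128)))))
 (.one (.play 259 (.both (.play 130 (.ref 99 2)) (.play 260 (.ref 0 192)))))))))
 (.seq (.seq (.seq (.one (.both (.play 129 (.both (.play 65 (.ref 5 1)) (.play 128 (.ref 3 128)))) (.play 256 (.ref 1 192))))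
 (.seq (.one (.play 261 (.both (.play 133 (.ref 48 4)) (.both (.ref 302 4) (.ref 90 128)))))
 (.one (.play 4 (.both (.play 67 (.ref 2 0)) (.play 2 (.ref 216 0)))))))
 (.seq (.one (.play 64 (.both (.play 3 (.ref 2 0)) (.play 131 (.ref 0 64)))))
 (.seq (.one (.both (.play 66 (.both (.play 65 (.ref 292 0)) (.play 130 (.ref 5 65)))) (.play 128 (.ref 7 64))))
 (.one (.play 129 (.both (.play 65 (.ref 49 0)) (.both (.play 65 (.ref 79 0)) (.both (.play 64 (.ref 311 0)) (.play 385 (.ref 49 64))))))))))
 (.seq (.seq (.one (.both (.ref 312 2) (.play 324 (.ref 0 256))))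
 (.seq (.one (.play 132 (.both (.play 68 (.both (.play 67 (.both (.play 260 (.ref 13 3)) (.play 128 (.ref 2 64)))) (.play 69 (.ref 2 65)))) (.play 197 (.ref 0 129)))))
 (.one (.both (.play 198 (.both (.ref 314 2) (.play 197 (.ref 0 130)))) (.both (.play 129 (.ref 43 64)) (.play 129 (.ref 42 64)))))))
 (.seq (.one (.play 130 (.both (.ref 288 0) (.both (.play 134 (.ref 136 65)) (.play 134 (.ref 42 65))))))
 (.seq (.one (.play 260 (.both (.ref 297 0) (.both (.play 261 (.ref 136 192)) (.play 261 (.ref 42 192))))))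
 (.one (.play 264 (.both (.play 262 (.both (.play 261 (.both (.ref 301 2) (.both (.ref 268 193) (.both (.ref 123 194) (.play 265 (.ref 43 196)))))) (.both (.ref 166 67) (.both (.ref 174 69) (.both (.ref 151 133) (.play 261 (.ref 138 195))))))) (.both (.play 262 (.both (.ref 298 3) (.both (.ref 316 131) (.both (.ref 151 133) (.play 265 (.both (.ref 265 133) (.both (.ref 147 134) (.both (.ref 128 197) (.both (.play 266 (.both (.ref 33 198) (.both (.ref 128 198) (.ref 256 198)))) (.ref 27 198)))))))))) (.both (.play 262 (.both (.ref 317 5) (.both (.ref 89 67) (.both (.ref 166 67) (.both (.ref 253 67) (.play 261 (.ref 138 195))))))) (.both (.play 265 (.both (.ref 298 4) (.both (.ref 266 70) (.both (.ref 316 132) (.both (.play 266 (.ref 315 133)) (.ref 137 197)))))) (.both (.play 265 (.both (.play 266 (.both (.play 203 (.both (.play 331 (.both (.play 267 (.ref 313 8)) (.both (.play 202 (.both (.play 267 (.both (.play 138 (.ref 88 74)) (.play 332 (.ref 0 264)))) (.play 263 (.ref 2 199)))) (.both (.ref 310 199) (.play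 332 (.both (.play 330 (.ref 87 263)) (.play 267 (.ref 0 264)))))))) (.both (.ref 157 71) (.both (.play 202 (.ref 217 199)) (.ref 309 200))))) (.both (.play 262 (.ref 136 197)) (.both (.ref 128 198) (.ref 256 198))))) (.both (.ref 160 68) (.both (.ref 89 68) (.both (.ref 155 134) (.ref 44 197)))))) (.both (.play 391 (.both (.play 327 (.both (.ref 287 67) (.both (.ref 286 70) (.both (.ref 283 128) (.play 200 (.ref 274 135)))))) (.both (.play 392 (.both (.ref 308 67) (.both (.play 390 (.both (.play 393 (.both (.play 199 (.both (.play 328 (.ref 184 71)) (.play 454 (.ref 307 197)))) (.both (.ref 306 198) (.ref 158 198)))) (.both (.play 389 (.both (.ref 82 196) (.ref 304 197))) (.both (.play 393 (.both (.ref 158 198) (.ref 288 260))) (.both (.play 393 (.both (.ref 306 198) (.ref 288 260))) (.both (.play 389 (.ref 305 196)) (.both (.play 389 (.both (.ref 304 197) (.both (.play 393 (.ref 43 324)) (.play 393 (.ref 42 324))))) (.play 389 (.both (.ref 304 197) (.both (.play 393 (.ref 136 324)) (.play 393 (.ref 69 388))))))))))))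 (.both (.play 328 (.both (.play 199 (.ref 184 71)) (.both (.ref 302 71) (.both (.play 455 (.ref 101 199)) (.play 456 (.ref 303 199)))))) (.both (.play 328 (.both (.play 199 (.ref 184 71)) (.both (.ref 302 71) (.both (.play 455 (.ref 101 199)) (.play 456 (.both (.play 199 (.ref 7 199)) (.play 520 (.both (.play 519 (.ref 14 263)) (.both (.ref 92 263) (.both (.ref 145 327) (.ref 91 327))))))))))) (.both (.play 390 (.both (.play 389 (.both (.ref 301 130) (.both (.play 393 (.ref 43 324)) (.play 456 (.ref 119 387))))) (.both (.ref 298 131) (.both (.play 393 (.both (.ref 291 133) (.both (.ref 137 325) (.both (.ref 126 326) (.play 394 (.both (.ref 33 326) (.ref 129 326))))))) (.both (.ref 73 195) (.both (.ref 89 195) (.both (.play 389 (.ref 162 323)) (.both (.ref 137 324) (.play 393 (.both (.play 389 (.ref 43 324)) (.both (.ref 258 324) (.both (.ref 126 326) (.ref 125 326))))))))))))) (.play 328 (.both (.ref 90 195) (.both (.play 393 (.both (.play 457 (.ref 99 200)) (.play 390 (.both (.ref 288 260) (.play 394 (.both (.ref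 33 326) (.both (.ref 32 326) (.both (.ref 126 327) (.ref 31 327))))))))) (.play 455 (.ref 101 199))))))))))) (.both (.play 327 (.both (.ref 287 67) (.both (.ref 278 131) (.both (.ref 277 131) (.both (.ref 179 133) (.both (.ref 163 134) (.play 455 (.ref 50 196)))))))) (.both (.play 327 (.both (.ref 287 67) (.both (.play 200 (.ref 40 135)) (.play 200 (.ref 100 135))))) (.both (.play 327 (.both (.ref 286 70) (.both (.play 200 (.ref 40 135)) (.play 455 (.ref 50 196))))) (.both (.play 327 (.both (.ref 283 128) (.both (.play 200 (.ref 100 135)) (.play 455 (.ref 50 196))))) (.both (.play 327 (.both (.play 455 (.both (.play 328 (.ref 108 135)) (.both (.ref 279 135) (.both (.play 263 (.both (.play 200 (.ref 5 199)) (.ref 145 262))) (.ref 193 259))))) (.both (.ref 179 133) (.both (.play 200 (.ref 274 135)) (.play 200 (.ref 40 135)))))) (.both (.play 327 (.both (.ref 278 131) (.both (.play 200 (.ref 274 135)) (.both (.play 200 (.ref 40 135)) (.play 200 (.ref 100 135)))))) (.both (.play 327 (.both (.ref 277 131) (.both (.play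 200 (.ref 274 135)) (.both (.play 200 (.ref 40 135)) (.play 200 (.ref 100 135)))))) (.play 327 (.both (.ref 163 134) (.both (.play 200 (.ref 274 135)) (.play 200 (.ref 100 135))))))))))))))) (.both (.play 265 (.both (.play 262 (.both (.play 261 (.both (.ref 273 64) (.ref 33 197))) (.both (.ref 151 133) (.both (.ref 147 134) (.ref 269 193))))) (.both (.ref 266 70) (.both (.play 266 (.both (.ref 154 134) (.both (.ref 132 197) (.ref 171 198)))) (.both (.play 266 (.both (.ref 154 134) (.both (.ref 167 198) (.ref 137 198)))) (.both (.play 266 (.both (.play 262 (.both (.play 261 (.ref 42 196)) (.both (.ref 41 197) (.ref 264 197)))) (.both (.play 262 (.ref 42 197)) (.both (.ref 167 198) (.play 267 (.both (.ref 33 199) (.both (.ref 263 199) (.both (.ref 126 200) (.ref 168 200))))))))) (.ref 44 197))))))) (.both (.play 262 (.both (.ref 166 67) (.both (.ref 159 68) (.both (.ref 261 129) (.both (.ref 151 133) (.play 265 (.both (.ref 147 134) (.both (.ref 256 197) (.both (.ref 255 197) (.play 266 (.both (.ref 171 198) (.ref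 37 261)))))))))))) (.both (.play 262 (.both (.ref 160 67) (.both (.ref 166 67) (.both (.ref 253 67) (.both (.ref 161 69) (.play 261 (.ref 162 195))))))) (.both (.play 328 (.both (.play 327 (.both (.ref 243 67) (.both (.play 199 (.both (.ref 250 69) (.both (.play 391 (.both (.ref 222 131) (.both (.ref 248 197) (.both (.play 454 (.ref 22 198)) (.both (.ref 230 198) (.both (.ref 199 198) (.ref 252 198))))))) (.play 392 (.ref 88 135))))) (.both (.play 199 (.both (.ref 250 69) (.both (.play 392 (.ref 88 135)) (.play 326 (.ref 213 196))))) (.both (.play 199 (.both (.play 391 (.ref 231 70)) (.both (.play 135 (.ref 70 71)) (.play 391 (.both (.ref 215 197) (.both (.ref 248 197) (.both (.ref 196 198) (.ref 199 198)))))))) (.both (.ref 229 132) (.play 392 (.both (.play 326 (.both (.ref 247 134) (.both (.play 325 (.ref 212 260)) (.play 265 (.ref 178 261))))) (.play 456 (.ref 13 199)))))))))) (.both (.play 327 (.both (.ref 243 67) (.both (.ref 203 131) (.both (.play 391 (.both (.play 200 (.ref 6 135)) (.play 455 (.both (.ref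 237 259) (.play 519 (.ref 5 263)))))) (.both (.play 326 (.both (.play 393 (.both (.play 200 (.ref 234 135)) (.ref 233 259))) (.both (.play 329 (.both (.ref 165 134) (.both (.ref 232 262) (.ref 207 262)))) (.play 265 (.ref 178 261))))) (.play 391 (.both (.play 200 (.ref 6 135)) (.play 455 (.both (.play 454 (.both (.play 456 (.both (.ref 173 260) (.play 520 (.ref 4 263)))) (.play 518 (.ref 6 262)))) (.play 519 (.ref 5 263))))))))))) (.both (.play 327 (.both (.play 391 (.both (.play 199 (.ref 231 70)) (.play 200 (.ref 6 135)))) (.both (.ref 203 131) (.both (.ref 229 132) (.play 200 (.both (.play 266 (.both (.play 265 (.both (.play 393 (.both (.play 329 (.ref 4 136)) (.ref 211 199))) (.play 326 (.ref 1 262)))) (.both (.play 329 (.both (.play 393 (.ref 4 136)) (.ref 202 263))) (.play 265 (.both (.play 199 (.both (.play 198 (.ref 3 198)) (.ref 86 199))) (.play 326 (.ref 1 262))))))) (.play 391 (.ref 6 135)))))))) (.both (.play 200 (.both (.play 392 (.ref 49 71)) (.both (.play 392 (.ref 48 71)) (.play 329 (.both (.play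 327 (.both (.play 391 (.ref 6 135)) (.play 326 (.own 263 (.both (.ref 60 259) (.ref 64 262)))))) (.play 393 (.ref 4 136))))))) (.both (.play 199 (.both (.play 327 (.both (.play 391 (.both (.ref 223 70) (.play 200 (.ref 5 135)))) (.both (.ref 203 131) (.ref 205 195)))) (.both (.play 392 (.ref 184 71)) (.both (.play 392 (.ref 181 71)) (.play 327 (.both (.play 391 (.both (.ref 222 131) (.play 200 (.ref 5 135)))) (.both (.play 391 (.both (.play 200 (.ref 5 135)) (.ref 218 196))) (.both (.play 391 (.both (.play 200 (.ref 5 135)) (.ref 215 197))) (.play 326 (.ref 213 196)))))))))) (.both (.play 199 (.both (.play 327 (.both (.ref 206 70) (.both (.ref 203 131) (.ref 205 195)))) (.both (.play 392 (.ref 184 71)) (.both (.play 392 (.ref 181 71)) (.play 327 (.both (.ref 203 131) (.both (.ref 153 134) (.both (.play 391 (.both (.play 200 (.ref 5 135)) (.ref 199 198))) (.play 391 (.both (.ref 192 195) (.both (.ref 196 198) (.ref 195 199)))))))))))) (.both (.play 392 (.both (.play 199 (.ref 184 71)) (.both (.play 200 (.ref 48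 71)) (.ref 193 196)))) (.both (.play 392 (.both (.play 199 (.ref 184 71)) (.both (.play 200 (.ref 49 71)) (.both (.ref 190 133) (.play 456 (.both (.play 327 (.ref 184 135)) (.both (.play 199 (.ref 182 135)) (.both (.play 264 (.both (.play 199 (.ref 7 199)) (.ref 145 263))) (.play 520 (.ref 50 261)))))))))) (.play 392 (.both (.play 199 (.ref 181 71)) (.both (.play 200 (.ref 48 71)) (.ref 179 134))))))))))))) (.both (.play 262 (.both (.ref 160 67) (.both (.ref 73 67) (.both (.ref 159 68) (.both (.ref 174 69) (.ref 44 196)))))) (.both (.play 262 (.both (.ref 166 67) (.both (.play 265 (.ref 152 69)) (.both (.ref 151 133) (.both (.play 261 (.ref 138 195)) (.play 261 (.ref 162 195))))))) (.both (.play 262 (.both (.ref 160 67) (.both (.ref 161 69) (.ref 151 133)))) (.both (.play 265 (.both (.ref 160 68) (.both (.ref 73 68) (.both (.ref 159 69) (.both (.ref 155 134) (.ref 44 197)))))) (.both (.play 265 (.both (.ref 89 68) (.both (.play 262 (.ref 152 69)) (.both (.ref 142 134) (.both (.ref 44 197) (.ref 137 197)))))) (.both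 (.play 265 (.both (.play 262 (.both (.ref 82 69) (.both (.ref 151 133) (.ref 147 134)))) (.both (.ref 142 134) (.both (.ref 44 197) (.both (.ref 137 197) (.play 266 (.ref 138 197))))))) (.play 265 (.ref 144 132)))))))))))))))))))))))))
 (.seq (.seq (.seq (.seq (.one (.play 69 (.both (.play 65 (.ref 43 0)) (.both (.play 2 (.ref 61 1)) (.ref 27 2)))))
 (.seq (.one (.play 132 (.both (.play 68 (.both (.play 1 (.ref 3 0)) (.play 133 (.ref 0 65)))) (.play 131 (.ref 0 64)))))
 (.one (.play 195 (.both (.ref 96 0) (.ref 15 2))))))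
 (.seq (.one (.play 195 (.both (.play 260 (.ref 99 3)) (.play 128 (.ref 0 128)))))
 (.seq (.one (.both (.play 0 (.ref 0 0)) (.play 69 (.ref 245 1))))
 (.one (.both (.play 2 (.ref 4 2)) (.play 260 (.ref 323 192)))))))
 (.seq (.seq (.one (.play 258 (.both (.play 257 (.both (.play 193 (.both (.play 2 (.ref 6 1)) (.play 260 (.ref 19 192)))) (.play 321 (.ref 6 65)))) (.play 323 (.ref 4 66)))))
 (.seq (.one (.both (.play 1 (.ref 6 0)) (.play 384 (.ref 5 128))))
 (.one (.both (.play 192 (.ref 326 0)) (.play 257 (.ref 6 64))))))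
 (.seq (.one (.play 1 (.both (.play 192 (.ref 6 0)) (.play 194 (.ref 4 1)))))
 (.seq (.one (.play 260 (.both (.play 258 (.both (.play 196 (.both (.play 3 (.ref 4 3)) (.play 259 (.ref 214 65)))) (.both (.ref 328 2) (.both (.play 322 (.ref 327 2)) (.play 259 (.ref 45 64)))))) (.both (.ref 325 1) (.both (.play 196 (.ref 104 3)) (.play 324 (.ref 150 67)))))))
 (.one (.both (.play 64 (.ref 47 0)) (.play 256 (.ref 6 64))))))))
 (.seq (.seq (.seq (.one (.play 256 (.both (.play 192 (.ref 6 0)) (.play 257 (.both (.play 2 (.ref 5 1)) (.play 320 (.ref 6 64)))))))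
 (.seq (.one (.play 193 (.both (.ref 331 0) (.play 258 (.ref 4 1)))))
 (.one (.play 129 (.both (.play 1 (.both (.play 0 (.ref 3 0)) (.ref 332 0))) (.play 128 (.ref 1 64)))))))
 (.seq (.one (.play 196 (.both (.play 259 (.both (.play 132 (.ref 6 3)) (.play 258 (.ref 52 192)))) (.both (.play 261 (.both (.play 132 (.ref 4 4)) (.play 262 (.ref 115 194)))) (.both (.play 132 (.ref 21 3)) (.play 194 (.ref 162 128)))))))
 (.seq (.one (.play 68 (.both (.play 67 (.ref 0 0)) (.play 4 (.both (.play 65 (.ref 1 0)) (.play 69 (.ref 0 1)))))))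
 (.one (.both (.play 64 (.ref 1 0)) (.ref 335 1))))))
 (.seq (.seq (.one (.play 66 (.both (.ref 122 0) (.play 5 (.ref 2 2)))))
 (.seq (.one (.both (.ref 337 0) (.play 7 (.ref 2 3))))
 (.one (.play 5 (.both (.play 3 (.ref 300 0)) (.play 68 (.ref 2 1)))))))
 (.seq (.one (.play 260 (.both (.play 132 (.both (.play 196 (.ref 164 1)) (.both (.play 259 (.both (.play 196 (.both (.play 323 (.ref 133 67)) (.play 133 (.ref 2 129)))) (.play 192 (.ref 0 192)))) (.both (.ref 310 128) (.ref 339 128))))) (.both (.ref 314 64) (.both (.play 259 (.ref 115 192)) (.ref 148 193))))))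
 (.seq (.one (.play 196 (.both (.play 131 (.both (.play 258 (.both (.play 322 (.ref 225 2)) (.play 257 (.ref 227 192)))) (.play 132 (.ref 2 128)))) (.both (.ref 33 128) (.ref 128 128)))))
 (.one (.both (.play 65 (.ref 136 0)) (.both (.ref 135 2) (.play 130 (.ref 336 65)))))))))))
 (.seq (.seq (.seq (.seq (.seq (.one (.play 68 (.both (.ref 27 1) (.play 128 (.ref 1 64)))))
 (.seq (.one (.play 257 (.both (.play 130 (.ref 6 1)) (.ref 343 128))))
 (.one (.both (.play 194 (.ref 4 1)) (.play 320 (.ref 6 64))))))
 (.seq (.one (.both (.play 197 (.both (.play 196 (.ref 4 4)) (.ref 25 192))) (.both (.play 196 (.ref 345 3)) (.both (.ref 344 66) (.play 262 (.ref 342 193))))))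
 (.seq (.one (.play 257 (.both (.play 321 (.both (.play 194 (.both (.play 258 (.ref 4 1)) (.play 385 (.ref 5 129)))) (.play 320 (.ref 14 64)))) (.both (.play 258 (.ref 16 1)) (.both (.play 322 (.ref 76 64)) (.ref 230 64))))))
 (.one (.play 65 (.both (.play 64 (.both (.play 1 (.ref 5 0)) (.play 257 (.ref 4 64)))) (.play 129 (.ref 5 64))))))))
 (.seq (.seq (.one (.play 129 (.both (.ref 348 1) (.play 128 (.ref 47 64)))))
 (.seq (.one (.both (.ref 349 0) (.ref 347 192)))
 (.one (.both (.play 385 (.both (.play 193 (.ref 350 0)) (.play 384 (.ref 1 320)))) (.play 256 (.ref 3 256))))))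
 (.seq (.one (.play 65 (.both (.play 193 (.both (.play 257 (.ref 84 1)) (.play 192 (.ref 1 128)))) (.play 64 (.ref 3 64)))))
 (.seq (.one (.play 129 (.both (.play 65 (.ref 104 1)) (.play 128 (.ref 3 128)))))
 (.one (.play 257 (.both (.play 193 (.both (.play 194 (.both (.ref 353 0) (.play 261 (.ref 3 193)))) (.play 192 (.ref 3 192)))) (.play 256 (.ref 2 192)))))))))
 (.seq (.seq (.seq (.one (.play 260 (.both (.ref 354 2) (.both (.ref 352 131) (.both (.ref 111 192) (.play 259 (.both (.play 258 (.ref 2 194)) (.ref 37 258))))))))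
 (.seq (.one (.both (.play 193 (.ref 6 0)) (.play 128 (.ref 40 0))))
 (.one (.play 259 (.both (.play 260 (.both (.play 196 (.both (.play 3 (.ref 4 3)) (.play 257 (.ref 172 192)))) (.play 324 (.ref 4 67)))) (.play 322 (.ref 6 66)))))))
 (.seq (.one (.both (.play 0 (.ref 4 0)) (.play 385 (.ref 7 128))))
 (.seq (.one (.play 259 (.both (.play 261 (.both (.play 195 (.both (.play 4 (.ref 6 3)) (.play 260 (.both (.play 325 (.ref 4 68)) (.play 194 (.ref 188 193)))))) (.both (.ref 328 3) (.both (.play 325 (.both (.play 197 (.ref 358 4)) (.play 260 (.ref 4 68)))) (.play 260 (.ref 191 64)))))) (.both (.ref 357 1) (.both (.play 195 (.ref 241 3)) (.play 323 (.ref 356 67)))))))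
 (.one (.both (.ref 186 0) (.play 2 (.ref 5 1)))))))
 (.seq (.seq (.one (.both (.ref 189 0) (.play 66 (.ref 5 65))))
 (.seq (.one (.play 64 (.both (.ref 284 0) (.play 128 (.ref 7 64)))))
 (.one (.both (.ref 362 0) (.play 384 (.ref 6 128))))))
 (.seq (.one (.play 66 (.both (.play 129 (.ref 24 0)) (.both (.play 70 (.ref 43 1)) (.play 133 (.ref 119 64))))))
 (.seq (.one (.both (.play 0 (.ref 7 0)) (.ref 146 64)))
 (.one (.play 67 (.both (.play 3 (.ref 5 2)) (.play 68 (.ref 216 64))))))))))
 (.seq (.seq (.seq (.seq (.one (.play 197 (.both (.play 261 (.both (.play 69 (.both (.ref 366 3) (.play 260 (.ref 113 64)))) (.both (.play 324 (.both (.play 69 (.both (.ref 366 3) (.play 260 (.ref 6 68)))) (.both (.play 260 (.ref 101 68)) (.play 325 (.ref 8 68))))) (.both (.ref 359 65) (.play 325 (.ref 365 68)))))) (.play 198 (.ref 0 130)))))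
 (.seq (.one (.play 197 (.both (.play 195 (.both (.play 259 (.ref 6 3)) (.ref 102 128))) (.play 261 (.ref 4 4)))))
 (.one (.play 260 (.both (.play 132 (.both (.play 324 (.both (.play 133 (.ref 110 4)) (.both (.ref 368 128) (.both (.play 389 (.ref 76 131)) (.ref 230 131))))) (.play 131 (.ref 3 131)))) (.play 259 (.ref 1 195)))))))
 (.seq (.one (.play 64 (.both (.play 1 (.ref 5 0)) (.play 257 (.ref 70 0)))))
 (.seq (.one (.play 129 (.both (.play 257 (.both (.ref 370 1) (.play 256 (.ref 1 192)))) (.play 128 (.ref 3 128)))))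
 (.one (.both (.ref 371 0) (.ref 27 129))))))
 (.seq (.seq (.one (.play 65 (.both (.play 1 (.ref 121 0)) (.play 66 (.ref 1 1)))))
 (.seq (.one (.play 66 (.both (.ref 41 1) (.ref 373 64))))
 (.one (.play 71 (.both (.play 67 (.both (.ref 374 0) (.ref 33 3))) (.both (.ref 27 4) (.ref 335 68)))))))
 (.seq (.one (.play 3 (.both (.play 2 (.ref 119 0)) (.both (.play 68 (.both (.play 2 (.ref 130 1)) (.play 67 (.ref 1 3)))) (.both (.ref 373 1) (.ref 37 2))))))
 (.seq (.one (.both (.play 258 (.ref 6 2)) (.play 193 (.ref 172 128))))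
 (.one (.play 196 (.both (.play 194 (.ref 377 0)) (.play 260 (.ref 4 3)))))))))
 (.seq (.seq (.seq (.one (.play 195 (.both (.ref 378 0) (.both (.ref 248 1) (.both (.ref 196 2) (.ref 347 2))))))
 (.seq (.one (.play 67 (.both (.ref 41 2) (.play 66 (.ref 119 64)))))
 (.one (.play 259 (.both (.ref 325 0) (.play 195 (.ref 4 2)))))))
 (.seq (.one (.play 131 (.both (.play 67 (.ref 5 3)) (.play 130 (.both (.play 323 (.both (.play 66 (.ref 7 66)) (.ref 381 129))) (.play 129 (.ref 115 128)))))))
 (.seq (.one (.play 68 (.both (.play 0 (.ref 3 0)) (.ref 135 1))))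
 (.one (.play 196 (.both (.play 192 (.both (.play 256 (.ref 6 0)) (.ref 28 192))) (.ref 30 129)))))))
 (.seq (.seq (.one (.play 196 (.both (.play 260 (.ref 6 4)) (.ref 111 128))))
 (.seq (.one (.play 198 (.both (.play 199 (.both (.ref 385 0) (.both (.ref 384 4) (.ref 383 132)))) (.play 262 (.ref 4 5)))))
 (.one (.play 258 (.both (.ref 357 0) (.play 194 (.ref 6 2)))))))
 (.seq (.one (.play 257 (.both (.play 64 (.ref 7 0)) (.play 256 (.ref 14 0)))))
 (.seq (.one (.play 257 (.both (.play 66 (.ref 5 1)) (.ref 388 64))))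
 (.one (.play 196 (.both (.play 260 (.ref 4 3)) (.play 129 (.ref 115 128))))))))))))))
 (.seq (.seq (.seq (.seq (.seq (.seq (.seq (.seq (.one (.play 322 (.both (.play 66 (.ref 49 1)) (.both (.play 66 (.ref 48 1)) (.ref 381 128)))))
 (.one (.play 65 (.both (.play 64 (.ref 47 0)) (.play 66 (.ref 5 1))))))
 (.seq (.one (.play 68 (.both (.ref 135 1) (.play 128 (.ref 1 64)))))
 (.seq (.one (.both (.play 0 (.ref 7 0)) (.play 131 (.ref 3 64))))
 (.one (.play 64 (.both (.play 0 (.ref 4 0)) (.play 1 (.ref 5 0))))))))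
 (.seq (.seq (.one (.both (.play 1 (.ref 5 0)) (.play 321 (.ref 4 64))))
 (.seq (.one (.play 257 (.both (.play 193 (.ref 4 0)) (.play 256 (.ref 396 0)))))
 (.one (.both (.play 256 (.ref 14 0)) (.ref 397 65)))))
 (.seq (.one (.both (.play 64 (.both (.play 193 (.ref 183 0)) (.play 256 (.ref 4 64)))) (.both (.play 193 (.ref 184 0)) (.both (.play 256 (.ref 99 64)) (.play 385 (.both (.play 193 (.ref 7 128)) (.play 256 (.ref 98 128))))))))
 (.seq (.one (.both (.play 2 (.ref 5 1)) (.ref 153 64)))
 (.one (.both (.play 2 (.ref 5 1)) (.play 322 (.ref 76 64))))))))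
 (.seq (.seq (.seq (.one (.play 324 (.both (.ref 287 0) (.both (.play 388 (.ref 401 131)) (.play 388 (.ref 400 131))))))
 (.seq (.one (.play 68 (.both (.ref 33 0) (.play 129 (.ref 227 64)))))
 (.one (.play 68 (.both (.play 131 (.both (.ref 403 1) (.play 132 (.ref 0 64)))) (.both (.ref 135 1) (.both (.ref 125 1) (.ref 28 64))))))))
 (.seq (.one (.play 195 (.both (.play 129 (.both (.play 257 (.both (.play 65 (.ref 5 1)) (.play 256 (.ref 1 192)))) (.play 128 (.ref 3 128)))) (.ref 404 129))))
 (.seq (.one (.play 66 (.both (.play 1 (.ref 59 0)) (.play 134 (.ref 0 66)))))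
 (.one (.play 69 (.both (.play 133 (.both (.ref 406 0) (.play 197 (.ref 7 4)))) (.both (.ref 343 2) (.both (.play 133 (.both (.play 197 (.ref 7 4)) (.play 134 (.ref 323 66)))) (.play 130 (.ref 57 64))))))))))
 (.seq (.seq (.one (.play 196 (.both (.play 68 (.ref 6 3)) (.ref 407 128))))
 (.seq (.one (.play 2 (.both (.play 1 (.ref 69 0)) (.both (.ref 37 1) (.ref 257 1)))))
 (.one (.both (.play 320 (.ref 363 0)) (.play 386 (.ref 4 129))))))
 (.seq (.one (.play 130 (.both (.ref 154 1) (.both (.play 65 (.ref 59 64)) (.both (.ref 281 64) (.play 197 (.ref 119 128)))))))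
 (.seq (.one (.play 257 (.both (.play 130 (.ref 101 1)) (.play 256 (.ref 1 192)))))
 (.one (.play 257 (.both (.play 192 (.ref 4 0)) (.play 129 (.ref 7 0))))))))))
 (.seq (.seq (.seq (.seq (.one (.play 1 (.both (.play 0 (.ref 3 0)) (.play 129 (.both (.ref 413 1) (.play 128 (.ref 1 64)))))))
 (.seq (.one (.play 193 (.both (.play 65 (.both (.play 257 (.ref 84 1)) (.play 64 (.ref 3 64)))) (.play 192 (.ref 1 128)))))
 (.one (.play 193 (.both (.play 65 (.both (.play 257 (.both (.play 66 (.ref 84 1)) (.play 322 (.ref 4 65)))) (.play 64 (.ref 3 64)))) (.play 192 (.ref 1 128)))))))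
 (.seq (.one (.play 195 (.both (.play 132 (.both (.play 261 (.both (.play 325 (.ref 181 4)) (.play 262 (.ref 130 194)))) (.play 131 (.ref 3 131)))) (.both (.ref 123 128) (.ref 41 130)))))
 (.seq (.one (.both (.play 192 (.ref 4 0)) (.play 65 (.ref 7 0))))
 (.one (.both (.play 129 (.ref 7 0)) (.play 128 (.ref 4 0)))))))
 (.seq (.seq (.one (.play 260 (.both (.play 3 (.ref 419 3)) (.both (.play 131 (.ref 99 3)) (.both (.play 132 (.ref 303 3)) (.play 324 (.both (.ref 391 66) (.both (.play 131 (.ref 418 67)) (.both (.ref 359 128) (.play 388 (.ref 50 129)))))))))))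
 (.seq (.one (.both (.play 1 (.ref 59 0)) (.play 6 (.ref 2 2))))
 (.one (.play 129 (.both (.play 258 (.ref 184 1)) (.play 128 (.ref 3 128)))))))
 (.seq (.one (.both (.ref 422 0) (.play 133 (.ref 2 129))))
 (.seq (.one (.play 129 (.both (.play 64 (.ref 311 0)) (.play 386 (.ref 4 129)))))
 (.one (.play 193 (.both (.ref 349 0) (.both (.play 130 (.ref 294 64)) (.both (.play 129 (.both (.play 128 (.ref 47 64)) (.play 258 (.both (.play 65 (.ref 4 65)) (.play 194 (.ref 5 193)))))) (.ref 77 129))))))))))
 (.seq (.seq (.seq (.one (.play 449 (.both (.ref 425 0) (.play 514 (.ref 76 256)))))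
 (.seq (.one (.play 257 (.both (.play 385 (.both (.ref 426 0) (.play 384 (.ref 1 320)))) (.play 256 (.ref 3 256)))))
 (.one (.play 321 (.both (.play 65 (.ref 48 0)) (.both (.play 128 (.ref 12 64)) (.play 384 (.ref 22 128))))))))
 (.seq (.one (.play 260 (.both (.play 194 (.both (.play 196 (.ref 324 1)) (.both (.play 3 (.ref 234 2)) (.play 193 (.ref 115 192))))) (.play 324 (.ref 4 67)))))
 (.seq (.one (.both (.play 0 (.ref 0 0)) (.play 66 (.ref 3 1))))
 (.one (.both (.play 1 (.ref 430 0)) (.play 70 (.ref 3 2)))))))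
 (.seq (.seq (.one (.both (.play 67 (.ref 431 0)) (.both (.play 1 (.both (.play 67 (.ref 430 0)) (.play 4 (.ref 0 1)))) (.both (.play 4 (.ref 323 1)) (.play 70 (.both (.play 67 (.ref 3 2)) (.play 4 (.ref 245 2))))))))
 (.seq (.one (.play 129 (.both (.play 66 (.ref 294 0)) (.ref 347 128))))
 (.one (.play 321 (.both (.play 193 (.both (.ref 433 0) (.play 192 (.ref 3 192)))) (.play 320 (.ref 1 256)))))))
 (.seq (.one (.play 328 (.both (.play 456 (.both (.play 264 (.both (.play 263 (.both (.play 262 (.both (.ref 434 5) (.both (.ref 124 195) (.both (.play 197 (.ref 59 196)) (.play 329 (.ref 432 260)))))) (.play 199 (.ref 7 199)))) (.both (.play 200 (.both (.ref 290 7) (.both (.play 329 (.both (.ref 395 72) (.ref 116 197))) (.play 199 (.ref 47 135))))) (.both (.play 200 (.both (.ref 290 7) (.play 455 (.ref 14 199)))) (.both (.play 200 (.both (.play 263 (.both (.play 136 (.both (.play 72 (.ref 21 71)) (.play 73 (.ref 5 72)))) (.play 199 (.ref 7 199)))) (.play 455 (.ref 14 199)))) (.play 455 (.ref 363 135))))))) (.both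 (.ref 163 199) (.both (.play 520 (.both (.ref 429 261) (.play 329 (.ref 5 264)))) (.both (.ref 153 263) (.play 520 (.both (.ref 428 263) (.play 329 (.ref 5 264))))))))) (.both (.play 201 (.ref 109 72)) (.both (.play 520 (.both (.play 519 (.both (.play 329 (.both (.play 201 (.ref 6 136)) (.play 521 (.both (.play 518 (.both (.ref 427 197) (.both (.play 517 (.both (.ref 273 320) (.ref 28 517))) (.both (.play 453 (.ref 59 452)) (.play 585 (.ref 119 516)))))) (.both (.play 458 (.both (.play 522 (.both (.play 330 (.both (.ref 343 263) (.play 394 (.ref 7 265)))) (.play 459 (.ref 2 455)))) (.ref 337 452))) (.both (.play 522 (.both (.ref 407 261) (.both (.ref 27 455) (.ref 404 455)))) (.ref 364 452))))))) (.both (.play 329 (.both (.play 201 (.ref 6 136)) (.play 391 (.both (.play 518 (.both (.play 517 (.both (.play 453 (.both (.play 389 (.both (.ref 424 196) (.play 390 (.ref 2 325)))) (.play 452 (.ref 3 452)))) (.both (.play 390 (.both (.ref 412 324) (.play 389 (.ref 2 325)))) (.play 452 (.ref 59 451))))) (.both (.play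 517 (.both (.play 453 (.ref 351 196)) (.both (.play 516 (.ref 43 451)) (.play 584 (.ref 119 515))))) (.both (.play 390 (.both (.play 389 (.ref 423 196)) (.both (.play 389 (.ref 421 323)) (.ref 420 323)))) (.both (.play 389 (.both (.play 517 (.both (.ref 417 321) (.both (.play 453 (.both (.play 581 (.both (.play 582 (.ref 70 325)) (.play 580 (.ref 1 516)))) (.play 452 (.ref 3 452)))) (.both (.ref 364 450) (.play 584 (.ref 119 515)))))) (.play 390 (.ref 2 325)))) (.both (.play 517 (.both (.play 583 (.both (.play 455 (.ref 5 327)) (.play 584 (.ref 130 516)))) (.both (.play 455 (.both (.play 583 (.ref 5 327)) (.play 646 (.both (.ref 416 388) (.both (.play 454 (.both (.ref 415 388) (.play 582 (.ref 5 390)))) (.both (.play 582 (.ref 40 390)) (.ref 414 452))))))) (.play 580 (.ref 24 451))))) (.both (.play 390 (.both (.play 517 (.both (.ref 412 324) (.both (.play 583 (.both (.play 454 (.ref 99 326)) (.play 584 (.ref 130 516)))) (.play 584 (.ref 119 515))))) (.play 389 (.ref 2 325)))) (.play 390 (.both (.play 389 (.ref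 2 325)) (.ref 411 387)))))))))) (.both (.play 455 (.both (.play 327 (.ref 410 198)) (.play 583 (.ref 5 327)))) (.play 390 (.ref 217 325))))))) (.both (.play 522 (.both (.ref 408 133) (.both (.play 521 (.both (.play 583 (.ref 307 326)) (.both (.ref 123 452) (.both (.play 518 (.ref 43 453)) (.play 518 (.ref 69 517)))))) (.play 521 (.ref 315 389))))) (.both (.play 522 (.both (.ref 408 133) (.both (.play 521 (.both (.ref 134 390) (.both (.ref 128 454) (.both (.ref 137 454) (.both (.ref 409 516) (.play 518 (.ref 69 517))))))) (.play 521 (.ref 342 453))))) (.both (.play 522 (.both (.ref 408 133) (.both (.play 521 (.both (.ref 341 327) (.both (.ref 367 389) (.both (.play 523 (.ref 136 454)) (.both (.play 523 (.ref 342 454)) (.both (.ref 135 455) (.play 583 (.ref 336 518)))))))) (.both (.ref 405 326) (.play 521 (.ref 372 326)))))) (.both (.play 522 (.both (.ref 408 133) (.both (.play 521 (.both (.play 455 (.both (.play 583 (.both (.play 391 (.ref 5 327)) (.ref 254 455))) (.play 454 (.ref 3 454)))) (.both (.play 518 (.ref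 43 453)) (.both (.ref 258 453) (.both (.ref 129 454) (.ref 404 455)))))) (.play 521 (.ref 315 389))))) (.both (.play 522 (.both (.ref 408 133) (.both (.ref 405 326) (.play 521 (.ref 315 389))))) (.both (.play 518 (.both (.ref 298 259) (.both (.ref 301 259) (.both (.play 582 (.both (.ref 402 322) (.both (.play 454 (.both (.ref 179 324) (.both (.play 453 (.ref 95 451)) (.play 521 (.both (.play 453 (.ref 3 453)) (.ref 254 454)))))) (.both (.play 521 (.both (.ref 167 453) (.play 581 (.ref 1 517)))) (.play 581 (.ref 52 515)))))) (.both (.ref 137 452) (.ref 319 452)))))) (.both (.play 583 (.both (.play 521 (.both (.play 518 (.both (.play 454 (.both (.play 390 (.ref 399 262)) (.play 453 (.ref 3 453)))) (.both (.ref 374 451) (.ref 376 514)))) (.both (.ref 375 451) (.both (.ref 393 454) (.play 582 (.ref 52 516)))))) (.both (.play 521 (.both (.play 518 (.both (.play 582 (.both (.play 646 (.both (.play 454 (.own 519 (.both (.ref 349 261) (.play 710 (.ref 398 453))))) (.both (.play 391 (.both (.play 454 (.both (.ref 395 326)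 (.play 453 (.ref 394 389)))) (.play 455 (.ref 6 390)))) (.both (.play 455 (.ref 133 390)) (.play 710 (.ref 84 454)))))) (.play 581 (.ref 1 517)))) (.both (.ref 380 450) (.both (.ref 374 451) (.both (.play 581 (.ref 24 452)) (.ref 376 514)))))) (.both (.ref 375 451) (.both (.ref 393 454) (.play 582 (.ref 52 516)))))) (.both (.play 647 (.both (.play 455 (.both (.ref 392 326) (.ref 386 450))) (.both (.play 455 (.both (.ref 392 326) (.both (.play 391 (.both (.play 392 (.ref 5 327)) (.play 646 (.ref 14 390)))) (.play 454 (.ref 12 390))))) (.both (.ref 391 389) (.both (.play 711 (.both (.play 455 (.ref 48 390)) (.both (.ref 179 453) (.both (.play 775 (.both (.play 518 (.ref 47 454)) (.ref 175 582))) (.ref 186 454))))) (.both (.ref 359 451) (.play 711 (.ref 50 452)))))))) (.both (.play 455 (.both (.play 391 (.ref 5 327)) (.play 647 (.both (.ref 386 450) (.both (.play 582 (.both (.ref 390 452) (.both (.play 711 (.both (.play 712 (.ref 16 455)) (.ref 389 518))) (.play 521 (.ref 52 516))))) (.both (.play 711 (.both (.play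 710 (.ref 14 454)) (.both (.play 775 (.both (.play 584 (.ref 5 519)) (.ref 387 580))) (.play 775 (.both (.play 584 (.ref 5 519)) (.ref 185 582)))))) (.both (.play 710 (.ref 22 454)) (.ref 199 454)))))))) (.both (.play 455 (.both (.play 391 (.ref 5 327)) (.play 647 (.both (.ref 116 388) (.ref 386 450))))) (.both (.ref 382 324) (.play 521 (.both (.play 518 (.both (.ref 380 450) (.both (.ref 374 451) (.both (.play 582 (.both (.play 454 (.both (.ref 379 451) (.play 453 (.ref 3 453)))) (.play 581 (.ref 1 517)))) (.both (.play 581 (.ref 24 452)) (.ref 376 514)))))) (.both (.ref 375 451) (.ref 343 454))))))))))) (.both (.play 521 (.both (.ref 298 260) (.both (.play 522 (.ref 372 326)) (.both (.ref 316 388) (.both (.play 518 (.both (.play 453 (.ref 59 452)) (.ref 27 454))) (.both (.ref 137 453) (.play 522 (.both (.ref 258 453) (.both (.play 458 (.ref 53 453)) (.ref 27 455)))))))))) (.play 521 (.both (.play 518 (.both (.ref 369 322) (.both (.play 517 (.ref 43 452)) (.both (.play 453 (.ref 59 452)) (.play 585 (.ref 119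 516)))))) (.both (.play 522 (.ref 315 389)) (.both (.play 522 (.both (.ref 367 389) (.both (.play 523 (.ref 136 454)) (.both (.ref 135 455) (.play 583 (.ref 336 518)))))) (.both (.play 518 (.both (.ref 259 451) (.both (.ref 122 452) (.both (.ref 258 452) (.play 522 (.ref 136 453)))))) (.both (.ref 364 452) (.play 522 (.ref 342 453))))))))))))))))))) (.both (.play 329 (.both (.play 201 (.ref 6 136)) (.play 456 (.ref 5 264)))) (.play 456 (.ref 50 261))))) (.play 456 (.both (.play 264 (.both (.play 455 (.ref 363 135)) (.play 201 (.ref 5 200)))) (.both (.play 264 (.ref 361 135)) (.both (.play 264 (.ref 360 199)) (.both (.ref 359 260) (.play 520 (.ref 50 261))))))))))))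
 (.seq (.one (.play 65 (.both (.play 64 (.ref 47 0)) (.ref 77 1))))
 (.one (.both (.play 0 (.ref 3 0)) (.play 194 (.ref 7 1))))))))))
 (.seq (.seq (.seq (.seq (.seq (.one (.play 69 (.both (.ref 41 0) (.play 5 (.ref 5 4)))))
 (.seq (.one (.play 1 (.both (.ref 280 0) (.play 2 (.ref 3 1)))))
 (.one (.play 66 (.both (.ref 439 0) (.both (.ref 438 1) (.ref 118 64)))))))
 (.seq (.one (.play 197 (.both (.play 196 (.both (.play 195 (.both (.play 194 (.both (.ref 82 1) (.both (.ref 439 128) (.ref 118 192)))) (.both (.play 194 (.both (.ref 82 1) (.both (.play 198 (.both (.play 134 (.ref 5 133)) (.ref 37 193))) (.ref 438 129)))) (.both (.ref 440 128) (.both (.play 198 (.both (.play 452 (.both (.ref 128 130) (.play 388 (.ref 6 196)))) (.play 134 (.ref 5 133)))) (.play 198 (.both (.play 388 (.both (.play 260 (.both (.play 131 (.ref 437 130)) (.play 199 (.ref 227 195)))) (.play 452 (.ref 6 196)))) (.play 134 (.ref 5 133))))))))) (.play 132 (.ref 7 132)))) (.both (.play 133 (.ref 49 68)) (.both (.ref 436 68) (.play 133 (.ref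 79 68)))))))
 (.seq (.one (.play 66 (.both (.play 68 (.both (.play 4 (.ref 5 3)) (.play 130 (.both (.play 129 (.ref 178 64)) (.play 323 (.ref 7 66)))))) (.play 2 (.ref 7 2)))))
 (.one (.play 129 (.both (.play 65 (.ref 49 0)) (.ref 77 65)))))))
 (.seq (.seq (.one (.play 129 (.both (.ref 436 0) (.play 384 (.ref 14 128)))))
 (.seq (.one (.play 259 (.both (.play 195 (.both (.ref 444 2) (.both (.play 194 (.ref 47 130)) (.play 258 (.both (.play 386 (.both (.ref 187 130) (.play 450 (.ref 6 194)))) (.play 194 (.ref 7 194))))))) (.both (.ref 443 66) (.both (.ref 436 130) (.both (.play 195 (.both (.play 386 (.both (.play 322 (.both (.play 131 (.ref 6 130)) (.play 515 (.ref 13 258)))) (.play 450 (.ref 6 194)))) (.ref 77 131))) (.ref 442 192)))))))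
 (.one (.both (.play 129 (.ref 24 0)) (.ref 135 2)))))
 (.seq (.one (.play 129 (.both (.ref 436 0) (.play 320 (.ref 6 128)))))
 (.seq (.one (.both (.ref 447 0) (.play 385 (.ref 6 192))))
 (.one (.play 65 (.both (.ref 41 0) (.play 131 (.both (.play 64 (.ref 0 64)) (.play 130 (.ref 1 66)))))))))))
 (.seq (.seq (.seq (.one (.play 65 (.both (.play 2 (.ref 5 1)) (.play 256 (.ref 6 64)))))
 (.seq (.one (.both (.ref 450 0) (.play 384 (.ref 6 128))))
 (.one (.play 66 (.both (.play 320 (.ref 451 0)) (.play 130 (.ref 5 65)))))))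
 (.seq (.one (.play 132 (.both (.ref 147 1) (.both (.ref 75 64) (.play 193 (.ref 336 128))))))
 (.seq (.one (.play 68 (.both (.play 67 (.ref 0 0)) (.play 4 (.ref 121 0)))))
 (.one (.play 134 (.both (.ref 157 2) (.both (.play 198 (.both (.play 261 (.both (.play 325 (.ref 108 5)) (.play 199 (.both (.ref 28 195) (.both (.play 262 (.both (.play 263 (.ref 0 195)) (.play 200 (.ref 227 196)))) (.both (.play 200 (.ref 336 196)) (.ref 454 196))))))) (.play 135 (.ref 2 131)))) (.both (.play 194 (.both (.play 133 (.ref 2 130)) (.play 261 (.ref 119 192)))) (.ref 339 130)))))))))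
 (.seq (.seq (.one (.both (.play 128 (.ref 184 0)) (.play 260 (.ref 3 192))))
 (.seq (.one (.both (.play 322 (.both (.play 194 (.ref 456 1)) (.both (.play 386 (.ref 181 65)) (.ref 246 193)))) (.play 192 (.ref 3 192))))
 (.one (.both (.play 256 (.ref 6 0)) (.play 132 (.ref 1 128))))))
 (.seq (.one (.both (.play 64 (.ref 311 0)) (.play 320 (.ref 458 128))))
 (.seq (.one (.play 323 (.both (.ref 433 2) (.both (.play 131 (.ref 459 2)) (.play 322 (.ref 52 256))))))
 (.one (.play 193 (.both (.ref 443 0) (.both (.play 128 (.ref 311 64)) (.both (.play 256 (.both (.play 129 (.both (.play 320 (.ref 156 64)) (.ref 77 65))) (.play 192 (.ref 7 192)))) (.play 192 (.ref 47 128))))))))))))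
 (.seq (.seq (.seq (.seq (.one (.play 68 (.both (.ref 33 0) (.both (.ref 263 0) (.both (.ref 168 1) (.ref 27 1))))))
 (.seq (.one (.both (.play 193 (.ref 6 0)) (.play 128 (.ref 5 0))))
 (.one (.play 322 (.both (.play 258 (.both (.play 131 (.both (.play 259 (.both (.play 67 (.ref 156 2)) (.play 260 (.ref 0 192)))) (.play 132 (.ref 2 128)))) (.play 130 (.ref 7 65)))) (.both (.play 258 (.ref 103 65)) (.both (.play 131 (.both (.play 132 (.ref 2 128)) (.play 259 (.both (.play 386 (.ref 463 130)) (.play 260 (.ref 0 192)))))) (.ref 211 128))))))))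
 (.seq (.one (.both (.play 2 (.ref 6 1)) (.play 256 (.ref 1 192))))
 (.seq (.one (.play 130 (.both (.play 257 (.ref 465 0)) (.ref 464 1))))
 (.one (.play 131 (.both (.play 322 (.both (.play 67 (.ref 224 2)) (.play 386 (.ref 7 129)))) (.play 132 (.ref 2 128))))))))
 (.seq (.seq (.one (.play 258 (.both (.ref 467 0) (.both (.play 322 (.ref 103 65)) (.play 196 (.both (.ref 33 128) (.play 197 (.both (.play 130 (.ref 3 129)) (.play 198 (.both (.play 259 (.ref 1 194)) (.ref 28 194)))))))))))
 (.seq (.one (.play 68 (.both (.play 1 (.ref 3 0)) (.ref 126 1))))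
 (.one (.play 196 (.both (.play 257 (.both (.play 197 (.both (.play 130 (.both (.play 2 (.ref 6 1)) (.ref 469 130))) (.both (.play 198 (.both (.play 130 (.both (.play 2 (.ref 6 1)) (.play 131 (.ref 3 130)))) (.ref 125 131))) (.ref 28 193)))) (.play 256 (.ref 1 192)))) (.both (.play 130 (.both (.play 257 (.ref 465 0)) (.ref 468 1))) (.both (.ref 466 0) (.both (.ref 27 129) (.ref 462 129)))))))))
 (.seq (.one (.both (.play 2 (.ref 6 1)) (.play 321 (.ref 7 64))))
 (.seq (.one (.play 195 (.both (.ref 340 0) (.both (.play 196 (.both (.play 197 (.both (.ref 158 2) (.play 130 (.ref 3 129)))) (.both (.play 197 (.both (.play 130 (.ref 3 129)) (.ref 125 130))) (.ref 28 192)))) (.both (.ref 468 0) (.both (.play 131 (.both (.play 322 (.both (.play 259 (.both (.play 258 (.both (.play 130 (.ref 7 65)) (.play 67 (.ref 6 66)))) (.play 260 (.ref 0 192)))) (.both (.play 259 (.both (.play 258 (.ref 471 65)) (.play 260 (.ref 0 192)))) (.both (.play 258 (.ref 103 65)) (.play 259 (.both (.ref 210 130) (.play 260 (.ref 0 192))))))))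 (.play 132 (.ref 2 128)))) (.both (.ref 31 128) (.play 196 (.both (.ref 33 128) (.ref 320 129))))))))))
 (.one (.play 259 (.both (.play 323 (.ref 181 2)) (.play 260 (.ref 323 192)))))))))
 (.seq (.seq (.seq (.one (.play 321 (.both (.ref 461 0) (.play 450 (.ref 4 257)))))
 (.seq (.one (.play 449 (.both (.ref 474 0) (.both (.ref 472 320) (.play 578 (.ref 99 321))))))
 (.one (.play 193 (.both (.ref 347 0) (.play 192 (.ref 1 128)))))))
 (.seq (.one (.play 65 (.both (.ref 476 0) (.play 64 (.ref 3 64)))))
 (.seq (.one (.both (.play 257 (.ref 5 1)) (.play 64 (.ref 3 64))))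
 (.one (.play 194 (.both (.play 67 (.both (.play 66 (.both (.play 130 (.ref 478 1)) (.play 134 (.ref 3 66)))) (.both (.play 258 (.ref 356 2)) (.both (.play 195 (.ref 458 2)) (.ref 117 66))))) (.both (.play 130 (.both (.play 66 (.both (.play 67 (.both (.play 258 (.ref 5 2)) (.play 134 (.ref 3 66)))) (.play 65 (.ref 3 65)))) (.play 193 (.ref 1 129)))) (.both (.ref 83 128) (.play 195 (.ref 52 128))))))))))
 (.seq (.seq (.one (.play 131 (.both (.ref 479 0) (.both (.ref 411 0) (.both (.play 134 (.both (.ref 477 2) (.ref 135 67))) (.both (.ref 137 65) (.both (.play 134 (.ref 446 65)) (.play 134 (.both (.play 130 (.ref 43 65)) (.both (.ref 132 65) (.both (.ref 135 67) (.ref 125 67))))))))))))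
 (.seq (.one (.both (.play 129 (.ref 6 0)) (.play 128 (.ref 5 0))))
 (.one (.play 130 (.both (.ref 147 2) (.play 65 (.ref 59 64)))))))
 (.seq (.one (.both (.play 65 (.ref 3 0)) (.play 69 (.ref 1 65))))
 (.seq (.one (.play 64 (.both (.play 3 (.ref 2 0)) (.play 132 (.ref 0 64)))))
 (.one (.both (.play 64 (.ref 7 0)) (.play 2 (.ref 5 1)))))))))))
 (.seq (.seq (.seq (.seq (.seq (.seq (.one (.play 195 (.both (.ref 46 0) (.both (.ref 198 2) (.ref 139 3)))))
 (.seq (.one (.play 67 (.both (.play 66 (.both (.play 129 (.ref 24 0)) (.play 70 (.both (.play 71 (.both (.ref 33 3) (.play 133 (.both (.play 134 (.ref 0 66)) (.play 72 (.ref 1 68)))))) (.both (.ref 135 3) (.both (.play 71 (.both (.ref 33 3) (.ref 335 68))) (.ref 28 66))))))) (.play 3 (.ref 7 3)))))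
 (.one (.both (.play 256 (.ref 14 0)) (.play 66 (.ref 5 1))))))
 (.seq (.one (.both (.play 4 (.ref 5 3)) (.ref 218 64)))
 (.seq (.one (.play 260 (.both (.play 132 (.ref 401 3)) (.both (.play 5 (.ref 481 4)) (.both (.play 133 (.ref 101 4)) (.play 324 (.both (.play 388 (.both (.play 132 (.ref 79 67)) (.both (.play 132 (.ref 78 68)) (.ref 387 193)))) (.both (.play 133 (.ref 274 68)) (.both (.ref 193 128) (.ref 329 129))))))))))
 (.one (.play 257 (.both (.play 64 (.ref 7 0)) (.play 258 (.ref 16 1))))))))
 (.seq (.seq (.one (.play 196 (.both (.ref 368 0) (.both (.ref 388 3) (.ref 491 3)))))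
 (.seq (.one (.play 257 (.both (.play 2 (.ref 5 1)) (.play 320 (.ref 22 64)))))
 (.one (.both (.play 1 (.ref 1 0)) (.play 67 (.ref 2 0))))))
 (.seq (.one (.play 259 (.both (.play 130 (.ref 4 2)) (.play 260 (.ref 0 192)))))
 (.seq (.one (.play 195 (.both (.play 194 (.both (.ref 495 2) (.play 257 (.ref 24 128)))) (.both (.play 132 (.ref 21 3)) (.play 198 (.ref 446 129))))))
 (.one (.play 67 (.both (.ref 124 0) (.both (.play 130 (.ref 24 1)) (.both (.ref 449 1) (.ref 37 66))))))))))
 (.seq (.seq (.seq (.one (.play 71 (.both (.ref 497 0) (.ref 135 4))))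
 (.seq (.one (.play 68 (.both (.play 70 (.both (.ref 498 0) (.play 6 (.ref 5 5)))) (.play 4 (.ref 7 4)))))
 (.one (.play 195 (.both (.ref 444 2) (.both (.play 260 (.both (.play 322 (.both (.play 386 (.ref 156 130)) (.play 321 (.ref 217 256)))) (.play 196 (.ref 5 195)))) (.ref 77 131)))))))
 (.seq (.one (.both (.play 0 (.ref 3 0)) (.play 64 (.ref 2 0))))
 (.seq (.one (.play 192 (.both (.play 256 (.ref 6 0)) (.play 130 (.ref 1 128)))))
 (.one (.play 69 (.both (.play 67 (.both (.ref 233 0) (.play 3 (.ref 7 3)))) (.play 5 (.ref 5 4))))))))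
 (.seq (.seq (.one (.play 196 (.both (.play 132 (.both (.play 323 (.ref 363 3)) (.both (.ref 452 3) (.ref 503 64)))) (.both (.play 195 (.both (.play 131 (.ref 181 3)) (.play 197 (.ref 0 195)))) (.both (.play 197 (.both (.play 133 (.ref 108 4)) (.play 195 (.ref 0 195)))) (.ref 312 3))))))
 (.seq (.one (.play 263 (.both (.play 199 (.both (.ref 444 6) (.both (.play 390 (.both (.play 326 (.both (.play 324 (.both (.play 388 (.both (.play 262 (.both (.ref 504 64) (.play 198 (.ref 7 198)))) (.both (.play 389 (.both (.ref 460 129) (.play 387 (.ref 2 323)))) (.both (.play 452 (.both (.play 260 (.both (.play 197 (.ref 294 131)) (.ref 502 259))) (.both (.play 516 (.both (.play 259 (.both (.play 260 (.both (.play 195 (.ref 7 195)) (.play 261 (.both (.play 197 (.ref 5 196)) (.play 262 (.ref 0 259)))))) (.play 323 (.ref 7 259)))) (.play 581 (.ref 76 323)))) (.play 389 (.ref 23 323))))) (.play 389 (.ref 501 323)))))) (.play 325 (.ref 26 260)))) (.play 135 (.ref 6 134)))) (.play 454 (.ref 6 198)))) (.play 198 (.ref 47 134)))))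 (.both (.ref 500 4) (.both (.ref 461 6) (.both (.ref 443 70) (.both (.play 198 (.ref 311 134)) (.ref 499 194))))))))
 (.one (.play 129 (.both (.ref 362 0) (.ref 77 65))))))
 (.seq (.one (.play 193 (.both (.ref 506 0) (.both (.play 128 (.ref 311 64)) (.both (.play 129 (.both (.play 256 (.both (.play 65 (.ref 6 64)) (.play 192 (.ref 7 192)))) (.ref 77 65))) (.play 192 (.ref 47 128)))))))
 (.seq (.one (.both (.play 0 (.ref 3 0)) (.play 129 (.both (.play 193 (.ref 4 1)) (.play 128 (.ref 1 64))))))
 (.one (.play 3 (.both (.play 4 (.ref 217 0)) (.play 130 (.ref 5 2))))))))))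
 (.seq (.seq (.seq (.seq (.one (.play 3 (.both (.play 2 (.ref 95 0)) (.play 132 (.ref 7 3)))))
 (.seq (.one (.both (.ref 137 0) (.play 2 (.ref 7 2))))
 (.one (.play 68 (.both (.play 66 (.ref 511 0)) (.play 4 (.ref 5 3)))))))
 (.seq (.one (.play 1 (.both (.play 0 (.ref 244 0)) (.play 69 (.ref 3 1)))))
 (.seq (.one (.play 194 (.both (.play 258 (.ref 6 2)) (.play 132 (.ref 57 128)))))
 (.one (.play 66 (.both (.play 65 (.both (.play 1 (.ref 7 1)) (.play 129 (.both (.play 68 (.ref 227 64)) (.play 322 (.ref 7 65)))))) (.play 3 (.ref 5 2))))))))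
 (.seq (.seq (.one (.play 257 (.both (.play 64 (.ref 7 0)) (.play 66 (.ref 5 1)))))
 (.seq (.one (.play 69 (.both (.play 70 (.ref 19 2)) (.ref 37 64))))
 (.one (.play 133 (.both (.play 197 (.both (.play 196 (.ref 113 0)) (.play 261 (.ref 7 4)))) (.play 134 (.ref 0 66)))))))
 (.seq (.one (.play 69 (.both (.ref 120 2) (.ref 37 64))))
 (.seq (.one (.play 129 (.both (.play 258 (.both (.play 65 (.both (.play 1 (.ref 4 1)) (.play 322 (.both (.play 130 (.ref 7 65)) (.play 386 (.ref 5 130)))))) (.play 260 (.both (.play 324 (.both (.play 323 (.both (.play 325 (.both (.play 389 (.ref 4 132)) (.ref 469 258))) (.play 387 (.ref 6 131)))) (.play 388 (.ref 7 131)))) (.play 261 (.ref 0 193)))))) (.play 128 (.ref 3 128)))))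
 (.one (.play 257 (.both (.play 64 (.ref 7 0)) (.play 322 (.ref 4 65)))))))))
 (.seq (.seq (.seq (.one (.play 258 (.both (.ref 521 0) (.play 194 (.ref 4 1)))))
 (.seq (.one (.play 257 (.both (.play 256 (.ref 14 0)) (.ref 522 64))))
 (.one (.play 194 (.both (.play 258 (.ref 4 1)) (.ref 239 128))))))
 (.seq (.one (.both (.play 69 (.ref 3 1)) (.play 128 (.ref 2 64))))
 (.seq (.one (.play 257 (.both (.play 64 (.ref 7 0)) (.ref 175 64))))
 (.one (.play 256 (.both (.play 65 (.ref 5 0)) (.play 257 (.ref 16 0))))))))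
 (.seq (.seq (.one (.play 194 (.both (.play 258 (.ref 6 2)) (.play 133 (.both (.play 134 (.ref 3 66)) (.play 193 (.ref 51 128)))))))
 (.seq (.one (.play 259 (.both (.play 194 (.both (.play 132 (.both (.play 68 (.ref 84 3)) (.play 133 (.ref 52 128)))) (.play 258 (.ref 6 2)))) (.both (.play 258 (.ref 14 2)) (.ref 176 2)))))
 (.one (.play 66 (.both (.play 2 (.ref 7 2)) (.play 65 (.ref 1 64)))))))
 (.seq (.one (.play 1 (.both (.play 65 (.ref 238 0)) (.play 2 (.ref 3 1)))))
 (.seq (.one (.both (.ref 531 0) (.play 129 (.ref 1 65))))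
 (.one (.play 196 (.both (.play 198 (.both (.play 262 (.ref 4 5)) (.play 195 (.both (.ref 60 128) (.ref 34 131))))) (.play 260 (.ref 6 4)))))))))))
 (.seq (.seq (.seq (.seq (.seq (.one (.both (.play 256 (.ref 6 0)) (.play 257 (.ref 7 0))))
 (.seq (.one (.play 193 (.both (.play 194 (.both (.ref 353 0) (.play 261 (.ref 0 193)))) (.play 192 (.ref 3 192)))))
 (.one (.play 128 (.both (.play 129 (.both (.play 66 (.both (.play 65 (.both (.play 2 (.ref 5 1)) (.play 67 (.ref 1 64)))) (.play 130 (.ref 5 65)))) (.play 64 (.ref 7 64)))) (.ref 146 128))))))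
 (.seq (.one (.play 129 (.both (.play 66 (.ref 294 0)) (.play 384 (.ref 6 128)))))
 (.seq (.one (.play 320 (.both (.ref 537 0) (.play 260 (.ref 1 256)))))
 (.one (.play 68 (.both (.play 0 (.ref 3 0)) (.play 69 (.ref 1 65))))))))
 (.seq (.seq (.one (.play 257 (.both (.play 0 (.ref 7 0)) (.play 322 (.ref 76 64)))))
 (.seq (.one (.play 64 (.both (.ref 540 0) (.play 132 (.ref 3 64)))))
 (.one (.play 321 (.both (.ref 348 0) (.play 385 (.ref 4 128)))))))
 (.seq (.one (.play 65 (.both (.play 64 (.ref 396 0)) (.play 129 (.ref 5 64)))))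
 (.seq (.one (.play 129 (.both (.ref 543 1) (.play 128 (.ref 47 64)))))
 (.one (.both (.ref 447 0) (.play 448 (.ref 6 192))))))))
 (.seq (.seq (.seq (.one (.play 65 (.both (.play 64 (.ref 2 0)) (.play 133 (.ref 114 65)))))
 (.seq (.one (.play 1 (.both (.play 0 (.ref 3 0)) (.play 2 (.ref 0 1)))))
 (.one (.both (.ref 31 2) (.ref 37 64)))))
 (.seq (.one (.play 257 (.both (.play 449 (.both (.ref 425 0) (.ref 230 256))) (.play 256 (.ref 3 256)))))
 (.seq (.one (.play 64 (.both (.ref 77 0) (.play 257 (.ref 4 64)))))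
 (.one (.play 261 (.both (.play 260 (.both (.play 196 (.both (.play 131 (.both (.play 132 (.both (.ref 550 4) (.play 67 (.ref 7 67)))) (.play 195 (.both (.play 388 (.ref 7 131)) (.play 262 (.ref 3 195)))))) (.both (.play 132 (.ref 70 68)) (.play 388 (.both (.play 195 (.ref 394 131)) (.play 389 (.both (.play 387 (.both (.play 451 (.ref 6 195)) (.ref 337 320))) (.play 453 (.ref 4 196))))))))) (.play 259 (.ref 3 259)))) (.both (.play 260 (.both (.ref 353 67) (.play 259 (.ref 3 259)))) (.both (.ref 226 131) (.ref 415 195)))))))))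
 (.seq (.seq (.one (.play 64 (.both (.play 0 (.ref 7 0)) (.play 66 (.both (.play 2 (.ref 5 1)) (.play 132 (.ref 0 64)))))))
 (.seq (.one (.play 321 (.both (.play 65 (.ref 48 0)) (.both (.play 65 (.ref 78 1)) (.ref 552 64)))))
 (.one (.play 321 (.both (.play 65 (.ref 49 0)) (.both (.play 65 (.ref 79 0)) (.ref 552 64)))))))
 (.seq (.one (.play 66 (.both (.play 2 (.ref 7 2)) (.play 132 (.ref 431 64)))))
 (.seq (.one (.both (.play 68 (.ref 79 3)) (.both (.play 68 (.ref 78 4)) (.ref 192 128))))
 (.one (.play 67 (.both (.ref 515 0) (.play 131 (.ref 5 66))))))))))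
 (.seq (.seq (.seq (.seq (.one (.play 129 (.both (.ref 436 0) (.play 322 (.ref 4 129)))))
 (.seq (.one (.play 385 (.both (.play 386 (.both (.ref 558 0) (.play 450 (.ref 4 193)))) (.both (.play 192 (.ref 12 128)) (.play 448 (.ref 22 192))))))
 (.one (.play 195 (.both (.play 193 (.both (.play 257 (.ref 6 1)) (.play 196 (.both (.play 129 (.ref 19 128)) (.play 133 (.ref 2 129)))))) (.play 259 (.ref 4 2)))))))
 (.seq (.one (.play 130 (.both (.play 65 (.ref 311 1)) (.ref 560 128))))
 (.seq (.one (.play 259 (.both (.play 196 (.both (.play 130 (.both (.play 66 (.ref 13 2)) (.play 129 (.ref 115 128)))) (.play 260 (.ref 4 3)))) (.both (.ref 186 2) (.play 260 (.ref 16 3))))))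
 (.one (.play 129 (.both (.play 320 (.ref 363 0)) (.ref 77 65)))))))
 (.seq (.seq (.one (.play 68 (.both (.play 69 (.ref 3 1)) (.play 128 (.ref 1 64)))))
 (.seq (.one (.play 197 (.both (.play 261 (.ref 4 4)) (.ref 102 128))))
 (.one (.play 131 (.both (.play 259 (.ref 7 2)) (.play 132 (.ref 2 128)))))))
 (.seq (.one (.both (.play 0 (.ref 7 0)) (.play 321 (.ref 5 65))))
 (.seq (.one (.play 65 (.both (.play 1 (.ref 7 1)) (.play 64 (.ref 0 64)))))
 (.one (.both (.play 259 (.ref 4 2)) (.play 192 (.ref 2 128))))))))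
 (.seq (.seq (.seq (.one (.play 194 (.both (.play 133 (.both (.play 132 (.both (.play 196 (.ref 569 1)) (.play 65 (.ref 430 64)))) (.both (.play 196 (.both (.play 260 (.ref 4 3)) (.play 132 (.ref 178 129)))) (.both (.ref 524 2) (.play 132 (.both (.play 65 (.ref 430 64)) (.play 134 (.ref 1 130)))))))) (.play 258 (.ref 6 2)))))
 (.seq (.one (.play 195 (.both (.ref 570 0) (.both (.play 132 (.both (.play 194 (.both (.play 258 (.ref 6 2)) (.play 133 (.ref 52 128)))) (.both (.ref 252 2) (.play 65 (.ref 323 64))))) (.both (.play 260 (.ref 76 2)) (.both (.ref 523 2) (.play 259 (.both (.play 260 (.ref 16 3)) (.both (.ref 522 66) (.play 323 (.both (.play 130 (.ref 7 66)) (.ref 176 66))))))))))))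
 (.one (.play 195 (.both (.play 259 (.ref 7 2)) (.play 192 (.ref 2 128)))))))
 (.seq (.one (.play 65 (.both (.play 193 (.both (.ref 572 0) (.play 257 (.ref 481 1)))) (.play 64 (.ref 0 64)))))
 (.seq (.one (.both (.ref 218 0) (.play 259 (.ref 5 3))))
 (.one (.play 195 (.both (.play 131 (.ref 574 0)) (.both (.play 133 (.both (.ref 573 1) (.both (.play 194 (.both (.ref 572 1) (.play 134 (.both (.play 135 (.ref 3 67)) (.play 131 (.ref 1 130)))))) (.play 134 (.ref 95 65))))) (.play 196 (.ref 534 3)))))))))
 (.seq (.seq (.one (.both (.play 66 (.ref 6 1)) (.play 256 (.ref 1 192))))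
 (.seq (.one (.play 65 (.both (.ref 41 0) (.play 4 (.ref 2 1)))))
 (.one (.play 66 (.both (.ref 577 0) (.play 129 (.ref 1 65)))))))
 (.seq (.one (.play 197 (.both (.ref 386 0) (.both (.ref 562 2) (.both (.ref 388 4) (.ref 146 4))))))
 (.seq (.one (.play 196 (.both (.play 199 (.both (.play 260 (.ref 465 3)) (.ref 135 132))) (.both (.play 260 (.ref 241 4)) (.ref 112 128)))))
 (.one (.play 197 (.both (.play 198 (.both (.ref 580 0) (.play 262 (.ref 4 5)))) (.both (.ref 388 4) (.ref 491 4)))))))))))))
 (.seq (.seq (.seq (.seq (.seq (.seq (.seq (.one (.play 132 (.both (.play 68 (.both (.play 196 (.both (.play 195 (.both (.play 259 (.ref 471 2)) (.play 128 (.ref 0 128)))) (.play 197 (.ref 0 129)))) (.play 69 (.ref 2 65)))) (.both (.ref 120 65) (.play 133 (.both (.play 65 (.ref 3 65)) (.ref 28 129)))))))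
 (.seq (.one (.both (.ref 96 0) (.play 259 (.ref 7 2))))
 (.one (.play 193 (.both (.play 257 (.ref 5 1)) (.play 196 (.ref 3 128)))))))
 (.seq (.one (.play 196 (.both (.ref 192 0) (.both (.ref 331 3) (.ref 397 4)))))
 (.seq (.one (.play 195 (.both (.ref 106 0) (.play 259 (.ref 6 3)))))
 (.one (.play 196 (.both (.ref 586 0) (.both (.play 260 (.ref 488 3)) (.ref 527 4))))))))
 (.seq (.seq (.one (.play 257 (.both (.play 130 (.ref 6 1)) (.play 256 (.ref 1 192)))))
 (.seq (.one (.both (.ref 588 0) (.ref 495 1)))
 (.one (.play 321 (.both (.play 64 (.ref 180 0)) (.play 385 (.ref 5 129)))))))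
 (.seq (.one (.play 257 (.both (.play 258 (.both (.play 129 (.both (.play 65 (.ref 70 1)) (.play 321 (.both (.play 128 (.ref 394 64)) (.play 385 (.ref 398 128)))))) (.play 197 (.ref 1 193)))) (.play 256 (.ref 1 192)))))
 (.seq (.one (.play 385 (.both (.play 193 (.both (.ref 544 0) (.play 384 (.both (.play 448 (.ref 6 192)) (.play 323 (.ref 1 320)))))) (.play 449 (.ref 84 193)))))
 (.one (.play 385 (.both (.play 449 (.both (.play 257 (.both (.ref 425 0) (.play 256 (.ref 3 256)))) (.both (.ref 493 256) (.ref 140 256)))) (.play 384 (.ref 1 320)))))))))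
 (.seq (.seq (.seq (.one (.both (.play 2 (.ref 1 0)) (.play 66 (.ref 2 0))))
 (.seq (.one (.play 322 (.both (.play 64 (.both (.play 0 (.ref 7 0)) (.ref 521 64))) (.play 258 (.ref 4 65)))))
 (.one (.play 259 (.both (.play 66 (.ref 12 2)) (.both (.ref 595 2) (.ref 378 64)))))))
 (.seq (.one (.play 258 (.both (.play 196 (.both (.play 194 (.ref 465 1)) (.both (.play 260 (.both (.play 3 (.ref 4 3)) (.play 259 (.ref 569 65)))) (.both (.play 3 (.both (.play 194 (.ref 6 2)) (.play 260 (.ref 4 3)))) (.ref 83 192))))) (.both (.play 259 (.both (.play 260 (.both (.play 196 (.both (.play 3 (.ref 4 3)) (.play 257 (.ref 2 193)))) (.play 324 (.ref 4 67)))) (.play 322 (.ref 6 66)))) (.both (.play 194 (.ref 241 2)) (.play 322 (.ref 356 66)))))))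
 (.seq (.one (.play 67 (.both (.play 68 (.both (.play 4 (.ref 5 3)) (.play 132 (.both (.play 65 (.ref 130 64)) (.play 323 (.ref 5 67)))))) (.play 2 (.ref 7 2)))))
 (.one (.play 66 (.both (.ref 598 0) (.play 130 (.ref 7 66))))))))
 (.seq (.seq (.one (.play 131 (.both (.ref 599 0) (.both (.play 387 (.ref 48 66)) (.play 387 (.ref 78 67))))))
 (.seq (.one (.both (.ref 557 0) (.both (.play 386 (.ref 49 65)) (.play 386 (.ref 79 65)))))
 (.one (.play 68 (.both (.play 4 (.ref 5 3)) (.play 69 (.ref 52 64)))))))
 (.seq (.one (.play 192 (.both (.play 256 (.ref 241 0)) (.play 130 (.ref 1 128)))))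
 (.seq (.one (.play 192 (.both (.play 128 (.ref 181 0)) (.play 258 (.ref 3 192)))))
 (.one (.both (.ref 604 0) (.both (.ref 312 0) (.both (.ref 603 128) (.play 258 (.ref 23 192)))))))))))
 (.seq (.seq (.seq (.seq (.one (.play 647 (.both (.play 392 (.both (.ref 505 1) (.play 520 (.ref 6 391)))) (.both (.play 645 (.both (.play 581 (.both (.play 582 (.both (.ref 549 260) (.play 648 (.ref 130 580)))) (.both (.play 517 (.ref 605 324)) (.both (.play 709 (.both (.play 517 (.both (.play 452 (.ref 311 388)) (.ref 514 514))) (.both (.ref 536 388) (.play 646 (.both (.play 644 (.ref 2 580)) (.play 648 (.ref 23 580))))))) (.play 644 (.ref 594 580)))))) (.both (.play 581 (.both (.play 517 (.both (.ref 600 322) (.both (.play 453 (.both (.play 388 (.ref 311 324)) (.both (.play 516 (.both (.ref 602 386) (.play 582 (.ref 3 516)))) (.play 582 (.both (.play 646 (.ref 70 389)) (.play 516 (.ref 3 516))))))) (.both (.ref 295 324) (.both (.play 709 (.ref 601 387)) (.both (.ref 80 388) (.play 709 (.both (.ref 555 450) (.play 772 (.ref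 22 516)))))))))) (.both (.play 517 (.both (.ref 600 322) (.both (.ref 312 324) (.both (.play 453 (.both (.play 388 (.ref 311 324)) (.play 646 (.both (.play 710 (.ref 4 453)) (.play 644 (.ref 2 580)))))) (.both (.ref 597 450) (.play 646 (.both (.ref 596 450) (.play 644 (.ref 2 580))))))))) (.both (.play 644 (.both (.play 643 (.both (.ref 301 384) (.both (.ref 160 448) (.both (.ref 316 512) (.play 582 (.ref 494 579)))))) (.both (.play 582 (.ref 57 578)) (.both (.play 646 (.ref 421 578)) (.play 584 (.ref 594 580)))))) (.both (.play 517 (.both (.play 516 (.both (.play 452 (.both (.play 388 (.ref 418 388)) (.play 709 (.ref 7 452)))) (.play 582 (.ref 3 516)))) (.both (.ref 163 388) (.both (.play 644 (.both (.play 708 (.ref 101 452)) (.play 582 (.ref 1 580)))) (.play 582 (.ref 23 516)))))) (.play 644 (.both (.play 646 (.both (.play 710 (.both (.play 643 (.both (.ref 72 449) (.play 711 (.ref 0 643)))) (.play 774 (.ref 181 453)))) (.play 647 (.ref 2 580)))) (.play 582 (.ref 1 580))))))))) (.both (.play 648 (.both (.play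 646 (.both (.ref 551 321) (.both (.ref 427 324) (.both (.ref 593 324) (.both (.ref 297 388) (.both (.ref 520 452) (.ref 518 579))))))) (.both (.play 646 (.both (.play 581 (.both (.play 582 (.both (.ref 592 324) (.play 649 (.ref 0 581)))) (.play 580 (.ref 3 580)))) (.both (.ref 297 388) (.both (.ref 535 388) (.both (.ref 591 452) (.ref 517 580)))))) (.both (.play 711 (.both (.play 646 (.both (.ref 434 388) (.both (.play 712 (.both (.play 709 (.both (.play 838 (.both (.play 840 (.both (.play 776 (.ref 7 583)) (.ref 334 643))) (.both (.ref 97 580) (.both (.play 581 (.both (.play 580 (.ref 3 580)) (.play 774 (.both (.play 773 (.ref 4 581)) (.play 775 (.ref 6 582)))))) (.play 775 (.ref 22 582)))))) (.play 708 (.ref 1 644)))) (.play 713 (.ref 0 645)))) (.play 649 (.both (.ref 564 582) (.ref 28 645)))))) (.both (.play 649 (.both (.play 646 (.both (.play 709 (.both (.play 710 (.both (.play 581 (.both (.ref 590 453) (.play 580 (.ref 3 580)))) (.play 649 (.ref 1 645)))) (.play 708 (.ref 1 644)))) (.ref 28 645))) (.both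 (.ref 582 518) (.both (.ref 343 582) (.play 710 (.ref 58 644)))))) (.both (.play 775 (.both (.play 649 (.both (.ref 582 518) (.both (.play 776 (.both (.play 777 (.both (.play 774 (.ref 589 581)) (.both (.play 774 (.both (.ref 588 581) (.ref 566 582))) (.both (.play 841 (.ref 419 584)) (.ref 44 709))))) (.play 840 (.ref 4 583)))) (.ref 564 582)))) (.play 839 (.ref 5 583)))) (.both (.play 775 (.both (.play 774 (.ref 113 578)) (.both (.play 839 (.ref 488 582)) (.ref 527 583)))) (.both (.play 775 (.both (.ref 39 578) (.both (.ref 529 580) (.both (.ref 153 582) (.ref 527 583))))) (.both (.ref 587 579) (.both (.ref 585 579) (.both (.play 775 (.both (.ref 237 579) (.both (.play 710 (.both (.ref 390 580) (.both (.ref 17 582) (.play 649 (.ref 57 644))))) (.both (.play 838 (.ref 22 582)) (.both (.ref 199 582) (.play 839 (.both (.play 838 (.ref 14 582)) (.both (.ref 198 646) (.play 903 (.both (.ref 186 646) (.play 712 (.ref 5 647)))))))))))) (.play 776 (.both (.play 710 (.both (.play 777 (.both (.ref 584 582) (.play 709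 (.both (.play 708 (.ref 2 644)) (.play 712 (.ref 0 709)))))) (.both (.play 649 (.both (.play 777 (.both (.ref 584 582) (.play 841 (.ref 419 584)))) (.play 650 (.ref 1 646)))) (.play 709 (.ref 217 644))))) (.both (.play 712 (.ref 583 581)) (.play 775 (.ref 194 583)))))))))))))) (.both (.play 712 (.both (.play 713 (.both (.play 711 (.both (.play 650 (.both (.play 649 (.both (.ref 467 455) (.play 582 (.ref 3 582)))) (.both (.play 649 (.ref 61 582)) (.ref 239 647)))) (.both (.play 649 (.both (.play 777 (.both (.play 841 (.ref 13 584)) (.play 710 (.ref 212 645)))) (.ref 539 582))) (.both (.play 714 (.both (.play 650 (.both (.play 649 (.both (.play 582 (.ref 3 582)) (.play 710 (.ref 2 646)))) (.play 651 (.ref 2 647)))) (.play 715 (.ref 3 647)))) (.both (.ref 582 582) (.play 714 (.both (.play 710 (.both (.play 709 (.ref 172 644)) (.ref 28 710))) (.play 715 (.ref 3 647))))))))) (.play 646 (.ref 0 645)))) (.both (.ref 581 579) (.both (.ref 579 579) (.both (.play 776 (.both (.play 711 (.both (.play 775 (.both (.play 774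 (.both (.play 837 (.both (.play 838 (.both (.play 647 (.ref 6 582)) (.play 777 (.ref 1 773)))) (.ref 578 707))) (.both (.play 777 (.both (.play 838 (.ref 576 581)) (.ref 147 646))) (.play 773 (.ref 172 708))))) (.play 839 (.ref 6 583)))) (.both (.play 775 (.both (.ref 218 580) (.play 839 (.ref 6 583)))) (.both (.ref 96 581) (.ref 20 582))))) (.play 840 (.ref 7 583)))) (.both (.ref 492 580) (.both (.ref 575 580) (.ref 571 581)))))))) (.both (.play 649 (.both (.play 775 (.both (.play 711 (.both (.ref 568 517) (.ref 46 580))) (.both (.play 582 (.both (.play 711 (.ref 567 518)) (.play 581 (.ref 0 581)))) (.play 776 (.both (.play 777 (.both (.play 774 (.both (.ref 566 582) (.play 709 (.ref 59 708)))) (.both (.ref 151 646) (.both (.ref 453 646) (.play 774 (.ref 162 708)))))) (.both (.play 712 (.both (.ref 565 580) (.play 839 (.ref 6 583)))) (.both (.play 712 (.both (.ref 565 580) (.play 840 (.ref 7 583)))) (.play 712 (.ref 534 583))))))))) (.both (.play 711 (.both (.play 775 (.both (.ref 368 579) (.play 839 (.ref 5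 583)))) (.ref 564 582))) (.play 650 (.ref 19 582))))) (.both (.play 649 (.both (.ref 134 517) (.both (.play 582 (.ref 95 580)) (.play 646 (.ref 43 580))))) (.play 649 (.both (.play 646 (.ref 548 580)) (.both (.play 646 (.both (.ref 547 580) (.ref 37 644))) (.play 582 (.ref 188 581)))))))))))) (.both (.play 581 (.both (.play 709 (.both (.play 517 (.both (.ref 563 324) (.both (.play 452 (.ref 311 388)) (.ref 562 514)))) (.both (.ref 561 387) (.both (.ref 312 388) (.both (.ref 559 388) (.both (.ref 391 451) (.both (.ref 359 513) (.play 773 (.ref 50 514))))))))) (.both (.play 517 (.both (.play 453 (.both (.play 388 (.ref 311 324)) (.ref 502 452))) (.both (.play 709 (.both (.play 452 (.ref 311 388)) (.play 772 (.ref 22 516)))) (.play 582 (.ref 23 516))))) (.both (.play 709 (.both (.play 517 (.both (.ref 557 387) (.both (.ref 555 450) (.play 648 (.both (.play 708 (.both (.play 772 (.ref 6 516)) (.play 710 (.both (.play 774 (.ref 4 517)) (.play 711 (.ref 2 644)))))) (.play 582 (.ref 323 580))))))) (.both (.play 517 (.both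 (.ref 557 387) (.ref 387 514))) (.both (.play 773 (.ref 556 449)) (.both (.play 517 (.both (.ref 555 450) (.ref 387 514))) (.both (.ref 554 452) (.both (.ref 553 452) (.play 773 (.both (.ref 552 516) (.ref 192 577)))))))))) (.play 582 (.both (.play 648 (.ref 130 580)) (.play 644 (.ref 1 580)))))))) (.both (.play 646 (.both (.play 648 (.both (.ref 551 321) (.both (.ref 65 581) (.play 709 (.ref 336 644))))) (.play 644 (.ref 2 580)))) (.both (.play 646 (.both (.play 648 (.both (.play 709 (.both (.ref 549 324) (.play 708 (.ref 1 644)))) (.both (.play 649 (.ref 548 580)) (.play 649 (.both (.ref 547 580) (.ref 31 582)))))) (.play 644 (.ref 2 580)))) (.both (.play 646 (.both (.play 709 (.both (.play 773 (.both (.play 708 (.both (.play 837 (.both (.play 581 (.both (.ref 544 388) (.play 838 (.ref 16 581)))) (.both (.ref 389 644) (.ref 91 644)))) (.both (.play 774 (.both (.play 838 (.ref 99 581)) (.ref 546 642))) (.play 707 (.ref 51 642))))) (.both (.play 581 (.both (.ref 544 388) (.both (.play 772 (.ref 545 388)) (.play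 837 (.both (.play 772 (.both (.play 836 (.ref 6 580)) (.play 710 (.both (.play 901 (.ref 5 645)) (.play 771 (.ref 55 706)))))) (.both (.play 836 (.ref 14 580)) (.ref 153 644))))))) (.both (.play 837 (.both (.play 581 (.both (.ref 544 388) (.play 836 (.ref 14 580)))) (.both (.play 900 (.ref 22 644)) (.ref 139 645)))) (.both (.ref 287 449) (.both (.ref 179 515) (.both (.ref 359 577) (.ref 486 642)))))))) (.both (.play 581 (.both (.play 580 (.ref 456 388)) (.both (.play 517 (.both (.play 454 (.ref 294 388)) (.both (.ref 542 389) (.play 773 (.ref 48 452))))) (.both (.ref 433 388) (.both (.play 710 (.both (.ref 424 388) (.ref 539 580))) (.both (.ref 541 516) (.play 710 (.both (.ref 379 578) (.ref 539 580))))))))) (.both (.play 581 (.both (.ref 538 388) (.both (.ref 536 388) (.play 648 (.ref 23 580))))) (.play 708 (.ref 52 642)))))) (.play 644 (.ref 2 580)))) (.both (.play 775 (.both (.play 646 (.both (.play 648 (.both (.ref 535 388) (.play 712 (.both (.play 776 (.ref 534 583)) (.play 713 (.ref 0 645)))))) (.play 644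 (.ref 2 580)))) (.both (.play 711 (.both (.play 582 (.both (.play 518 (.ref 7 518)) (.ref 533 578))) (.both (.play 582 (.ref 12 518)) (.both (.play 839 (.both (.play 583 (.ref 48 518)) (.both (.ref 186 582) (.both (.play 646 (.both (.play 582 (.ref 7 582)) (.ref 526 646))) (.play 903 (.both (.play 840 (.both (.play 904 (.ref 4 647)) (.play 967 (.both (.play 966 (.ref 14 710)) (.play 776 (.ref 84 711)))))) (.both (.play 904 (.ref 16 647)) (.both (.play 968 (.ref 76 710)) (.ref 175 710))))))))) (.play 840 (.ref 76 582)))))) (.both (.play 644 (.both (.play 711 (.both (.ref 530 516) (.ref 533 578))) (.play 646 (.ref 2 580)))) (.both (.play 711 (.both (.play 582 (.both (.play 581 (.ref 532 515)) (.play 518 (.ref 7 518)))) (.play 840 (.ref 76 582)))) (.both (.play 644 (.both (.play 711 (.both (.ref 530 516) (.play 840 (.ref 76 582)))) (.play 646 (.ref 2 580)))) (.both (.play 644 (.both (.play 711 (.both (.ref 530 516) (.ref 153 582))) (.play 646 (.ref 2 580)))) (.both (.play 644 (.both (.play 711 (.both (.ref 530 516)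 (.ref 529 580))) (.play 646 (.ref 2 580)))) (.play 646 (.both (.play 644 (.ref 2 580)) (.play 711 (.both (.play 712 (.both (.ref 528 580) (.both (.play 839 (.both (.play 838 (.ref 14 582)) (.play 903 (.both (.play 710 (.ref 7 646)) (.ref 527 711))))) (.play 713 (.ref 114 645))))) (.both (.ref 329 580) (.both (.play 839 (.both (.play 840 (.ref 16 583)) (.both (.play 903 (.both (.play 710 (.ref 7 646)) (.ref 387 708))) (.ref 526 646)))) (.both (.play 774 (.both (.play 713 (.both (.play 776 (.both (.play 840 (.ref 4 583)) (.play 712 (.both (.play 710 (.ref 3 645)) (.play 773 (.ref 2 709)))))) (.both (.play 776 (.both (.play 840 (.ref 4 583)) (.play 712 (.ref 525 645)))) (.both (.ref 524 582) (.play 712 (.ref 114 645)))))) (.play 838 (.ref 6 582)))) (.both (.ref 91 582) (.ref 523 582))))))))))))))))) (.both (.play 646 (.both (.play 648 (.both (.play 581 (.ref 457 388)) (.both (.ref 520 452) (.both (.ref 65 581) (.play 649 (.both (.ref 519 581) (.ref 28 645))))))) (.play 644 (.ref 2 580)))) (.both (.play 646 (.both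 (.play 648 (.both (.ref 520 452) (.both (.play 649 (.both (.ref 41 580) (.ref 519 581))) (.both (.ref 65 581) (.play 709 (.ref 336 644)))))) (.play 644 (.ref 2 580)))) (.play 646 (.both (.play 648 (.both (.ref 518 579) (.both (.ref 517 580) (.ref 65 581)))) (.play 644 (.ref 2 580))))))))))))))) (.play 520 (.ref 101 391))))))
 (.seq (.one (.play 584 (.both (.ref 606 0) (.both (.play 585 (.both (.play 392 (.both (.ref 505 1) (.play 520 (.ref 16 328)))) (.both (.play 582 (.both (.play 518 (.both (.play 454 (.both (.play 327 (.both (.play 325 (.both (.play 261 (.both (.play 389 (.both (.play 197 (.both (.play 134 (.both (.play 132 (.both (.play 68 (.both (.play 196 (.ref 358 4)) (.play 133 (.ref 7 68)))) (.both (.play 133 (.ref 511 66)) (.both (.play 198 (.both (.play 133 (.both (.play 68 (.ref 7 68)) (.play 199 (.ref 188 131)))) (.play 389 (.ref 5 133)))) (.ref 516 132))))) (.both (.play 198 (.ref 225 5)) (.both (.ref 279 5) (.ref 515 67))))) (.ref 514 194))) (.play 453 (.ref 4 261)))) (.both (.play 389 (.both (.play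 197 (.both (.ref 312 4) (.play 390 (.ref 4 197)))) (.play 453 (.ref 4 261)))) (.both (.play 390 (.ref 182 197)) (.play 326 (.both (.ref 513 259) (.play 390 (.ref 7 261)))))))) (.both (.play 389 (.both (.play 261 (.both (.play 197 (.both (.play 133 (.ref 49 68)) (.both (.play 133 (.ref 79 68)) (.ref 512 130)))) (.play 453 (.ref 4 261)))) (.play 390 (.ref 7 325)))) (.both (.play 326 (.both (.ref 510 258) (.both (.play 324 (.ref 138 258)) (.both (.ref 509 260) (.play 390 (.ref 292 261)))))) (.both (.play 326 (.both (.ref 271 258) (.both (.play 324 (.ref 42 259)) (.both (.play 324 (.ref 136 259)) (.play 261 (.ref 508 260)))))) (.both (.play 326 (.both (.ref 271 258) (.both (.play 390 (.both (.play 263 (.ref 5 262)) (.play 389 (.ref 7 325)))) (.play 389 (.both (.play 388 (.ref 1 324)) (.play 390 (.ref 7 325))))))) (.play 390 (.ref 293 261)))))))) (.both (.play 390 (.ref 294 261)) (.both (.play 520 (.both (.play 392 (.ref 47 263)) (.ref 34 518))) (.play 391 (.both (.play 390 (.ref 5 326)) (.play 520 (.both (.play 392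 (.ref 7 327)) (.ref 34 518))))))))) (.both (.play 391 (.both (.play 327 (.both (.play 392 (.both (.play 264 (.both (.ref 507 7) (.both (.play 200 (.both (.play 199 (.both (.play 263 (.both (.ref 116 132) (.play 456 (.ref 7 199)))) (.play 135 (.ref 7 135)))) (.play 136 (.ref 6 135)))) (.both (.play 200 (.both (.play 136 (.ref 6 135)) (.ref 77 136))) (.play 263 (.both (.play 265 (.both (.play 201 (.ref 5 200)) (.play 266 (.ref 227 262)))) (.play 199 (.ref 7 199)))))))) (.play 520 (.ref 7 327)))) (.play 390 (.ref 5 326)))) (.play 646 (.both (.play 455 (.ref 5 390)) (.play 645 (.ref 1 581)))))) (.both (.play 646 (.both (.play 389 (.ref 311 325)) (.play 645 (.ref 1 581)))) (.play 646 (.both (.play 521 (.both (.play 453 (.both (.play 520 (.both (.play 392 (.ref 4 328)) (.play 455 (.ref 0 453)))) (.play 389 (.ref 7 389)))) (.play 522 (.ref 2 518)))) (.play 645 (.ref 1 581)))))))) (.play 517 (.ref 3 517)))) (.both (.play 521 (.both (.play 520 (.both (.play 392 (.ref 4 328)) (.play 581 (.ref 2 517)))) (.play 522 (.ref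 2 518)))) (.play 517 (.ref 59 516))))) (.both (.ref 475 71) (.both (.play 582 (.both (.ref 306 390) (.play 517 (.ref 59 516)))) (.ref 455 388)))))) (.both (.play 392 (.both (.ref 505 1) (.both (.ref 445 5) (.play 585 (.ref 346 324))))) (.both (.play 392 (.both (.ref 505 1) (.play 520 (.both (.play 585 (.ref 16 328)) (.play 647 (.ref 6 391)))))) (.both (.play 585 (.both (.play 713 (.both (.play 712 (.both (.play 520 (.both (.ref 474 71) (.ref 496 516))) (.both (.play 520 (.both (.ref 474 71) (.play 711 (.both (.play 647 (.both (.play 648 (.ref 6 455)) (.ref 383 646))) (.both (.play 648 (.both (.play 647 (.ref 6 455)) (.play 777 (.ref 4 520)))) (.both (.play 777 (.both (.play 648 (.ref 4 520)) (.ref 406 644))) (.ref 364 644))))))) (.both (.play 520 (.both (.ref 474 71) (.play 711 (.both (.play 775 (.both (.play 648 (.ref 6 519)) (.play 774 (.both (.play 773 (.ref 494 709)) (.play 714 (.ref 1 710)))))) (.both (.play 777 (.both (.play 648 (.ref 4 520)) (.play 778 (.ref 323 710)))) (.both (.play 648 (.ref 21 519))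 (.ref 137 645))))))) (.both (.play 520 (.both (.ref 474 71) (.play 711 (.both (.play 714 (.both (.play 647 (.both (.play 648 (.ref 6 455)) (.play 646 (.ref 3 646)))) (.ref 135 647))) (.both (.play 648 (.ref 14 455)) (.both (.play 714 (.both (.ref 412 518) (.ref 135 647))) (.play 714 (.ref 446 645)))))))) (.both (.play 520 (.both (.ref 474 71) (.both (.ref 302 263) (.play 648 (.ref 398 455))))) (.both (.play 648 (.both (.play 520 (.both (.play 392 (.ref 345 327)) (.play 777 (.ref 4 520)))) (.both (.ref 493 519) (.both (.play 776 (.both (.play 521 (.ref 5 520)) (.ref 146 583))) (.ref 492 580))))) (.ref 480 580)))))))) (.both (.play 520 (.both (.ref 474 71) (.both (.play 649 (.ref 358 392)) (.play 649 (.ref 103 456))))) (.both (.play 520 (.both (.ref 474 71) (.both (.play 392 (.ref 21 391)) (.play 649 (.ref 418 456))))) (.both (.play 520 (.both (.ref 302 263) (.play 649 (.ref 98 456)))) (.play 712 (.both (.ref 490 516) (.both (.play 711 (.both (.ref 73 516) (.both (.play 714 (.both (.ref 306 519) (.both (.ref 270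 645) (.ref 126 647)))) (.both (.play 714 (.both (.ref 306 519) (.play 647 (.ref 61 646)))) (.both (.ref 482 580) (.play 710 (.ref 138 644))))))) (.both (.play 776 (.both (.play 648 (.ref 489 517)) (.both (.play 714 (.both (.play 649 (.both (.play 521 (.ref 6 520)) (.play 711 (.both (.ref 68 583) (.play 646 (.ref 59 645)))))) (.both (.play 649 (.both (.play 521 (.ref 6 520)) (.play 650 (.ref 213 582)))) (.both (.ref 343 647) (.play 775 (.ref 57 709)))))) (.both (.play 521 (.ref 481 520)) (.play 840 (.both (.play 648 (.ref 488 583)) (.both (.play 649 (.ref 40 584)) (.both (.ref 359 644) (.play 904 (.both (.play 649 (.ref 5 648)) (.ref 192 708))))))))))) (.both (.play 776 (.both (.play 521 (.ref 481 520)) (.both (.play 649 (.ref 101 520)) (.play 840 (.both (.play 648 (.both (.ref 116 581) (.ref 368 644))) (.both (.play 904 (.both (.play 903 (.ref 363 583)) (.both (.ref 487 644) (.ref 153 711)))) (.both (.play 904 (.both (.play 648 (.both (.ref 116 581) (.play 905 (.ref 16 648)))) (.both (.ref 487 644) (.ref 153 711))))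 (.both (.ref 391 582) (.ref 486 709))))))))) (.both (.play 776 (.both (.play 714 (.both (.play 651 (.both (.ref 157 519) (.both (.play 778 (.both (.play 842 (.both (.play 650 (.ref 485 585)) (.ref 153 649))) (.both (.ref 484 647) (.play 779 (.ref 323 711))))) (.both (.play 650 (.both (.play 652 (.ref 483 584)) (.play 711 (.ref 2 647)))) (.play 652 (.both (.play 650 (.ref 483 584)) (.play 715 (.ref 2 648)))))))) (.both (.ref 482 581) (.both (.ref 343 647) (.play 775 (.ref 57 709)))))) (.both (.play 648 (.ref 401 519)) (.play 521 (.ref 481 520))))) (.both (.ref 480 580) (.both (.play 711 (.ref 144 580)) (.play 714 (.both (.ref 479 581) (.both (.ref 411 581) (.both (.play 715 (.both (.ref 477 583) (.both (.play 648 (.ref 61 647)) (.play 776 (.ref 336 711))))) (.both (.ref 137 646) (.ref 319 646))))))))))))))))))) (.both (.play 520 (.both (.ref 474 71) (.both (.ref 391 326) (.play 648 (.both (.ref 218 453) (.play 712 (.both (.play 713 (.ref 16 456)) (.both (.play 649 (.both (.play 713 (.ref 4 456)) (.play 776 (.ref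 84 520)))) (.both (.play 776 (.ref 251 520)) (.ref 397 520)))))))))) (.both (.play 586 (.both (.play 520 (.both (.ref 474 71) (.both (.ref 464 391) (.play 649 (.ref 99 392))))) (.both (.ref 412 390) (.both (.ref 466 390) (.ref 367 453))))) (.both (.ref 475 71) (.both (.play 586 (.both (.ref 412 390) (.ref 27 519))) (.both (.ref 266 390) (.ref 470 390)))))))) (.both (.play 585 (.both (.play 520 (.both (.ref 474 71) (.both (.ref 473 390) (.ref 472 391)))) (.both (.play 582 (.both (.ref 434 325) (.ref 306 390))) (.both (.ref 470 390) (.both (.play 586 (.ref 342 517)) (.play 586 (.both (.play 582 (.ref 136 517)) (.both (.ref 128 518) (.both (.play 647 (.both (.play 587 (.both (.ref 168 520) (.play 648 (.ref 1 583)))) (.play 646 (.ref 1 582)))) (.ref 462 519)))))))))) (.both (.play 520 (.both (.play 392 (.both (.ref 461 71) (.play 585 (.ref 16 328)))) (.both (.ref 302 263) (.play 649 (.both (.play 648 (.both (.play 713 (.ref 4 456)) (.play 650 (.ref 431 581)))) (.both (.play 585 (.both (.play 713 (.ref 103 456)) (.play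 650 (.ref 323 582)))) (.both (.play 713 (.ref 150 456)) (.play 650 (.ref 432 581))))))))) (.both (.play 585 (.both (.play 582 (.both (.play 518 (.both (.ref 460 323) (.play 517 (.ref 3 517)))) (.both (.play 581 (.both (.play 517 (.ref 457 324)) (.ref 28 581))) (.both (.ref 417 386) (.both (.ref 364 515) (.both (.play 517 (.ref 59 516)) (.play 649 (.ref 119 580)))))))) (.both (.ref 455 388) (.both (.ref 159 389) (.both (.ref 266 390) (.both (.ref 261 450) (.both (.ref 134 453) (.play 586 (.ref 342 517))))))))) (.play 582 (.both (.ref 316 451) (.both (.play 581 (.both (.play 520 (.both (.play 648 (.both (.ref 93 455) (.play 649 (.ref 0 581)))) (.play 521 (.ref 2 517)))) (.play 516 (.ref 59 515)))) (.both (.ref 151 453) (.both (.ref 453 453) (.play 581 (.ref 162 515)))))))))))))))))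
 (.one (.play 256 (.both (.play 1 (.ref 5 0)) (.play 257 (.ref 16 0)))))))
 (.seq (.one (.play 259 (.both (.play 260 (.both (.play 258 (.both (.play 194 (.both (.play 3 (.ref 6 2)) (.play 193 (.both (.play 192 (.ref 2 128)) (.play 261 (.ref 3 193)))))) (.play 322 (.ref 6 66)))) (.play 324 (.ref 4 67)))) (.both (.play 323 (.both (.play 322 (.ref 14 66)) (.play 68 (.ref 5 67)))) (.ref 608 67)))))
 (.seq (.one (.play 193 (.both (.play 257 (.ref 6 1)) (.play 192 (.ref 2 128)))))
 (.one (.play 64 (.both (.ref 77 0) (.play 321 (.ref 4 64))))))))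
 (.seq (.seq (.one (.play 129 (.both (.ref 611 1) (.play 384 (.ref 14 128)))))
 (.seq (.one (.play 196 (.both (.ref 166 1) (.both (.ref 272 128) (.both (.ref 123 129) (.play 200 (.ref 43 131)))))))
 (.one (.play 70 (.both (.ref 255 2) (.both (.play 71 (.both (.ref 132 2) (.both (.ref 135 4) (.both (.ref 125 4) (.ref 28 67))))) (.both (.ref 409 64) (.play 134 (.ref 119 65)))))))))
 (.seq (.one (.play 1 (.both (.play 0 (.ref 3 0)) (.ref 469 1))))
 (.seq (.one (.play 67 (.both (.ref 267 0) (.both (.play 2 (.ref 59 1)) (.both (.play 4 (.both (.play 66 (.both (.play 5 (.ref 172 1)) (.ref 37 65))) (.play 3 (.ref 3 3)))) (.ref 41 2))))))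
 (.one (.play 68 (.both (.ref 616 0) (.both (.play 135 (.both (.play 67 (.both (.ref 267 0) (.play 134 (.ref 0 67)))) (.play 136 (.ref 0 68)))) (.both (.ref 123 1) (.play 72 (.ref 43 3)))))))))))
 (.seq (.seq (.seq (.one (.play 195 (.both (.play 260 (.both (.play 133 (.both (.play 69 (.ref 241 4)) (.play 134 (.ref 172 130)))) (.play 259 (.ref 1 195)))) (.both (.ref 271 128) (.ref 37 194)))))
 (.seq (.one (.play 195 (.both (.play 323 (.ref 313 0)) (.play 196 (.ref 2 192)))))
 (.one (.play 258 (.both (.ref 619 2) (.both (.play 257 (.ref 43 192)) (.play 257 (.ref 42 192))))))))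
 (.seq (.one (.play 131 (.both (.play 133 (.both (.play 69 (.both (.play 197 (.ref 326 4)) (.play 132 (.ref 5 68)))) (.both (.play 132 (.ref 275 64)) (.both (.play 195 (.both (.play 132 (.both (.play 69 (.ref 5 68)) (.play 194 (.ref 178 129)))) (.play 388 (.ref 7 131)))) (.ref 516 131))))) (.both (.play 195 (.ref 181 3)) (.both (.play 67 (.ref 182 3)) (.ref 598 65))))))
 (.seq (.one (.play 196 (.both (.ref 621 0) (.both (.play 132 (.both (.ref 276 64) (.play 389 (.ref 4 132)))) (.both (.play 388 (.both (.play 452 (.ref 49 131)) (.both (.ref 595 131) (.play 389 (.both (.ref 610 194) (.play 453 (.ref 4 196))))))) (.play 389 (.ref 99 132)))))))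
 (.one (.play 259 (.both (.play 323 (.ref 181 2)) (.play 260 (.ref 0 192))))))))
 (.seq (.seq (.one (.play 130 (.both (.play 196 (.both (.play 3 (.ref 4 3)) (.play 129 (.ref 94 128)))) (.play 66 (.ref 7 66)))))
 (.seq (.one (.play 193 (.both (.play 256 (.ref 101 0)) (.play 132 (.ref 1 128)))))
 (.one (.play 260 (.both (.play 131 (.both (.play 67 (.ref 104 3)) (.both (.ref 322 64) (.ref 149 128)))) (.play 261 (.ref 0 193)))))))
 (.seq (.one (.both (.play 4 (.ref 5 3)) (.ref 96 64)))
 (.seq (.one (.both (.play 66 (.ref 294 0)) (.play 386 (.ref 4 129))))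
 (.one (.play 259 (.both (.play 195 (.both (.play 131 (.ref 628 2)) (.both (.play 387 (.both (.ref 349 2) (.both (.play 194 (.ref 365 130)) (.play 451 (.ref 398 194))))) (.both (.ref 596 128) (.play 388 (.ref 104 131)))))) (.both (.ref 460 64) (.play 258 (.ref 95 256))))))))))))
 (.seq (.seq (.seq (.seq (.seq (.one (.both (.play 257 (.ref 7 0)) (.play 258 (.ref 4 1))))
 (.seq (.one (.play 260 (.both (.play 68 (.ref 7 3)) (.ref 193 64))))
 (.one (.play 257 (.both (.play 2 (.ref 5 1)) (.ref 347 64))))))
 (.seq (.one (.play 193 (.both (.ref 424 0) (.both (.play 130 (.ref 108 1)) (.both (.ref 632 128) (.play 386 (.ref 99 129)))))))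
 (.seq (.one (.play 129 (.both (.play 64 (.both (.play 65 (.ref 394 0)) (.play 128 (.ref 7 64)))) (.play 66 (.ref 5 65)))))
 (.one (.play 194 (.both (.play 322 (.both (.play 131 (.both (.ref 634 1) (.both (.play 195 (.ref 108 2)) (.play 386 (.both (.play 195 (.ref 5 130)) (.ref 381 192)))))) (.play 321 (.ref 1 257)))) (.play 193 (.ref 3 193))))))))
 (.seq (.seq (.one (.play 324 (.both (.play 257 (.both (.ref 633 0) (.play 256 (.ref 3 256)))) (.ref 27 257))))
 (.seq (.one (.both (.play 0 (.ref 3 0)) (.play 258 (.ref 7 1))))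
 (.one (.play 197 (.both (.play 195 (.both (.play 134 (.both (.play 261 (.ref 108 5)) (.play 135 (.ref 2 131)))) (.both (.ref 374 128) (.play 134 (.ref 53 129))))) (.both (.play 133 (.ref 225 4)) (.both (.play 195 (.both (.play 194 (.ref 42 129)) (.both (.play 131 (.ref 637 130)) (.play 133 (.both (.play 134 (.ref 172 130)) (.play 388 (.ref 5 132))))))) (.play 195 (.both (.play 131 (.ref 637 130)) (.play 134 (.both (.play 135 (.ref 2 131)) (.play 261 (.ref 5 133)))))))))))))
 (.seq (.one (.play 65 (.both (.play 64 (.ref 47 0)) (.play 258 (.ref 4 65)))))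
 (.seq (.one (.play 261 (.both (.play 260 (.both (.play 259 (.both (.ref 298 0) (.both (.ref 440 192) (.play 262 (.both (.play 198 (.ref 5 197)) (.play 326 (.ref 0 259))))))) (.play 196 (.ref 7 196)))) (.both (.ref 639 132) (.ref 550 133)))))
 (.one (.play 389 (.both (.play 325 (.both (.ref 640 0) (.both (.play 518 (.both (.ref 638 129) (.both (.play 582 (.ref 103 325)) (.play 582 (.ref 98 325))))) (.both (.ref 424 132) (.play 518 (.ref 399 197)))))) (.both (.play 456 (.ref 457 196)) (.play 388 (.ref 431 386))))))))))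
 (.seq (.seq (.seq (.one (.play 66 (.both (.play 68 (.both (.play 4 (.ref 5 3)) (.play 65 (.ref 130 64)))) (.play 2 (.ref 7 2)))))
 (.seq (.one (.play 65 (.both (.play 64 (.ref 47 0)) (.play 320 (.ref 6 64)))))
 (.one (.play 261 (.both (.play 194 (.both (.play 195 (.both (.play 130 (.ref 184 2)) (.play 193 (.ref 94 192)))) (.both (.play 130 (.ref 399 2)) (.both (.play 258 (.both (.play 130 (.ref 99 66)) (.play 193 (.ref 3 193)))) (.play 193 (.ref 299 192)))))) (.play 262 (.ref 1 258)))))))
 (.seq (.one (.play 258 (.both (.play 194 (.both (.play 3 (.ref 6 2)) (.play 260 (.both (.play 324 (.ref 4 67)) (.ref 546 128))))) (.play 322 (.ref 6 66)))))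
 (.seq (.one (.play 258 (.both (.play 257 (.both (.play 259 (.both (.play 195 (.both (.play 2 (.ref 4 2)) (.play 196 (.ref 525 128)))) (.play 323 (.ref 4 66)))) (.play 321 (.ref 6 65)))) (.both (.play 322 (.both (.play 65 (.ref 7 65)) (.play 323 (.ref 16 66)))) (.play 322 (.both (.play 65 (.ref 7 65)) (.play 321 (.ref 14 65))))))))
 (.one (.play 66 (.both (.play 4 (.ref 1 2)) (.play 132 (.ref 431 64))))))))
 (.seq (.seq (.one (.play 259 (.both (.play 130 (.both (.play 66 (.ref 13 2)) (.play 196 (.ref 431 128)))) (.both (.play 66 (.ref 12 2)) (.ref 514 64)))))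
 (.seq (.one (.play 259 (.both (.ref 552 2) (.ref 514 64))))
 (.one (.play 66 (.both (.play 2 (.ref 5 1)) (.play 128 (.ref 1 64)))))))
 (.seq (.one (.play 192 (.both (.play 256 (.ref 6 0)) (.play 194 (.both (.play 258 (.ref 4 1)) (.play 132 (.ref 2 128)))))))
 (.seq (.one (.both (.ref 233 0) (.play 135 (.ref 0 67))))
 (.one (.play 194 (.both (.play 257 (.both (.play 193 (.ref 576 0)) (.play 258 (.ref 1 193)))) (.play 129 (.ref 3 129))))))))))
 (.seq (.seq (.seq (.seq (.one (.play 131 (.both (.play 67 (.both (.play 66 (.ref 47 2)) (.play 324 (.ref 4 67)))) (.both (.ref 611 3) (.play 132 (.both (.play 130 (.both (.play 66 (.ref 7 66)) (.play 194 (.both (.play 193 (.both (.play 133 (.ref 1 129)) (.play 192 (.ref 0 192)))) (.play 387 (.ref 7 130)))))) (.play 68 (.ref 5 67))))))))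
 (.seq (.one (.play 260 (.both (.play 259 (.both (.play 68 (.both (.play 131 (.both (.play 70 (.both (.play 67 (.both (.play 2 (.both (.play 66 (.ref 437 1)) (.play 3 (.ref 3 2)))) (.play 130 (.ref 1 66)))) (.play 6 (.ref 5 5)))) (.both (.play 132 (.both (.play 70 (.both (.play 6 (.ref 5 5)) (.play 71 (.ref 1 67)))) (.play 323 (.ref 481 67)))) (.both (.play 130 (.ref 58 64)) (.play 132 (.both (.play 323 (.ref 481 67)) (.play 130 (.ref 0 130)))))))) (.play 4 (.ref 7 4)))) (.play 258 (.ref 2 194)))) (.play 324 (.ref 6 68)))))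
 (.one (.play 129 (.both (.play 320 (.ref 363 0)) (.both (.play 64 (.ref 311 0)) (.play 385 (.ref 79 64))))))))
 (.seq (.one (.play 65 (.both (.play 67 (.both (.play 3 (.ref 5 2)) (.play 68 (.both (.play 129 (.ref 227 64)) (.play 132 (.ref 0 65)))))) (.play 1 (.ref 7 1)))))
 (.seq (.one (.play 67 (.both (.play 66 (.ref 53 0)) (.both (.play 4 (.both (.play 66 (.ref 172 1)) (.play 3 (.ref 3 3)))) (.both (.ref 200 1) (.ref 41 2))))))
 (.one (.play 64 (.both (.play 65 (.both (.play 0 (.ref 7 0)) (.play 258 (.ref 4 65)))) (.play 128 (.ref 7 64))))))))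
 (.seq (.seq (.one (.play 129 (.both (.play 65 (.ref 330 0)) (.play 322 (.ref 4 129)))))
 (.seq (.one (.play 193 (.both (.ref 660 0) (.ref 77 129))))
 (.one (.play 259 (.both (.play 195 (.both (.ref 443 2) (.play 388 (.ref 4 195)))) (.both (.play 195 (.both (.ref 599 64) (.play 388 (.ref 4 195)))) (.play 258 (.ref 47 194))))))))
 (.seq (.one (.play 518 (.both (.play 456 (.both (.play 516 (.both (.play 390 (.both (.play 326 (.both (.ref 662 3) (.both (.play 327 (.both (.play 264 (.both (.ref 537 7) (.play 325 (.both (.play 261 (.ref 7 261)) (.play 265 (.ref 2 261)))))) (.play 263 (.ref 5 262)))) (.both (.play 389 (.both (.ref 661 69) (.both (.play 327 (.both (.play 263 (.ref 5 262)) (.play 388 (.ref 56 323)))) (.play 388 (.ref 94 387))))) (.both (.play 262 (.both (.ref 659 133) (.ref 77 198))) (.play 261 (.ref 311 197))))))) (.both (.play 517 (.both (.ref 537 197) (.play 453 (.ref 1 452)))) (.play 453 (.both (.ref 658 385) (.play 517 (.ref 1 452))))))) (.both (.play 388 (.both (.play 452 (.both (.play 580 (.both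 (.ref 500 129) (.both (.play 645 (.ref 76 387)) (.play 644 (.both (.play 451 (.ref 12 387)) (.play 645 (.ref 16 388))))))) (.both (.ref 621 192) (.both (.play 324 (.both (.play 515 (.ref 363 195)) (.both (.play 260 (.ref 79 195)) (.ref 276 256)))) (.both (.play 324 (.ref 601 194)) (.both (.ref 312 195) (.both (.play 324 (.both (.play 515 (.ref 363 195)) (.both (.play 261 (.ref 294 195)) (.play 325 (.ref 400 259))))) (.both (.ref 163 259) (.play 580 (.both (.ref 657 322) (.play 645 (.ref 76 387)))))))))))) (.both (.play 452 (.both (.ref 604 195) (.both (.ref 163 259) (.both (.ref 603 323) (.play 453 (.ref 23 387)))))) (.both (.play 452 (.both (.ref 656 195) (.both (.play 515 (.both (.ref 537 195) (.play 453 (.ref 1 451)))) (.both (.play 389 (.both (.ref 493 323) (.play 453 (.ref 3 388)))) (.play 453 (.both (.play 389 (.ref 3 388)) (.play 515 (.ref 1 451)))))))) (.play 389 (.ref 299 387)))))) (.play 517 (.ref 51 451))))) (.both (.ref 641 1) (.ref 343 389)))) (.both (.play 390 (.both (.play 326 (.both (.ref 656 133)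 (.both (.ref 542 198) (.play 581 (.ref 22 325))))) (.both (.play 326 (.both (.play 517 (.ref 363 197)) (.both (.ref 542 198) (.ref 655 257)))) (.both (.ref 654 195) (.both (.ref 433 197) (.both (.play 326 (.both (.ref 611 198) (.play 325 (.ref 12 261)))) (.both (.ref 163 261) (.play 582 (.both (.play 389 (.both (.play 388 (.both (.play 581 (.both (.play 516 (.both (.play 517 (.both (.play 324 (.ref 419 324)) (.play 515 (.ref 2 451)))) (.both (.play 517 (.both (.play 324 (.ref 419 324)) (.play 583 (.both (.play 647 (.ref 4 390)) (.play 584 (.ref 3 516)))))) (.both (.play 583 (.both (.ref 653 386) (.play 647 (.ref 4 390)))) (.play 515 (.ref 432 513)))))) (.play 645 (.ref 6 389)))) (.play 387 (.ref 0 387)))) (.play 325 (.ref 7 325)))) (.both (.play 389 (.ref 12 325)) (.both (.play 646 (.both (.play 389 (.ref 47 325)) (.ref 153 453))) (.play 645 (.ref 22 389))))))))))))) (.both (.play 517 (.both (.play 453 (.both (.play 452 (.both (.ref 434 195) (.both (.play 451 (.both (.play 515 (.both (.play 516 (.both (.ref 226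 322) (.play 455 (.ref 1 451)))) (.play 514 (.ref 1 450)))) (.play 450 (.ref 0 450)))) (.both (.ref 380 384) (.both (.ref 497 384) (.both (.ref 124 385) (.play 515 (.ref 24 386)))))))) (.both (.play 516 (.both (.play 452 (.both (.play 325 (.both (.play 388 (.both (.ref 290 195) (.play 387 (.ref 3 387)))) (.both (.play 388 (.both (.play 389 (.ref 133 260)) (.play 387 (.ref 3 387)))) (.both (.play 389 (.both (.play 261 (.ref 6 260)) (.play 582 (.ref 98 325)))) (.play 389 (.both (.play 388 (.ref 478 323)) (.play 582 (.ref 98 325)))))))) (.both (.play 451 (.ref 652 384)) (.ref 531 386)))) (.play 515 (.ref 2 451)))) (.both (.play 389 (.both (.play 516 (.both (.ref 249 260) (.play 515 (.ref 2 451)))) (.both (.play 325 (.ref 70 261)) (.play 581 (.both (.ref 220 385) (.both (.play 645 (.ref 398 388)) (.both (.ref 252 388) (.ref 195 389)))))))) (.play 452 (.both (.ref 353 259) (.play 451 (.ref 130 450)))))))) (.both (.ref 644 195) (.play 516 (.ref 55 451))))) (.both (.play 516 (.both (.play 582 (.both (.play 452 (.both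 (.play 580 (.both (.play 388 (.both (.ref 563 195) (.both (.play 325 (.ref 294 259)) (.ref 562 385)))) (.both (.ref 561 258) (.both (.ref 312 259) (.both (.ref 559 259) (.both (.play 388 (.both (.play 644 (.ref 49 323)) (.both (.play 644 (.ref 48 323)) (.ref 651 387)))) (.both (.ref 597 385) (.ref 648 385)))))))) (.both (.play 580 (.both (.play 388 (.both (.ref 555 321) (.ref 651 387))) (.both (.ref 391 322) (.both (.play 388 (.both (.play 644 (.ref 79 323)) (.both (.play 644 (.ref 78 324)) (.ref 651 387)))) (.both (.ref 554 323) (.both (.ref 553 323) (.ref 649 385))))))) (.both (.play 580 (.both (.play 644 (.both (.ref 542 324) (.both (.ref 514 449) (.play 709 (.ref 76 451))))) (.both (.ref 597 385) (.both (.play 644 (.both (.ref 650 387) (.play 709 (.ref 76 451)))) (.ref 647 449))))) (.both (.play 580 (.both (.ref 649 385) (.both (.ref 648 385) (.both (.play 644 (.both (.play 453 (.both (.play 451 (.both (.play 387 (.ref 7 387)) (.play 454 (.both (.play 515 (.ref 227 450)) (.play 519 (.ref 0 451)))))) (.play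 389 (.ref 5 388)))) (.play 707 (.ref 22 451)))) (.ref 647 449))))) (.play 453 (.ref 532 386))))))) (.both (.play 391 (.ref 225 262)) (.ref 493 389)))) (.both (.play 517 (.both (.ref 629 193) (.both (.play 456 (.ref 54 452)) (.play 456 (.ref 216 452))))) (.both (.play 515 (.both (.play 582 (.both (.play 580 (.both (.play 452 (.both (.ref 163 323) (.play 453 (.ref 1 451)))) (.both (.play 452 (.both (.ref 646 386) (.play 453 (.ref 1 451)))) (.play 581 (.ref 431 513))))) (.both (.play 453 (.both (.play 646 (.ref 292 389)) (.play 452 (.ref 1 451)))) (.ref 493 389)))) (.play 517 (.ref 2 451)))) (.play 517 (.ref 55 451)))))) (.both (.play 582 (.both (.play 390 (.both (.ref 612 197) (.both (.ref 542 262) (.both (.ref 645 323) (.play 583 (.both (.play 516 (.both (.ref 236 386) (.both (.play 581 (.both (.play 645 (.ref 6 389)) (.play 515 (.both (.play 517 (.ref 2 451)) (.play 580 (.ref 3 515)))))) (.both (.play 517 (.both (.ref 235 388) (.play 456 (.ref 494 452)))) (.play 517 (.ref 58 450)))))) (.play 647 (.ref 4 390))))))))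 (.both (.play 391 (.ref 110 262)) (.both (.ref 329 387) (.ref 493 389))))) (.both (.play 517 (.both (.play 516 (.both (.play 582 (.both (.play 583 (.both (.play 390 (.both (.ref 506 197) (.play 647 (.ref 4 390)))) (.play 584 (.ref 245 516)))) (.both (.play 391 (.ref 225 262)) (.both (.play 391 (.ref 108 262)) (.play 583 (.both (.play 647 (.ref 99 390)) (.play 584 (.ref 245 516)))))))) (.play 515 (.ref 2 451)))) (.both (.ref 644 195) (.play 516 (.ref 55 451))))) (.both (.play 582 (.both (.play 390 (.both (.play 581 (.ref 363 261)) (.both (.ref 116 323) (.play 517 (.both (.play 581 (.ref 101 325)) (.play 516 (.ref 217 451))))))) (.both (.ref 391 324) (.both (.play 646 (.ref 361 325)) (.both (.ref 359 386) (.play 646 (.ref 360 389))))))) (.both (.play 517 (.both (.play 582 (.both (.play 390 (.both (.ref 643 261) (.play 391 (.ref 251 326)))) (.both (.play 390 (.both (.ref 642 323) (.play 581 (.ref 156 325)))) (.both (.ref 359 386) (.ref 493 389))))) (.both (.play 516 (.both (.play 519 (.both (.ref 434 259) (.ref 623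 324))) (.play 515 (.ref 2 451)))) (.play 516 (.ref 55 451))))) (.play 582 (.both (.play 390 (.both (.ref 542 262) (.ref 116 323))) (.both (.play 391 (.ref 110 262)) (.both (.ref 391 324) (.ref 493 389)))))))))))))))
 (.seq (.one (.play 65 (.both (.play 64 (.ref 2 0)) (.ref 517 0))))
 (.one (.play 259 (.both (.play 258 (.both (.play 65 (.ref 88 1)) (.play 323 (.ref 88 66)))) (.play 260 (.ref 0 192)))))))))
 (.seq (.seq (.seq (.one (.play 257 (.both (.play 129 (.ref 451 0)) (.both (.play 130 (.ref 326 1)) (.play 130 (.ref 40 65))))))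
 (.seq (.one (.play 257 (.both (.play 130 (.ref 107 1)) (.both (.ref 163 64) (.ref 493 128)))))
 (.one (.play 64 (.both (.play 65 (.both (.play 0 (.ref 7 0)) (.play 66 (.ref 5 1)))) (.play 321 (.both (.play 128 (.ref 7 64)) (.ref 18 128))))))))
 (.seq (.one (.play 193 (.both (.ref 447 0) (.both (.play 449 (.ref 48 128)) (.play 320 (.both (.play 129 (.ref 6 128)) (.ref 17 192)))))))
 (.seq (.one (.play 321 (.both (.ref 669 0) (.both (.play 193 (.ref 294 64)) (.both (.play 194 (.ref 326 65)) (.ref 668 128))))))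
 (.one (.play 385 (.both (.play 257 (.both (.ref 425 0) (.play 512 (.ref 6 256)))) (.both (.play 258 (.ref 108 129)) (.both (.play 512 (.ref 101 256)) (.ref 493 256)))))))))
 (.seq (.seq (.one (.play 321 (.both (.play 193 (.both (.ref 558 0) (.play 192 (.ref 3 192)))) (.play 320 (.ref 1 256)))))
 (.seq (.one (.play 259 (.both (.play 132 (.ref 110 3)) (.both (.play 322 (.both (.play 321 (.both (.ref 672 64) (.play 260 (.ref 172 256)))) (.both (.play 386 (.ref 108 130)) (.play 321 (.both (.ref 416 192) (.play 260 (.ref 172 256))))))) (.both (.play 386 (.ref 110 130)) (.play 387 (.ref 197 194)))))))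
 (.one (.play 259 (.both (.ref 537 2) (.play 260 (.ref 2 256)))))))
 (.seq (.one (.play 133 (.both (.ref 497 0) (.play 262 (.ref 99 5)))))
 (.seq (.one (.play 257 (.both (.ref 507 0) (.play 514 (.ref 4 257)))))
 (.one (.play 324 (.both (.play 389 (.both (.ref 676 4) (.both (.play 260 (.ref 184 132)) (.both (.play 517 (.both (.play 260 (.ref 7 260)) (.ref 347 324))) (.play 518 (.ref 99 261)))))) (.both (.ref 422 131) (.both (.ref 675 256) (.play 259 (.ref 59 258))))))))))))))
 (.seq (.seq (.seq (.seq (.seq (.seq (.one (.play 325 (.both (.ref 677 0) (.both (.play 324 (.both (.ref 674 4) (.play 259 (.ref 59 258)))) (.ref 420 258)))))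
 (.seq (.one (.play 195 (.both (.play 67 (.both (.ref 642 0) (.play 324 (.ref 4 67)))) (.both (.play 68 (.both (.play 67 (.both (.ref 568 1) (.play 4 (.ref 5 3)))) (.play 323 (.ref 5 67)))) (.both (.ref 493 66) (.play 324 (.ref 99 67)))))))
 (.one (.play 131 (.both (.play 258 (.ref 108 2)) (.play 132 (.ref 172 128)))))))
 (.seq (.one (.play 194 (.both (.ref 422 1) (.both (.ref 680 1) (.play 133 (.ref 53 128))))))
 (.seq (.one (.play 65 (.both (.play 4 (.ref 2 1)) (.play 128 (.ref 1 64)))))
 (.one (.play 258 (.both (.ref 672 1) (.both (.play 321 (.ref 24 192)) (.both (.play 197 (.ref 53 192)) (.play 321 (.both (.play 197 (.both (.ref 682 192) (.play 198 (.ref 2 194)))) (.play 322 (.ref 1 257))))))))))))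
 (.seq (.seq (.one (.play 257 (.both (.ref 425 0) (.play 514 (.ref 4 257)))))
 (.seq (.one (.play 385 (.both (.ref 684 0) (.both (.play 258 (.ref 108 129)) (.both (.ref 632 256) (.play 514 (.ref 99 257)))))))
 (.one (.play 324 (.both (.play 388 (.both (.play 389 (.both (.ref 676 4) (.both (.play 260 (.ref 88 196)) (.play 518 (.both (.play 261 (.ref 4 261)) (.play 517 (.ref 630 324))))))) (.play 387 (.ref 1 323)))) (.both (.ref 422 131) (.both (.ref 675 256) (.play 259 (.ref 59 258)))))))))
 (.seq (.one (.play 196 (.both (.play 132 (.ref 181 4)) (.both (.ref 498 128) (.play 199 (.both (.play 132 (.ref 637 131)) (.ref 27 132)))))))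
 (.seq (.one (.play 197 (.both (.play 198 (.both (.ref 687 0) (.play 134 (.ref 5 133)))) (.both (.play 133 (.ref 330 68)) (.play 133 (.both (.ref 77 69) (.play 324 (.ref 6 132))))))))
 (.one (.play 325 (.both (.ref 688 0) (.play 326 (.ref 2 322)))))))))
 (.seq (.seq (.seq (.one (.play 386 (.both (.ref 689 0) (.play 321 (.ref 59 320)))))
 (.seq (.one (.play 389 (.both (.ref 690 2) (.both (.ref 686 64) (.both (.play 388 (.both (.play 453 (.both (.play 325 (.both (.play 261 (.both (.play 197 (.ref 363 68)) (.ref 77 197))) (.play 582 (.ref 4 325)))) (.both (.play 324 (.ref 637 323)) (.ref 493 324)))) (.both (.ref 680 195) (.play 323 (.ref 59 322))))) (.both (.ref 685 68) (.both (.ref 683 130) (.both (.ref 681 194) (.ref 679 258)))))))))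
 (.one (.play 193 (.both (.play 320 (.ref 110 0)) (.both (.play 65 (.ref 197 0)) (.both (.ref 668 0) (.ref 493 64))))))))
 (.seq (.one (.play 259 (.both (.ref 382 0) (.play 132 (.ref 6 3)))))
 (.seq (.one (.play 257 (.both (.play 64 (.ref 311 0)) (.play 384 (.ref 6 128)))))
 (.one (.play 193 (.both (.play 195 (.both (.play 259 (.ref 4 2)) (.play 196 (.ref 19 128)))) (.play 257 (.ref 6 1))))))))
 (.seq (.seq (.one (.play 260 (.both (.play 259 (.both (.play 195 (.both (.play 4 (.ref 6 3)) (.ref 218 64))) (.play 323 (.ref 6 67)))) (.play 324 (.ref 7 67)))))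
 (.seq (.one (.play 259 (.both (.ref 620 0) (.both (.ref 267 192) (.ref 37 258)))))
 (.one (.play 257 (.both (.play 193 (.ref 545 0)) (.play 194 (.ref 5 193)))))))
 (.seq (.one (.play 195 (.both (.play 260 (.both (.play 133 (.both (.play 324 (.ref 108 4)) (.play 194 (.ref 2 130)))) (.play 259 (.ref 1 195)))) (.both (.ref 337 128) (.ref 37 194)))))
 (.seq (.one (.play 66 (.both (.play 1 (.both (.play 0 (.ref 3 0)) (.play 258 (.ref 419 1)))) (.play 5 (.ref 2 1)))))
 (.one (.play 260 (.both (.ref 537 3) (.play 321 (.both (.play 322 (.ref 423 128)) (.both (.play 513 (.both (.play 385 (.ref 350 128)) (.play 512 (.ref 1 448)))) (.both (.play 322 (.both (.play 385 (.both (.ref 424 128) (.both (.play 258 (.ref 108 129)) (.both (.ref 493 256) (.play 514 (.ref 99 257)))))) (.play 261 (.ref 2 257)))) (.both (.play 513 (.both (.play 322 (.both (.play 261 (.ref 2 257)) (.play 258 (.ref 481 257)))) (.play 512 (.ref 1 448)))) (.ref 700 256))))))))))))))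
 (.seq (.seq (.seq (.seq (.one (.play 194 (.both (.play 258 (.ref 108 2)) (.play 193 (.ref 55 128)))))
 (.seq (.one (.play 520 (.both (.play 517 (.both (.play 391 (.both (.play 584 (.both (.play 328 (.both (.ref 688 3) (.both (.ref 537 71) (.both (.play 327 (.both (.ref 702 196) (.play 455 (.ref 4 327)))) (.play 455 (.ref 107 199)))))) (.play 585 (.ref 0 517)))) (.both (.play 328 (.both (.ref 688 3) (.both (.ref 537 71) (.play 389 (.both (.play 453 (.both (.ref 424 196) (.both (.play 580 (.both (.play 516 (.ref 465 323)) (.play 581 (.ref 1 516)))) (.ref 476 388)))) (.play 390 (.both (.play 327 (.both (.play 455 (.ref 5 263)) (.play 388 (.ref 2 324)))) (.play 329 (.ref 2 325))))))))) (.both (.play 390 (.both (.play 581 (.both (.play 389 (.both (.ref 685 68) (.both (.play 388 (.both (.play 327 (.ref 53 322)) (.both (.play 324 (.both (.play 323 (.ref 3 323)) (.play 453 (.ref 7 324)))) (.play 326 (.both (.play 327 (.ref 172 323)) (.play 453 (.ref 5 325))))))) (.play 328 (.ref 53 323))))) (.play 580 (.ref 1 516))))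 (.both (.ref 681 195) (.both (.ref 412 324) (.both (.play 581 (.both (.play 454 (.ref 241 325)) (.play 580 (.ref 1 516)))) (.play 581 (.both (.play 645 (.both (.play 454 (.ref 274 389)) (.both (.ref 329 450) (.ref 493 452)))) (.play 580 (.ref 1 516))))))))) (.both (.ref 701 68) (.both (.play 584 (.both (.play 516 (.both (.play 515 (.both (.play 455 (.both (.play 327 (.ref 4 327)) (.play 454 (.ref 2 451)))) (.ref 259 448))) (.both (.play 455 (.both (.play 327 (.ref 4 327)) (.ref 337 449))) (.ref 37 515)))) (.play 585 (.ref 0 517)))) (.play 584 (.both (.play 455 (.both (.ref 699 321) (.play 327 (.ref 4 327)))) (.play 585 (.ref 0 517)))))))))) (.both (.play 584 (.both (.play 583 (.both (.play 455 (.both (.ref 698 134) (.both (.play 391 (.both (.ref 639 262) (.play 328 (.ref 5 327)))) (.play 647 (.both (.play 454 (.ref 399 326)) (.both (.play 646 (.both (.play 645 (.both (.play 709 (.both (.play 454 (.both (.play 390 (.ref 7 390)) (.play 582 (.ref 6 453)))) (.play 648 (.both (.play 712 (.ref 4 455)) (.play 708 (.ref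 1 644)))))) (.play 644 (.ref 2 580)))) (.play 710 (.ref 6 454)))) (.both (.play 454 (.ref 12 390)) (.ref 91 454)))))))) (.play 516 (.ref 0 516)))) (.play 585 (.ref 0 517)))) (.both (.play 581 (.both (.play 645 (.both (.play 453 (.both (.ref 425 196) (.both (.ref 542 325) (.ref 368 449)))) (.both (.play 454 (.ref 108 325)) (.both (.play 709 (.both (.ref 279 389) (.both (.ref 359 513) (.ref 153 516)))) (.ref 329 450))))) (.play 580 (.ref 1 516)))) (.both (.ref 697 257) (.play 584 (.ref 119 515))))))) (.both (.ref 317 261) (.both (.ref 137 452) (.both (.play 521 (.both (.play 454 (.ref 61 453)) (.play 585 (.ref 119 516)))) (.play 521 (.both (.play 454 (.ref 61 453)) (.both (.play 522 (.both (.ref 41 453) (.ref 129 454))) (.play 585 (.both (.play 584 (.both (.play 457 (.both (.play 649 (.both (.ref 696 453) (.both (.ref 695 455) (.both (.play 713 (.both (.play 714 (.ref 16 457)) (.play 777 (.ref 7 520)))) (.ref 93 456))))) (.play 458 (.ref 2 454)))) (.play 517 (.ref 0 517)))) (.play 586 (.ref 0 518)))))))))))))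
 (.one (.play 193 (.both (.play 257 (.ref 5 1)) (.play 192 (.ref 1 128)))))))
 (.seq (.one (.both (.play 0 (.ref 0 0)) (.play 64 (.ref 1 0))))
 (.seq (.one (.play 129 (.both (.play 257 (.ref 485 0)) (.play 258 (.ref 4 1)))))
 (.one (.play 199 (.both (.ref 417 0) (.both (.ref 27 132) (.play 200 (.both (.ref 33 132) (.play 261 (.ref 336 196)))))))))))
 (.seq (.seq (.one (.play 134 (.both (.play 131 (.both (.ref 352 2) (.both (.ref 281 65) (.play 198 (.ref 119 129))))) (.both (.play 131 (.both (.ref 201 64) (.both (.play 198 (.ref 652 64)) (.ref 31 67)))) (.both (.play 67 (.ref 95 65)) (.play 135 (.both (.play 67 (.ref 3 67)) (.ref 27 68))))))))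
 (.seq (.one (.play 195 (.both (.ref 46 0) (.both (.ref 209 2) (.ref 9 2)))))
 (.one (.play 130 (.both (.play 66 (.both (.play 194 (.both (.play 195 (.both (.play 259 (.both (.play 2 (.ref 4 2)) (.play 323 (.ref 5 67)))) (.play 134 (.ref 1 130)))) (.play 193 (.ref 1 129)))) (.play 65 (.ref 3 65)))) (.both (.play 129 (.both (.play 69 (.ref 2 65)) (.ref 37 128))) (.play 129 (.both (.ref 41 64) (.play 69 (.ref 2 65))))))))))
 (.seq (.one (.play 131 (.both (.ref 710 0) (.both (.ref 406 64) (.both (.play 134 (.both (.ref 519 66) (.both (.play 195 (.both (.play 198 (.both (.play 196 (.both (.ref 704 66) (.ref 67 67))) (.play 199 (.ref 0 131)))) (.play 194 (.ref 1 130)))) (.both (.ref 66 67) (.play 195 (.ref 336 130)))))) (.play 198 (.ref 432 129)))))))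
 (.seq (.one (.play 133 (.both (.ref 580 0) (.play 261 (.ref 5 5)))))
 (.one (.play 385 (.both (.play 129 (.both (.play 65 (.ref 70 1)) (.play 384 (.ref 14 128)))) (.play 449 (.ref 5 193)))))))))
 (.seq (.seq (.seq (.one (.play 259 (.both (.ref 249 3) (.ref 25 192))))
 (.seq (.one (.play 262 (.both (.play 326 (.both (.ref 713 5) (.both (.play 327 (.both (.ref 714 66) (.both (.play 391 (.ref 88 134)) (.play 391 (.ref 583 196))))) (.both (.ref 179 68) (.both (.ref 609 131) (.both (.ref 248 132) (.ref 585 194))))))) (.both (.play 326 (.both (.ref 713 5) (.both (.play 327 (.both (.play 134 (.both (.play 70 (.ref 4 70)) (.play 325 (.both (.play 328 (.both (.play 389 (.ref 576 132)) (.ref 66 261))) (.play 324 (.ref 172 259)))))) (.both (.play 391 (.ref 88 134)) (.play 325 (.ref 213 195))))) (.both (.play 390 (.both (.ref 645 131) (.play 454 (.ref 5 198)))) (.both (.ref 248 132) (.ref 587 194)))))) (.both (.play 327 (.both (.play 134 (.both (.play 70 (.ref 4 70)) (.play 325 (.both (.play 261 (.both (.play 389 (.ref 40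 133)) (.play 324 (.ref 57 258)))) (.both (.play 326 (.both (.play 389 (.ref 6 133)) (.play 324 (.ref 55 259)))) (.both (.play 389 (.ref 356 133)) (.play 324 (.ref 58 258)))))))) (.both (.play 134 (.ref 88 70)) (.ref 579 194)))) (.both (.play 261 (.both (.ref 228 67) (.both (.play 264 (.both (.ref 226 68) (.ref 27 197))) (.play 200 (.ref 178 196))))) (.both (.play 327 (.both (.play 261 (.both (.ref 247 69) (.both (.play 260 (.ref 172 195)) (.play 260 (.ref 212 195))))) (.both (.play 391 (.ref 399 70)) (.ref 540 134)))) (.both (.play 391 (.both (.play 327 (.ref 13 134)) (.both (.play 390 (.both (.play 389 (.both (.play 388 (.both (.ref 417 192) (.both (.play 324 (.both (.play 452 (.both (.play 260 (.both (.play 259 (.both (.play 195 (.ref 7 195)) (.play 261 (.both (.play 199 (.ref 2 195)) (.play 197 (.ref 5 196)))))) (.play 453 (.ref 70 196)))) (.play 451 (.ref 1 387)))) (.play 323 (.ref 3 323)))) (.both (.ref 364 321) (.both (.play 323 (.ref 59 322)) (.play 455 (.ref 119 386))))))) (.both (.ref 707 193) (.both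 (.ref 73 194) (.both (.ref 89 194) (.both (.play 392 (.ref 372 196)) (.both (.ref 364 322) (.ref 137 323)))))))) (.both (.ref 712 193) (.both (.ref 496 194) (.play 326 (.ref 194 198)))))) (.play 390 (.both (.ref 712 193) (.both (.play 389 (.both (.ref 160 194) (.both (.ref 693 194) (.both (.ref 344 196) (.both (.ref 316 258) (.play 388 (.ref 138 322))))))) (.both (.play 392 (.both (.play 389 (.both (.ref 495 197) (.play 324 (.ref 59 323)))) (.both (.play 393 (.both (.play 453 (.both (.play 389 (.ref 307 196)) (.play 454 (.ref 1 389)))) (.ref 27 326))) (.play 327 (.ref 21 198))))) (.play 454 (.ref 481 198))))))))) (.both (.play 261 (.both (.play 264 (.both (.ref 415 132) (.ref 34 197))) (.both (.ref 25 194) (.both (.play 260 (.ref 58 194)) (.ref 664 195))))) (.play 327 (.both (.play 391 (.both (.play 261 (.both (.ref 710 130) (.both (.play 390 (.both (.play 389 (.both (.play 392 (.ref 589 196)) (.both (.play 392 (.both (.play 325 (.both (.play 453 (.ref 5 197)) (.play 324 (.ref 3 324)))) (.ref 495 197))) (.both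 (.play 453 (.ref 481 197)) (.play 388 (.ref 138 322)))))) (.play 454 (.ref 6 198)))) (.play 260 (.ref 212 195))))) (.play 455 (.ref 7 198)))) (.both (.ref 711 130) (.both (.ref 581 194) (.both (.ref 579 194) (.both (.play 261 (.both (.ref 406 194) (.both (.play 324 (.both (.ref 578 194) (.both (.play 391 (.both (.play 325 (.both (.play 392 (.both (.play 456 (.ref 4 199)) (.play 326 (.ref 0 324)))) (.play 264 (.ref 1 260)))) (.play 455 (.ref 7 198)))) (.play 325 (.ref 52 258))))) (.play 391 (.both (.play 329 (.both (.ref 560 197) (.both (.play 326 (.both (.ref 20 197) (.play 328 (.ref 3 261)))) (.both (.play 390 (.both (.play 454 (.ref 6 198)) (.play 392 (.both (.play 456 (.ref 4 199)) (.play 330 (.both (.play 393 (.ref 2 326)) (.play 328 (.ref 1 326)))))))) (.play 328 (.ref 114 261)))))) (.play 455 (.ref 7 198))))))) (.both (.ref 492 195) (.both (.ref 575 195) (.both (.ref 709 196) (.ref 571 196)))))))))))))))))))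
 (.one (.play 196 (.both (.play 260 (.ref 99 3)) (.play 197 (.ref 95 128)))))))
 (.seq (.one (.play 129 (.both (.ref 643 0) (.play 66 (.ref 5 65)))))
 (.seq (.one (.play 65 (.both (.play 4 (.ref 2 1)) (.ref 37 64))))
 (.one (.play 258 (.both (.ref 434 1) (.both (.ref 718 192) (.ref 577 192))))))))
 (.seq (.seq (.one (.play 323 (.both (.play 66 (.ref 182 2)) (.both (.ref 329 128) (.ref 146 130)))))
 (.seq (.one (.play 193 (.both (.ref 349 0) (.play 448 (.ref 6 192)))))
 (.one (.play 194 (.both (.play 258 (.ref 6 2)) (.play 192 (.ref 2 128)))))))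
 (.seq (.one (.both (.play 256 (.ref 6 0)) (.play 194 (.ref 2 128))))
 (.seq (.one (.play 64 (.both (.play 0 (.ref 7 0)) (.play 130 (.ref 3 64)))))
 (.one (.play 583 (.both (.play 390 (.both (.play 391 (.both (.play 389 (.both (.ref 689 3) (.both (.play 516 (.both (.play 388 (.both (.play 323 (.ref 59 322)) (.both (.ref 41 323) (.play 452 (.both (.ref 493 323) (.play 451 (.ref 1 387))))))) (.both (.play 517 (.ref 652 449)) (.both (.play 517 (.both (.ref 258 450) (.play 584 (.ref 0 516)))) (.play 517 (.ref 119 514)))))) (.play 328 (.ref 53 323))))) (.both (.play 455 (.both (.play 326 (.ref 7 326)) (.ref 96 388))) (.play 455 (.ref 292 326))))) (.both (.play 454 (.both (.ref 558 197) (.both (.play 582 (.ref 628 261)) (.play 647 (.both (.play 582 (.ref 4 390)) (.ref 631 451)))))) (.both (.play 454 (.ref 104 326)) (.play 647 (.both (.play 454 (.ref 418 390)) (.both (.ref 540 454) (.ref 492 515)))))))) (.both (.play 584 (.both (.play 454 (.both (.play 455 (.both (.ref 698 134) (.both (.play 391 (.both (.play 327 (.both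 (.ref 447 134) (.play 520 (.ref 4 327)))) (.play 328 (.ref 5 327)))) (.play 646 (.both (.play 582 (.both (.play 580 (.both (.play 516 (.both (.play 452 (.both (.play 388 (.both (.play 325 (.ref 294 259)) (.play 643 (.both (.play 579 (.ref 6 387)) (.play 644 (.ref 723 451)))))) (.both (.play 644 (.both (.ref 724 387) (.play 709 (.ref 76 451)))) (.play 517 (.ref 23 451))))) (.both (.play 644 (.both (.play 452 (.both (.ref 555 385) (.play 643 (.ref 723 451)))) (.both (.ref 722 451) (.play 708 (.both (.play 515 (.both (.play 451 (.ref 7 451)) (.play 517 (.ref 0 515)))) (.play 771 (.ref 22 515))))))) (.both (.play 644 (.both (.play 643 (.both (.play 707 (.ref 110 387)) (.play 645 (.ref 2 579)))) (.both (.ref 163 387) (.both (.ref 722 451) (.play 708 (.both (.play 515 (.ref 12 451)) (.play 709 (.both (.play 645 (.ref 6 453)) (.play 773 (.ref 4 516)))))))))) (.play 517 (.ref 705 515)))))) (.both (.play 581 (.both (.play 516 (.both (.play 709 (.both (.play 452 (.both (.play 388 (.both (.ref 659 259) (.both (.ref 348 260)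 (.play 644 (.both (.play 387 (.ref 47 323)) (.play 643 (.ref 1 579))))))) (.both (.play 645 (.ref 183 388)) (.play 644 (.both (.play 645 (.ref 4 452)) (.play 643 (.ref 1 579))))))) (.both (.play 645 (.both (.play 452 (.both (.ref 558 259) (.play 644 (.ref 4 452)))) (.both (.play 644 (.ref 99 452)) (.play 773 (.both (.play 581 (.ref 5 517)) (.ref 153 580)))))) (.both (.play 645 (.both (.play 452 (.ref 183 388)) (.play 773 (.ref 5 517)))) (.play 644 (.both (.ref 332 515) (.play 643 (.ref 1 579)))))))) (.play 515 (.ref 3 515)))) (.play 520 (.ref 2 516)))) (.play 581 (.ref 172 515))))) (.play 710 (.ref 5 454)))) (.both (.ref 573 452) (.play 647 (.ref 534 454)))))))) (.both (.play 390 (.both (.ref 558 197) (.play 582 (.both (.ref 385 385) (.play 647 (.ref 4 390)))))) (.both (.play 390 (.both (.ref 638 194) (.play 326 (.ref 4 326)))) (.play 647 (.ref 184 326)))))) (.both (.play 585 (.both (.play 647 (.both (.play 646 (.both (.ref 721 262) (.play 645 (.ref 56 580)))) (.both (.play 454 (.ref 181 326)) (.both (.play 454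 (.ref 184 326)) (.play 646 (.both (.play 710 (.ref 101 454)) (.play 645 (.ref 56 580)))))))) (.play 586 (.ref 3 518)))) (.both (.play 585 (.ref 95 516)) (.play 585 (.ref 431 516)))))) (.both (.play 647 (.both (.play 455 (.both (.ref 507 198) (.both (.play 646 (.ref 363 326)) (.play 646 (.ref 113 450))))) (.both (.play 454 (.ref 184 326)) (.both (.ref 720 388) (.ref 359 451))))) (.both (.play 647 (.both (.play 455 (.both (.ref 507 198) (.both (.play 646 (.ref 363 326)) (.play 648 (.both (.play 646 (.both (.play 710 (.ref 6 454)) (.play 649 (.both (.ref 111 578) (.ref 31 582))))) (.play 712 (.ref 4 455))))))) (.both (.play 454 (.ref 399 326)) (.both (.ref 720 388) (.both (.ref 391 389) (.both (.ref 428 390) (.ref 359 451))))))) (.both (.play 647 (.both (.play 455 (.both (.ref 507 198) (.both (.play 646 (.ref 363 326)) (.both (.play 582 (.both (.play 646 (.both (.ref 714 386) (.play 710 (.ref 6 454)))) (.both (.ref 96 452) (.play 648 (.both (.play 646 (.both (.play 710 (.ref 5 454)) (.play 649 (.ref 19 581)))) (.play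 712 (.ref 4 455))))))) (.ref 429 388))))) (.both (.play 454 (.ref 399 326)) (.both (.ref 359 451) (.ref 540 454))))) (.both (.play 647 (.both (.play 455 (.both (.ref 507 198) (.both (.play 454 (.both (.play 390 (.ref 7 390)) (.ref 586 451))) (.play 648 (.both (.play 584 (.both (.play 391 (.ref 4 391)) (.ref 528 452))) (.play 712 (.ref 4 455))))))) (.both (.play 454 (.ref 184 326)) (.both (.ref 329 452) (.ref 540 454))))) (.both (.play 455 (.both (.ref 717 262) (.both (.play 584 (.both (.play 647 (.both (.play 454 (.ref 12 390)) (.both (.play 711 (.both (.play 454 (.ref 47 390)) (.ref 608 519))) (.play 648 (.both (.play 646 (.both (.play 649 (.both (.ref 242 390) (.both (.play 585 (.both (.play 713 (.both (.play 777 (.ref 13 520)) (.play 714 (.ref 0 646)))) (.play 586 (.ref 2 582)))) (.both (.ref 232 582) (.ref 34 582))))) (.play 710 (.ref 6 454)))) (.play 712 (.ref 4 455))))))) (.both (.play 710 (.both (.play 582 (.both (.play 581 (.both (.ref 147 453) (.both (.ref 111 513) (.play 520 (.ref 53 515))))) (.play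 646 (.ref 5 454)))) (.both (.play 712 (.both (.play 648 (.ref 98 455)) (.both (.play 648 (.ref 103 455)) (.both (.play 648 (.ref 418 455)) (.play 711 (.both (.play 647 (.ref 21 518)) (.both (.ref 706 518) (.both (.play 647 (.both (.play 774 (.ref 6 518)) (.play 775 (.ref 485 518)))) (.ref 137 644))))))))) (.both (.play 646 (.ref 463 454)) (.play 647 (.ref 22 454)))))) (.play 585 (.ref 431 516))))) (.ref 716 388)))) (.both (.play 455 (.both (.play 517 (.both (.ref 719 258) (.both (.play 520 (.both (.play 584 (.both (.play 581 (.both (.play 582 (.both (.ref 226 388) (.ref 67 453))) (.play 580 (.ref 1 516)))) (.play 585 (.ref 0 517)))) (.both (.play 521 (.both (.ref 63 454) (.ref 37 516))) (.both (.ref 66 453) (.play 581 (.ref 336 516)))))) (.both (.ref 406 450) (.play 584 (.ref 432 515)))))) (.both (.ref 717 262) (.play 391 (.ref 627 324))))) (.both (.play 455 (.both (.ref 717 262) (.both (.play 647 (.both (.play 454 (.ref 399 326)) (.both (.ref 570 452) (.both (.play 712 (.ref 76 454)) (.ref 91 454))))) (.ref 716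 388)))) (.both (.ref 715 320) (.both (.play 647 (.both (.play 454 (.both (.play 390 (.ref 180 326)) (.both (.play 390 (.ref 183 326)) (.play 646 (.both (.ref 106 451) (.both (.play 645 (.both (.play 582 (.ref 377 451)) (.both (.play 648 (.both (.ref 412 452) (.both (.ref 66 581) (.play 709 (.ref 336 644))))) (.both (.play 584 (.ref 58 579)) (.play 648 (.ref 342 579)))))) (.play 710 (.ref 241 454)))))))) (.both (.play 454 (.ref 399 326)) (.both (.ref 329 452) (.ref 540 454))))) (.play 584 (.both (.play 585 (.both (.play 586 (.both (.play 587 (.both (.ref 165 392) (.both (.play 588 (.ref 136 519)) (.both (.ref 27 520) (.play 588 (.ref 69 583)))))) (.play 583 (.ref 3 518)))) (.both (.play 517 (.both (.ref 233 450) (.play 520 (.ref 0 517)))) (.play 520 (.ref 323 517))))) (.both (.play 712 (.both (.play 648 (.both (.play 455 (.ref 180 391)) (.both (.play 455 (.ref 183 391)) (.play 713 (.both (.ref 580 515) (.both (.play 777 (.ref 104 520)) (.ref 708 580))))))) (.both (.play 648 (.ref 184 391)) (.both (.play 711 (.both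 (.play 710 (.both (.ref 707 514) (.both (.ref 73 515) (.both (.ref 89 515) (.both (.play 709 (.both (.play 645 (.both (.play 773 (.both (.play 581 (.both (.play 582 (.ref 5 517)) (.ref 347 580))) (.play 772 (.ref 1 708)))) (.play 644 (.ref 3 644)))) (.both (.play 772 (.ref 24 643)) (.both (.ref 281 643) (.play 776 (.ref 119 707)))))) (.both (.play 713 (.both (.ref 371 517) (.ref 135 646))) (.both (.ref 364 643) (.ref 137 644)))))))) (.both (.play 647 (.both (.ref 580 514) (.play 775 (.ref 485 518)))) (.both (.ref 496 515) (.ref 706 518))))) (.play 647 (.both (.play 711 (.both (.play 710 (.ref 45 516)) (.both (.ref 11 518) (.play 775 (.both (.play 582 (.ref 7 518)) (.ref 153 582)))))) (.both (.play 648 (.both (.play 582 (.both (.play 645 (.both (.play 646 (.both (.ref 141 516) (.play 713 (.ref 0 645)))) (.both (.play 646 (.ref 212 580)) (.play 581 (.ref 705 580))))) (.both (.play 649 (.both (.play 646 (.both (.ref 704 517) (.play 713 (.ref 130 645)))) (.play 650 (.ref 3 582)))) (.play 649 (.ref 188 581))))) (.play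 776 (.ref 7 519)))) (.both (.play 711 (.both (.ref 388 518) (.play 776 (.ref 4 519)))) (.ref 413 519))))))))) (.both (.play 585 (.both (.play 582 (.both (.ref 226 389) (.both (.ref 473 389) (.play 649 (.ref 119 580))))) (.play 586 (.ref 3 518)))) (.play 585 (.ref 432 516)))))))))))))))))))))))))
 (.seq (.seq (.seq (.seq (.seq (.one (.play 65 (.both (.play 1 (.ref 6 0)) (.play 322 (.ref 4 65)))))
 (.seq (.one (.play 66 (.both (.play 258 (.both (.play 65 (.ref 13 1)) (.ref 610 64))) (.play 2 (.ref 4 2)))))
 (.one (.play 196 (.both (.ref 618 0) (.both (.ref 416 67) (.both (.ref 271 129) (.both (.play 131 (.ref 59 130)) (.play 195 (.ref 42 130))))))))))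
 (.seq (.one (.play 193 (.both (.play 322 (.ref 399 1)) (.play 192 (.ref 1 128)))))
 (.seq (.one (.play 391 (.both (.play 328 (.both (.ref 688 3) (.both (.ref 537 71) (.play 455 (.ref 40 263))))) (.both (.play 390 (.both (.play 455 (.both (.play 327 (.both (.ref 507 70) (.play 582 (.ref 6 326)))) (.both (.play 326 (.ref 184 198)) (.both (.play 582 (.ref 101 326)) (.play 583 (.both (.play 326 (.ref 7 326)) (.ref 93 390))))))) (.both (.play 389 (.both (.play 388 (.both (.ref 417 192) (.both (.ref 591 195) (.both (.ref 260 320) (.both (.ref 259 321) (.play 451 (.ref 24 322))))))) (.both (.ref 422 196) (.both (.ref 729 260) (.play 324 (.ref 59 323)))))) (.both (.play 326 (.both (.play 389 (.both (.ref 226 196) (.ref 658 321))) (.both (.play 455 (.ref 184 198)) (.play 583 (.ref 419 326))))) (.both (.ref 679 259) (.ref 490 322)))))) (.both (.play 390 (.both (.play 454 (.both (.ref 684 69) (.both (.play 327 (.ref 108 198)) (.both (.play 582 (.ref 401 325)) (.play 583 (.ref 99 326)))))) (.both (.ref 683 131) (.both (.ref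 728 193) (.both (.play 389 (.both (.play 453 (.both (.play 517 (.both (.play 326 (.ref 108 197)) (.both (.play 516 (.both (.play 580 (.ref 465 323)) (.both (.play 582 (.both (.play 325 (.ref 4 325)) (.play 583 (.ref 130 515)))) (.play 515 (.ref 69 514))))) (.ref 493 324)))) (.play 452 (.ref 57 386)))) (.both (.ref 422 196) (.both (.ref 675 321) (.play 324 (.ref 59 323)))))) (.ref 681 195)))))) (.both (.play 327 (.both (.play 200 (.ref 110 71)) (.both (.play 390 (.both (.ref 683 131) (.both (.play 454 (.ref 108 198)) (.play 389 (.both (.ref 416 260) (.both (.ref 60 322) (.both (.play 452 (.ref 24 323)) (.play 328 (.ref 58 323))))))))) (.both (.play 454 (.ref 110 198)) (.play 455 (.ref 197 262)))))) (.both (.play 583 (.both (.play 647 (.both (.play 582 (.both (.play 517 (.both (.play 390 (.both (.play 516 (.both (.ref 427 195) (.play 515 (.ref 0 515)))) (.play 454 (.ref 4 390)))) (.both (.play 584 (.both (.ref 727 388) (.play 585 (.ref 3 517)))) (.play 584 (.ref 188 516))))) (.both (.play 584 (.both (.play 516 (.both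 (.play 580 (.both (.play 454 (.both (.ref 504 256) (.play 390 (.ref 180 326)))) (.both (.play 581 (.ref 238 515)) (.play 581 (.ref 119 578))))) (.play 517 (.ref 0 516)))) (.both (.ref 582 453) (.ref 383 517)))) (.both (.play 584 (.both (.play 581 (.both (.play 517 (.both (.play 646 (.both (.play 453 (.both (.play 454 (.both (.play 390 (.ref 156 325)) (.both (.ref 726 325) (.play 452 (.both (.play 645 (.ref 567 388)) (.play 451 (.ref 130 450))))))) (.play 389 (.ref 4 389)))) (.both (.ref 713 325) (.play 710 (.ref 13 453))))) (.play 516 (.ref 0 516)))) (.play 580 (.ref 212 515)))) (.both (.ref 582 453) (.ref 383 517)))) (.both (.play 454 (.both (.play 646 (.both (.play 517 (.both (.play 453 (.ref 181 325)) (.both (.play 453 (.ref 184 325)) (.play 516 (.ref 115 515))))) (.both (.play 453 (.ref 12 389)) (.ref 218 451)))) (.play 390 (.ref 4 390)))) (.both (.play 646 (.both (.play 648 (.both (.ref 355 385) (.both (.play 645 (.both (.ref 201 578) (.ref 232 581))) (.play 649 (.ref 19 581))))) (.both (.play 581 (.both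 (.play 517 (.both (.play 453 (.ref 88 389)) (.play 516 (.ref 188 515)))) (.play 648 (.ref 188 580)))) (.both (.play 710 (.both (.play 709 (.ref 363 389)) (.both (.play 774 (.both (.play 517 (.ref 47 453)) (.play 583 (.ref 5 518)))) (.play 774 (.ref 488 517))))) (.play 645 (.both (.ref 710 514) (.both (.play 648 (.both (.play 710 (.both (.play 774 (.ref 5 518)) (.play 709 (.ref 227 644)))) (.play 712 (.both (.play 776 (.ref 103 519)) (.play 713 (.ref 0 645)))))) (.play 644 (.ref 172 579))))))))) (.both (.play 454 (.both (.play 646 (.both (.play 453 (.ref 12 389)) (.both (.play 710 (.both (.play 453 (.ref 47 389)) (.play 774 (.both (.play 519 (.ref 5 518)) (.play 838 (.ref 488 581)))))) (.play 648 (.both (.play 580 (.both (.play 645 (.both (.play 709 (.ref 576 452)) (.play 644 (.ref 501 579)))) (.play 581 (.ref 0 580)))) (.both (.play 645 (.ref 204 578)) (.both (.play 581 (.ref 188 580)) (.play 649 (.ref 19 581))))))))) (.play 390 (.ref 4 390)))) (.both (.ref 711 450) (.ref 708 450))))))))) (.both (.play 454 (.ref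 181 326)) (.both (.ref 540 454) (.ref 492 515))))) (.both (.play 584 (.both (.play 517 (.both (.play 516 (.both (.play 515 (.both (.ref 297 258) (.both (.play 578 (.ref 24 449)) (.both (.play 514 (.ref 42 449)) (.play 514 (.ref 136 449)))))) (.play 519 (.ref 0 516)))) (.both (.play 582 (.ref 431 515)) (.play 585 (.both (.play 582 (.ref 3 517)) (.ref 469 518)))))) (.both (.play 455 (.ref 396 327)) (.play 585 (.both (.play 582 (.both (.play 517 (.ref 3 517)) (.play 649 (.ref 119 580)))) (.both (.play 522 (.both (.ref 35 517) (.ref 29 518))) (.ref 469 518))))))) (.both (.play 647 (.both (.play 454 (.ref 399 326)) (.both (.play 455 (.ref 49 326)) (.both (.ref 540 454) (.ref 581 514))))) (.both (.play 455 (.ref 401 326)) (.both (.play 455 (.both (.play 328 (.ref 5 327)) (.ref 18 390))) (.play 455 (.both (.play 328 (.ref 5 327)) (.ref 17 390))))))))) (.play 455 (.both (.play 327 (.both (.ref 362 198) (.both (.play 264 (.both (.ref 450 198) (.play 328 (.ref 5 263)))) (.ref 442 260)))) (.both (.play 583 (.both (.play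 390 (.ref 12 326)) (.both (.play 647 (.ref 48 326)) (.ref 695 389)))) (.both (.play 582 (.ref 101 326)) (.play 582 (.ref 241 326)))))))))))))
 (.one (.both (.ref 726 1) (.ref 383 192))))))
 (.seq (.seq (.one (.play 196 (.both (.play 195 (.both (.ref 160 0) (.play 198 (.ref 0 195)))) (.play 261 (.ref 3 196)))))
 (.seq (.one (.play 129 (.both (.play 65 (.ref 78 1)) (.play 128 (.ref 47 64)))))
 (.one (.play 388 (.both (.play 324 (.both (.play 260 (.both (.play 196 (.both (.ref 733 3) (.play 451 (.both (.play 387 (.ref 6 195)) (.play 519 (.ref 3 451)))))) (.both (.play 451 (.both (.ref 447 67) (.play 519 (.ref 3 451)))) (.ref 77 196)))) (.both (.play 451 (.both (.play 389 (.both (.play 260 (.both (.play 196 (.both (.ref 550 68) (.play 387 (.ref 6 195)))) (.play 259 (.ref 47 195)))) (.both (.play 323 (.both (.play 259 (.ref 7 259)) (.play 390 (.ref 95 321)))) (.play 450 (.ref 217 385))))) (.play 519 (.ref 3 451)))) (.both (.ref 461 67) (.both (.play 261 (.ref 294 195)) (.ref 276 256)))))) (.both (.ref 621 192) (.both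 (.play 451 (.both (.play 389 (.both (.play 325 (.ref 108 196)) (.play 390 (.ref 1 387)))) (.play 519 (.ref 3 451)))) (.both (.play 580 (.ref 459 259)) (.play 580 (.both (.play 644 (.ref 49 323)) (.both (.play 451 (.both (.play 387 (.ref 13 323)) (.play 519 (.ref 3 451)))) (.play 579 (.ref 458 387)))))))))))))
 (.seq (.one (.play 67 (.both (.ref 233 0) (.play 6 (.ref 2 3)))))
 (.seq (.one (.play 65 (.both (.play 64 (.ref 47 0)) (.play 258 (.both (.play 194 (.both (.play 1 (.ref 4 1)) (.play 385 (.ref 84 129)))) (.play 322 (.ref 4 65)))))))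
 (.one (.play 129 (.both (.ref 436 0) (.play 386 (.ref 16 129)))))))))
 (.seq (.seq (.seq (.one (.play 193 (.both (.ref 737 0) (.both (.ref 77 129) (.play 258 (.both (.play 386 (.both (.ref 177 129) (.play 450 (.ref 4 193)))) (.play 194 (.ref 5 193))))))))
 (.seq (.one (.play 258 (.both (.ref 738 1) (.both (.ref 733 65) (.both (.ref 436 129) (.both (.ref 736 129) (.play 259 (.both (.play 257 (.both (.play 193 (.ref 7 193)) (.play 323 (.both (.play 324 (.ref 188 256)) (.play 514 (.ref 5 258)))))) (.play 195 (.ref 5 194))))))))))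
 (.one (.play 387 (.both (.ref 426 2) (.both (.ref 538 66) (.both (.play 260 (.both (.play 196 (.ref 133 131)) (.ref 564 258))) (.ref 609 192))))))))
 (.seq (.one (.play 129 (.both (.play 64 (.ref 311 0)) (.both (.ref 348 1) (.play 385 (.both (.play 128 (.ref 47 64)) (.play 449 (.ref 398 192))))))))
 (.seq (.one (.play 65 (.both (.play 5 (.ref 216 1)) (.play 64 (.ref 0 64)))))
 (.one (.play 193 (.both (.ref 506 0) (.both (.ref 660 0) (.play 449 (.both (.ref 77 129) (.play 513 (.ref 398 256)))))))))))
 (.seq (.seq (.one (.play 518 (.both (.play 454 (.both (.ref 734 2) (.both (.play 390 (.both (.play 326 (.both (.play 262 (.both (.ref 737 69) (.both (.play 325 (.both (.play 391 (.both (.play 455 (.ref 70 198)) (.play 392 (.ref 95 323)))) (.play 261 (.ref 7 261)))) (.play 261 (.ref 47 197))))) (.both (.ref 558 133) (.both (.ref 348 198) (.ref 657 260))))) (.both (.play 582 (.both (.ref 662 67) (.both (.play 389 (.ref 12 325)) (.play 646 (.ref 398 389))))) (.both (.ref 739 68) (.both (.play 453 (.both (.ref 743 133)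 (.both (.play 391 (.both (.play 327 (.ref 108 198)) (.ref 742 387))) (.play 452 (.ref 94 451))))) (.both (.ref 621 194) (.both (.ref 741 197) (.play 582 (.both (.play 452 (.both (.play 389 (.both (.play 391 (.both (.play 388 (.ref 532 322)) (.play 327 (.ref 5 326)))) (.play 325 (.ref 7 325)))) (.both (.play 391 (.both (.play 389 (.both (.play 325 (.ref 7 325)) (.play 451 (.both (.play 388 (.ref 1 387)) (.play 453 (.ref 2 387)))))) (.play 327 (.ref 5 326)))) (.both (.play 453 (.both (.play 391 (.both (.play 389 (.both (.play 325 (.ref 7 325)) (.play 392 (.ref 227 388)))) (.play 327 (.ref 5 326)))) (.play 455 (.ref 0 452)))) (.play 453 (.ref 94 451)))))) (.both (.play 389 (.ref 12 325)) (.play 646 (.ref 398 389)))))))))))) (.both (.ref 740 195) (.play 453 (.ref 95 451)))))) (.both (.play 521 (.both (.play 454 (.both (.play 455 (.both (.play 390 (.both (.ref 739 68) (.both (.play 326 (.both (.ref 289 197) (.both (.ref 543 198) (.ref 276 258)))) (.both (.ref 654 195) (.both (.play 391 (.both (.play 327 (.both (.ref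 602 260) (.play 263 (.ref 6 262)))) (.both (.play 327 (.ref 133 262)) (.play 389 (.both (.ref 406 322) (.play 582 (.ref 567 325))))))) (.both (.play 326 (.both (.play 327 (.both (.play 391 (.both (.ref 602 260) (.play 582 (.ref 5 326)))) (.play 263 (.ref 5 262)))) (.play 262 (.ref 4 262)))) (.ref 206 261))))))) (.play 522 (.ref 3 454)))) (.play 453 (.ref 3 453)))) (.both (.play 522 (.both (.ref 636 199) (.both (.play 459 (.both (.play 456 (.both (.ref 623 326) (.play 523 (.ref 62 455)))) (.play 458 (.ref 2 455)))) (.both (.ref 27 455) (.ref 28 518))))) (.both (.ref 281 452) (.ref 615 453))))) (.both (.play 517 (.both (.play 455 (.both (.play 456 (.both (.play 584 (.both (.play 392 (.both (.play 328 (.both (.play 263 (.both (.play 264 (.ref 8 199)) (.play 327 (.ref 7 263)))) (.ref 77 264))) (.play 585 (.both (.play 649 (.ref 4 392)) (.play 518 (.ref 0 517)))))) (.play 648 (.ref 13 391)))) (.play 516 (.ref 2 452)))) (.both (.play 521 (.both (.play 584 (.both (.play 582 (.both (.play 391 (.both (.play 327 (.ref 4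 327)) (.play 646 (.ref 40 390)))) (.play 581 (.ref 1 517)))) (.play 585 (.ref 0 517)))) (.both (.ref 383 454) (.ref 28 517)))) (.play 516 (.ref 338 449))))) (.both (.play 516 (.both (.play 521 (.both (.play 456 (.both (.ref 633 199) (.play 455 (.ref 2 452)))) (.both (.play 455 (.both (.play 456 (.ref 2 452)) (.ref 383 454))) (.ref 28 517)))) (.play 451 (.ref 59 450)))) (.both (.ref 267 450) (.play 581 (.ref 336 516)))))) (.both (.play 517 (.both (.play 516 (.both (.play 456 (.both (.play 392 (.both (.play 328 (.ref 294 199)) (.both (.play 585 (.both (.play 521 (.ref 105 326)) (.play 584 (.ref 0 517)))) (.play 584 (.both (.play 329 (.ref 5 328)) (.play 585 (.ref 0 517))))))) (.play 455 (.ref 2 452)))) (.ref 41 451))) (.both (.play 452 (.ref 59 451)) (.play 581 (.ref 336 516))))) (.both (.play 521 (.both (.ref 635 260) (.both (.ref 319 453) (.play 585 (.ref 119 516))))) (.both (.play 517 (.both (.play 516 (.both (.play 455 (.both (.play 453 (.both (.play 582 (.both (.play 646 (.ref 181 325)) (.both (.play 454 (.both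 (.play 646 (.ref 13 389)) (.play 515 (.ref 2 451)))) (.ref 735 448)))) (.play 452 (.ref 3 452)))) (.play 456 (.ref 2 452)))) (.both (.ref 271 449) (.ref 41 451)))) (.both (.ref 618 321) (.both (.ref 82 324) (.both (.ref 616 449) (.both (.ref 267 450) (.play 452 (.ref 59 451)))))))) (.both (.ref 273 321) (.ref 73 323))))))))))
 (.seq (.one (.play 131 (.both (.play 2 (.ref 7 2)) (.play 132 (.ref 0 64)))))
 (.one (.play 454 (.both (.play 390 (.both (.play 391 (.both (.play 392 (.both (.play 393 (.both (.play 200 (.both (.play 329 (.both (.play 199 (.both (.play 201 (.both (.play 138 (.both (.play 265 (.both (.ref 279 9) (.both (.play 137 (.both (.play 74 (.ref 5 73)) (.play 198 (.ref 2 134)))) (.both (.play 266 (.both (.play 202 (.both (.play 74 (.ref 6 73)) (.play 267 (.ref 0 199)))) (.play 198 (.ref 0 198)))) (.ref 484 134))))) (.both (.play 202 (.both (.play 266 (.both (.play 265 (.both (.play 74 (.ref 6 73)) (.play 198 (.ref 0 198)))) (.play 267 (.ref 0 199)))) (.play 139 (.ref 2 135)))) (.both (.play 137 (.ref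 217 134)) (.ref 309 135))))) (.both (.play 202 (.ref 315 69)) (.both (.play 198 (.both (.play 261 (.ref 24 132)) (.ref 745 134))) (.both (.ref 44 133) (.play 202 (.both (.ref 510 133) (.both (.ref 44 134) (.both (.ref 509 135) (.play 265 (.ref 292 136))))))))))) (.play 263 (.ref 6 198)))) (.play 330 (.ref 2 326)))) (.both (.play 263 (.ref 294 134)) (.both (.play 329 (.both (.play 457 (.both (.play 265 (.ref 311 136)) (.play 458 (.ref 0 390)))) (.play 330 (.ref 2 326)))) (.play 457 (.both (.play 264 (.both (.play 329 (.both (.play 265 (.ref 7 200)) (.play 330 (.ref 2 326)))) (.play 263 (.both (.play 199 (.ref 6 198)) (.play 455 (.ref 5 199)))))) (.play 458 (.ref 0 390)))))))) (.play 394 (.ref 1 390)))) (.both (.play 263 (.both (.play 262 (.both (.play 324 (.both (.play 452 (.both (.play 388 (.ref 605 131)) (.play 453 (.ref 2 388)))) (.both (.play 264 (.both (.play 261 (.ref 24 195)) (.play 200 (.ref 5 199)))) (.both (.play 264 (.both (.play 200 (.ref 5 199)) (.play 325 (.both (.play 261 (.ref 1 260)) (.play 389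 (.ref 3 324)))))) (.play 389 (.ref 59 323)))))) (.play 198 (.ref 7 198)))) (.play 199 (.ref 6 198)))) (.ref 343 325)))) (.both (.ref 688 66) (.both (.ref 702 259) (.play 453 (.both (.play 452 (.both (.ref 422 259) (.play 451 (.ref 2 387)))) (.both (.play 389 (.both (.play 388 (.both (.play 392 (.both (.ref 41 323) (.play 393 (.ref 227 389)))) (.play 387 (.ref 0 387)))) (.play 517 (.ref 84 325)))) (.play 392 (.ref 178 388))))))))) (.both (.play 263 (.ref 110 134)) (.both (.play 517 (.ref 110 261)) (.play 518 (.ref 197 325)))))) (.both (.ref 691 64) (.both (.play 453 (.both (.ref 686 128) (.both (.play 452 (.both (.ref 674 132) (.ref 422 259))) (.both (.play 452 (.both (.play 391 (.both (.play 518 (.ref 326 262)) (.play 392 (.ref 2 388)))) (.play 387 (.ref 59 386)))) (.ref 420 386))))) (.both (.play 518 (.both (.ref 669 197) (.both (.play 390 (.ref 451 261)) (.both (.ref 391 324) (.play 646 (.both (.play 453 (.ref 12 389)) (.both (.play 710 (.ref 48 389)) (.ref 533 449)))))))) (.both (.ref 670 197) (.both (.play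 518 (.both (.play 390 (.ref 294 261)) (.both (.ref 391 324) (.ref 493 389)))) (.both (.ref 667 261) (.both (.ref 666 261) (.ref 692 325)))))))))))))
 (.seq (.one (.play 261 (.both (.play 4 (.ref 4 4)) (.ref 406 128))))
 (.seq (.one (.play 263 (.both (.play 197 (.both (.ref 355 0) (.ref 726 5))) (.both (.play 197 (.ref 731 4)) (.both (.ref 747 66) (.both (.play 327 (.ref 324 68)) (.both (.ref 112 193) (.ref 319 195))))))))
 (.one (.play 69 (.both (.ref 66 2) (.ref 37 64)))))))))
 (.seq (.seq (.seq (.seq (.one (.play 66 (.both (.ref 36 0) (.both (.play 129 (.ref 24 0)) (.ref 749 1)))))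
 (.seq (.one (.play 1 (.both (.ref 37 0) (.play 68 (.ref 0 1)))))
 (.one (.play 131 (.both (.ref 590 3) (.play 130 (.ref 431 128)))))))
 (.seq (.one (.play 261 (.both (.ref 752 1) (.both (.play 325 (.ref 40 69)) (.play 195 (.both (.ref 124 128) (.both (.play 194 (.both (.ref 439 128) (.play 133 (.ref 2 130)))) (.both (.play 194 (.both (.play 133 (.ref 2 130)) (.ref 751 192))) (.play 199 (.both (.ref 41 130) (.ref 66 132)))))))))))
 (.seq (.one (.play 67 (.both (.ref 259 0) (.both (.play 132 (.both (.play 66 (.both (.ref 41 1) (.play 133 (.ref 130 65)))) (.play 131 (.ref 1 67)))) (.both (.play 130 (.ref 24 1)) (.ref 37 66))))))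
 (.one (.both (.play 66 (.ref 2 0)) (.play 132 (.ref 3 64)))))))
 (.seq (.seq (.one (.play 67 (.both (.play 66 (.both (.play 3 (.ref 1 2)) (.play 131 (.ref 431 64)))) (.play 68 (.ref 1 3)))))
 (.seq (.one (.play 131 (.both (.play 3 (.ref 6 2)) (.play 132 (.ref 2 128)))))
 (.one (.play 195 (.both (.play 132 (.both (.play 261 (.both (.play 68 (.ref 180 4)) (.play 194 (.ref 0 194)))) (.play 131 (.ref 3 131)))) (.both (.ref 233 128) (.ref 41 130)))))))
 (.seq (.one (.play 259 (.both (.play 195 (.both (.play 4 (.ref 6 3)) (.play 258 (.ref 57 192)))) (.ref 625 67))))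
 (.seq (.one (.play 260 (.both (.play 196 (.both (.play 133 (.both (.ref 634 3) (.play 197 (.ref 5 132)))) (.play 199 (.both (.play 71 (.ref 6 70)) (.play 261 (.ref 62 195)))))) (.both (.play 199 (.both (.play 71 (.ref 6 70)) (.play 452 (.both (.play 261 (.both (.play 197 (.ref 5 196)) (.play 200 (.ref 2 196)))) (.ref 218 257))))) (.ref 759 192)))))
 (.one (.play 321 (.both (.ref 538 0) (.both (.play 129 (.both (.play 64 (.ref 311 0)) (.both (.play 128 (.ref 12 64)) (.ref 650 64)))) (.both (.ref 541 128) (.play 260 (.ref 23 192)))))))))))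
 (.seq (.seq (.seq (.one (.play 392 (.both (.play 454 (.both (.play 390 (.both (.play 326 (.both (.ref 640 1) (.both (.play 262 (.both (.ref 738 5) (.both (.ref 558 69) (.both (.play 197 (.ref 311 133)) (.both (.ref 736 133) (.ref 503 194)))))) (.both (.play 518 (.both (.play 262 (.both (.play 198 (.both (.ref 557 68) (.play 391 (.ref 4 198)))) (.both (.ref 624 195) (.play 261 (.ref 47 197))))) (.both (.play 325 (.ref 12 261)) (.play 582 (.ref 398 325))))) (.both (.play 389 (.both (.ref 743 69) (.both (.play 327 (.both (.play 263 (.ref 108 134)) (.play 388 (.ref 56 323)))) (.play 388 (.ref 94 387))))) (.both (.play 261 (.both (.play 325 (.ref 181 133)) (.both (.play 197 (.ref 182 133)) (.both (.play 327 (.both (.play 263 (.both (.play 262 (.both (.play 199 (.ref 5 198)) (.play 260 (.ref 0 260)))) (.play 518 (.ref 5 262)))) (.both (.play 260 (.ref 299 259)) (.both (.play 325 (.ref 637 260)) (.play 518 (.ref 485 261)))))) (.play 262 (.both (.play 263 (.both (.play 199 (.ref 5 198)) (.play 327 (.both (.play 260 (.ref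 0 260)) (.play 518 (.ref 5 262)))))) (.play 197 (.ref 7 197)))))))) (.both (.ref 741 133) (.play 518 (.both (.ref 503 258) (.both (.play 325 (.ref 12 261)) (.play 582 (.ref 398 325)))))))))))) (.both (.ref 740 131) (.both (.ref 761 197) (.play 389 (.ref 755 325)))))) (.both (.play 390 (.both (.ref 760 66) (.both (.play 326 (.both (.play 262 (.ref 601 132)) (.both (.ref 312 133) (.both (.play 262 (.both (.play 453 (.ref 363 133)) (.both (.ref 724 197) (.play 389 (.both (.play 453 (.ref 156 197)) (.play 327 (.ref 1 325))))))) (.both (.play 327 (.both (.play 263 (.ref 108 134)) (.play 389 (.ref 1 325)))) (.play 389 (.both (.play 325 (.both (.play 453 (.both (.play 452 (.both (.ref 354 194) (.both (.play 516 (.both (.play 388 (.both (.play 261 (.both (.play 324 (.ref 5 260)) (.play 389 (.ref 6 260)))) (.play 387 (.ref 3 387)))) (.play 515 (.ref 1 451)))) (.both (.ref 111 384) (.both (.play 451 (.both (.play 450 (.ref 53 384)) (.ref 37 450))) (.ref 201 385)))))) (.both (.play 388 (.both (.play 324 (.both (.play 323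 (.both (.ref 727 194) (.play 322 (.ref 0 322)))) (.both (.play 516 (.both (.play 452 (.both (.ref 568 258) (.ref 218 321))) (.play 517 (.ref 534 324)))) (.play 517 (.ref 13 260))))) (.play 387 (.ref 0 387)))) (.both (.ref 206 196) (.play 261 (.both (.play 197 (.ref 4 197)) (.ref 252 260))))))) (.both (.play 517 (.both (.play 387 (.both (.play 388 (.both (.ref 82 194) (.play 455 (.ref 0 387)))) (.both (.play 324 (.both (.play 453 (.ref 567 260)) (.play 323 (.ref 705 322)))) (.play 388 (.ref 212 322))))) (.both (.ref 573 323) (.play 518 (.ref 534 325))))) (.play 261 (.ref 88 197))))) (.play 327 (.ref 1 325))))))))) (.both (.ref 761 197) (.play 389 (.ref 431 387)))))) (.both (.play 391 (.both (.play 327 (.both (.ref 721 70) (.both (.play 326 (.both (.ref 757 134) (.ref 380 258))) (.play 518 (.ref 241 262))))) (.both (.play 453 (.both (.play 327 (.both (.play 326 (.both (.ref 757 134) (.ref 124 259))) (.ref 249 198))) (.play 452 (.ref 2 388)))) (.both (.play 390 (.both (.play 265 (.both (.play 137 (.ref 6 136)) (.play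 327 (.both (.play 326 (.both (.play 262 (.both (.play 198 (.ref 4 198)) (.play 261 (.ref 3 261)))) (.play 266 (.ref 2 262)))) (.play 263 (.ref 156 198)))))) (.play 389 (.ref 2 325)))) (.play 453 (.both (.play 389 (.both (.play 390 (.ref 2 325)) (.play 388 (.ref 3 388)))) (.play 452 (.ref 2 388)))))))) (.both (.play 457 (.both (.play 390 (.both (.ref 760 66) (.play 389 (.ref 3 389)))) (.ref 66 390))) (.both (.play 518 (.both (.play 327 (.both (.play 265 (.both (.play 326 (.both (.ref 758 130) (.play 266 (.ref 2 262)))) (.play 137 (.ref 6 136)))) (.both (.play 326 (.both (.ref 757 134) (.play 325 (.both (.ref 41 260) (.play 391 (.both (.play 263 (.ref 6 262)) (.play 324 (.ref 0 324)))))))) (.both (.play 326 (.both (.ref 757 134) (.play 261 (.both (.play 262 (.ref 3 261)) (.play 390 (.ref 485 261)))))) (.play 391 (.ref 241 262)))))) (.play 517 (.ref 57 451)))) (.both (.play 453 (.both (.play 517 (.both (.play 389 (.both (.ref 426 132) (.both (.play 581 (.both (.ref 221 324) (.play 644 (.ref 22 388)))) (.play 388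 (.ref 95 386))))) (.play 516 (.ref 1 452)))) (.both (.ref 718 387) (.ref 577 387)))) (.ref 750 387)))))))) (.both (.play 265 (.ref 107 136)) (.ref 748 194)))))
 (.seq (.one (.play 196 (.both (.play 260 (.both (.play 133 (.ref 101 4)) (.play 259 (.ref 57 193)))) (.both (.ref 161 3) (.ref 756 64)))))
 (.one (.play 260 (.both (.play 196 (.both (.play 132 (.ref 556 0)) (.both (.ref 733 3) (.play 195 (.ref 47 131))))) (.both (.play 196 (.both (.ref 287 0) (.both (.ref 443 3) (.ref 77 132)))) (.both (.ref 461 3) (.both (.play 196 (.both (.ref 733 3) (.both (.play 261 (.both (.play 132 (.both (.play 131 (.ref 47 67)) (.play 325 (.ref 70 68)))) (.play 197 (.ref 5 196)))) (.both (.play 133 (.ref 294 67)) (.ref 77 132))))) (.ref 512 193)))))))))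
 (.seq (.one (.play 327 (.both (.ref 764 3) (.both (.ref 447 134) (.both (.play 390 (.both (.play 389 (.both (.play 392 (.both (.ref 416 260) (.both (.play 325 (.ref 61 324)) (.ref 34 325)))) (.both (.play 388 (.both (.ref 272 320) (.both (.ref 337 321) (.both (.play 323 (.ref 59 322)) (.play 392 (.both (.ref 167 324) (.ref 37 387))))))) (.both (.ref 25 322) (.play 328 (.ref 58 323)))))) (.play 454 (.ref 5 326)))) (.play 454 (.ref 107 262)))))))
 (.seq (.one (.play 68 (.both (.play 4 (.ref 5 3)) (.ref 742 64))))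
 (.one (.play 3 (.both (.play 4 (.ref 2 0)) (.play 194 (.ref 5 2))))))))
 (.seq (.seq (.one (.play 323 (.both (.play 322 (.both (.play 131 (.both (.ref 557 1) (.play 386 (.ref 6 130)))) (.play 321 (.ref 217 256)))) (.play 387 (.ref 4 195)))))
 (.seq (.one (.play 195 (.both (.ref 768 0) (.play 324 (.ref 7 195)))))
 (.one (.play 68 (.both (.ref 33 0) (.ref 454 65))))))
 (.seq (.one (.play 584 (.both (.play 520 (.both (.play 393 (.both (.play 392 (.both (.play 391 (.both (.play 327 (.both (.play 455 (.both (.play 263 (.both (.play 326 (.both (.ref 661 6) (.both (.ref 766 196) (.play 325 (.ref 94 324))))) (.both (.ref 444 70) (.both (.play 454 (.ref 363 134)) (.ref 655 194))))) (.play 519 (.ref 4 327)))) (.both (.ref 768 132) (.play 326 (.ref 95 324))))) (.both (.ref 769 132) (.both (.ref 317 134) (.both (.play 390 (.both (.play 327 (.both (.ref 226 197) (.play 456 (.ref 7 327)))) (.both (.play 389 (.both (.ref 272 321) (.both (.ref 123 322) (.ref 745 325)))) (.play 453 (.ref 24 324))))) (.both (.play 394 (.both (.play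 390 (.both (.play 327 (.both (.play 456 (.both (.play 263 (.ref 99 199)) (.play 389 (.ref 0 389)))) (.play 326 (.ref 3 326)))) (.both (.ref 233 323) (.ref 41 325)))) (.both (.play 327 (.ref 61 326)) (.ref 403 327)))) (.both (.play 390 (.both (.ref 233 323) (.both (.play 325 (.ref 59 324)) (.both (.ref 258 324) (.play 394 (.both (.ref 770 327) (.ref 37 389))))))) (.play 390 (.both (.play 325 (.ref 59 324)) (.both (.play 394 (.both (.ref 41 325) (.ref 770 327))) (.ref 118 388))))))))))) (.both (.play 328 (.both (.play 327 (.both (.play 263 (.both (.play 264 (.both (.play 265 (.both (.play 262 (.both (.play 135 (.both (.ref 291 5) (.play 199 (.ref 4 135)))) (.both (.ref 380 194) (.both (.ref 374 195) (.play 325 (.both (.play 261 (.ref 705 260)) (.play 326 (.ref 1 261)))))))) (.both (.play 199 (.both (.play 135 (.ref 4 135)) (.ref 539 198))) (.play 266 (.ref 227 262))))) (.play 200 (.ref 4 200)))) (.play 456 (.ref 7 263)))) (.both (.play 263 (.both (.play 199 (.both (.play 200 (.both (.ref 687 2) (.play 264 (.ref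 4 200)))) (.play 135 (.ref 4 135)))) (.play 456 (.ref 7 263)))) (.play 394 (.ref 431 325))))) (.play 521 (.ref 7 328)))) (.both (.play 391 (.both (.play 390 (.both (.ref 297 133) (.both (.ref 417 194) (.both (.ref 233 323) (.ref 751 388))))) (.both (.ref 769 132) (.both (.play 327 (.both (.play 455 (.both (.play 263 (.both (.play 200 (.ref 294 134)) (.play 454 (.ref 458 262)))) (.both (.play 519 (.ref 410 198)) (.both (.play 326 (.both (.play 519 (.ref 208 262)) (.play 394 (.ref 3 326)))) (.play 394 (.ref 23 326)))))) (.play 456 (.ref 7 327)))) (.both (.play 394 (.both (.ref 758 195) (.ref 767 327))) (.both (.ref 261 258) (.both (.play 394 (.both (.ref 124 324) (.ref 767 327))) (.play 394 (.both (.play 326 (.ref 59 325)) (.ref 767 327)))))))))) (.both (.play 394 (.both (.play 331 (.both (.play 332 (.both (.play 333 (.both (.play 334 (.both (.ref 165 139) (.both (.play 335 (.ref 43 266)) (.play 335 (.ref 42 266))))) (.play 330 (.ref 1 329)))) (.play 395 (.ref 2 328)))) (.both (.ref 337 325) (.play 327 (.both (.play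 391 (.ref 508 326)) (.ref 29 327)))))) (.both (.play 330 (.both (.ref 25 325) (.play 521 (.ref 5 329)))) (.both (.play 328 (.both (.ref 383 327) (.play 521 (.ref 7 328)))) (.play 521 (.ref 292 328)))))) (.both (.play 328 (.both (.play 456 (.both (.ref 612 135) (.play 327 (.ref 47 263)))) (.play 521 (.ref 7 328)))) (.both (.play 328 (.both (.play 264 (.both (.play 456 (.both (.play 263 (.both (.play 327 (.both (.ref 766 197) (.play 520 (.ref 7 263)))) (.play 199 (.ref 7 199)))) (.play 519 (.ref 14 263)))) (.play 200 (.ref 4 200)))) (.play 521 (.ref 7 328)))) (.play 521 (.both (.play 394 (.both (.play 395 (.both (.ref 27 328) (.ref 756 388))) (.play 330 (.ref 5 329)))) (.play 328 (.ref 7 328))))))))))) (.both (.ref 765 2) (.both (.play 329 (.both (.ref 764 5) (.play 521 (.ref 6 328)))) (.both (.play 329 (.ref 448 136)) (.play 521 (.both (.ref 499 324) (.play 329 (.ref 6 328))))))))) (.both (.play 648 (.both (.play 455 (.ref 293 391)) (.play 775 (.ref 6 519)))) (.play 648 (.ref 197 455))))) (.both (.play 393 (.both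 (.play 520 (.both (.ref 765 2) (.both (.play 647 (.ref 110 391)) (.play 648 (.ref 113 515))))) (.both (.play 521 (.both (.ref 500 134) (.both (.ref 447 200) (.both (.ref 362 264) (.ref 499 324))))) (.both (.ref 694 264) (.play 648 (.both (.play 520 (.both (.play 456 (.ref 5 392)) (.play 775 (.ref 6 519)))) (.play 521 (.ref 6 392)))))))) (.both (.play 583 (.both (.play 582 (.both (.ref 689 196) (.both (.ref 763 514) (.play 581 (.both (.play 516 (.ref 59 515)) (.both (.play 520 (.ref 53 515)) (.play 585 (.ref 136 516)))))))) (.both (.play 582 (.both (.ref 672 325) (.both (.ref 422 389) (.both (.ref 416 453) (.ref 763 514))))) (.both (.ref 683 324) (.both (.ref 728 386) (.both (.play 647 (.both (.play 519 (.both (.play 710 (.ref 363 390)) (.both (.ref 452 390) (.play 520 (.both (.play 518 (.both (.play 454 (.ref 7 454)) (.play 517 (.ref 130 516)))) (.play 456 (.ref 5 455))))))) (.both (.play 520 (.ref 108 391)) (.both (.play 713 (.both (.play 710 (.both (.play 646 (.both (.play 519 (.ref 156 454)) (.play 645 (.ref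 3 645)))) (.both (.ref 412 517) (.ref 111 642)))) (.both (.ref 759 515) (.ref 383 646)))) (.play 775 (.ref 489 516)))))) (.both (.play 582 (.both (.ref 618 386) (.both (.ref 680 389) (.ref 729 453)))) (.ref 681 388)))))))) (.both (.ref 762 256) (.both (.play 710 (.both (.play 521 (.both (.ref 537 264) (.play 582 (.both (.play 646 (.both (.ref 424 389) (.ref 513 644))) (.both (.play 583 (.ref 423 389)) (.both (.play 583 (.both (.play 522 (.ref 2 518)) (.ref 756 578))) (.ref 700 517))))))) (.both (.play 774 (.both (.play 583 (.both (.play 582 (.both (.ref 674 262) (.play 517 (.both (.play 581 (.ref 508 516)) (.play 518 (.ref 3 517)))))) (.play 647 (.ref 101 518)))) (.both (.play 773 (.ref 52 707)) (.play 773 (.ref 57 707))))) (.both (.play 713 (.both (.ref 701 261) (.both (.ref 168 646) (.play 774 (.ref 336 709))))) (.both (.play 645 (.both (.play 709 (.ref 351 388)) (.both (.ref 71 516) (.both (.play 646 (.ref 431 643)) (.play 713 (.both (.play 646 (.ref 3 645)) (.play 774 (.ref 336 709)))))))) (.both (.play 709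 (.both (.play 708 (.both (.play 707 (.both (.ref 619 451) (.both (.play 706 (.ref 136 641)) (.play 706 (.ref 69 705))))) (.both (.ref 259 641) (.ref 41 643)))) (.both (.ref 697 449) (.both (.ref 82 516) (.both (.ref 754 641) (.ref 616 641)))))) (.both (.ref 273 513) (.ref 161 517)))))))) (.both (.ref 673 261) (.both (.play 648 (.both (.play 713 (.both (.play 520 (.both (.ref 447 327) (.play 777 (.ref 4 520)))) (.both (.play 710 (.both (.ref 427 389) (.both (.ref 699 514) (.both (.play 709 (.both (.ref 337 642) (.both (.ref 41 644) (.ref 170 644)))) (.both (.ref 60 643) (.play 645 (.ref 59 644))))))) (.ref 747 516)))) (.both (.play 520 (.ref 545 327)) (.both (.play 710 (.both (.play 775 (.both (.play 645 (.both (.ref 732 448) (.both (.play 646 (.ref 755 581)) (.play 709 (.both (.ref 735 641) (.play 644 (.ref 3 644))))))) (.both (.ref 752 515) (.play 839 (.ref 40 583))))) (.both (.ref 719 451) (.both (.ref 273 513) (.both (.play 713 (.both (.ref 699 514) (.both (.ref 262 646) (.play 774 (.ref 336 709))))) (.both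 (.ref 89 515) (.ref 161 517))))))) (.both (.play 710 (.both (.play 520 (.both (.play 519 (.both (.play 455 (.ref 7 455)) (.play 645 (.both (.play 517 (.both (.ref 653 515) (.play 518 (.ref 0 517)))) (.play 713 (.both (.play 777 (.ref 4 520)) (.play 646 (.ref 3 645)))))))) (.play 775 (.ref 6 519)))) (.both (.play 709 (.both (.play 708 (.both (.play 707 (.both (.play 775 (.both (.play 520 (.ref 6 519)) (.play 774 (.ref 0 707)))) (.ref 267 640))) (.both (.play 775 (.both (.play 520 (.ref 6 519)) (.ref 233 641))) (.ref 41 643)))) (.both (.play 775 (.both (.play 646 (.both (.play 773 (.both (.play 582 (.ref 241 517)) (.play 772 (.ref 1 708)))) (.both (.play 839 (.ref 181 518)) (.play 708 (.both (.play 707 (.both (.ref 577 641) (.play 774 (.ref 0 707)))) (.ref 37 707)))))) (.play 520 (.ref 6 519)))) (.both (.ref 82 516) (.both (.ref 754 641) (.play 644 (.ref 59 643))))))) (.both (.ref 89 515) (.both (.play 775 (.both (.play 646 (.both (.play 582 (.both (.play 518 (.ref 4 518)) (.play 645 (.both (.play 583 (.ref 1 581))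 (.play 713 (.ref 3 645)))))) (.both (.play 839 (.ref 181 518)) (.play 645 (.ref 431 643))))) (.play 520 (.ref 6 519)))) (.both (.play 713 (.both (.ref 72 516) (.play 777 (.ref 105 518)))) (.play 713 (.both (.play 775 (.both (.play 520 (.ref 6 519)) (.play 774 (.ref 227 709)))) (.both (.play 777 (.ref 105 518)) (.play 714 (.ref 69 709))))))))))) (.play 775 (.ref 241 519))))))) (.both (.play 648 (.both (.play 521 (.ref 107 392)) (.play 710 (.both (.ref 273 513) (.both (.play 709 (.both (.ref 618 513) (.both (.ref 82 516) (.both (.ref 337 642) (.ref 577 643))))) (.both (.ref 753 514) (.both (.ref 89 515) (.both (.play 713 (.both (.play 839 (.both (.play 775 (.both (.play 646 (.both (.play 774 (.both (.play 582 (.ref 70 518)) (.play 773 (.ref 1 709)))) (.play 645 (.ref 3 645)))) (.play 647 (.ref 5 583)))) (.both (.play 775 (.ref 40 583)) (.both (.ref 414 645) (.ref 333 645))))) (.both (.ref 66 646) (.play 774 (.ref 336 709))))) (.both (.play 709 (.both (.ref 261 576) (.both (.play 708 (.both (.ref 259 641) (.play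 647 (.ref 2 644)))) (.both (.ref 337 642) (.ref 749 644))))) (.ref 750 643)))))))))) (.play 648 (.both (.play 710 (.both (.play 709 (.both (.ref 297 452) (.both (.ref 36 643) (.play 772 (.both (.ref 682 643) (.play 773 (.ref 1 708))))))) (.both (.ref 273 513) (.both (.play 713 (.both (.ref 699 514) (.both (.ref 255 645) (.ref 66 646)))) (.both (.ref 753 514) (.both (.ref 89 515) (.both (.ref 161 517) (.ref 750 643)))))))) (.both (.ref 748 450) (.play 520 (.ref 197 455)))))))))))))))
 (.seq (.one (.play 711 (.both (.ref 771 0) (.both (.ref 746 130) (.both (.ref 744 192) (.both (.play 710 (.both (.play 646 (.both (.ref 734 194) (.both (.ref 622 386) (.both (.ref 460 451) (.play 713 (.both (.play 645 (.ref 3 645)) (.ref 404 646))))))) (.both (.play 645 (.both (.ref 732 448) (.both (.play 709 (.both (.play 776 (.both (.play 775 (.both (.play 840 (.both (.play 904 (.both (.play 648 (.both (.play 584 (.ref 156 519)) (.play 905 (.ref 16 648)))) (.play 968 (.ref 7 711)))) (.both (.play 839 (.both (.play 841 (.ref 731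 582)) (.both (.play 903 (.ref 133 647)) (.play 903 (.ref 574 708))))) (.both (.ref 190 581) (.both (.ref 696 644) (.both (.ref 646 646) (.ref 709 709))))))) (.play 708 (.ref 0 708)))) (.play 777 (.ref 0 709)))) (.play 644 (.ref 3 644)))) (.play 713 (.both (.play 646 (.ref 3 645)) (.ref 404 646)))))) (.both (.ref 298 451) (.both (.ref 73 515) (.both (.ref 89 515) (.both (.ref 364 643) (.both (.ref 614 643) (.play 713 (.ref 162 644)))))))))) (.both (.ref 730 193) (.both (.ref 725 193) (.both (.ref 703 193) (.both (.play 584 (.both (.play 583 (.both (.ref 690 196) (.both (.ref 677 258) (.both (.ref 685 262) (.both (.ref 683 324) (.both (.ref 681 388) (.play 582 (.both (.ref 680 389) (.both (.play 521 (.ref 53 516)) (.ref 414 517)))))))))) (.both (.play 520 (.both (.play 583 (.both (.ref 690 196) (.both (.ref 683 324) (.play 647 (.ref 108 391))))) (.both (.play 393 (.ref 110 264)) (.both (.ref 694 391) (.ref 693 516))))) (.both (.ref 678 258) (.both (.ref 671 263) (.both (.play 648 (.both (.ref 669 327) (.both (.play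 520 (.ref 451 391)) (.both (.play 775 (.ref 101 519)) (.ref 321 581))))) (.both (.ref 670 327) (.both (.ref 667 391) (.both (.ref 666 391) (.ref 692 455)))))))))) (.both (.play 584 (.both (.ref 691 194) (.both (.ref 678 258) (.both (.ref 673 261) (.both (.ref 671 263) (.both (.ref 670 327) (.both (.ref 667 391) (.both (.ref 666 391) (.play 775 (.both (.play 647 (.both (.ref 312 454) (.both (.ref 163 518) (.both (.ref 370 519) (.play 839 (.ref 50 580)))))) (.both (.play 647 (.both (.ref 279 455) (.both (.play 583 (.ref 360 518)) (.ref 153 582)))) (.both (.play 648 (.both (.play 774 (.both (.play 777 (.both (.play 713 (.both (.play 710 (.both (.play 646 (.both (.play 582 (.both (.ref 503 514) (.play 518 (.ref 4 518)))) (.play 645 (.ref 3 645)))) (.play 778 (.ref 0 710)))) (.play 714 (.ref 1 710)))) (.both (.play 838 (.both (.play 902 (.ref 108 582)) (.play 776 (.both (.play 841 (.both (.play 713 (.both (.play 905 (.ref 13 648)) (.play 714 (.ref 2 710)))) (.play 842 (.ref 0 774)))) (.play 837 (.ref 1 773)))))) (.both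 (.play 776 (.both (.ref 665 582) (.play 778 (.ref 19 710)))) (.both (.play 714 (.both (.play 776 (.both (.ref 665 582) (.ref 202 711))) (.play 713 (.ref 1 710)))) (.play 713 (.both (.play 714 (.ref 1 710)) (.play 778 (.ref 115 710))))))))) (.both (.play 776 (.both (.play 840 (.both (.ref 186 583) (.play 773 (.ref 212 708)))) (.both (.play 840 (.both (.play 841 (.both (.play 905 (.ref 4 648)) (.play 842 (.ref 245 774)))) (.play 904 (.ref 13 647)))) (.ref 664 708)))) (.both (.play 773 (.ref 55 708)) (.play 773 (.ref 217 708)))))) (.play 520 (.ref 6 519)))) (.both (.ref 402 515) (.both (.play 648 (.ref 101 519)) (.play 648 (.both (.play 520 (.ref 6 519)) (.play 839 (.ref 274 583)))))))))))))))))) (.both (.ref 663 257) (.both (.play 710 (.both (.play 713 (.both (.ref 641 258) (.both (.play 714 (.both (.ref 636 391) (.ref 37 709))) (.both (.ref 635 452) (.both (.play 646 (.ref 457 453)) (.ref 434 453)))))) (.both (.play 709 (.both (.play 776 (.both (.play 646 (.both (.play 583 (.both (.ref 633 389) (.both (.play 519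 (.ref 110 390)) (.both (.play 775 (.both (.play 839 (.both (.play 582 (.both (.play 518 (.both (.ref 116 451) (.play 711 (.ref 4 518)))) (.play 774 (.ref 4 582)))) (.both (.play 774 (.ref 99 582)) (.ref 631 643)))) (.both (.play 582 (.ref 399 454)) (.both (.play 582 (.both (.play 518 (.ref 4 518)) (.play 647 (.ref 630 582)))) (.play 840 (.both (.play 647 (.ref 4 583)) (.ref 492 708))))))) (.play 647 (.ref 99 519)))))) (.play 645 (.ref 431 643)))) (.play 777 (.ref 0 709)))) (.both (.ref 626 516) (.both (.ref 272 641) (.ref 364 642))))) (.both (.ref 629 387) (.both (.ref 298 451) (.both (.ref 273 513) (.both (.play 709 (.both (.ref 626 516) (.both (.play 776 (.both (.play 773 (.both (.play 774 (.both (.play 837 (.both (.play 646 (.both (.play 838 (.both (.play 902 (.both (.ref 77 582) (.play 966 (.ref 7 709)))) (.play 836 (.both (.ref 38 641) (.play 775 (.ref 1 772)))))) (.play 582 (.ref 6 581)))) (.both (.play 646 (.ref 133 581)) (.play 902 (.both (.play 838 (.ref 627 643)) (.both (.play 838 (.ref 240 645)) (.ref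 332 708))))))) (.play 713 (.ref 1 709)))) (.play 772 (.ref 1 708)))) (.play 777 (.ref 0 709)))) (.both (.ref 267 642) (.play 776 (.ref 119 707)))))) (.both (.play 709 (.both (.ref 626 516) (.both (.play 773 (.both (.play 646 (.both (.play 582 (.ref 241 517)) (.both (.ref 625 581) (.ref 117 645)))) (.play 772 (.ref 1 708)))) (.play 776 (.ref 119 707))))) (.ref 261 577))))))))) (.both (.play 713 (.both (.play 710 (.both (.play 648 (.both (.play 646 (.both (.play 774 (.both (.play 582 (.both (.play 518 (.both (.ref 558 325) (.both (.ref 624 451) (.play 517 (.ref 47 453))))) (.both (.ref 349 389) (.both (.play 517 (.ref 311 453)) (.both (.ref 542 454) (.ref 503 514)))))) (.play 773 (.ref 1 709)))) (.play 645 (.ref 3 645)))) (.ref 623 518))) (.both (.ref 617 641) (.both (.play 645 (.ref 59 644)) (.play 777 (.ref 119 708)))))) (.both (.ref 317 454) (.both (.ref 137 645) (.ref 319 645))))) (.both (.play 710 (.both (.play 709 (.both (.play 645 (.both (.play 646 (.both (.ref 592 388) (.play 713 (.ref 3 645)))) (.play 644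 (.ref 3 644)))) (.both (.ref 618 513) (.both (.ref 272 641) (.both (.ref 267 642) (.play 644 (.ref 59 643))))))) (.both (.play 646 (.both (.ref 622 386) (.both (.play 774 (.both (.ref 426 389) (.play 773 (.ref 52 707)))) (.play 645 (.ref 95 643))))) (.both (.play 709 (.both (.play 713 (.both (.ref 297 453) (.ref 28 709))) (.both (.ref 417 513) (.both (.ref 253 514) (.ref 272 641))))) (.both (.play 709 (.both (.ref 620 450) (.both (.ref 267 642) (.play 713 (.ref 69 708))))) (.both (.ref 298 451) (.both (.ref 301 451) (.both (.ref 613 513) (.both (.play 709 (.both (.ref 618 513) (.both (.ref 166 514) (.both (.play 713 (.both (.ref 82 517) (.ref 28 709))) (.ref 260 641))))) (.both (.play 713 (.both (.ref 82 517) (.both (.play 709 (.ref 43 644)) (.play 709 (.ref 69 708))))) (.play 709 (.ref 162 643)))))))))))) (.both (.play 710 (.both (.play 713 (.both (.ref 593 389) (.both (.ref 319 645) (.play 774 (.ref 336 709))))) (.both (.ref 298 451) (.both (.ref 73 515) (.both (.ref 89 515) (.both (.ref 617 641) (.both (.play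 709 (.ref 162 643)) (.ref 614 643)))))))) (.both (.play 710 (.both (.play 713 (.both (.play 646 (.ref 351 389)) (.both (.ref 615 645) (.play 774 (.ref 336 709))))) (.both (.ref 298 451) (.both (.play 713 (.both (.ref 417 514) (.both (.ref 258 644) (.both (.ref 615 645) (.play 714 (.both (.ref 131 708) (.both (.ref 28 710) (.play 715 (.ref 69 710))))))))) (.both (.ref 73 515) (.both (.ref 89 515) (.both (.ref 364 643) (.ref 614 643)))))))) (.both (.play 710 (.both (.ref 298 451) (.both (.ref 273 513) (.both (.ref 613 513) (.both (.play 709 (.both (.ref 253 514) (.both (.ref 267 642) (.both (.play 776 (.ref 119 707)) (.play 773 (.ref 336 708)))))) (.both (.ref 161 517) (.play 709 (.ref 162 643)))))))) (.both (.play 713 (.both (.play 710 (.both (.play 777 (.both (.play 776 (.both (.play 840 (.both (.play 648 (.both (.ref 544 455) (.both (.ref 612 455) (.both (.play 839 (.ref 363 519)) (.play 839 (.both (.play 647 (.both (.play 775 (.both (.ref 568 581) (.ref 610 645))) (.play 583 (.ref 7 583)))) (.play 903 (.ref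 6 647)))))))) (.both (.play 647 (.ref 399 519)) (.both (.ref 609 645) (.ref 540 647))))) (.play 709 (.ref 0 709)))) (.play 778 (.ref 0 710)))) (.both (.ref 82 517) (.play 777 (.ref 119 708))))) (.both (.ref 317 454) (.both (.ref 137 645) (.ref 319 645))))) (.both (.play 713 (.both (.play 710 (.both (.play 646 (.both (.play 774 (.both (.ref 179 516) (.play 773 (.ref 1 709)))) (.play 645 (.ref 3 645)))) (.both (.ref 282 576) (.both (.play 773 (.ref 24 644)) (.play 777 (.both (.ref 439 644) (.play 778 (.ref 0 710)))))))) (.both (.play 714 (.ref 305 518)) (.both (.ref 137 645) (.ref 319 645))))) (.play 713 (.both (.play 710 (.both (.ref 369 514) (.both (.play 774 (.both (.play 777 (.both (.play 776 (.both (.play 841 (.both (.play 648 (.both (.play 840 (.both (.play 904 (.both (.play 647 (.ref 47 583)) (.play 968 (.ref 5 712)))) (.play 842 (.both (.ref 384 647) (.play 775 (.ref 0 774)))))) (.play 584 (.ref 4 584)))) (.both (.play 648 (.ref 88 584)) (.play 904 (.both (.play 840 (.both (.play 647 (.ref 7 647)) (.ref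 218 709))) (.both (.play 840 (.ref 567 647)) (.ref 210 712))))))) (.play 709 (.ref 0 709)))) (.play 778 (.ref 0 710)))) (.play 773 (.ref 1 709)))) (.both (.ref 269 641) (.play 773 (.ref 24 644)))))) (.both (.ref 161 518) (.both (.play 714 (.ref 305 518)) (.both (.play 710 (.ref 162 644)) (.both (.ref 364 644) (.both (.ref 137 645) (.ref 319 645))))))))))))))))))))))))))))
 (.one (.play 712 (.both (.ref 772 0) (.both (.ref 607 129) (.both (.play 521 (.both (.ref 445 134) (.both (.play 393 (.both (.ref 436 264) (.both (.ref 285 264) (.both (.ref 452 264) (.play 394 (.both (.play 392 (.both (.play 395 (.both (.play 391 (.both (.ref 124 324) (.both (.ref 122 325) (.both (.ref 449 325) (.ref 37 390))))) (.ref 126 328))) (.play 328 (.ref 7 328)))) (.play 330 (.ref 5 329)))))))) (.both (.play 649 (.ref 22 456)) (.play 648 (.ref 356 456)))))) (.both (.play 521 (.both (.ref 445 134) (.both (.ref 441 196) (.both (.play 648 (.ref 448 264)) (.both (.play 649 (.both (.play 713 (.both (.play 456 (.ref 47 392)) (.play 714 (.both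 (.play 711 (.both (.play 650 (.both (.play 649 (.ref 4 457)) (.play 651 (.ref 2 647)))) (.play 774 (.ref 24 645)))) (.both (.play 649 (.ref 16 457)) (.both (.play 711 (.both (.ref 306 519) (.play 774 (.ref 24 645)))) (.play 711 (.ref 446 645)))))))) (.play 648 (.ref 6 456)))) (.play 648 (.ref 109 392))))))) (.both (.play 521 (.both (.ref 445 134) (.both (.ref 441 196) (.both (.play 648 (.ref 327 392)) (.play 649 (.both (.play 456 (.both (.play 392 (.ref 7 392)) (.ref 10 456))) (.play 648 (.ref 6 456)))))))) (.both (.ref 435 320) (.both (.play 713 (.both (.play 649 (.both (.play 521 (.ref 330 392)) (.both (.ref 302 392) (.play 777 (.both (.play 776 (.both (.play 778 (.both (.ref 355 515) (.play 842 (.ref 4 585)))) (.play 840 (.ref 6 584)))) (.both (.play 840 (.ref 22 584)) (.both (.ref 18 584) (.both (.ref 17 584) (.ref 15 584))))))))) (.both (.ref 308 388) (.both (.play 711 (.both (.play 714 (.both (.play 647 (.ref 351 390)) (.both (.play 647 (.ref 61 646)) (.play 775 (.ref 336 710))))) (.both (.ref 298 452) (.both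 (.ref 89 516) (.both (.ref 137 645) (.ref 319 645)))))) (.both (.play 649 (.both (.play 521 (.ref 330 392)) (.both (.ref 302 392) (.play 840 (.both (.play 842 (.both (.play 841 (.ref 346 581)) (.both (.play 778 (.ref 150 585)) (.both (.play 841 (.both (.play 839 (.both (.ref 341 647) (.both (.play 838 (.both (.ref 41 773) (.play 905 (.ref 119 836)))) (.play 774 (.ref 59 773))))) (.both (.play 839 (.both (.play 906 (.both (.play 778 (.both (.play 714 (.both (.play 713 (.ref 7 649)) (.play 905 (.ref 156 649)))) (.play 779 (.ref 2 775)))) (.play 907 (.ref 0 839)))) (.play 774 (.ref 59 773)))) (.both (.ref 159 646) (.both (.ref 340 647) (.both (.play 843 (.both (.ref 165 648) (.both (.play 844 (.ref 136 775)) (.play 904 (.ref 336 839))))) (.both (.play 839 (.ref 162 773)) (.both (.play 843 (.both (.play 779 (.ref 338 773)) (.both (.ref 27 776) (.play 904 (.ref 336 839))))) (.ref 137 774))))))))) (.ref 334 645))))) (.both (.play 776 (.ref 274 584)) (.play 776 (.ref 40 584)))))))) (.both (.play 649 (.both (.play 521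 (.ref 330 392)) (.both (.ref 302 392) (.both (.play 840 (.both (.play 711 (.both (.ref 301 452) (.both (.ref 25 644) (.both (.play 650 (.ref 58 645)) (.play 714 (.both (.play 647 (.ref 61 646)) (.both (.ref 333 646) (.ref 34 647)))))))) (.both (.play 776 (.ref 100 584)) (.play 776 (.ref 274 584))))) (.play 521 (.ref 14 456)))))) (.both (.play 649 (.both (.play 521 (.ref 330 392)) (.both (.ref 329 518) (.ref 321 582)))) (.both (.play 649 (.both (.play 711 (.both (.play 714 (.both (.play 650 (.both (.play 521 (.ref 70 457)) (.play 651 (.ref 2 647)))) (.both (.ref 306 519) (.ref 34 647)))) (.both (.play 778 (.both (.play 714 (.ref 324 519)) (.ref 322 582))) (.ref 25 644)))) (.both (.play 521 (.ref 14 456)) (.ref 321 582)))) (.play 711 (.both (.ref 160 516) (.both (.ref 73 516) (.both (.ref 159 517) (.both (.play 714 (.both (.ref 143 583) (.both (.play 647 (.ref 61 646)) (.play 647 (.both (.play 646 (.ref 3 646)) (.ref 320 647)))))) (.ref 319 645)))))))))))))) (.both (.ref 318 449) (.play 649 (.both (.play 648 (.both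 (.play 521 (.ref 6 456)) (.play 650 (.both (.ref 134 518) (.both (.play 647 (.both (.play 646 (.both (.ref 124 579) (.ref 28 646))) (.both (.ref 123 580) (.both (.ref 60 580) (.both (.play 714 (.both (.play 711 (.both (.play 778 (.both (.play 775 (.both (.play 839 (.ref 84 583)) (.play 713 (.ref 121 710)))) (.play 842 (.ref 7 585)))) (.play 710 (.ref 1 646)))) (.play 715 (.ref 0 647)))) (.play 714 (.ref 119 645))))))) (.both (.play 651 (.both (.ref 120 584) (.play 715 (.ref 119 646)))) (.play 651 (.both (.ref 117 584) (.play 711 (.ref 1 647)))))))))) (.both (.play 648 (.both (.play 521 (.ref 6 456)) (.play 776 (.both (.play 584 (.both (.ref 116 517) (.play 775 (.ref 113 579)))) (.play 840 (.ref 5 584)))))) (.both (.play 776 (.ref 110 456)) (.both (.play 713 (.both (.ref 106 517) (.both (.play 776 (.ref 101 520)) (.play 777 (.both (.play 840 (.both (.play 776 (.ref 6 584)) (.play 904 (.both (.play 711 (.both (.ref 25 644) (.both (.play 775 (.both (.play 839 (.ref 99 647)) (.play 774 (.ref 57 708)))) (.both (.play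 650 (.ref 55 646)) (.play 714 (.both (.play 775 (.both (.ref 97 646) (.play 774 (.ref 1 710)))) (.ref 27 647))))))) (.play 841 (.ref 6 648)))))) (.both (.ref 96 582) (.ref 93 584))))))) (.play 713 (.both (.ref 90 516) (.both (.play 711 (.both (.ref 73 516) (.both (.play 714 (.both (.ref 68 583) (.both (.ref 66 647) (.both (.ref 65 647) (.ref 64 647))))) (.ref 25 644)))) (.both (.play 776 (.both (.play 714 (.both (.play 711 (.both (.play 647 (.both (.play 583 (.both (.play 582 (.both (.play 775 (.both (.play 518 (.ref 7 518)) (.play 774 (.ref 1 710)))) (.play 650 (.both (.play 648 (.ref 3 582)) (.play 651 (.ref 2 647)))))) (.play 519 (.ref 4 519)))) (.play 646 (.ref 3 646)))) (.both (.ref 60 644) (.both (.play 646 (.ref 59 645)) (.play 650 (.ref 58 645)))))) (.both (.play 715 (.both (.play 651 (.ref 53 646)) (.both (.play 716 (.both (.ref 41 647) (.play 777 (.ref 1 712)))) (.play 716 (.both (.ref 33 648) (.play 777 (.ref 1 712))))))) (.play 775 (.ref 52 709))))) (.both (.play 840 (.both (.play 777 (.ref 6 584))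 (.play 904 (.both (.play 712 (.ref 5 648)) (.play 968 (.ref 50 709)))))) (.play 840 (.ref 40 584))))) (.both (.play 777 (.both (.ref 39 580) (.both (.play 840 (.ref 22 584)) (.both (.ref 18 584) (.both (.ref 17 584) (.ref 15 584)))))) (.play 777 (.both (.ref 20 583) (.both (.ref 18 584) (.both (.ref 17 584) (.ref 15 584)))))))))))))))))))))))))))))))))))
    (by decide +kernel)

theorem Cert_L30 : PW ⟨19, nat_lit 1167984798111281975972139931059274579176098896685696647085764234981755139414056128595585332401944310072925202842538996297597588229002839405041329453544627261211071630636086149127502807360688095232, nat_lit 501123706821403193322056424295910151864219553548231829639615211770910836152020701710235191406085723324905319743263838724620594392354418199357367285059954161446291128057340688785159941541499714824469469978333813877329722703596489313652840136249576775918110529566441164711624248032300087347739008823380716437832501629041672464167791933565695577991151624, 17, nat_lit 501123706821403193322056424295910151864219553548231829639615211770910836152020701710235191406085723324905319743263838724620594392354418199357367285059954161446291128057340688785159941541499714824469469978333813877329722703596489313652840136249576775918110529566441164711624248032300087347739008823380716437832501629041672464167791933565695577991151624⟩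 :=
  sound2 baseTbl baseTbl_ok
    (.seq (.seq (.seq (.seq (.seq (.seq (.seq (.one (.play 257 (.both (.play 193 (.ref 4 0)) (.play 321 (.ref 4 64)))))
 (.seq (.one (.play 256 (.both (.play 192 (.ref 6 0)) (.play 320 (.ref 6 64)))))
 (.one (.both (.ref 9 0) (.ref 8 1)))))
 (.seq (.one (.play 64 (.both (.play 0 (.ref 7 0)) (.play 128 (.ref 7 64)))))
 (.seq (.one (.both (.ref 11 0) (.ref 8 65)))
 (.one (.both (.ref 11 0) (.ref 9 64))))))
 (.seq (.seq (.one (.play 68 (.both (.play 67 (.ref 0 0)) (.play 69 (.ref 0 1)))))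
 (.seq (.one (.play 4 (.both (.play 3 (.ref 2 0)) (.play 68 (.both (.play 1 (.ref 3 0)) (.play 5 (.ref 2 1)))))))
 (.one (.play 4 (.both (.play 3 (.ref 2 0)) (.play 5 (.ref 2 1)))))))
 (.seq (.seq (.one (.both (.ref 16 0) (.ref 14 64)))
 (.one (.play 68 (.both (.ref 16 0) (.both (.play 69 (.both (.play 3 (.both (.play 4 (.ref 2 0)) (.play 70 (.ref 3 2)))) (.ref 14 65))) (.both (.play 69 (.ref 17 1)) (.play 69 (.both (.ref 15 2) (.ref 14 65)))))))))
 (.seq (.one (.both (.play 0 (.ref 3 0)) (.play 128 (.ref 1 64))))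
 (.one (.play 129 (.both (.play 1 (.both (.play 65 (.ref 19 0)) (.play 2 (.ref 3 1)))) (.play 130 (.ref 1 65)))))))))
 (.seq (.seq (.seq (.one (.both (.play 4 (.ref 2 0)) (.play 132 (.ref 0 64))))
 (.seq (.one (.play 4 (.both (.play 3 (.ref 2 0)) (.play 132 (.both (.play 68 (.ref 21 1)) (.play 131 (.ref 0 64)))))))
 (.one (.play 65 (.both (.play 64 (.ref 1 0)) (.play 66 (.ref 1 1)))))))
 (.seq (.seq (.one (.play 1 (.both (.play 0 (.ref 3 0)) (.play 2 (.ref 3 1)))))
 (.one (.both (.ref 24 0) (.ref 23 64))))
 (.seq (.one (.play 65 (.both (.play 1 (.both (.play 64 (.ref 1 0)) (.play 68 (.ref 0 1)))) (.play 66 (.ref 1 1)))))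
 (.one (.play 67 (.both (.play 66 (.both (.ref 24 1) (.ref 26 64))) (.both (.play 66 (.ref 25 1)) (.both (.play 66 (.both (.ref 24 1) (.play 132 (.both (.play 65 (.ref 0 65)) (.play 131 (.ref 1 67)))))) (.ref 23 66)))))))))
 (.seq (.seq (.one (.play 65 (.both (.play 1 (.ref 5 0)) (.play 129 (.ref 5 64)))))
 (.seq (.one (.both (.ref 28 0) (.ref 8 64)))
 (.one (.both (.ref 11 0) (.ref 28 1)))))
 (.seq (.seq (.one (.play 64 (.both (.play 1 (.ref 5 0)) (.play 257 (.ref 4 64)))))
 (.one (.play 65 (.both (.play 321 (.both (.ref 31 0) (.play 385 (.ref 4 128)))) (.play 129 (.ref 5 64))))))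
 (.seq (.one (.play 65 (.both (.play 0 (.ref 7 0)) (.play 2 (.ref 5 1)))))
 (.one (.play 64 (.both (.play 66 (.both (.ref 33 0) (.play 130 (.ref 5 65)))) (.play 128 (.ref 7 64))))))))))
 (.seq (.seq (.seq (.seq (.one (.both (.play 64 (.ref 2 0)) (.play 5 (.both (.play 68 (.ref 2 1)) (.play 6 (.ref 1 2))))))
 (.seq (.one (.play 256 (.both (.play 65 (.ref 5 0)) (.play 321 (.ref 4 64)))))
 (.one (.play 257 (.both (.play 193 (.ref 4 0)) (.ref 36 0))))))
 (.seq (.one (.play 257 (.both (.ref 9 0) (.ref 37 65))))
 (.seq (.one (.play 257 (.both (.play 321 (.both (.play 194 (.both (.play 258 (.ref 4 1)) (.play 385 (.ref 5 129)))) (.ref 9 64))) (.both (.ref 8 1) (.both (.play 321 (.ref 10 64)) (.ref 38 64))))))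
 (.one (.play 64 (.both (.play 0 (.ref 7 0)) (.play 67 (.ref 0 64))))))))
 (.seq (.seq (.one (.both (.play 4 (.both (.play 3 (.ref 2 0)) (.play 68 (.ref 21 1)))) (.play 131 (.ref 0 64))))
 (.seq (.one (.play 193 (.both (.play 256 (.ref 6 0)) (.play 258 (.ref 4 1)))))
 (.one (.play 258 (.both (.play 256 (.both (.play 192 (.ref 6 0)) (.ref 42 64))) (.play 194 (.ref 4 1)))))))
 (.seq (.seq (.one (.play 68 (.both (.play 1 (.ref 3 0)) (.ref 14 64))))
 (.one (.both (.play 0 (.ref 3 0)) (.ref 44 1))))
 (.seq (.one (.both (.play 1 (.ref 5 0)) (.play 321 (.ref 4 64))))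
 (.one (.play 257 (.both (.play 193 (.ref 4 0)) (.play 256 (.ref 46 0)))))))))
 (.seq (.seq (.seq (.one (.play 257 (.both (.ref 9 0) (.ref 47 65))))
 (.seq (.one (.both (.play 256 (.ref 6 0)) (.play 131 (.ref 1 128))))
 (.one (.play 130 (.both (.play 192 (.ref 49 0)) (.both (.ref 48 0) (.play 131 (.ref 45 64))))))))
 (.seq (.seq (.one (.play 66 (.both (.play 64 (.both (.ref 33 0) (.play 128 (.ref 7 64)))) (.play 130 (.ref 5 65)))))
 (.one (.both (.play 65 (.ref 7 0)) (.play 321 (.ref 7 64)))))
 (.seq (.one (.both (.play 0 (.ref 4 0)) (.play 321 (.ref 52 64))))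
 (.one (.play 197 (.both (.play 261 (.ref 53 4)) (.play 130 (.both (.ref 38 64) (.play 131 (.ref 0 129))))))))))
 (.seq (.seq (.one (.play 64 (.both (.play 0 (.ref 7 0)) (.ref 16 0))))
 (.seq (.one (.play 64 (.both (.play 0 (.ref 7 0)) (.play 131 (.ref 0 64)))))
 (.one (.play 257 (.both (.play 64 (.ref 7 0)) (.ref 43 64))))))
 (.seq (.seq (.one (.both (.play 4 (.ref 5 3)) (.play 129 (.ref 2 64))))
 (.one (.both (.play 0 (.ref 7 0)) (.ref 43 64))))
 (.seq (.one (.both (.play 0 (.ref 4 0)) (.play 256 (.ref 4 64))))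
 (.one (.both (.play 64 (.ref 60 0)) (.play 385 (.ref 7 128))))))))))
 (.seq (.seq (.seq (.seq (.seq (.one (.both (.play 0 (.ref 3 0)) (.play 69 (.ref 3 1))))
 (.seq (.one (.play 257 (.both (.play 64 (.ref 7 0)) (.play 320 (.ref 6 64)))))
 (.one (.play 256 (.both (.play 192 (.ref 6 0)) (.ref 63 0))))))
 (.seq (.one (.play 257 (.both (.ref 8 1) (.ref 64 64))))
 (.seq (.one (.play 257 (.both (.ref 9 0) (.both (.play 321 (.both (.play 192 (.both (.play 256 (.ref 6 0)) (.play 385 (.ref 7 128)))) (.ref 8 65))) (.both (.play 321 (.ref 10 64)) (.ref 65 64))))))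
 (.one (.both (.play 192 (.ref 4 0)) (.play 65 (.ref 7 0)))))))
 (.seq (.seq (.one (.play 321 (.both (.ref 28 1) (.play 385 (.ref 10 128)))))
 (.seq (.one (.both (.play 1 (.ref 6 0)) (.play 128 (.ref 5 64))))
 (.one (.both (.play 65 (.ref 69 0)) (.play 384 (.ref 5 128))))))
 (.seq (.seq (.one (.play 130 (.both (.play 192 (.ref 49 0)) (.both (.ref 48 0) (.play 131 (.both (.play 64 (.ref 3 64)) (.ref 15 65)))))))
 (.one (.both (.play 2 (.ref 5 1)) (.play 320 (.ref 6 64)))))
 (.seq (.one (.play 258 (.both (.play 259 (.both (.play 196 (.both (.play 69 (.both (.play 68 (.ref 72 3)) (.play 324 (.both (.play 133 (.ref 5 68)) (.play 325 (.ref 0 257)))))) (.play 197 (.ref 2 193)))) (.play 192 (.ref 3 192)))) (.ref 48 128))))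
 (.one (.play 66 (.both (.ref 38 0) (.play 67 (.ref 2 1)))))))))
 (.seq (.seq (.seq (.one (.play 257 (.both (.play 2 (.ref 5 1)) (.ref 43 64))))
 (.seq (.one (.play 256 (.both (.play 192 (.ref 6 0)) (.play 258 (.both (.play 194 (.ref 4 1)) (.ref 42 64))))))
 (.one (.play 65 (.both (.play 1 (.ref 5 0)) (.play 320 (.ref 5 64)))))))
 (.seq (.seq (.one (.play 257 (.both (.play 0 (.ref 4 0)) (.play 321 (.ref 4 64)))))
 (.one (.play 193 (.both (.ref 78 0) (.ref 77 64)))))
 (.seq (.one (.play 321 (.both (.ref 79 1) (.both (.ref 68 64) (.ref 8 65)))))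
 (.one (.both (.ref 28 1) (.ref 9 64))))))
 (.seq (.seq (.one (.play 321 (.both (.play 65 (.ref 29 1)) (.both (.ref 68 64) (.both (.play 385 (.ref 81 64)) (.both (.ref 80 64) (.ref 76 128)))))))
 (.seq (.one (.both (.play 193 (.ref 6 0)) (.play 320 (.ref 5 64))))
 (.one (.both (.play 1 (.ref 6 0)) (.play 320 (.ref 83 64))))))
 (.seq (.seq (.one (.both (.play 65 (.both (.play 192 (.ref 69 0)) (.play 257 (.ref 6 64)))) (.both (.play 192 (.ref 70 0)) (.both (.play 257 (.ref 84 64)) (.play 384 (.both (.play 192 (.ref 5 128)) (.play 257 (.ref 83 128))))))))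
 (.one (.play 260 (.both (.play 197 (.both (.play 133 (.ref 85 4)) (.ref 74 192))) (.both (.ref 82 67) (.both (.ref 54 128) (.play 197 (.both (.ref 75 131) (.ref 74 192)))))))))
 (.seq (.one (.play 321 (.both (.play 65 (.ref 81 0)) (.both (.play 65 (.ref 29 1)) (.ref 76 128)))))
 (.one (.play 129 (.both (.ref 51 0) (.ref 66 128)))))))))
 (.seq (.seq (.seq (.seq (.one (.play 323 (.both (.play 195 (.both (.ref 88 2) (.play 196 (.ref 2 192)))) (.play 324 (.ref 0 256)))))
 (.seq (.one (.play 65 (.both (.play 0 (.ref 7 0)) (.play 256 (.ref 6 64)))))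
 (.one (.play 64 (.both (.ref 90 0) (.play 128 (.ref 7 64)))))))
 (.seq (.one (.play 129 (.both (.ref 91 0) (.ref 28 65))))
 (.seq (.one (.play 193 (.both (.ref 92 0) (.both (.play 129 (.ref 30 64)) (.both (.play 129 (.both (.play 256 (.both (.play 65 (.ref 6 64)) (.play 192 (.ref 7 192)))) (.ref 28 65))) (.ref 11 128))))))
 (.one (.both (.play 451 (.both (.ref 93 2) (.ref 43 258))) (.play 388 (.ref 0 320)))))))
 (.seq (.seq (.one (.play 259 (.both (.play 387 (.ref 94 0)) (.play 260 (.ref 2 256)))))
 (.seq (.one (.play 322 (.both (.play 323 (.both (.play 324 (.both (.play 321 (.both (.ref 95 1) (.play 385 (.both (.play 449 (.both (.play 257 (.ref 5 193)) (.play 513 (.ref 5 257)))) (.play 384 (.ref 1 320)))))) (.both (.play 325 (.both (.ref 89 66) (.play 257 (.ref 3 257)))) (.both (.play 325 (.ref 45 257)) (.both (.play 325 (.both (.play 257 (.ref 3 257)) (.play 326 (.both (.play 259 (.ref 3 258)) (.ref 16 258))))) (.play 325 (.both (.play 321 (.ref 17 257)) (.both (.ref 15 258) (.ref 44 258))))))))) (.play 387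 (.ref 4 130)))) (.both (.play 386 (.ref 81 65)) (.both (.play 386 (.ref 29 66)) (.play 386 (.ref 10 129)))))))
 (.one (.both (.play 65 (.ref 13 0)) (.both (.play 65 (.ref 12 0)) (.ref 43 128))))))
 (.seq (.seq (.one (.play 321 (.both (.play 323 (.both (.play 324 (.both (.ref 95 1) (.both (.play 257 (.ref 62 256)) (.play 325 (.ref 17 257))))) (.play 387 (.ref 4 130)))) (.play 385 (.ref 6 129)))))
 (.one (.play 129 (.both (.play 65 (.ref 30 0)) (.ref 9 128)))))
 (.seq (.one (.play 129 (.both (.play 65 (.ref 30 0)) (.ref 8 129))))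
 (.one (.play 194 (.both (.ref 100 1) (.both (.ref 99 1) (.both (.ref 98 64) (.play 130 (.ref 10 129)))))))))))
 (.seq (.seq (.seq (.one (.play 129 (.both (.play 65 (.ref 29 1)) (.ref 11 64))))
 (.seq (.one (.play 193 (.both (.ref 102 0) (.ref 9 192))))
 (.one (.play 193 (.both (.ref 100 0) (.both (.ref 28 129) (.ref 79 129)))))))
 (.seq (.seq (.one (.both (.ref 104 0) (.both (.ref 100 64) (.both (.ref 34 128) (.both (.play 193 (.ref 12 128)) (.play 513 (.ref 29 193)))))))
 (.one (.play 322 (.both (.ref 98 0) (.both (.play 386 (.ref 81 65)) (.both (.play 386 (.ref 29 66)) (.play 386 (.ref 10 129))))))))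
 (.seq (.one (.play 129 (.both (.ref 34 0) (.play 384 (.ref 6 128)))))
 (.one (.play 68 (.both (.play 67 (.ref 0 0)) (.play 4 (.both (.play 65 (.ref 1 0)) (.play 69 (.ref 0 1))))))))))
 (.seq (.seq (.one (.play 66 (.both (.play 65 (.ref 25 0)) (.ref 14 66))))
 (.seq (.one (.play 321 (.both (.play 65 (.both (.play 1 (.ref 5 0)) (.ref 36 64))) (.play 257 (.ref 4 64)))))
 (.one (.play 321 (.both (.ref 11 0) (.play 385 (.ref 10 128)))))))
 (.seq (.seq (.one (.play 64 (.both (.play 0 (.ref 7 0)) (.play 321 (.ref 7 64)))))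
 (.one (.play 256 (.both (.play 1 (.ref 6 0)) (.play 320 (.ref 6 64))))))
 (.seq (.one (.play 192 (.both (.ref 113 0) (.ref 112 64))))
 (.one (.play 321 (.both (.ref 114 0) (.both (.ref 9 64) (.ref 111 64))))))))))))
 (.seq (.seq (.seq (.seq (.seq (.seq (.one (.play 257 (.both (.play 1 (.ref 10 0)) (.both (.ref 115 0) (.ref 110 1)))))
 (.seq (.one (.play 257 (.both (.play 321 (.ref 13 0)) (.ref 8 1))))
 (.one (.play 321 (.both (.ref 28 1) (.ref 111 64))))))
 (.seq (.one (.play 321 (.both (.play 65 (.ref 29 1)) (.both (.ref 118 64) (.ref 117 128)))))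
 (.seq (.one (.play 321 (.both (.play 65 (.ref 81 0)) (.both (.play 385 (.both (.ref 28 65) (.ref 115 128))) (.both (.ref 110 65) (.ref 43 128))))))
 (.one (.play 193 (.both (.ref 99 0) (.ref 8 193)))))))
 (.seq (.seq (.one (.play 449 (.both (.ref 121 0) (.both (.ref 115 192) (.both (.ref 117 256) (.play 513 (.ref 10 256)))))))
 (.seq (.one (.play 193 (.both (.ref 100 0) (.ref 9 192))))
 (.one (.play 257 (.both (.ref 123 0) (.both (.ref 104 0) (.both (.play 193 (.ref 81 128)) (.play 513 (.ref 81 192)))))))))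
 (.seq (.seq (.one (.play 449 (.both (.ref 123 0) (.both (.ref 80 192) (.both (.play 513 (.both (.ref 9 256) (.play 577 (.ref 29 257)))) (.play 513 (.ref 10 256)))))))
 (.one (.play 260 (.both (.play 261 (.both (.play 327 (.both (.play 516 (.both (.play 455 (.both (.play 391 (.both (.ref 124 6) (.both (.ref 125 70) (.both (.play 515 (.both (.play 263 (.both (.ref 32 135) (.play 454 (.both (.play 518 (.ref 6 262)) (.play 453 (.ref 1 451)))))) (.play 579 (.ref 6 323)))) (.both (.ref 106 197) (.both (.ref 87 198) (.both (.ref 82 198) (.both (.ref 120 198) (.both (.ref 119 198) (.ref 116 262)))))))))) (.both (.play 391 (.both (.ref 124 6) (.both (.play 263 (.both (.ref 121 6) (.both (.ref 100 70) (.play 519 (.ref 81 198))))) (.both (.ref 101 69) (.both (.ref 122 70) (.both (.ref 96 197) (.both (.ref 87 198) (.both (.ref 82 198) (.both (.ref 120 198) (.both (.ref 119 198) (.ref 116 262))))))))))) (.both (.ref 86 131) (.both (.ref 73 195) (.both (.ref 50 323) (.ref 71 323))))))) (.both (.play 580 (.both (.play 453 (.both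 (.play 517 (.ref 4 260)) (.play 389 (.both (.play 390 (.both (.play 387 (.both (.ref 109 320) (.play 326 (.ref 2 323)))) (.both (.play 326 (.ref 35 323)) (.play 391 (.both (.play 328 (.ref 2 324)) (.ref 108 388)))))) (.play 644 (.ref 5 388)))))) (.ref 9 323))) (.both (.ref 8 260) (.ref 76 323))))) (.both (.play 516 (.both (.play 455 (.both (.play 391 (.both (.play 263 (.ref 105 6)) (.both (.play 515 (.both (.play 454 (.both (.ref 107 134) (.play 453 (.ref 1 451)))) (.play 579 (.ref 6 323)))) (.both (.play 263 (.ref 97 134)) (.both (.ref 106 197) (.ref 87 198)))))) (.both (.play 391 (.both (.play 263 (.ref 105 6)) (.both (.play 263 (.both (.ref 103 6) (.both (.ref 99 70) (.both (.ref 34 134) (.play 519 (.ref 81 198)))))) (.both (.ref 101 69) (.both (.play 263 (.ref 97 134)) (.both (.ref 96 197) (.ref 87 198))))))) (.both (.ref 86 131) (.both (.ref 73 195) (.both (.ref 50 323) (.ref 71 323))))))) (.both (.play 453 (.both (.play 580 (.both (.play 389 (.both (.play 455 (.both (.play 391 (.both (.play 328 (.both (.play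 264 (.ref 70 135)) (.play 390 (.ref 2 324)))) (.both (.play 519 (.both (.play 263 (.ref 29 199)) (.both (.ref 68 262) (.both (.play 582 (.both (.play 328 (.both (.play 264 (.ref 5 263)) (.play 583 (.both (.play 392 (.ref 5 327)) (.play 646 (.ref 6 390)))))) (.play 518 (.ref 6 326)))) (.ref 43 326))))) (.both (.play 456 (.both (.play 520 (.both (.play 263 (.ref 4 263)) (.play 584 (.ref 67 327)))) (.play 390 (.ref 0 388)))) (.play 390 (.ref 21 324)))))) (.both (.play 454 (.both (.play 391 (.both (.play 519 (.both (.ref 66 326) (.play 520 (.ref 0 452)))) (.play 392 (.ref 2 388)))) (.play 387 (.ref 3 387)))) (.play 454 (.ref 62 387))))) (.play 644 (.ref 5 388)))) (.ref 9 323))) (.play 517 (.ref 4 260)))) (.both (.ref 8 260) (.ref 43 323))))) (.both (.play 516 (.both (.play 455 (.both (.play 262 (.both (.play 391 (.both (.play 326 (.ref 61 134)) (.both (.play 198 (.both (.play 326 (.ref 60 134)) (.play 263 (.ref 7 198)))) (.both (.play 263 (.ref 59 198)) (.ref 57 262))))) (.both (.ref 56 195) (.play 263 (.both (.ref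 55 195) (.both (.play 199 (.both (.play 200 (.ref 2 196)) (.play 391 (.ref 10 198)))) (.play 391 (.ref 59 198)))))))) (.both (.play 262 (.both (.play 391 (.both (.play 263 (.both (.play 200 (.both (.play 199 (.ref 58 132)) (.play 264 (.ref 5 199)))) (.play 198 (.ref 7 198)))) (.ref 57 262))) (.both (.ref 56 195) (.play 263 (.both (.ref 55 195) (.both (.play 391 (.both (.play 198 (.ref 7 198)) (.ref 54 259))) (.play 200 (.both (.play 199 (.ref 2 196)) (.play 264 (.both (.play 201 (.ref 2 197)) (.play 391 (.ref 5 199)))))))))))) (.both (.play 453 (.both (.play 454 (.both (.play 391 (.both (.play 263 (.both (.ref 51 134) (.play 518 (.ref 6 262)))) (.play 392 (.ref 2 388)))) (.play 387 (.ref 3 387)))) (.ref 48 323))) (.ref 50 323))))) (.both (.play 580 (.both (.play 453 (.both (.play 389 (.both (.play 259 (.both (.play 195 (.ref 7 195)) (.play 387 (.both (.play 326 (.both (.play 262 (.ref 0 259)) (.play 390 (.ref 2 323)))) (.play 386 (.both (.ref 20 320) (.play 454 (.ref 0 386)))))))) (.play 644 (.ref 5 388)))) (.play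 517 (.ref 4 260)))) (.ref 9 323))) (.both (.ref 8 260) (.ref 43 323))))) (.both (.play 259 (.both (.play 195 (.ref 7 195)) (.play 262 (.ref 41 195)))) (.play 326 (.both (.ref 40 195) (.play 389 (.both (.ref 39 259) (.play 390 (.ref 35 323))))))))))) (.play 197 (.ref 5 196)))) (.both (.ref 34 131) (.both (.play 195 (.both (.play 453 (.both (.play 196 (.both (.play 131 (.ref 7 131)) (.play 389 (.ref 4 196)))) (.play 517 (.ref 4 260)))) (.play 259 (.ref 7 195)))) (.ref 32 132)))))))
 (.seq (.one (.play 1 (.both (.play 65 (.both (.play 0 (.ref 3 0)) (.play 4 (.ref 2 1)))) (.play 2 (.ref 3 1)))))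
 (.one (.play 67 (.both (.play 66 (.both (.ref 127 0) (.ref 23 65))) (.both (.play 66 (.ref 25 1)) (.both (.play 66 (.both (.play 4 (.both (.play 65 (.ref 2 1)) (.play 3 (.ref 3 3)))) (.ref 23 65))) (.ref 24 2))))))))))
 (.seq (.seq (.seq (.one (.play 257 (.both (.ref 9 0) (.ref 77 1))))
 (.seq (.one (.play 194 (.both (.play 258 (.ref 4 1)) (.ref 129 64))))
 (.one (.both (.play 64 (.ref 1 0)) (.play 5 (.ref 1 1))))))
 (.seq (.seq (.one (.both (.play 260 (.ref 4 3)) (.play 129 (.ref 0 128))))
 (.one (.play 66 (.both (.play 68 (.both (.play 4 (.ref 5 3)) (.play 65 (.ref 1 64)))) (.play 2 (.ref 7 2))))))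
 (.seq (.one (.play 385 (.both (.ref 99 0) (.both (.ref 110 129) (.ref 76 192)))))
 (.one (.play 129 (.both (.ref 34 0) (.ref 76 128)))))))
 (.seq (.seq (.one (.play 68 (.both (.play 69 (.both (.ref 16 1) (.play 131 (.both (.play 132 (.ref 0 64)) (.play 70 (.ref 1 66)))))) (.both (.play 69 (.ref 17 1)) (.both (.play 69 (.both (.ref 16 1) (.ref 108 66))) (.ref 14 64))))))
 (.seq (.one (.both (.play 0 (.ref 7 0)) (.play 322 (.ref 4 65))))
 (.one (.play 193 (.both (.ref 102 0) (.both (.play 129 (.ref 30 64)) (.both (.play 322 (.both (.play 128 (.both (.play 129 (.ref 137 64)) (.play 192 (.ref 7 128)))) (.ref 129 192))) (.play 449 (.ref 81 128)))))))))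
 (.seq (.seq (.one (.both (.ref 34 0) (.both (.play 385 (.ref 12 64)) (.play 385 (.ref 29 65)))))
 (.one (.play 129 (.both (.ref 51 0) (.both (.play 385 (.ref 13 64)) (.play 385 (.ref 81 64)))))))
 (.seq (.one (.play 196 (.both (.play 260 (.ref 4 3)) (.play 193 (.ref 3 128)))))
 (.one (.play 387 (.both (.play 259 (.both (.play 451 (.both (.ref 93 2) (.ref 65 258))) (.play 260 (.ref 2 256)))) (.play 388 (.ref 0 320))))))))))
 (.seq (.seq (.seq (.seq (.one (.both (.play 0 (.ref 7 0)) (.play 320 (.ref 6 64))))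
 (.seq (.one (.both (.play 0 (.ref 0 0)) (.play 69 (.both (.play 4 (.ref 0 1)) (.play 70 (.ref 3 2))))))
 (.one (.play 65 (.both (.play 64 (.ref 2 0)) (.play 68 (.ref 2 1)))))))
 (.seq (.one (.play 69 (.both (.ref 24 0) (.play 70 (.ref 17 2)))))
 (.seq (.one (.play 194 (.both (.play 130 (.both (.play 66 (.both (.play 2 (.ref 4 2)) (.play 131 (.ref 7 66)))) (.play 387 (.ref 7 130)))) (.play 193 (.both (.play 192 (.ref 0 192)) (.play 196 (.ref 0 193)))))))
 (.one (.play 65 (.both (.ref 24 0) (.play 4 (.ref 2 1))))))))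
 (.seq (.seq (.one (.play 129 (.both (.play 66 (.both (.ref 31 1) (.play 130 (.ref 5 65)))) (.ref 11 64))))
 (.seq (.one (.play 257 (.both (.play 385 (.both (.play 193 (.both (.ref 149 0) (.ref 39 192))) (.play 384 (.ref 1 320)))) (.play 256 (.ref 3 256)))))
 (.one (.play 323 (.both (.play 322 (.both (.ref 150 1) (.both (.ref 148 256) (.play 385 (.both (.play 321 (.both (.play 260 (.ref 2 257)) (.play 384 (.ref 1 320)))) (.play 386 (.ref 1 321))))))) (.both (.play 387 (.both (.play 451 (.both (.play 259 (.both (.ref 147 64) (.both (.play 195 (.ref 13 130)) (.play 515 (.both (.ref 9 258) (.play 260 (.ref 5 259))))))) (.both (.play 452 (.both (.play 450 (.both (.play 514 (.both (.play 259 (.ref 6 258)) (.play 513 (.ref 1 449)))) (.play 390 (.ref 2 386)))) (.play 516 (.ref 6 260)))) (.play 516 (.both (.play 515 (.ref 46 259)) (.play 452 (.ref 6 260))))))) (.both (.play 259 (.both (.ref 147 64) (.both (.play 451 (.both (.play 514 (.both (.play 450 (.ref 6 258)) (.play 515 (.ref 72 258)))) (.both (.play 452 (.both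 (.play 450 (.both (.play 514 (.ref 6 258)) (.play 390 (.ref 2 386)))) (.play 516 (.ref 4 259)))) (.ref 47 259)))) (.play 326 (.both (.play 258 (.ref 3 258)) (.ref 136 259)))))) (.both (.play 326 (.both (.ref 136 259) (.play 386 (.ref 1 322)))) (.play 326 (.both (.ref 146 258) (.play 386 (.ref 1 322)))))))) (.play 390 (.ref 144 322))))))))
 (.seq (.seq (.one (.both (.play 0 (.ref 0 0)) (.play 69 (.ref 3 1))))
 (.one (.play 65 (.both (.play 4 (.ref 2 1)) (.ref 23 64)))))
 (.seq (.one (.play 66 (.both (.ref 153 0) (.both (.ref 127 0) (.play 70 (.ref 25 1))))))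
 (.one (.play 5 (.both (.ref 23 0) (.ref 14 1))))))))
 (.seq (.seq (.seq (.one (.both (.ref 24 0) (.ref 14 65)))
 (.seq (.one (.both (.play 1 (.both (.play 0 (.ref 0 0)) (.play 66 (.ref 3 1)))) (.play 70 (.ref 3 2))))
 (.one (.both (.play 129 (.both (.ref 34 0) (.ref 39 128))) (.play 192 (.ref 3 192))))))
 (.seq (.seq (.one (.play 193 (.both (.ref 149 0) (.both (.play 129 (.ref 30 64)) (.both (.play 129 (.both (.ref 11 64) (.play 258 (.both (.play 65 (.ref 4 65)) (.play 194 (.ref 5 193)))))) (.ref 28 129))))))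
 (.one (.play 449 (.both (.ref 159 0) (.ref 76 256)))))
 (.seq (.one (.play 324 (.both (.play 323 (.both (.play 386 (.both (.play 322 (.both (.play 258 (.both (.ref 160 1) (.play 257 (.ref 3 257)))) (.play 385 (.ref 1 321)))) (.both (.play 258 (.both (.play 322 (.ref 158 65)) (.both (.play 259 (.ref 157 256)) (.play 326 (.both (.play 259 (.ref 3 258)) (.play 387 (.ref 1 322))))))) (.play 387 (.both (.ref 145 320) (.play 326 (.ref 1 322))))))) (.both (.play 327 (.ref 156 258)) (.ref 155 322)))) (.both (.ref 154 257) (.both (.play 261 (.both (.play 323 (.both (.play 322 (.ref 2 258)) (.play 391 (.ref 0 323)))) (.play 518 (.ref 7 261)))) (.play 327 (.both (.play 261 (.both (.play 260 (.ref 152 259)) (.play 518 (.ref 7 261)))) (.both (.play 518 (.both (.play 261 (.ref 7 261)) (.play 391 (.both (.play 392 (.ref 0 324)) (.play 582 (.ref 5 326)))))) (.ref 136 260)))))))))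
 (.one (.play 257 (.both (.play 0 (.ref 7 0)) (.ref 76 64)))))))
 (.seq (.seq (.one (.both (.play 64 (.ref 2 0)) (.play 5 (.ref 2 1))))
 (.seq (.one (.play 257 (.both (.play 385 (.both (.ref 160 0) (.play 384 (.ref 1 320)))) (.play 256 (.ref 3 256)))))
 (.one (.play 320 (.both (.play 64 (.both (.play 0 (.ref 7 0)) (.ref 63 64))) (.play 256 (.ref 6 64)))))))
 (.seq (.seq (.one (.play 65 (.both (.ref 113 0) (.ref 28 1))))
 (.one (.play 192 (.both (.ref 166 0) (.play 128 (.ref 7 128))))))
 (.seq (.one (.play 385 (.both (.play 129 (.both (.ref 167 0) (.ref 8 129))) (.both (.ref 165 128) (.ref 76 192)))))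
 (.one (.play 193 (.both (.ref 99 0) (.both (.ref 11 128) (.ref 114 128)))))))))))
 (.seq (.seq (.seq (.seq (.seq (.one (.play 257 (.both (.ref 169 0) (.both (.ref 99 64) (.both (.play 193 (.ref 81 128)) (.both (.ref 51 128) (.play 513 (.ref 13 192))))))))
 (.seq (.one (.both (.play 65 (.ref 13 0)) (.both (.ref 111 64) (.both (.play 385 (.ref 12 64)) (.both (.ref 115 64) (.ref 43 128))))))
 (.one (.play 321 (.both (.ref 51 0) (.ref 43 128))))))
 (.seq (.one (.play 321 (.both (.play 65 (.ref 81 0)) (.both (.play 192 (.both (.ref 166 0) (.play 386 (.both (.play 385 (.ref 137 128)) (.play 322 (.ref 4 129)))))) (.both (.ref 117 128) (.play 385 (.ref 10 128)))))))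
 (.seq (.one (.play 64 (.both (.play 320 (.both (.ref 90 0) (.play 384 (.ref 6 128)))) (.play 128 (.ref 7 64)))))
 (.one (.play 129 (.both (.ref 174 0) (.both (.ref 51 0) (.ref 68 64))))))))
 (.seq (.seq (.one (.play 70 (.both (.play 68 (.both (.ref 27 0) (.play 4 (.ref 7 4)))) (.play 6 (.ref 5 5)))))
 (.seq (.one (.play 321 (.both (.play 193 (.ref 158 0)) (.play 320 (.ref 1 256)))))
 (.one (.play 324 (.both (.play 323 (.both (.play 326 (.both (.ref 164 2) (.play 390 (.both (.play 454 (.ref 52 197)) (.play 391 (.ref 0 323)))))) (.both (.play 322 (.both (.ref 177 65) (.play 262 (.ref 2 258)))) (.both (.play 322 (.both (.ref 153 256) (.play 262 (.ref 2 258)))) (.both (.play 322 (.both (.ref 148 256) (.play 262 (.ref 2 258)))) (.ref 154 256)))))) (.play 388 (.ref 6 132)))))))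
 (.seq (.seq (.one (.play 321 (.both (.play 257 (.both (.ref 169 0) (.ref 8 257))) (.both (.ref 51 192) (.both (.ref 32 193) (.play 577 (.ref 12 256)))))))
 (.one (.both (.play 129 (.both (.play 65 (.ref 19 0)) (.play 130 (.ref 1 65)))) (.play 2 (.ref 3 1)))))
 (.seq (.one (.both (.play 65 (.both (.play 64 (.ref 2 0)) (.play 2 (.ref 1 1)))) (.play 6 (.ref 1 2))))
 (.one (.play 196 (.both (.play 260 (.ref 4 3)) (.play 129 (.ref 3 128)))))))))
 (.seq (.seq (.seq (.one (.play 197 (.both (.play 261 (.ref 4 4)) (.ref 23 192))))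
 (.seq (.one (.both (.ref 34 0) (.play 386 (.ref 4 129))))
 (.one (.play 129 (.both (.ref 34 0) (.play 322 (.ref 4 129)))))))
 (.seq (.seq (.one (.play 64 (.both (.play 65 (.ref 143 0)) (.play 128 (.ref 7 64)))))
 (.one (.play 129 (.both (.ref 186 0) (.ref 28 65)))))
 (.seq (.one (.play 256 (.both (.play 323 (.both (.ref 92 3) (.play 322 (.ref 3 256)))) (.play 192 (.ref 61 64)))))
 (.one (.play 65 (.both (.ref 24 0) (.play 132 (.ref 0 65))))))))
 (.seq (.seq (.one (.both (.ref 189 0) (.play 134 (.ref 0 66))))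
 (.seq (.one (.play 260 (.both (.ref 187 4) (.both (.play 198 (.ref 58 130)) (.play 259 (.ref 190 192))))))
 (.one (.play 260 (.both (.ref 187 4) (.both (.play 198 (.ref 58 130)) (.play 259 (.both (.ref 26 256) (.play 326 (.ref 0 258))))))))))
 (.seq (.seq (.one (.play 259 (.both (.ref 187 3) (.play 258 (.both (.play 321 (.both (.play 448 (.both (.play 449 (.ref 72 192)) (.play 193 (.both (.play 384 (.ref 6 192)) (.play 192 (.ref 3 192)))))) (.play 320 (.ref 1 256)))) (.play 325 (.ref 0 257)))))))
 (.one (.play 323 (.both (.ref 92 3) (.play 322 (.ref 1 320))))))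
 (.seq (.one (.play 385 (.both (.ref 170 0) (.both (.ref 188 64) (.both (.play 448 (.both (.ref 194 64) (.ref 107 128))) (.play 448 (.both (.ref 194 64) (.play 512 (.ref 85 192)))))))))
 (.one (.play 321 (.both (.play 65 (.ref 81 0)) (.both (.play 385 (.ref 81 64)) (.both (.ref 115 64) (.ref 118 64)))))))))))
 (.seq (.seq (.seq (.seq (.one (.play 257 (.both (.ref 104 0) (.both (.ref 174 128) (.play 513 (.ref 30 192))))))
 (.seq (.one (.play 257 (.both (.ref 123 0) (.both (.ref 102 64) (.play 513 (.ref 13 192))))))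
 (.one (.play 257 (.both (.ref 169 0) (.both (.play 193 (.both (.play 129 (.ref 13 64)) (.ref 28 129))) (.both (.play 193 (.ref 30 128)) (.ref 118 192))))))))
 (.seq (.one (.both (.play 0 (.ref 0 0)) (.play 69 (.ref 0 1))))
 (.seq (.one (.play 261 (.both (.play 259 (.both (.play 258 (.both (.ref 177 1) (.both (.play 257 (.ref 25 192)) (.play 325 (.ref 200 257))))) (.play 195 (.ref 7 195)))) (.play 197 (.ref 5 196)))))
 (.one (.play 260 (.both (.ref 201 0) (.both (.play 196 (.ref 13 131)) (.both (.play 196 (.ref 30 131)) (.play 196 (.ref 81 131))))))))))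
 (.seq (.seq (.one (.play 321 (.both (.play 257 (.both (.ref 104 0) (.ref 9 256))) (.both (.ref 174 192) (.both (.ref 34 192) (.play 577 (.ref 81 256)))))))
 (.seq (.one (.play 321 (.both (.ref 11 0) (.ref 68 64))))
 (.one (.play 452 (.both (.ref 201 0) (.both (.ref 68 195) (.both (.play 516 (.ref 30 195)) (.ref 111 195))))))))
 (.seq (.seq (.one (.play 257 (.both (.ref 104 0) (.both (.ref 102 64) (.both (.play 193 (.ref 30 128)) (.ref 204 192))))))
 (.one (.play 325 (.both (.play 324 (.both (.play 323 (.both (.play 322 (.both (.ref 164 1) (.play 390 (.ref 0 322)))) (.both (.play 326 (.both (.ref 177 66) (.play 262 (.both (.play 198 (.both (.play 134 (.ref 6 133)) (.play 390 (.ref 6 197)))) (.play 263 (.ref 2 259)))))) (.both (.play 322 (.both (.ref 189 256) (.both (.play 326 (.ref 25 257)) (.ref 26 320)))) (.both (.play 322 (.ref 190 256)) (.play 322 (.both (.play 321 (.both (.ref 23 320) (.play 388 (.ref 0 321)))) (.play 390 (.ref 0 322))))))))) (.play 260 (.ref 7 260)))) (.both (.play 261 (.ref 13 196)) (.both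 (.play 261 (.ref 30 196)) (.play 261 (.ref 81 196))))))))
 (.seq (.one (.play 321 (.both (.ref 28 1) (.ref 117 128))))
 (.one (.play 65 (.both (.play 64 (.ref 46 0)) (.play 129 (.ref 5 64)))))))))
 (.seq (.seq (.seq (.one (.play 68 (.both (.ref 16 0) (.play 129 (.ref 1 64)))))
 (.seq (.one (.play 68 (.both (.play 64 (.ref 17 0)) (.both (.ref 210 1) (.ref 108 65)))))
 (.one (.play 4 (.both (.play 1 (.ref 1 0)) (.play 5 (.ref 1 1)))))))
 (.seq (.seq (.one (.play 327 (.both (.play 328 (.both (.play 265 (.both (.play 393 (.both (.play 329 (.ref 94 6)) (.both (.play 325 (.both (.play 264 (.ref 2 261)) (.play 392 (.ref 0 325)))) (.play 392 (.ref 144 325))))) (.both (.play 329 (.both (.play 393 (.both (.ref 88 72) (.play 394 (.ref 0 326)))) (.play 266 (.ref 2 262)))) (.play 264 (.both (.play 325 (.ref 2 261)) (.ref 212 262)))))) (.both (.play 324 (.ref 156 259)) (.play 324 (.both (.ref 24 259) (.ref 16 260)))))) (.both (.play 324 (.both (.play 133 (.both (.play 260 (.both (.play 69 (.ref 6 68)) (.play 259 (.ref 3 259))))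 (.play 390 (.ref 4 133)))) (.both (.play 390 (.both (.play 133 (.ref 4 133)) (.play 391 (.ref 152 323)))) (.ref 128 256)))) (.both (.play 390 (.both (.play 133 (.ref 4 133)) (.play 328 (.both (.play 260 (.ref 3 260)) (.play 329 (.ref 1 325)))))) (.ref 211 260))))))
 (.one (.play 195 (.both (.play 259 (.both (.play 2 (.ref 4 2)) (.play 323 (.both (.play 258 (.ref 4 66)) (.play 387 (.ref 7 130)))))) (.play 196 (.both (.play 193 (.ref 3 128)) (.play 197 (.ref 3 129))))))))
 (.seq (.one (.play 199 (.both (.play 327 (.both (.play 135 (.both (.play 72 (.both (.play 71 (.ref 72 6)) (.play 136 (.ref 5 71)))) (.both (.ref 186 6) (.play 134 (.both (.play 136 (.both (.play 72 (.ref 5 71)) (.play 196 (.ref 1 132)))) (.play 70 (.ref 7 70))))))) (.both (.ref 214 133) (.play 260 (.both (.ref 128 192) (.play 328 (.ref 0 260))))))) (.both (.play 135 (.both (.play 70 (.both (.play 71 (.ref 143 6)) (.play 134 (.ref 5 69)))) (.both (.play 327 (.both (.play 71 (.both (.ref 28 7) (.play 326 (.ref 6 70)))) (.both (.play 391 (.ref 29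 71)) (.ref 214 133)))) (.play 134 (.both (.play 136 (.both (.play 72 (.both (.play 73 (.ref 2 69)) (.play 327 (.ref 5 71)))) (.play 196 (.ref 1 132)))) (.play 70 (.ref 5 69))))))) (.both (.play 260 (.both (.ref 128 192) (.play 200 (.ref 2 196)))) (.play 260 (.both (.ref 109 193) (.play 200 (.ref 2 196)))))))))
 (.one (.play 4 (.both (.play 65 (.ref 1 0)) (.ref 14 0)))))))
 (.seq (.seq (.one (.both (.play 0 (.ref 7 0)) (.play 131 (.ref 3 64))))
 (.seq (.one (.play 193 (.both (.play 195 (.both (.play 259 (.ref 4 2)) (.ref 18 128))) (.play 257 (.ref 6 1)))))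
 (.one (.play 129 (.both (.ref 51 0) (.both (.ref 32 1) (.play 385 (.both (.ref 11 64) (.ref 130 128)))))))))
 (.seq (.seq (.one (.play 323 (.both (.play 324 (.both (.play 325 (.both (.ref 95 2) (.play 385 (.ref 1 321)))) (.both (.play 321 (.both (.ref 89 65) (.play 257 (.both (.play 193 (.ref 60 129)) (.play 256 (.ref 3 256)))))) (.both (.ref 211 257) (.both (.play 325 (.both (.ref 210 258) (.play 385 (.ref 1 321)))) (.play 325 (.both (.play 385 (.ref 1 321)) (.ref 216 322)))))))) (.play 259 (.ref 5 258)))))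
 (.one (.play 194 (.both (.play 192 (.both (.play 256 (.ref 6 0)) (.play 195 (.ref 2 128)))) (.play 258 (.ref 4 1))))))
 (.seq (.one (.play 456 (.both (.play 455 (.both (.play 519 (.both (.play 517 (.both (.play 453 (.both (.play 389 (.both (.ref 207 0) (.both (.ref 199 68) (.both (.ref 140 196) (.both (.ref 175 196) (.both (.play 325 (.both (.ref 174 196) (.both (.ref 34 196) (.play 581 (.both (.ref 28 261) (.play 516 (.both (.play 580 (.ref 6 324)) (.play 645 (.both (.ref 112 388) (.ref 8 389)))))))))) (.both (.ref 173 260) (.both (.ref 172 260) (.play 581 (.both (.ref 165 324) (.both (.play 645 (.ref 12 324)) (.play 580 (.both (.play 582 (.both (.play 646 (.ref 4 389)) (.play 583 (.both (.ref 128 512) (.play 519 (.ref 2 516)))))) (.play 644 (.ref 6 388))))))))))))))) (.both (.play 581 (.both (.ref 140 260) (.both (.play 389 (.ref 139 260)) (.both (.play 389 (.both (.ref 51 260) (.ref 221 388))) (.both (.play 645 (.ref 97 324)) (.both (.ref 87 324) (.play 645 (.both (.play 454 (.both (.ref 40 388) (.play 390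 (.ref 5 389)))) (.ref 43 452))))))))) (.both (.play 454 (.both (.play 581 (.both (.play 390 (.ref 70 261)) (.both (.play 389 (.both (.play 388 (.ref 217 324)) (.ref 221 388))) (.ref 75 388)))) (.play 516 (.ref 1 452)))) (.play 454 (.both (.play 452 (.ref 0 452)) (.play 516 (.ref 1 452)))))))) (.both (.play 518 (.both (.ref 150 196) (.play 457 (.ref 2 453)))) (.play 518 (.ref 163 452))))) (.play 712 (.ref 7 455)))) (.play 391 (.ref 7 391)))) (.both (.play 585 (.both (.play 519 (.both (.play 459 (.both (.play 587 (.both (.play 523 (.both (.play 395 (.both (.ref 220 73) (.both (.play 331 (.ref 30 266)) (.both (.play 331 (.ref 12 266)) (.play 331 (.ref 29 267)))))) (.both (.play 651 (.both (.ref 220 137) (.both (.ref 68 394) (.both (.play 715 (.ref 30 394)) (.ref 111 394))))) (.both (.play 395 (.ref 139 266)) (.both (.ref 219 266) (.both (.play 651 (.both (.play 395 (.ref 12 330)) (.both (.ref 165 394) (.both (.play 715 (.both (.ref 11 394) (.ref 80 458))) (.ref 76 458))))) (.both (.ref 82 330) (.play 651 (.both (.play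 395 (.ref 30 330)) (.both (.ref 68 394) (.both (.play 715 (.ref 30 394)) (.ref 111 394)))))))))))) (.play 586 (.ref 3 519)))) (.both (.play 587 (.both (.play 523 (.both (.play 395 (.both (.play 394 (.both (.play 396 (.both (.play 397 (.both (.ref 89 138) (.both (.play 398 (.ref 17 330)) (.play 458 (.ref 131 393))))) (.play 332 (.ref 5 331)))) (.play 330 (.ref 7 330)))) (.both (.play 331 (.ref 30 266)) (.both (.play 331 (.ref 12 266)) (.play 331 (.ref 29 267)))))) (.both (.ref 206 138) (.both (.play 395 (.ref 139 266)) (.both (.ref 219 266) (.both (.ref 82 330) (.play 458 (.both (.ref 162 394) (.play 457 (.ref 1 455)))))))))) (.play 586 (.ref 3 519)))) (.both (.play 393 (.both (.play 395 (.both (.play 523 (.both (.ref 138 138) (.both (.play 331 (.both (.play 267 (.ref 12 202)) (.both (.ref 32 203) (.play 332 (.both (.play 330 (.both (.play 329 (.both (.play 328 (.both (.ref 24 263) (.play 396 (.ref 0 328)))) (.play 392 (.ref 1 328)))) (.play 266 (.ref 7 266)))) (.play 268 (.ref 5 267))))))) (.both (.ref 135 202)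 (.both (.ref 134 202) (.both (.ref 87 266) (.both (.play 587 (.both (.play 651 (.ref 81 330)) (.both (.play 651 (.ref 29 331)) (.ref 218 393)))) (.play 587 (.both (.ref 80 330) (.both (.ref 218 393) (.both (.ref 76 394) (.play 651 (.both (.ref 9 394) (.both (.ref 68 394) (.ref 208 394))))))))))))))) (.both (.play 587 (.both (.play 523 (.ref 105 138)) (.play 586 (.ref 3 519)))) (.play 392 (.both (.play 327 (.both (.play 328 (.ref 217 263)) (.play 391 (.ref 7 327)))) (.play 329 (.ref 5 328))))))) (.play 457 (.ref 5 392)))) (.play 457 (.both (.play 393 (.ref 5 392)) (.play 458 (.ref 1 455)))))))) (.both (.ref 187 263) (.play 586 (.ref 157 517))))) (.both (.ref 213 259) (.both (.play 586 (.both (.ref 215 323) (.both (.play 519 (.ref 157 517)) (.both (.ref 211 519) (.play 587 (.both (.play 519 (.ref 3 519)) (.play 588 (.both (.ref 16 520) (.ref 155 584))))))))) (.ref 209 328))))) (.both (.play 585 (.both (.play 519 (.both (.play 392 (.both (.play 328 (.both (.ref 91 199) (.play 583 (.ref 6 327)))) (.ref 28 328))) (.both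 (.play 518 (.both (.play 457 (.both (.play 393 (.ref 70 264)) (.ref 212 454))) (.play 517 (.ref 0 517)))) (.play 586 (.ref 157 517))))) (.both (.play 586 (.both (.play 587 (.both (.ref 142 264) (.both (.play 524 (.both (.play 523 (.ref 2 520)) (.play 588 (.both (.play 525 (.ref 2 521)) (.play 649 (.ref 1 584)))))) (.ref 216 584)))) (.both (.ref 215 323) (.play 519 (.ref 157 517))))) (.both (.ref 213 259) (.ref 209 328))))) (.both (.play 392 (.both (.play 328 (.both (.play 264 (.ref 13 199)) (.both (.play 264 (.ref 30 199)) (.both (.play 264 (.ref 81 199)) (.play 519 (.both (.play 329 (.both (.play 327 (.both (.play 326 (.both (.play 261 (.ref 180 260)) (.ref 136 262))) (.play 263 (.ref 7 263)))) (.play 265 (.ref 5 264)))) (.play 583 (.ref 6 327)))))))) (.both (.ref 51 263) (.both (.ref 167 263) (.ref 11 327))))) (.ref 34 327)))))))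
 (.one (.play 584 (.both (.ref 222 0) (.both (.play 712 (.both (.play 711 (.both (.play 645 (.both (.play 456 (.both (.play 517 (.both (.play 581 (.both (.ref 207 128) (.both (.ref 205 257) (.both (.ref 140 324) (.both (.play 709 (.ref 171 388)) (.both (.play 709 (.both (.play 453 (.ref 81 388)) (.both (.ref 68 452) (.both (.ref 208 452) (.ref 43 516))))) (.play 709 (.ref 139 388)))))))) (.both (.play 581 (.both (.ref 202 193) (.both (.ref 140 324) (.both (.play 709 (.ref 171 388)) (.both (.play 709 (.ref 139 388)) (.play 457 (.both (.play 393 (.ref 5 392)) (.play 518 (.both (.ref 75 452) (.play 519 (.ref 2 453))))))))))) (.both (.ref 195 196) (.both (.ref 192 259) (.both (.ref 191 259) (.ref 193 260))))))) (.both (.play 519 (.both (.play 392 (.both (.play 583 (.both (.play 517 (.both (.play 518 (.both (.play 581 (.both (.play 453 (.both (.ref 159 196) (.play 452 (.ref 3 452)))) (.play 580 (.ref 1 516)))) (.play 585 (.ref 0 517)))) (.both (.play 581 (.both (.play 453 (.both (.ref 99 260) (.both (.ref 34 324) (.both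 (.play 390 (.both (.play 644 (.both (.play 389 (.both (.play 326 (.ref 5 325)) (.play 580 (.ref 6 388)))) (.play 708 (.ref 6 452)))) (.play 454 (.ref 5 389)))) (.play 709 (.ref 13 388)))))) (.both (.play 516 (.both (.play 452 (.both (.play 388 (.ref 67 388)) (.play 709 (.ref 7 452)))) (.play 582 (.ref 3 516)))) (.both (.play 644 (.both (.play 708 (.ref 84 452)) (.play 582 (.ref 1 580)))) (.play 582 (.ref 19 516)))))) (.play 518 (.ref 200 516))))) (.play 328 (.ref 6 327)))) (.ref 28 328))) (.play 455 (.ref 7 455)))) (.both (.ref 34 327) (.ref 11 391))))) (.both (.play 456 (.both (.play 517 (.both (.play 581 (.both (.ref 207 128) (.both (.ref 203 132) (.both (.ref 170 196) (.both (.ref 206 196) (.both (.ref 198 196) (.both (.ref 197 196) (.both (.ref 205 257) (.both (.ref 140 324) (.both (.ref 196 388) (.play 709 (.both (.play 453 (.ref 81 388)) (.both (.ref 111 452) (.ref 204 452)))))))))))))) (.both (.play 581 (.both (.ref 203 132) (.both (.ref 202 193) (.both (.ref 170 196) (.both (.ref 199 196) (.both (.ref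 198 196) (.both (.ref 197 196) (.both (.ref 140 324) (.both (.ref 196 388) (.play 457 (.both (.play 393 (.ref 5 392)) (.play 709 (.both (.ref 165 452) (.play 518 (.both (.play 454 (.ref 5 453)) (.play 519 (.ref 2 453))))))))))))))))) (.both (.ref 195 196) (.both (.ref 192 259) (.both (.ref 191 259) (.ref 193 260))))))) (.both (.play 392 (.both (.play 519 (.both (.play 583 (.both (.play 328 (.ref 6 327)) (.play 582 (.both (.play 581 (.both (.ref 127 515) (.play 644 (.ref 1 580)))) (.both (.play 585 (.both (.ref 146 517) (.play 646 (.ref 1 581)))) (.play 646 (.ref 181 579))))))) (.play 455 (.ref 7 455)))) (.ref 28 328))) (.both (.ref 34 327) (.ref 11 391))))) (.both (.play 456 (.both (.play 517 (.both (.ref 192 259) (.both (.ref 191 259) (.both (.play 710 (.both (.play 709 (.both (.play 581 (.both (.ref 188 260) (.play 774 (.ref 4 517)))) (.both (.play 772 (.both (.play 708 (.both (.play 581 (.ref 6 516)) (.play 771 (.ref 1 707)))) (.play 773 (.ref 1 708)))) (.ref 183 516)))) (.both (.play 581 (.both (.ref 185 324)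 (.play 709 (.both (.play 772 (.both (.play 708 (.ref 6 516)) (.play 773 (.ref 49 580)))) (.play 774 (.ref 4 517)))))) (.ref 182 517)))) (.both (.play 519 (.both (.ref 187 263) (.play 518 (.both (.play 581 (.both (.play 709 (.both (.play 454 (.ref 5 453)) (.ref 76 516))) (.play 580 (.ref 1 516)))) (.play 585 (.ref 0 517)))))) (.play 710 (.both (.play 581 (.both (.ref 185 324) (.both (.play 709 (.ref 184 388)) (.both (.play 646 (.ref 53 453)) (.play 774 (.both (.play 709 (.ref 4 517)) (.play 646 (.ref 52 517)))))))) (.both (.play 709 (.both (.play 581 (.ref 184 388)) (.both (.play 773 (.both (.play 581 (.ref 30 452)) (.play 772 (.ref 1 708)))) (.ref 183 516)))) (.ref 182 517))))))))) (.both (.play 392 (.both (.play 519 (.both (.play 583 (.both (.play 328 (.ref 6 327)) (.play 713 (.both (.play 585 (.both (.play 586 (.both (.play 518 (.ref 3 518)) (.ref 22 519))) (.play 646 (.both (.play 582 (.ref 1 581)) (.play 710 (.ref 3 645)))))) (.play 777 (.ref 4 520)))))) (.play 455 (.ref 7 455)))) (.ref 28 328))) (.both (.ref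 34 327) (.ref 11 391))))) (.both (.play 646 (.both (.play 583 (.both (.ref 93 263) (.play 582 (.ref 181 579)))) (.ref 141 517))) (.play 713 (.both (.play 777 (.ref 4 520)) (.play 710 (.ref 180 644))))))))) (.play 775 (.ref 6 519)))) (.both (.ref 165 455) (.both (.play 776 (.ref 12 455)) (.ref 76 519))))) (.both (.play 712 (.both (.ref 179 135) (.both (.play 519 (.both (.play 455 (.ref 7 455)) (.ref 64 519))) (.ref 76 519)))) (.both (.play 712 (.both (.play 583 (.both (.play 649 (.both (.play 709 (.both (.play 581 (.both (.play 645 (.both (.ref 179 196) (.both (.ref 170 260) (.both (.play 517 (.both (.ref 100 324) (.both (.ref 99 324) (.both (.ref 178 384) (.play 453 (.ref 10 452)))))) (.both (.play 517 (.both (.ref 100 324) (.both (.ref 99 324) (.both (.play 453 (.ref 10 452)) (.play 773 (.ref 10 516)))))) (.both (.ref 168 388) (.both (.play 773 (.both (.ref 178 448) (.both (.play 837 (.ref 13 516)) (.both (.play 837 (.ref 12 516)) (.play 837 (.ref 10 580)))))) (.play 773 (.ref 97 452))))))))) (.play 582 (.ref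 0 581)))) (.both (.play 775 (.both (.play 773 (.both (.play 645 (.both (.play 581 (.both (.play 517 (.both (.ref 103 260) (.both (.ref 99 324) (.ref 28 453)))) (.both (.ref 169 324) (.both (.ref 51 452) (.ref 176 512))))) (.both (.play 581 (.both (.play 517 (.ref 13 452)) (.both (.play 517 (.ref 81 452)) (.ref 176 512)))) (.both (.ref 140 452) (.both (.ref 175 452) (.both (.ref 173 516) (.both (.ref 172 516) (.play 837 (.both (.ref 165 580) (.both (.play 901 (.ref 12 580)) (.play 836 (.both (.play 900 (.ref 6 644)) (.play 838 (.both (.play 902 (.ref 4 645)) (.play 839 (.both (.play 776 (.ref 2 772)) (.play 840 (.both (.play 772 (.ref 3 772)) (.ref 14 836))))))))))))))))))) (.both (.play 581 (.both (.play 645 (.ref 171 452)) (.play 582 (.ref 0 581)))) (.play 776 (.both (.play 841 (.both (.play 777 (.ref 4 584)) (.play 840 (.ref 132 645)))) (.play 839 (.ref 6 583))))))) (.play 711 (.ref 6 519)))) (.both (.play 581 (.both (.play 645 (.both (.ref 170 260) (.both (.ref 122 324) (.both (.ref 168 388) (.both (.play 710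 (.both (.play 517 (.both (.ref 51 388) (.play 774 (.ref 4 517)))) (.play 711 (.ref 2 645)))) (.both (.play 773 (.both (.play 774 (.both (.play 772 (.both (.play 771 (.both (.ref 164 450) (.both (.play 770 (.ref 25 705)) (.play 710 (.ref 163 706))))) (.play 836 (.ref 6 580)))) (.play 838 (.ref 4 581)))) (.both (.play 837 (.ref 13 516)) (.both (.play 837 (.ref 12 516)) (.play 837 (.ref 10 580)))))) (.play 773 (.ref 97 452)))))))) (.play 582 (.ref 0 581)))) (.play 711 (.both (.play 775 (.ref 6 519)) (.play 710 (.ref 2 645)))))))) (.both (.ref 48 519) (.play 582 (.ref 144 581))))) (.both (.ref 161 258) (.both (.ref 151 259) (.ref 162 519))))) (.both (.play 583 (.both (.ref 161 258) (.both (.ref 151 259) (.both (.play 649 (.both (.play 650 (.both (.play 711 (.both (.play 775 (.ref 84 519)) (.ref 145 645))) (.play 651 (.ref 3 583)))) (.both (.play 776 (.both (.ref 9 519) (.play 840 (.both (.play 585 (.ref 5 584)) (.ref 37 648))))) (.play 582 (.ref 144 581))))) (.play 775 (.both (.play 711 (.ref 6 519)) (.play 776 (.ref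 143 519)))))))) (.both (.play 713 (.both (.play 649 (.both (.play 651 (.both (.play 650 (.both (.ref 142 328) (.play 711 (.ref 1 647)))) (.both (.play 715 (.both (.play 587 (.both (.play 523 (.both (.ref 34 394) (.play 714 (.both (.ref 141 520) (.play 778 (.ref 6 522)))))) (.both (.ref 140 394) (.both (.play 523 (.ref 139 394)) (.both (.play 779 (.ref 97 458)) (.both (.ref 87 458) (.play 779 (.both (.ref 133 520) (.ref 76 586))))))))) (.both (.play 779 (.both (.ref 138 394) (.both (.ref 125 394) (.both (.play 587 (.both (.ref 34 458) (.both (.play 523 (.ref 12 458)) (.both (.ref 32 459) (.play 588 (.both (.play 586 (.both (.play 585 (.both (.ref 136 521) (.play 649 (.ref 1 584)))) (.play 522 (.ref 7 522)))) (.play 524 (.ref 5 523)))))))) (.both (.ref 135 458) (.both (.ref 134 458) (.both (.play 843 (.both (.play 587 (.both (.play 652 (.both (.play 523 (.both (.ref 11 458) (.ref 78 459))) (.play 588 (.ref 5 587)))) (.ref 9 586))) (.both (.ref 110 587) (.ref 43 650)))) (.both (.ref 96 521) (.ref 87 522)))))))))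 (.both (.play 714 (.both (.play 587 (.both (.ref 107 394) (.both (.play 779 (.both (.ref 133 520) (.play 780 (.ref 132 584)))) (.play 778 (.ref 84 522))))) (.play 652 (.ref 2 648)))) (.play 714 (.both (.play 716 (.ref 3 648)) (.play 652 (.ref 2 648)))))))) (.play 650 (.ref 131 647))))) (.play 456 (.ref 4 456)))) (.play 777 (.ref 4 520)))) (.both (.play 776 (.both (.ref 130 519) (.both (.ref 8 520) (.both (.play 840 (.both (.play 649 (.both (.play 585 (.ref 5 584)) (.play 839 (.both (.play 841 (.both (.play 905 (.ref 4 648)) (.play 842 (.both (.ref 128 771) (.play 907 (.ref 41 775)))))) (.play 903 (.ref 6 647)))))) (.both (.play 904 (.ref 81 583)) (.both (.play 904 (.ref 29 584)) (.play 904 (.ref 10 647)))))) (.ref 76 583))))) (.ref 76 519)))))) (.both (.ref 126 196) (.both (.play 456 (.both (.play 392 (.ref 30 327)) (.both (.play 392 (.ref 12 327)) (.both (.play 392 (.ref 29 328)) (.play 649 (.both (.play 455 (.both (.play 457 (.both (.play 458 (.both (.ref 27 387) (.ref 22 391))) (.play 393 (.ref 5 392)))) (.play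 391 (.ref 7 391)))) (.play 713 (.ref 4 456)))))))) (.play 712 (.both (.play 519 (.both (.play 455 (.ref 7 455)) (.play 713 (.both (.play 711 (.both (.play 775 (.ref 6 519)) (.play 710 (.both (.ref 20 644) (.ref 18 646))))) (.play 777 (.ref 4 520)))))) (.both (.play 776 (.ref 13 455)) (.both (.play 776 (.ref 12 455)) (.play 776 (.ref 10 519))))))))))))))))))))))
    (by decide +kernel)

theorem Cert_L31 : PW ⟨10, nat_lit 150650441649280338332058946156983993986456530667136828309504, nat_lit 23258839177459420507034843339550820110776130054649663662120084315462631395365550714018487149923600947344325180827059291337601407193710624, 10, nat_lit 23258839177459420507034843339550820110776130054649663662120084315462631395365550714018487149923600947344325180827059291337601407193710624⟩ :=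
  sound2 baseTbl baseTbl_ok
    (.seq (.seq (.seq (.seq (.one (.play 4 (.both (.play 3 (.ref 2 0)) (.play 5 (.ref 2 1)))))
 (.one (.play 129 (.both (.play 69 (.both (.ref 8 1) (.play 130 (.ref 1 65)))) (.play 128 (.ref 1 64))))))
 (.seq (.one (.play 68 (.both (.play 67 (.ref 0 0)) (.play 69 (.ref 0 1)))))
 (.seq (.one (.play 65 (.both (.play 64 (.ref 1 0)) (.play 5 (.both (.play 66 (.ref 1 1)) (.ref 10 1))))))
 (.one (.play 4 (.both (.play 3 (.ref 2 0)) (.play 68 (.both (.play 5 (.ref 2 1)) (.ref 10 64)))))))))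
 (.seq (.seq (.one (.play 3 (.both (.play 4 (.both (.play 64 (.ref 2 0)) (.play 71 (.ref 3 3)))) (.play 2 (.ref 3 2)))))
 (.one (.play 132 (.both (.play 4 (.both (.play 64 (.both (.play 3 (.ref 2 0)) (.play 131 (.ref 0 64)))) (.play 5 (.ref 2 1)))) (.play 133 (.ref 0 65))))))
 (.seq (.one (.play 68 (.both (.play 67 (.both (.play 0 (.ref 0 0)) (.play 6 (.both (.play 66 (.ref 1 2)) (.play 7 (.ref 1 3)))))) (.play 69 (.ref 0 1)))))
 (.seq (.one (.play 129 (.both (.play 69 (.both (.ref 12 2) (.play 130 (.ref 1 65)))) (.play 128 (.ref 1 64)))))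
 (.one (.play 134 (.both (.play 70 (.both (.ref 13 0) (.play 135 (.ref 0 67)))) (.play 133 (.ref 0 66)))))))))
 (.seq (.seq (.seq (.one (.play 132 (.both (.play 68 (.both (.ref 8 0) (.play 133 (.ref 0 65)))) (.play 131 (.ref 0 64)))))
 (.one (.play 69 (.both (.ref 17 0) (.both (.ref 8 1) (.ref 18 2))))))
 (.seq (.one (.play 65 (.both (.play 64 (.ref 1 0)) (.play 66 (.ref 1 1)))))
 (.seq (.one (.play 65 (.both (.play 4 (.ref 2 1)) (.ref 20 64))))
 (.one (.play 5 (.both (.ref 21 0) (.play 6 (.ref 2 2))))))))
 (.seq (.seq (.one (.play 1 (.both (.ref 20 0) (.play 68 (.ref 0 1)))))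
 (.seq (.one (.play 69 (.both (.ref 23 0) (.play 70 (.ref 0 2)))))
 (.one (.play 69 (.both (.play 6 (.both (.play 70 (.both (.play 7 (.ref 2 3)) (.play 131 (.both (.play 132 (.both (.play 64 (.ref 0 64)) (.play 71 (.ref 1 67)))) (.play 130 (.ref 1 66)))))) (.play 5 (.ref 2 2)))) (.both (.ref 18 2) (.ref 10 65)))))))
 (.seq (.one (.both (.play 0 (.ref 7 0)) (.play 321 (.ref 7 64))))
 (.seq (.one (.play 196 (.both (.play 260 (.ref 4 3)) (.play 129 (.ref 0 128)))))
 (.one (.play 197 (.both (.play 198 (.both (.play 262 (.both (.play 194 (.both (.play 133 (.both (.play 69 (.both (.play 5 (.ref 4 5)) (.ref 21 128))) (.play 134 (.ref 2 130)))) (.play 261 (.ref 0 194)))) (.play 263 (.ref 0 195)))) (.both (.play 134 (.both (.play 194 (.both (.play 261 (.both (.play 325 (.both (.play 389 (.ref 5 133)) (.ref 23 192))) (.play 262 (.ref 0 194)))) (.play 133 (.ref 2 130)))) (.play 135 (.ref 2 131)))) (.both (.ref 14 130) (.both (.ref 19 130) (.both (.ref 25 130) (.ref 12 131))))))) (.both (.play 198 (.both (.play 134 (.both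 (.play 133 (.both (.play 262 (.both (.play 69 (.both (.play 5 (.ref 4 5)) (.play 326 (.ref 7 69)))) (.play 263 (.ref 0 195)))) (.play 194 (.ref 2 130)))) (.play 135 (.ref 2 131)))) (.both (.play 259 (.both (.play 134 (.both (.play 133 (.both (.play 260 (.both (.play 69 (.both (.play 5 (.ref 6 4)) (.play 324 (.both (.play 132 (.ref 5 68)) (.play 388 (.ref 5 132)))))) (.play 199 (.ref 1 195)))) (.play 194 (.ref 2 130)))) (.play 135 (.ref 2 131)))) (.play 258 (.ref 1 194)))) (.ref 11 194)))) (.both (.play 194 (.both (.play 261 (.both (.play 133 (.both (.play 258 (.both (.play 260 (.both (.play 324 (.both (.play 69 (.ref 6 68)) (.play 388 (.ref 5 132)))) (.play 325 (.both (.ref 27 130) (.play 389 (.ref 26 132)))))) (.play 257 (.ref 1 193)))) (.play 134 (.ref 2 130)))) (.play 262 (.ref 0 194)))) (.both (.ref 22 128) (.both (.play 261 (.both (.play 193 (.both (.ref 8 129) (.play 260 (.ref 0 193)))) (.play 262 (.ref 0 194)))) (.ref 24 192))))) (.both (.play 198 (.both (.play 259 (.both (.play 262 (.both (.play 134 (.both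 (.play 326 (.both (.play 325 (.both (.play 261 (.both (.play 70 (.ref 6 69)) (.ref 27 131))) (.play 389 (.ref 6 133)))) (.play 133 (.ref 26 69)))) (.play 135 (.ref 2 131)))) (.play 263 (.ref 0 195)))) (.play 258 (.ref 1 194)))) (.both (.ref 9 130) (.both (.ref 12 131) (.ref 11 194))))) (.both (.play 198 (.both (.ref 16 130) (.both (.ref 25 130) (.both (.play 194 (.both (.ref 24 192) (.both (.ref 20 193) (.ref 15 193)))) (.ref 24 193))))) (.both (.play 198 (.both (.ref 22 129) (.both (.ref 12 131) (.ref 24 193)))) (.both (.play 198 (.both (.ref 22 129) (.both (.ref 19 130) (.both (.play 259 (.both (.play 199 (.both (.ref 17 130) (.play 260 (.ref 1 195)))) (.play 258 (.ref 1 194)))) (.ref 16 130))))) (.play 198 (.both (.play 134 (.both (.play 194 (.both (.play 133 (.ref 2 130)) (.ref 15 193))) (.play 135 (.ref 2 131)))) (.both (.ref 14 130) (.both (.play 263 (.both (.play 199 (.both (.play 260 (.both (.play 200 (.both (.ref 13 130) (.play 261 (.ref 1 196)))) (.play 259 (.ref 1 195)))) (.play 264 (.ref 0 196))))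 (.play 262 (.ref 0 195)))) (.both (.ref 12 131) (.both (.play 135 (.both (.play 134 (.ref 2 131)) (.play 199 (.both (.play 136 (.ref 2 132)) (.ref 11 195))))) (.play 263 (.both (.play 199 (.both (.ref 9 131) (.play 264 (.ref 0 196)))) (.play 262 (.ref 0 195))))))))))))))))))))))))
    (by decide +kernel)

theorem Cert_L32 : PW ⟨11, nat_lit 602601766597121353328235784627935975946416418478906018889728, nat_lit 9893216058924181363170938084862673039022102332508554965574492983282574956090877326972697167498866528291278126539367256981280600863430641129907711930085683348118137166335311928, 10, nat_lit 9893216058924181363170938084862673039022102332508554965574492983282574956090877326972697167498866528291278126539367256981280600863430641129907711930085683348118137166335311928⟩ :=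
  sound2 baseTbl baseTbl_ok
    (.seq (.seq (.seq (.seq (.one (.play 4 (.both (.play 3 (.ref 2 0)) (.play 5 (.ref 2 1)))))
 (.one (.play 1 (.both (.play 0 (.ref 3 0)) (.play 69 (.both (.play 2 (.ref 3 1)) (.ref 8 1)))))))
 (.seq (.one (.play 68 (.both (.play 67 (.ref 0 0)) (.play 69 (.ref 0 1)))))
 (.one (.play 1 (.both (.play 0 (.ref 3 0)) (.play 2 (.ref 3 1)))))))
 (.seq (.seq (.one (.play 65 (.both (.ref 11 0) (.ref 10 65))))
 (.one (.play 68 (.both (.ref 8 0) (.play 129 (.ref 1 64))))))
 (.seq (.one (.both (.ref 13 1) (.play 128 (.ref 1 64))))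
 (.one (.play 65 (.both (.play 64 (.ref 1 0)) (.play 66 (.ref 1 1))))))))
 (.seq (.seq (.seq (.one (.play 1 (.both (.play 65 (.both (.play 0 (.ref 3 0)) (.ref 15 64))) (.play 2 (.ref 3 1)))))
 (.one (.play 64 (.both (.play 1 (.ref 5 0)) (.play 257 (.both (.play 0 (.ref 4 0)) (.play 321 (.ref 4 64))))))))
 (.seq (.one (.play 65 (.both (.play 128 (.both (.play 64 (.both (.play 0 (.ref 7 0)) (.play 321 (.ref 7 64)))) (.play 196 (.ref 3 128)))) (.play 2 (.ref 5 1)))))
 (.one (.play 256 (.both (.play 192 (.ref 6 0)) (.play 320 (.ref 6 64)))))))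
 (.seq (.seq (.one (.play 65 (.both (.play 321 (.both (.play 64 (.both (.play 0 (.ref 7 0)) (.play 128 (.ref 7 64)))) (.ref 19 64))) (.play 2 (.ref 5 1)))))
 (.one (.play 257 (.both (.play 193 (.ref 4 0)) (.play 321 (.ref 4 64))))))
 (.seq (.one (.play 257 (.both (.play 66 (.ref 5 1)) (.play 320 (.both (.play 256 (.ref 6 64)) (.play 321 (.both (.ref 21 65) (.play 384 (.ref 6 128)))))))))
 (.one (.play 196 (.both (.play 195 (.both (.play 131 (.both (.play 259 (.both (.play 132 (.both (.play 68 (.both (.play 4 (.ref 6 3)) (.play 323 (.ref 5 67)))) (.play 199 (.ref 3 131)))) (.play 258 (.ref 1 194)))) (.play 130 (.ref 3 130)))) (.both (.play 262 (.both (.play 194 (.both (.ref 11 129) (.play 261 (.ref 0 194)))) (.play 263 (.ref 0 195)))) (.play 262 (.both (.play 194 (.both (.ref 15 193) (.play 261 (.ref 0 194)))) (.play 263 (.ref 0 195))))))) (.both (.play 260 (.both (.play 132 (.both (.ref 20 3) (.both (.ref 17 4) (.play 324 (.both (.play 325 (.both (.play 258 (.both (.play 323 (.both (.play 387 (.ref 6 131)) (.play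 322 (.both (.play 257 (.ref 3 257)) (.play 261 (.both (.play 321 (.ref 2 257)) (.play 262 (.ref 2 258)))))))) (.both (.play 323 (.both (.play 387 (.ref 6 131)) (.play 259 (.both (.play 257 (.ref 0 257)) (.play 326 (.ref 3 258)))))) (.both (.play 323 (.both (.play 387 (.ref 6 131)) (.play 259 (.both (.play 261 (.ref 2 194)) (.play 326 (.ref 3 258)))))) (.play 259 (.both (.play 261 (.ref 2 194)) (.play 257 (.ref 0 257)))))))) (.play 389 (.ref 4 132)))) (.both (.play 388 (.both (.play 259 (.both (.play 325 (.both (.play 389 (.ref 4 132)) (.play 258 (.both (.play 257 (.ref 0 257)) (.play 326 (.both (.play 323 (.ref 3 258)) (.play 327 (.ref 3 259)))))))) (.both (.play 261 (.both (.play 258 (.ref 2 194)) (.play 452 (.ref 5 196)))) (.play 452 (.both (.play 261 (.ref 5 196)) (.play 516 (.both (.play 323 (.ref 7 259)) (.ref 19 259)))))))) (.both (.ref 21 132) (.ref 22 195)))) (.both (.play 389 (.both (.play 388 (.both (.ref 19 131) (.play 453 (.ref 4 196)))) (.play 325 (.ref 4 132)))) (.both (.play 389 (.both (.play 325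 (.ref 4 132)) (.play 388 (.both (.play 452 (.both (.ref 19 195) (.play 261 (.ref 5 196)))) (.play 453 (.ref 4 196)))))) (.play 388 (.both (.ref 19 131) (.both (.play 452 (.both (.play 323 (.both (.play 387 (.ref 6 131)) (.play 516 (.both (.play 259 (.ref 7 259)) (.ref 21 260))))) (.play 261 (.ref 5 196)))) (.ref 22 195)))))))))))) (.both (.play 132 (.both (.ref 20 3) (.both (.play 68 (.both (.play 5 (.ref 5 4)) (.play 259 (.both (.play 323 (.ref 6 67)) (.play 199 (.ref 1 195)))))) (.both (.ref 18 3) (.play 199 (.both (.play 131 (.ref 3 131)) (.play 259 (.ref 1 195)))))))) (.both (.play 132 (.both (.ref 18 3) (.both (.ref 17 4) (.play 199 (.both (.play 131 (.ref 3 131)) (.ref 13 132)))))) (.play 199 (.ref 14 131)))))) (.both (.play 195 (.both (.play 259 (.both (.play 131 (.both (.play 262 (.both (.play 134 (.both (.play 323 (.both (.play 324 (.both (.play 260 (.both (.play 67 (.ref 4 67)) (.play 322 (.both (.play 386 (.ref 6 130)) (.play 261 (.ref 1 258)))))) (.play 388 (.ref 4 131)))) (.play 132 (.both (.play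 68 (.ref 5 67)) (.play 387 (.ref 5 131)))))) (.play 135 (.ref 2 131)))) (.play 263 (.ref 0 195)))) (.play 130 (.ref 3 130)))) (.play 258 (.ref 1 194)))) (.both (.play 258 (.both (.play 194 (.both (.ref 11 129) (.play 257 (.ref 1 193)))) (.play 259 (.ref 1 194)))) (.both (.play 130 (.both (.play 194 (.both (.play 129 (.ref 3 129)) (.ref 10 194))) (.play 131 (.ref 3 130)))) (.play 258 (.both (.play 194 (.both (.play 257 (.ref 1 193)) (.ref 10 194))) (.play 259 (.ref 1 194)))))))) (.both (.play 195 (.both (.play 194 (.both (.ref 16 128) (.ref 10 194))) (.both (.play 259 (.ref 14 130)) (.play 262 (.both (.play 261 (.both (.play 135 (.both (.play 134 (.ref 2 131)) (.play 199 (.both (.play 136 (.ref 2 132)) (.play 260 (.both (.play 259 (.ref 2 195)) (.play 200 (.ref 1 196)))))))) (.play 194 (.ref 0 194)))) (.play 263 (.ref 0 195))))))) (.both (.play 195 (.both (.ref 12 129) (.both (.play 259 (.both (.play 131 (.both (.play 130 (.ref 3 130)) (.play 199 (.both (.play 132 (.ref 3 131)) (.play 260 (.ref 1 195)))))) (.play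 258 (.ref 1 194)))) (.play 194 (.both (.ref 15 193) (.ref 10 194)))))) (.both (.play 195 (.both (.ref 16 129) (.both (.ref 9 130) (.play 259 (.ref 14 130))))) (.play 195 (.both (.ref 12 129) (.both (.ref 9 130) (.play 262 (.both (.play 135 (.both (.play 199 (.both (.play 136 (.ref 2 132)) (.play 261 (.both (.play 194 (.ref 0 194)) (.play 200 (.both (.play 260 (.ref 1 196)) (.play 201 (.ref 1 197)))))))) (.play 134 (.ref 2 131)))) (.play 263 (.ref 0 195)))))))))))))))))))
    (by decide +kernel)

end Crest.Agent.Snaky
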