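import Crest.Agent.Lib_Snaky.Root

set_option autoImplicit false
set_option linter.all false
set_option maxRecDepth 1000000

namespace Crest.Agent.Snaky

theorem Cert_L33 : PW ⟨13, nat_lit 11116040566782354760662814560834039153924807563642964178618756052197477028200448, nat_lit 182497624704887808759497366710505506906496049065388174334410873923709235884118125238148532490261229953114593393465985834649471836983541167727846647898624963386971906395436350743895862051745038344, 10, nat_lit 182497624704887808759497366710505506906496049065388174334410873923709235884118125238148532490261229953114593393465985834649471836983541167727846647898624963386971906395436350743895862051745038344⟩ :=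
  sound2 baseTbl baseTbl_ok
    (.seq (.seq (.seq (.seq (.one (.play 68 (.both (.play 67 (.ref 0 0)) (.play 69 (.ref 0 1)))))
 (.seq (.one (.play 4 (.both (.play 65 (.ref 1 0)) (.ref 8 0))))
 (.one (.both (.play 64 (.ref 1 0)) (.ref 9 1)))))
 (.seq (.one (.play 65 (.both (.play 64 (.ref 1 0)) (.play 66 (.ref 1 1)))))
 (.seq (.one (.play 1 (.both (.play 65 (.both (.play 0 (.ref 3 0)) (.ref 11 64))) (.play 2 (.ref 3 1)))))
 (.one (.both (.ref 11 0) (.ref 8 1))))))
 (.seq (.seq (.one (.play 66 (.both (.ref 12 0) (.both (.play 1 (.both (.play 65 (.both (.play 0 (.ref 3 0)) (.play 132 (.both (.play 131 (.both (.play 64 (.ref 0 64)) (.play 71 (.ref 1 67)))) (.play 133 (.ref 0 65)))))) (.play 2 (.ref 3 1)))) (.ref 11 65)))))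
 (.seq (.one (.play 69 (.both (.play 1 (.both (.ref 11 0) (.play 68 (.ref 0 1)))) (.play 70 (.ref 0 2)))))
 (.one (.play 1 (.both (.play 0 (.ref 3 0)) (.play 2 (.ref 3 1)))))))
 (.seq (.one (.play 133 (.both (.play 65 (.both (.ref 16 0) (.play 132 (.ref 0 65)))) (.play 134 (.ref 0 66)))))
 (.seq (.one (.play 257 (.both (.play 193 (.ref 4 0)) (.play 321 (.ref 4 64)))))
 (.one (.play 257 (.both (.play 0 (.ref 4 0)) (.play 321 (.ref 4 64)))))))))
 (.seq (.seq (.seq (.one (.play 64 (.both (.play 1 (.ref 5 0)) (.ref 19 0))))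
 (.seq (.one (.both (.play 0 (.ref 4 0)) (.play 321 (.ref 7 64))))
 (.one (.play 129 (.both (.play 131 (.both (.play 257 (.both (.play 64 (.ref 21 0)) (.ref 20 1))) (.play 132 (.ref 2 128)))) (.play 196 (.ref 3 128)))))))
 (.seq (.one (.play 129 (.both (.ref 22 1) (.play 128 (.ref 3 128)))))
 (.seq (.one (.play 65 (.both (.play 128 (.both (.play 64 (.both (.play 0 (.ref 7 0)) (.play 321 (.ref 7 64)))) (.play 196 (.ref 3 128)))) (.play 2 (.ref 5 1)))))
 (.one (.play 256 (.both (.play 192 (.ref 6 0)) (.play 320 (.ref 6 64))))))))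
 (.seq (.seq (.one (.play 65 (.both (.play 321 (.both (.play 64 (.both (.play 0 (.ref 7 0)) (.play 128 (.ref 7 64)))) (.ref 25 64))) (.play 2 (.ref 5 1)))))
 (.seq (.one (.play 258 (.both (.play 257 (.both (.ref 25 0) (.play 322 (.ref 4 65)))) (.play 194 (.ref 4 1)))))
 (.one (.play 257 (.both (.play 130 (.both (.play 66 (.both (.play 2 (.ref 6 1)) (.play 321 (.ref 5 65)))) (.play 197 (.ref 3 129)))) (.play 256 (.ref 1 192)))))))
 (.seq (.seq (.one (.play 129 (.both (.ref 28 0) (.play 128 (.ref 3 128)))))
 (.one (.play 68 (.both (.play 1 (.ref 3 0)) (.play 129 (.ref 1 64))))))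
 (.seq (.one (.play 321 (.both (.play 196 (.both (.play 129 (.both (.play 130 (.both (.play 194 (.both (.play 65 (.ref 21 1)) (.play 385 (.ref 5 129)))) (.play 66 (.ref 5 65)))) (.both (.play 130 (.both (.play 385 (.both (.play 128 (.both (.play 64 (.ref 7 64)) (.ref 27 192))) (.play 194 (.ref 5 129)))) (.play 66 (.ref 5 65)))) (.ref 19 65)))) (.play 197 (.ref 2 193)))) (.play 320 (.ref 1 256)))))
 (.one (.play 260 (.both (.play 259 (.both (.play 195 (.both (.ref 31 2) (.both (.ref 28 66) (.both (.ref 22 67) (.both (.play 323 (.both (.play 324 (.both (.play 388 (.ref 21 131)) (.play 263 (.ref 1 259)))) (.play 322 (.ref 1 258)))) (.play 323 (.both (.ref 30 195) (.play 322 (.ref 1 258))))))))) (.both (.play 195 (.both (.ref 31 2) (.play 194 (.ref 3 194)))) (.both (.ref 29 66) (.both (.ref 23 66) (.both (.ref 14 192) (.play 323 (.both (.play 195 (.both (.play 194 (.ref 3 194)) (.ref 30 195))) (.play 322 (.ref 1 258)))))))))) (.both (.play 259 (.both (.ref 29 66) (.both (.ref 17 193) (.ref 15 257)))) (.both (.play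 324 (.both (.play 196 (.both (.ref 26 67) (.both (.ref 20 68) (.play 388 (.both (.play 323 (.both (.play 322 (.both (.play 389 (.both (.play 453 (.ref 4 196)) (.play 390 (.both (.play 387 (.ref 3 322)) (.play 391 (.ref 3 323)))))) (.play 321 (.ref 2 257)))) (.both (.play 453 (.both (.play 389 (.ref 4 196)) (.play 452 (.both (.play 516 (.both (.play 325 (.ref 5 260)) (.play 580 (.both (.play 387 (.ref 7 323)) (.ref 25 323))))) (.play 517 (.ref 4 260)))))) (.play 322 (.both (.play 321 (.ref 2 257)) (.play 325 (.ref 2 258))))))) (.both (.play 389 (.both (.play 387 (.both (.play 451 (.ref 6 195)) (.play 322 (.both (.play 323 (.both (.play 325 (.ref 2 258)) (.play 390 (.ref 3 322)))) (.both (.play 323 (.both (.play 321 (.ref 0 321)) (.play 390 (.ref 3 322)))) (.play 386 (.both (.play 321 (.ref 3 321)) (.play 325 (.both (.play 385 (.ref 2 321)) (.play 326 (.ref 2 322))))))))))) (.play 453 (.ref 4 196)))) (.both (.ref 27 195) (.both (.play 453 (.both (.play 389 (.ref 4 196)) (.play 452 (.both (.play 516 (.both (.ref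 25 259) (.play 325 (.ref 5 260)))) (.play 517 (.ref 4 260)))))) (.play 452 (.both (.ref 25 195) (.both (.play 516 (.both (.play 387 (.both (.play 451 (.ref 6 195)) (.play 580 (.both (.play 323 (.ref 7 323)) (.ref 18 324))))) (.play 325 (.ref 5 260)))) (.play 516 (.both (.play 325 (.ref 5 260)) (.play 579 (.both (.play 515 (.ref 6 323)) (.play 580 (.both (.ref 18 324) (.play 643 (.ref 6 387))))))))))))))))))) (.both (.play 196 (.both (.ref 24 67) (.both (.ref 20 68) (.play 263 (.both (.play 195 (.ref 3 195)) (.ref 9 260)))))) (.both (.play 196 (.both (.ref 26 67) (.both (.play 132 (.both (.play 69 (.ref 5 68)) (.play 323 (.both (.play 387 (.ref 6 131)) (.play 263 (.ref 1 259)))))) (.both (.ref 24 67) (.play 263 (.both (.play 195 (.ref 3 195)) (.play 323 (.ref 1 259)))))))) (.play 263 (.ref 10 259)))))) (.both (.play 259 (.both (.ref 23 66) (.both (.play 258 (.both (.ref 16 193) (.ref 8 258))) (.both (.play 195 (.both (.play 194 (.ref 3 194)) (.play 327 (.both (.play 263 (.both (.play 196 (.ref 3 195)) (.play 328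 (.ref 0 260)))) (.play 326 (.ref 0 259)))))) (.play 326 (.both (.play 325 (.both (.play 198 (.both (.play 199 (.ref 2 195)) (.play 390 (.both (.play 389 (.both (.play 391 (.both (.play 455 (.ref 4 198)) (.play 392 (.both (.play 324 (.ref 3 324)) (.play 393 (.ref 3 325)))))) (.play 453 (.ref 6 197)))) (.both (.play 454 (.both (.ref 18 198) (.play 518 (.ref 7 261)))) (.play 453 (.both (.play 389 (.ref 6 197)) (.play 454 (.both (.play 517 (.ref 6 261)) (.play 518 (.ref 7 261))))))))))) (.play 258 (.ref 0 258)))) (.play 327 (.ref 0 259)))))))) (.both (.play 259 (.both (.play 326 (.both (.play 323 (.both (.play 195 (.both (.play 198 (.both (.play 387 (.both (.play 388 (.both (.play 324 (.both (.play 131 (.ref 4 131)) (.play 386 (.both (.play 450 (.ref 6 194)) (.play 325 (.ref 1 322)))))) (.play 452 (.ref 4 195)))) (.play 196 (.both (.play 132 (.ref 5 131)) (.play 451 (.ref 5 195)))))) (.play 199 (.ref 2 195)))) (.play 194 (.ref 3 194)))) (.play 322 (.ref 1 258)))) (.play 327 (.ref 0 259)))) (.both (.play 322 (.both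 (.play 258 (.both (.ref 16 193) (.play 321 (.ref 1 257)))) (.play 323 (.ref 1 258)))) (.both (.ref 17 193) (.ref 15 257))))) (.both (.play 259 (.both (.ref 14 192) (.both (.play 326 (.both (.play 258 (.both (.ref 12 192) (.play 325 (.ref 0 258)))) (.play 327 (.ref 0 259)))) (.both (.play 258 (.ref 13 257)) (.both (.play 263 (.both (.play 324 (.both (.play 325 (.both (.play 258 (.both (.play 257 (.ref 0 257)) (.play 326 (.ref 0 258)))) (.play 264 (.ref 1 260)))) (.play 323 (.ref 1 259)))) (.both (.ref 8 259) (.play 264 (.ref 13 259))))) (.play 323 (.ref 10 258))))))) (.play 259 (.both (.ref 12 193) (.both (.play 195 (.both (.play 194 (.ref 3 194)) (.play 263 (.both (.play 196 (.ref 3 195)) (.ref 8 259))))) (.play 323 (.ref 10 258))))))))))))))))))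
    (by decide +kernel)

theorem Cert_L34 : PW ⟨11, nat_lit 25631844431050920988740260474034625375257562675221379962419842451559467375032096022053401181290496, nat_lit 14839824088386272045292719444491713442547368563835777389791297103267978413327771281614107727203139780467835796329529237006235276469172409675510740068450342915477252821705818120, 10, nat_lit 14839824088386272045292719444491713442547368563835777389791297103267978413327771281614107727203139780467835796329529237006235276469172409675510740068450342915477252821705818120⟩ :=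
  sound2 baseTbl baseTbl_ok
    (.seq (.seq (.seq (.seq (.one (.play 68 (.both (.play 67 (.ref 0 0)) (.play 69 (.ref 0 1)))))
 (.one (.play 4 (.both (.play 3 (.ref 2 0)) (.play 68 (.both (.play 5 (.ref 2 1)) (.ref 8 64)))))))
 (.seq (.one (.play 129 (.both (.play 69 (.both (.ref 9 2) (.play 130 (.ref 1 65)))) (.play 128 (.ref 1 64)))))
 (.one (.play 3 (.both (.play 4 (.both (.play 64 (.ref 2 0)) (.play 71 (.ref 3 3)))) (.play 2 (.ref 3 2)))))))
 (.seq (.seq (.one (.play 134 (.both (.play 70 (.both (.ref 11 0) (.play 135 (.ref 0 67)))) (.play 133 (.ref 0 66)))))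
 (.one (.play 4 (.both (.play 3 (.ref 2 0)) (.play 5 (.ref 2 1))))))
 (.seq (.one (.play 132 (.both (.play 68 (.both (.ref 13 0) (.play 133 (.ref 0 65)))) (.play 131 (.ref 0 64)))))
 (.seq (.one (.play 69 (.both (.ref 12 0) (.both (.ref 13 1) (.ref 14 2)))))
 (.one (.play 65 (.both (.play 64 (.ref 1 0)) (.play 66 (.ref 1 1)))))))))
 (.seq (.seq (.seq (.one (.play 5 (.both (.play 65 (.both (.play 4 (.ref 2 1)) (.ref 16 64))) (.play 6 (.ref 2 2)))))
 (.one (.play 129 (.both (.play 69 (.both (.ref 13 1) (.play 130 (.ref 1 65)))) (.play 128 (.ref 1 64))))))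
 (.seq (.one (.play 256 (.both (.play 1 (.ref 6 0)) (.play 320 (.ref 5 64)))))
 (.seq (.one (.play 65 (.both (.play 64 (.ref 1 0)) (.play 5 (.both (.play 66 (.ref 1 1)) (.ref 8 1))))))
 (.one (.both (.play 0 (.ref 7 0)) (.play 321 (.ref 7 64)))))))
 (.seq (.seq (.one (.play 67 (.both (.play 68 (.both (.play 0 (.ref 0 0)) (.play 7 (.ref 1 3)))) (.play 66 (.ref 1 2)))))
 (.one (.play 6 (.both (.play 70 (.both (.play 7 (.ref 2 3)) (.ref 22 64))) (.play 5 (.ref 2 2))))))
 (.seq (.one (.play 69 (.both (.ref 23 0) (.both (.ref 14 2) (.ref 8 65)))))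
 (.seq (.one (.play 257 (.both (.play 129 (.both (.play 65 (.both (.play 2 (.ref 5 1)) (.play 258 (.both (.play 1 (.ref 4 1)) (.play 322 (.ref 4 65)))))) (.play 128 (.ref 3 128)))) (.play 256 (.ref 1 192)))))
 (.one (.play 324 (.both (.play 321 (.both (.play 388 (.both (.play 260 (.both (.play 196 (.both (.play 132 (.both (.play 68 (.both (.play 67 (.both (.play 3 (.ref 7 3)) (.play 131 (.ref 7 67)))) (.play 259 (.ref 6 67)))) (.play 133 (.both (.play 69 (.ref 5 68)) (.play 197 (.ref 5 132)))))) (.both (.play 387 (.both (.play 132 (.ref 6 131)) (.play 451 (.ref 6 195)))) (.play 451 (.both (.play 387 (.ref 6 195)) (.play 452 (.both (.play 515 (.ref 6 259)) (.play 516 (.both (.play 259 (.ref 7 259)) (.play 517 (.both (.play 453 (.ref 4 260)) (.play 581 (.ref 4 324))))))))))))) (.play 261 (.ref 2 257)))) (.play 389 (.ref 0 321)))) (.ref 25 128))) (.both (.play 321 (.both (.ref 25 128) (.ref 14 257))) (.both (.play 325 (.both (.play 261 (.both (.play 260 (.both (.play 389 (.both (.play 196 (.both (.play 132 (.ref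 4 132)) (.play 453 (.ref 7 196)))) (.play 390 (.ref 0 322)))) (.play 321 (.ref 2 257)))) (.play 262 (.ref 2 258)))) (.both (.ref 17 256) (.ref 20 321)))) (.both (.play 325 (.both (.play 389 (.both (.play 260 (.both (.play 196 (.both (.play 132 (.ref 4 132)) (.play 388 (.both (.play 453 (.ref 4 196)) (.play 321 (.ref 0 321)))))) (.both (.play 196 (.both (.play 132 (.ref 4 132)) (.play 453 (.both (.play 261 (.ref 7 196)) (.play 517 (.ref 7 260)))))) (.play 321 (.both (.play 261 (.ref 2 257)) (.play 388 (.ref 0 321))))))) (.play 390 (.ref 0 322)))) (.both (.play 389 (.both (.play 261 (.both (.play 321 (.both (.play 260 (.ref 2 257)) (.play 388 (.ref 0 321)))) (.play 262 (.ref 2 258)))) (.play 390 (.ref 0 322)))) (.both (.ref 15 257) (.both (.ref 24 257) (.both (.play 326 (.both (.ref 23 257) (.both (.play 327 (.both (.ref 11 257) (.both (.play 388 (.both (.play 321 (.both (.play 260 (.both (.play 261 (.ref 2 257)) (.play 259 (.ref 3 259)))) (.play 389 (.ref 0 321)))) (.play 387 (.ref 1 323)))) (.both (.play 260 (.both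 (.play 259 (.ref 3 259)) (.play 328 (.both (.play 261 (.ref 3 260)) (.ref 8 324))))) (.ref 22 321))))) (.ref 13 258)))) (.ref 9 258))))))) (.both (.play 325 (.both (.play 386 (.both (.play 387 (.both (.play 451 (.both (.play 388 (.both (.play 260 (.both (.play 196 (.ref 6 195)) (.play 389 (.both (.play 453 (.both (.play 517 (.ref 7 260)) (.play 454 (.ref 0 386)))) (.play 321 (.ref 0 321)))))) (.both (.play 260 (.both (.play 196 (.ref 6 195)) (.play 452 (.both (.play 453 (.both (.play 517 (.ref 4 260)) (.play 454 (.ref 3 386)))) (.play 516 (.ref 21 259)))))) (.play 389 (.both (.play 450 (.both (.ref 19 258) (.play 449 (.ref 1 385)))) (.play 321 (.ref 0 321))))))) (.both (.play 515 (.both (.play 514 (.both (.play 450 (.both (.play 259 (.ref 6 258)) (.play 516 (.both (.play 580 (.ref 4 323)) (.play 449 (.both (.play 448 (.ref 0 448)) (.play 517 (.ref 3 449)))))))) (.play 578 (.ref 6 322)))) (.play 579 (.ref 7 322)))) (.play 515 (.both (.play 260 (.ref 5 259)) (.play 579 (.ref 7 322))))))) (.play 326 (.ref 1 322))))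 (.play 385 (.ref 1 321)))) (.both (.ref 10 257) (.both (.ref 24 257) (.play 389 (.both (.play 321 (.both (.ref 16 320) (.play 388 (.ref 0 321)))) (.play 390 (.ref 0 322)))))))) (.both (.play 325 (.both (.play 386 (.both (.play 389 (.both (.play 261 (.both (.play 453 (.both (.play 452 (.both (.play 388 (.both (.play 197 (.ref 6 196)) (.play 454 (.both (.play 518 (.ref 4 261)) (.play 387 (.ref 0 386)))))) (.play 516 (.ref 6 260)))) (.play 260 (.ref 21 196)))) (.play 262 (.ref 2 258)))) (.play 390 (.ref 0 322)))) (.play 385 (.ref 1 321)))) (.both (.ref 18 257) (.both (.ref 9 258) (.ref 20 321))))) (.both (.play 325 (.both (.play 389 (.both (.play 261 (.both (.play 388 (.both (.ref 19 196) (.play 321 (.ref 0 321)))) (.play 262 (.ref 2 258)))) (.play 390 (.ref 0 322)))) (.both (.ref 18 257) (.play 389 (.both (.play 386 (.both (.play 388 (.both (.play 387 (.both (.play 450 (.both (.play 514 (.both (.play 259 (.ref 5 258)) (.play 578 (.ref 5 322)))) (.play 449 (.ref 1 385)))) (.play 326 (.ref 2 322)))) (.play 321 (.ref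 0 321)))) (.play 385 (.ref 1 321)))) (.play 390 (.ref 0 322))))))) (.play 325 (.both (.ref 17 256) (.both (.ref 15 257) (.both (.play 386 (.both (.play 326 (.both (.ref 12 257) (.play 387 (.ref 1 322)))) (.play 385 (.ref 1 321)))) (.ref 10 257)))))))))))))))))))
    (by decide +kernel)

theorem Cert_L35 : PW ⟨10, nat_lit 51263688862101841977480520948069250750515125350442759924839684903118934750064192044106802362580992, nat_lit 15829145694278690183090035248443643466326428345672271333991505737564144310790055774794959389340627212874413360379363338699112677956053838780706118223167883917221957978069925914, 10, nat_lit 15829145694278690183090035248443643466326428345672271333991505737564144310790055774794959389340627212874413360379363338699112677956053838780706118223167883917221957978069925914⟩ :=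
  sound2 baseTbl baseTbl_ok
    (.seq (.seq (.seq (.seq (.one (.play 68 (.both (.play 67 (.ref 0 0)) (.play 69 (.ref 0 1)))))
 (.one (.play 4 (.both (.play 3 (.ref 2 0)) (.play 68 (.both (.play 5 (.ref 2 1)) (.ref 8 64)))))))
 (.seq (.one (.play 4 (.both (.play 3 (.ref 2 0)) (.play 5 (.ref 2 1)))))
 (.one (.play 134 (.both (.play 70 (.both (.play 3 (.both (.play 4 (.both (.play 64 (.ref 2 0)) (.play 71 (.ref 3 3)))) (.play 2 (.ref 3 2)))) (.play 135 (.ref 0 67)))) (.play 133 (.ref 0 66)))))))
 (.seq (.seq (.one (.both (.play 0 (.ref 0 0)) (.play 69 (.ref 0 1))))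
 (.one (.play 1 (.both (.play 0 (.ref 3 0)) (.play 2 (.ref 3 1))))))
 (.seq (.one (.play 5 (.both (.play 65 (.both (.ref 13 0) (.play 4 (.ref 2 1)))) (.play 6 (.ref 2 2)))))
 (.one (.play 133 (.both (.play 65 (.both (.ref 13 0) (.play 132 (.ref 0 65)))) (.play 134 (.ref 0 66))))))))
 (.seq (.seq (.seq (.one (.play 65 (.both (.play 64 (.ref 1 0)) (.play 66 (.ref 1 1)))))
 (.one (.both (.play 0 (.ref 7 0)) (.play 321 (.ref 7 64)))))
 (.seq (.one (.play 65 (.both (.play 64 (.ref 1 0)) (.play 5 (.both (.play 66 (.ref 1 1)) (.ref 8 1))))))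
 (.one (.play 64 (.both (.play 0 (.ref 4 0)) (.play 321 (.ref 7 64)))))))
 (.seq (.seq (.one (.play 65 (.both (.play 1 (.ref 5 0)) (.play 129 (.ref 5 64)))))
 (.one (.play 64 (.both (.play 0 (.ref 7 0)) (.play 128 (.ref 7 64))))))
 (.seq (.one (.both (.play 257 (.ref 4 0)) (.play 132 (.ref 1 128))))
 (.one (.play 325 (.both (.play 322 (.both (.play 258 (.both (.play 194 (.both (.play 130 (.both (.play 66 (.both (.ref 21 1) (.ref 20 2))) (.play 387 (.ref 4 130)))) (.both (.play 131 (.both (.play 67 (.both (.play 3 (.ref 6 2)) (.play 130 (.ref 5 66)))) (.play 386 (.ref 5 130)))) (.both (.play 387 (.both (.play 130 (.ref 4 130)) (.play 386 (.ref 22 194)))) (.play 386 (.both (.play 131 (.ref 5 130)) (.play 387 (.ref 22 194)))))))) (.play 257 (.ref 3 257)))) (.both (.ref 15 256) (.play 326 (.both (.play 387 (.both (.play 388 (.both (.play 321 (.ref 12 320)) (.play 327 (.ref 1 323)))) (.play 386 (.ref 1 322)))) (.both (.ref 8 322) (.ref 18 322))))))) (.both (.play 322 (.both (.play 389 (.both (.play 261 (.both (.play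 197 (.both (.play 133 (.both (.play 69 (.both (.ref 21 4) (.play 260 (.ref 6 68)))) (.ref 20 69))) (.both (.play 388 (.both (.play 133 (.ref 6 132)) (.play 452 (.ref 6 196)))) (.play 452 (.both (.play 388 (.ref 6 196)) (.play 453 (.both (.play 516 (.ref 6 260)) (.play 517 (.both (.play 260 (.ref 7 260)) (.play 518 (.both (.play 454 (.ref 4 261)) (.play 582 (.ref 4 325))))))))))))) (.play 262 (.ref 2 258)))) (.play 390 (.ref 0 322)))) (.both (.ref 15 256) (.ref 14 256)))) (.both (.play 390 (.both (.play 326 (.both (.play 262 (.both (.play 261 (.both (.ref 19 133) (.play 322 (.ref 2 258)))) (.play 263 (.ref 2 259)))) (.play 391 (.ref 0 323)))) (.both (.play 326 (.both (.play 261 (.both (.play 454 (.both (.play 197 (.both (.play 133 (.ref 4 133)) (.play 389 (.ref 4 197)))) (.play 518 (.ref 7 261)))) (.both (.play 262 (.both (.play 454 (.ref 17 197)) (.play 263 (.ref 2 259)))) (.play 327 (.both (.ref 10 259) (.both (.play 328 (.both (.play 260 (.ref 3 260)) (.play 329 (.both (.play 262 (.ref 3 261)) (.play 389 (.ref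 1 325)))))) (.play 328 (.both (.play 260 (.ref 3 260)) (.ref 10 260))))))))) (.play 391 (.ref 0 323)))) (.both (.play 322 (.both (.ref 14 256) (.play 389 (.ref 0 322)))) (.play 389 (.both (.play 322 (.ref 0 322)) (.play 391 (.both (.play 326 (.ref 0 323)) (.play 392 (.ref 3 324)))))))))) (.both (.play 326 (.both (.play 262 (.both (.play 261 (.both (.play 390 (.both (.ref 19 133) (.play 391 (.ref 0 323)))) (.play 322 (.ref 2 258)))) (.play 263 (.ref 2 259)))) (.both (.play 262 (.both (.play 261 (.both (.play 322 (.ref 2 258)) (.play 387 (.both (.play 327 (.both (.play 328 (.both (.play 260 (.ref 3 260)) (.play 329 (.ref 3 261)))) (.play 388 (.ref 1 323)))) (.play 386 (.ref 1 322)))))) (.play 263 (.ref 2 259)))) (.ref 18 322)))) (.both (.play 326 (.both (.play 390 (.both (.play 262 (.both (.play 387 (.both (.play 454 (.both (.play 453 (.both (.play 389 (.both (.play 198 (.ref 6 197)) (.play 455 (.both (.play 519 (.ref 4 262)) (.play 388 (.ref 0 387)))))) (.play 517 (.ref 6 261)))) (.play 261 (.ref 17 197)))) (.play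 386 (.ref 1 322)))) (.play 263 (.ref 2 259)))) (.play 391 (.ref 0 323)))) (.both (.play 263 (.both (.play 327 (.both (.play 264 (.ref 2 260)) (.ref 16 322))) (.play 262 (.ref 2 259)))) (.both (.ref 9 259) (.play 391 (.both (.play 327 (.both (.ref 16 322) (.play 392 (.ref 0 324)))) (.play 390 (.ref 0 323)))))))) (.both (.play 322 (.both (.ref 15 256) (.both (.ref 14 256) (.play 390 (.both (.play 326 (.both (.ref 10 258) (.play 391 (.ref 0 323)))) (.play 389 (.ref 0 322))))))) (.play 326 (.both (.play 387 (.both (.play 262 (.both (.play 322 (.both (.play 257 (.both (.play 321 (.both (.play 256 (.ref 3 256)) (.play 388 (.ref 12 320)))) (.play 258 (.ref 3 257)))) (.play 261 (.ref 2 258)))) (.play 263 (.ref 2 259)))) (.play 386 (.ref 1 322)))) (.both (.play 387 (.both (.play 327 (.both (.ref 10 259) (.play 388 (.ref 1 323)))) (.play 386 (.ref 1 322)))) (.both (.play 387 (.both (.play 327 (.both (.ref 11 258) (.play 388 (.ref 1 323)))) (.play 386 (.ref 1 322)))) (.both (.play 387 (.both (.play 327 (.both (.ref 9 260)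 (.play 388 (.ref 1 323)))) (.play 386 (.ref 1 322)))) (.play 327 (.both (.ref 11 258) (.both (.ref 10 259) (.ref 9 260)))))))))))))))))))))
    (by decide +kernel)

theorem Cert_L36 : PW ⟨10, nat_lit 102527377724203683954961041896138501501030250700885519849679369806237869500128384088213604725161984, nat_lit 31658291388557380362935380977841178434380047670499191037549736003975468181459409289235196414814862269255608037210565263517052406781584277000198202335377020079064022782939496480, 8, nat_lit 31658291388557380362935380977841178434380047670499191037549736003975468181459409289235196414814862269255608037210565263517052406781584277000198202335377020079064022782939496480⟩ :=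
  sound2 baseTbl baseTbl_ok
    (.seq (.seq (.seq (.one (.play 68 (.both (.play 67 (.ref 0 0)) (.play 69 (.ref 0 1)))))
 (.one (.play 4 (.both (.play 3 (.ref 2 0)) (.play 5 (.ref 2 1))))))
 (.seq (.one (.play 129 (.both (.play 69 (.both (.ref 9 1) (.play 130 (.ref 1 65)))) (.play 128 (.ref 1 64)))))
 (.one (.play 1 (.both (.play 0 (.ref 3 0)) (.play 2 (.ref 3 1)))))))
 (.seq (.seq (.one (.play 129 (.both (.play 65 (.both (.ref 11 0) (.play 128 (.ref 1 64)))) (.play 130 (.ref 1 65)))))
 (.one (.play 133 (.both (.play 65 (.both (.ref 11 0) (.play 132 (.ref 0 65)))) (.play 134 (.ref 0 66))))))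
 (.seq (.one (.play 387 (.both (.play 259 (.both (.play 195 (.both (.play 131 (.both (.play 67 (.both (.play 66 (.both (.play 2 (.ref 7 2)) (.play 130 (.ref 7 66)))) (.play 258 (.ref 6 66)))) (.play 132 (.both (.play 68 (.ref 5 67)) (.play 196 (.ref 5 131)))))) (.both (.play 386 (.both (.play 131 (.ref 6 130)) (.play 450 (.ref 6 194)))) (.play 450 (.both (.play 386 (.ref 6 194)) (.play 451 (.both (.play 514 (.ref 6 258)) (.play 515 (.both (.play 258 (.ref 7 258)) (.play 516 (.both (.play 452 (.ref 4 259)) (.play 580 (.ref 4 323))))))))))))) (.play 260 (.ref 2 256)))) (.play 388 (.ref 0 320)))))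
 (.one (.play 323 (.both (.play 326 (.both (.ref 14 3) (.both (.ref 13 257) (.play 262 (.both (.play 322 (.both (.ref 11 257) (.play 261 (.ref 2 258)))) (.play 263 (.ref 2 259))))))) (.both (.play 326 (.both (.ref 14 3) (.play 387 (.both (.play 259 (.both (.play 195 (.both (.play 132 (.ref 5 131)) (.play 388 (.both (.play 131 (.ref 4 131)) (.play 452 (.ref 4 195)))))) (.play 258 (.ref 3 258)))) (.play 386 (.ref 1 322)))))) (.both (.play 322 (.both (.play 389 (.both (.play 386 (.both (.play 258 (.both (.play 450 (.both (.play 451 (.both (.play 387 (.both (.play 194 (.ref 4 194)) (.play 449 (.both (.play 513 (.ref 6 257)) (.play 388 (.ref 1 385)))))) (.play 515 (.ref 4 258)))) (.play 259 (.both (.play 195 (.ref 5 194)) (.play 514 (.ref 5 258)))))) (.play 257 (.ref 3 257)))) (.play 385 (.ref 1 321)))) (.play 390 (.ref 0 322)))) (.both (.ref 12 256) (.both (.ref 13 256) (.play 385 (.both (.play 321 (.both (.play 384 (.ref 1 320)) (.ref 8 321))) (.play 386 (.ref 1 321)))))))) (.both (.play 322 (.both (.ref 12 256)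 (.both (.play 258 (.both (.play 257 (.ref 3 257)) (.play 326 (.both (.play 259 (.ref 3 258)) (.ref 9 258))))) (.ref 10 257)))) (.play 322 (.both (.ref 10 257) (.both (.play 390 (.both (.play 326 (.both (.ref 9 258) (.play 391 (.ref 0 323)))) (.play 389 (.ref 0 322)))) (.play 321 (.both (.play 385 (.both (.play 384 (.ref 1 320)) (.play 386 (.ref 1 321)))) (.ref 8 321)))))))))))))))
    (by decide +kernel)

theorem Cert_L37 : PW ⟨9, nat_lit 102527377724203683954961041896138501501030250700885519849679369806237869500128384088213604725161984, nat_lit 375418622038392718808424184230040684524937734763808720416110457136602127222685799597660335749346571678990578117288379670908106773762712426897080164106108948, 9, nat_lit 375418622038392718808424184230040684524937734763808720416110457136602127222685799597660335749346571678990578117288379670908106773762712426897080164106108948⟩ :=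
  sound2 baseTbl baseTbl_ok
    (.seq (.seq (.seq (.seq (.one (.play 65 (.both (.play 64 (.ref 1 0)) (.play 66 (.ref 1 1)))))
 (.one (.play 4 (.both (.play 3 (.ref 2 0)) (.play 5 (.ref 2 1))))))
 (.seq (.one (.both (.ref 9 1) (.ref 8 64)))
 (.one (.play 1 (.both (.play 0 (.ref 3 0)) (.play 2 (.ref 3 1)))))))
 (.seq (.seq (.one (.both (.ref 11 0) (.ref 9 1)))
 (.one (.play 65 (.both (.ref 11 0) (.ref 8 64)))))
 (.seq (.one (.play 68 (.both (.play 67 (.ref 0 0)) (.play 69 (.ref 0 1)))))
 (.seq (.one (.both (.ref 8 0) (.ref 14 1)))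
 (.one (.play 68 (.both (.ref 9 0) (.ref 14 64))))))))
 (.seq (.seq (.seq (.one (.both (.ref 11 0) (.ref 14 65)))
 (.one (.play 257 (.both (.play 193 (.ref 4 0)) (.play 321 (.ref 4 64))))))
 (.seq (.one (.play 65 (.both (.play 1 (.ref 5 0)) (.play 129 (.ref 5 64)))))
 (.seq (.one (.play 64 (.both (.play 0 (.ref 7 0)) (.play 128 (.ref 7 64)))))
 (.one (.both (.ref 20 0) (.ref 18 65))))))
 (.seq (.seq (.one (.play 65 (.both (.ref 20 0) (.ref 19 1))))
 (.one (.play 256 (.both (.play 192 (.ref 6 0)) (.play 320 (.ref 6 64))))))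
 (.seq (.one (.play 321 (.both (.ref 20 0) (.ref 23 64))))
 (.seq (.one (.play 257 (.both (.ref 23 0) (.ref 18 1))))
 (.one (.play 323 (.both (.play 259 (.both (.play 195 (.both (.play 131 (.both (.ref 22 2) (.play 388 (.ref 4 131)))) (.both (.play 387 (.both (.play 131 (.ref 21 66)) (.both (.ref 24 130) (.both (.play 451 (.ref 21 130)) (.ref 25 194))))) (.both (.play 387 (.both (.play 132 (.ref 5 131)) (.ref 25 194))) (.play 387 (.both (.ref 24 130) (.play 132 (.ref 5 131)))))))) (.both (.play 387 (.both (.play 195 (.both (.play 131 (.ref 21 66)) (.play 132 (.ref 5 131)))) (.play 326 (.both (.ref 16 259) (.play 386 (.ref 1 322)))))) (.play 326 (.both (.play 258 (.ref 3 258)) (.ref 16 259)))))) (.both (.play 322 (.both (.play 390 (.both (.play 386 (.both (.play 258 (.both (.play 194 (.both (.ref 22 65) (.both (.play 130 (.ref 21 65)) (.play 450 (.both (.ref 19 130) (.ref 18 194)))))) (.play 257 (.ref 3 257)))) (.play 385 (.ref 1 321)))) (.play 389 (.ref 0 322)))) (.both (.play 321 (.ref 17 256)) (.both (.ref 13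 256) (.play 321 (.ref 15 320)))))) (.both (.play 322 (.both (.ref 13 256) (.both (.play 326 (.ref 17 257)) (.play 326 (.ref 15 321))))) (.both (.play 322 (.both (.play 321 (.ref 17 256)) (.both (.play 326 (.ref 17 257)) (.both (.play 326 (.ref 12 257)) (.ref 16 258))))) (.both (.play 326 (.both (.play 322 (.ref 10 257)) (.both (.play 327 (.ref 10 258)) (.both (.ref 16 259) (.play 327 (.ref 15 322)))))) (.play 326 (.both (.ref 13 257) (.both (.play 322 (.ref 12 257)) (.both (.play 322 (.ref 10 257)) (.play 327 (.ref 10 258))))))))))))))))))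
    (by decide +kernel)

theorem Cert_L38 : PW ⟨10, nat_lit 205054755448407367909922083792277003002060501401771039699358739612475739000256768176427209450323968, nat_lit 9893216058924181363224569316582443427423305787398560777805594836798948271364356834994370761973789338782830099922559113204644523451087643310979568772712123465833083654866206760, 12, nat_lit 9893216058924181363224569316582443427423305787398560777805594836798948271364356834994370761973789338782830099922559113204644523451087643310979568772712123465833083654866206760⟩ :=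
  sound2 baseTbl baseTbl_ok
    (.seq (.seq (.seq (.seq (.one (.play 68 (.both (.play 67 (.ref 0 0)) (.play 69 (.ref 0 1)))))
 (.one (.play 65 (.both (.play 64 (.ref 1 0)) (.play 5 (.both (.play 66 (.ref 1 1)) (.ref 8 1)))))))
 (.seq (.one (.play 67 (.both (.play 68 (.both (.play 1 (.both (.play 0 (.ref 0 0)) (.play 69 (.ref 0 1)))) (.play 7 (.ref 1 3)))) (.play 66 (.ref 1 2)))))
 (.seq (.one (.play 6 (.both (.ref 10 0) (.both (.ref 8 2) (.ref 9 2)))))
 (.one (.play 1 (.both (.play 0 (.ref 3 0)) (.play 69 (.both (.play 2 (.ref 3 1)) (.ref 8 65)))))))))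
 (.seq (.seq (.one (.play 1 (.both (.play 0 (.ref 3 0)) (.play 2 (.ref 3 1)))))
 (.one (.play 133 (.both (.play 65 (.both (.ref 13 0) (.play 132 (.ref 0 65)))) (.play 134 (.ref 0 66))))))
 (.seq (.one (.play 65 (.both (.play 64 (.ref 1 0)) (.play 66 (.ref 1 1)))))
 (.seq (.one (.play 1 (.both (.play 65 (.both (.play 0 (.ref 3 0)) (.ref 15 64))) (.play 2 (.ref 3 1)))))
 (.one (.both (.ref 15 0) (.ref 8 1)))))))
 (.seq (.seq (.seq (.one (.play 134 (.both (.play 66 (.both (.ref 16 0) (.play 133 (.ref 0 66)))) (.play 135 (.ref 0 67)))))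
 (.one (.play 69 (.both (.play 1 (.both (.ref 15 0) (.play 68 (.ref 0 1)))) (.play 70 (.ref 0 2))))))
 (.seq (.one (.both (.play 0 (.ref 4 0)) (.play 321 (.ref 4 64))))
 (.seq (.one (.play 64 (.both (.play 1 (.ref 5 0)) (.play 257 (.ref 20 0)))))
 (.one (.both (.play 257 (.both (.play 64 (.both (.play 0 (.ref 4 0)) (.play 321 (.ref 7 64)))) (.ref 21 1))) (.play 196 (.ref 3 128)))))))
 (.seq (.seq (.one (.play 1 (.both (.play 0 (.ref 0 0)) (.play 66 (.ref 3 1)))))
 (.seq (.one (.play 65 (.both (.play 2 (.ref 5 1)) (.play 256 (.both (.play 320 (.ref 6 64)) (.play 196 (.ref 1 192)))))))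
 (.one (.play 256 (.both (.play 192 (.ref 6 0)) (.play 320 (.ref 6 64)))))))
 (.seq (.one (.play 64 (.both (.play 0 (.ref 7 0)) (.play 321 (.ref 7 64)))))
 (.seq (.one (.play 64 (.both (.play 0 (.ref 7 0)) (.play 128 (.ref 7 64)))))
 (.one (.play 324 (.both (.play 260 (.both (.play 196 (.both (.play 132 (.both (.play 68 (.both (.ref 27 3) (.play 69 (.both (.play 5 (.ref 5 4)) (.play 133 (.ref 5 68)))))) (.play 389 (.ref 4 132)))) (.both (.play 133 (.both (.play 69 (.both (.play 5 (.ref 6 4)) (.play 132 (.ref 5 68)))) (.play 388 (.ref 5 132)))) (.both (.play 388 (.both (.play 133 (.ref 5 132)) (.play 389 (.both (.play 387 (.both (.play 451 (.ref 6 195)) (.play 386 (.ref 2 322)))) (.play 453 (.ref 4 196)))))) (.play 389 (.both (.play 132 (.ref 4 132)) (.play 453 (.both (.play 388 (.ref 4 196)) (.play 517 (.ref 7 260)))))))))) (.both (.play 327 (.both (.play 388 (.both (.play 389 (.both (.play 196 (.ref 20 132)) (.play 328 (.ref 1 324)))) (.play 387 (.ref 1 323)))) (.play 259 (.ref 3 259)))) (.both (.play 388 (.both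 (.play 196 (.both (.play 452 (.both (.ref 27 131) (.ref 25 195))) (.play 133 (.ref 5 132)))) (.both (.ref 24 131) (.both (.play 196 (.both (.play 259 (.both (.ref 26 131) (.play 327 (.ref 3 259)))) (.play 133 (.ref 5 132)))) (.play 327 (.both (.play 259 (.ref 3 259)) (.play 387 (.ref 1 323)))))))) (.play 327 (.both (.play 259 (.ref 3 259)) (.play 328 (.both (.play 265 (.both (.play 391 (.both (.play 329 (.both (.play 266 (.ref 2 262)) (.play 390 (.both (.play 389 (.ref 1 325)) (.play 330 (.ref 1 326)))))) (.play 392 (.ref 0 324)))) (.play 264 (.ref 2 261)))) (.both (.play 265 (.both (.play 264 (.ref 2 261)) (.play 329 (.both (.play 266 (.ref 2 262)) (.ref 8 325))))) (.both (.play 265 (.both (.play 264 (.ref 2 261)) (.play 329 (.both (.play 266 (.ref 2 262)) (.play 330 (.ref 17 325)))))) (.ref 8 324))))))))))) (.both (.play 260 (.both (.play 259 (.both (.play 196 (.both (.play 132 (.both (.play 323 (.both (.play 68 (.ref 6 67)) (.play 387 (.ref 6 131)))) (.play 389 (.ref 4 132)))) (.play 388 (.both (.ref 26 131)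 (.play 133 (.ref 5 132)))))) (.both (.play 258 (.both (.play 388 (.both (.play 452 (.both (.play 196 (.both (.play 133 (.ref 5 132)) (.ref 25 195))) (.play 195 (.ref 7 195)))) (.both (.ref 21 132) (.play 452 (.both (.play 195 (.ref 7 195)) (.play 517 (.both (.play 516 (.both (.ref 25 259) (.play 581 (.ref 4 324)))) (.play 453 (.ref 4 260))))))))) (.play 257 (.ref 0 257)))) (.ref 23 257)))) (.both (.play 388 (.both (.ref 24 131) (.both (.ref 21 132) (.play 387 (.both (.play 386 (.both (.play 385 (.ref 2 321)) (.play 389 (.ref 2 322)))) (.play 327 (.ref 1 323))))))) (.play 259 (.both (.ref 23 257) (.play 327 (.ref 3 259))))))) (.both (.play 323 (.both (.play 259 (.both (.play 260 (.ref 22 131)) (.play 258 (.ref 3 258)))) (.both (.play 260 (.both (.play 390 (.both (.play 389 (.both (.play 453 (.both (.play 196 (.both (.play 132 (.ref 4 132)) (.play 388 (.ref 4 196)))) (.play 517 (.ref 7 260)))) (.play 322 (.ref 0 322)))) (.play 391 (.ref 0 323)))) (.both (.play 259 (.ref 22 131)) (.play 327 (.both (.play 259 (.ref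 3 259)) (.ref 8 323)))))) (.both (.ref 18 256) (.both (.play 322 (.both (.ref 13 257) (.ref 8 322))) (.ref 12 258)))))) (.both (.play 323 (.both (.play 259 (.both (.play 387 (.both (.play 260 (.both (.play 196 (.both (.play 132 (.ref 6 131)) (.play 451 (.ref 5 195)))) (.play 327 (.ref 3 259)))) (.play 386 (.ref 1 322)))) (.play 258 (.ref 3 258)))) (.both (.play 390 (.both (.play 258 (.both (.play 322 (.both (.play 257 (.ref 3 257)) (.play 389 (.ref 0 322)))) (.play 259 (.ref 3 258)))) (.play 391 (.ref 0 323)))) (.ref 19 321)))) (.both (.play 323 (.both (.play 390 (.both (.play 387 (.both (.play 259 (.both (.play 451 (.both (.play 452 (.both (.play 388 (.both (.play 195 (.ref 4 195)) (.play 450 (.both (.play 514 (.ref 6 258)) (.play 389 (.ref 1 386)))))) (.play 516 (.ref 4 259)))) (.play 260 (.both (.play 196 (.ref 5 195)) (.play 515 (.ref 5 259)))))) (.play 258 (.ref 3 258)))) (.play 386 (.ref 1 322)))) (.play 391 (.ref 0 323)))) (.both (.play 386 (.both (.play 322 (.both (.ref 13 257) (.play 385 (.ref 1 321))))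 (.play 387 (.ref 1 322)))) (.both (.ref 14 257) (.ref 19 321))))) (.both (.play 323 (.both (.play 322 (.both (.ref 16 256) (.both (.play 257 (.both (.play 321 (.both (.play 256 (.ref 3 256)) (.play 388 (.both (.play 387 (.both (.play 320 (.ref 0 320)) (.play 327 (.ref 1 323)))) (.play 389 (.ref 0 321)))))) (.play 258 (.ref 3 257)))) (.ref 15 321)))) (.both (.ref 18 256) (.both (.play 322 (.ref 17 321)) (.both (.ref 11 321) (.ref 9 322)))))) (.both (.play 323 (.both (.ref 16 257) (.both (.ref 12 258) (.ref 9 322)))) (.play 323 (.both (.ref 14 257) (.both (.play 259 (.both (.play 327 (.both (.play 260 (.ref 3 259)) (.ref 10 321))) (.play 258 (.ref 3 258)))) (.both (.ref 12 258) (.both (.play 259 (.both (.play 258 (.ref 3 258)) (.play 327 (.both (.play 260 (.ref 3 259)) (.ref 9 323))))) (.ref 11 321))))))))))))))))))))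
    (by decide +kernel)

theorem Cert_L39 : PW ⟨18, nat_lit 3782592594853870004378787849613786925287654969964682880123036166807589290063732218695769560468951901517436287069454336, nat_lit 1061170725819832694838534537402737892573375393209795472310185221357994284171538931934016144598701936044639948012224919748908274852665830079223451587235682181976743356204279826024561386726009228058580094144751519388820803785705421616893656576121404803329395508938624805772770529998116763565519410341172682731445893481465951205465984, 18, nat_lit 1061170725819832694838534537402737892573375393209795472310185221357994284171538931934016144598701936044639948012224919748908274852665830079223451587235682181976743356204279826024561386726009228058580094144751519388820803785705421616893656576121404803329395508938624805772770529998116763565519410341172682731445893481465951205465984⟩ :=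
  sound2 baseTbl baseTbl_ok
    (.seq (.seq (.seq (.seq (.seq (.seq (.seq (.seq (.seq (.one (.both (.play 3 (.ref 0 0)) (.play 69 (.ref 3 1))))
 (.one (.play 68 (.both (.play 65 (.ref 3 0)) (.play 2 (.ref 8 0))))))
 (.seq (.one (.both (.play 0 (.ref 0 0)) (.play 69 (.ref 8 1))))
 (.seq (.one (.both (.play 0 (.ref 0 0)) (.play 66 (.ref 3 1))))
 (.one (.both (.play 67 (.ref 11 0)) (.play 4 (.ref 0 1)))))))
 (.seq (.seq (.one (.both (.play 1 (.ref 11 0)) (.play 70 (.ref 3 2))))
 (.seq (.one (.both (.play 67 (.ref 13 0)) (.both (.play 1 (.ref 12 0)) (.both (.play 4 (.ref 10 1)) (.ref 9 2)))))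
 (.one (.play 68 (.both (.play 67 (.ref 0 0)) (.play 69 (.ref 0 1)))))))
 (.seq (.one (.play 65 (.both (.play 64 (.ref 1 0)) (.play 66 (.ref 1 1)))))
 (.seq (.one (.both (.ref 16 0) (.ref 15 1)))
 (.one (.play 4 (.both (.play 3 (.ref 2 0)) (.play 5 (.ref 2 1)))))))))
 (.seq (.seq (.seq (.one (.both (.ref 18 0) (.ref 15 64)))
 (.one (.both (.ref 18 1) (.ref 16 64))))
 (.seq (.one (.play 257 (.both (.play 64 (.ref 7 0)) (.play 320 (.ref 6 64)))))
 (.seq (.one (.play 256 (.both (.play 192 (.ref 6 0)) (.ref 21 0))))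
 (.one (.play 257 (.both (.play 193 (.ref 4 0)) (.play 321 (.ref 4 64))))))))
 (.seq (.seq (.one (.play 257 (.both (.ref 23 1) (.ref 22 64))))
 (.seq (.one (.play 256 (.both (.play 192 (.ref 6 0)) (.play 320 (.ref 6 64)))))
 (.one (.both (.ref 25 0) (.ref 23 1)))))
 (.seq (.one (.play 257 (.both (.ref 25 0) (.both (.play 321 (.both (.play 192 (.both (.play 256 (.ref 6 0)) (.play 385 (.ref 7 128)))) (.ref 23 65))) (.both (.play 321 (.ref 26 64)) (.ref 24 64))))))
 (.seq (.one (.both (.play 0 (.ref 7 0)) (.play 2 (.ref 5 1))))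
 (.one (.play 66 (.both (.play 64 (.both (.play 65 (.ref 28 0)) (.play 128 (.ref 7 64)))) (.play 130 (.ref 5 65))))))))))
 (.seq (.seq (.seq (.seq (.one (.play 129 (.both (.ref 29 0) (.ref 27 128))))
 (.one (.both (.ref 30 2) (.play 196 (.ref 2 192)))))
 (.seq (.one (.both (.play 324 (.both (.play 321 (.both (.play 196 (.ref 31 1)) (.play 320 (.ref 1 256)))) (.play 325 (.ref 0 257)))) (.both (.play 261 (.ref 20 192)) (.both (.play 261 (.ref 19 193)) (.play 261 (.ref 17 256))))))
 (.seq (.one (.play 258 (.both (.play 261 (.ref 32 1)) (.play 257 (.ref 3 192)))))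
 (.one (.both (.play 256 (.ref 6 0)) (.play 258 (.ref 4 1)))))))
 (.seq (.seq (.one (.both (.play 192 (.ref 6 0)) (.play 258 (.both (.play 194 (.ref 4 1)) (.play 257 (.ref 34 64))))))
 (.seq (.one (.play 66 (.both (.play 68 (.both (.play 4 (.ref 5 3)) (.play 65 (.ref 1 64)))) (.play 2 (.ref 7 2)))))
 (.one (.play 259 (.both (.ref 36 0) (.play 322 (.ref 35 66)))))))
 (.seq (.one (.play 65 (.both (.play 1 (.ref 5 0)) (.play 129 (.ref 5 64)))))
 (.seq (.one (.both (.ref 38 0) (.ref 23 64)))
 (.one (.both (.ref 38 1) (.ref 25 64)))))))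
 (.seq (.seq (.seq (.one (.both (.play 65 (.ref 40 0)) (.both (.play 65 (.ref 39 1)) (.play 384 (.ref 35 128)))))
 (.seq (.one (.both (.play 256 (.both (.play 192 (.ref 6 0)) (.play 257 (.ref 34 64)))) (.play 194 (.ref 4 1))))
 (.one (.play 64 (.both (.play 0 (.ref 7 0)) (.play 128 (.ref 7 64)))))))
 (.seq (.one (.both (.ref 43 0) (.ref 23 65)))
 (.seq (.one (.both (.ref 43 0) (.ref 25 64)))
 (.one (.play 321 (.both (.play 65 (.ref 45 0)) (.both (.play 65 (.ref 44 0)) (.play 386 (.ref 42 128)))))))))
 (.seq (.seq (.one (.play 321 (.both (.ref 43 0) (.play 385 (.ref 26 128)))))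
 (.seq (.one (.both (.ref 43 0) (.ref 38 1)))
 (.one (.play 321 (.both (.ref 38 1) (.play 385 (.ref 26 128)))))))
 (.seq (.one (.both (.play 65 (.ref 48 0)) (.both (.ref 49 64) (.both (.play 385 (.ref 48 64)) (.ref 47 64)))))
 (.seq (.one (.play 64 (.both (.play 66 (.both (.play 65 (.ref 28 0)) (.play 130 (.ref 5 65)))) (.play 128 (.ref 7 64)))))
 (.one (.play 129 (.both (.ref 51 0) (.both (.play 385 (.ref 44 64)) (.play 385 (.ref 39 65))))))))))))
 (.seq (.seq (.seq (.seq (.seq (.one (.play 129 (.both (.ref 29 0) (.both (.play 385 (.ref 45 64)) (.play 385 (.ref 40 64))))))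
 (.one (.play 196 (.both (.play 260 (.ref 4 3)) (.play 193 (.ref 3 128))))))
 (.seq (.one (.play 194 (.both (.ref 54 0) (.play 258 (.ref 6 2)))))
 (.seq (.one (.play 131 (.both (.ref 51 2) (.ref 55 128))))
 (.one (.both (.ref 56 0) (.both (.ref 53 2) (.both (.ref 52 2) (.both (.play 131 (.ref 50 2)) (.both (.ref 46 66) (.both (.play 387 (.ref 41 66)) (.ref 37 128)))))))))))
 (.seq (.seq (.one (.play 256 (.both (.play 65 (.ref 5 0)) (.play 321 (.ref 4 64)))))
 (.seq (.one (.play 257 (.both (.play 193 (.ref 4 0)) (.ref 58 0))))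
 (.one (.play 257 (.both (.ref 25 0) (.ref 59 65))))))
 (.seq (.one (.play 257 (.both (.play 321 (.both (.play 194 (.both (.play 258 (.ref 4 1)) (.play 385 (.ref 5 129)))) (.ref 25 64))) (.both (.ref 23 1) (.both (.play 321 (.ref 26 64)) (.ref 60 64))))))
 (.seq (.one (.play 321 (.both (.play 65 (.both (.play 1 (.ref 5 0)) (.ref 58 64))) (.play 257 (.ref 4 64)))))
 (.one (.play 4 (.both (.play 65 (.ref 1 0)) (.play 69 (.ref 0 1)))))))))
 (.seq (.seq (.seq (.one (.play 68 (.both (.play 67 (.ref 0 0)) (.ref 63 0))))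
 (.one (.play 68 (.both (.ref 18 0) (.ref 64 65)))))
 (.seq (.one (.play 68 (.both (.play 69 (.both (.ref 18 1) (.play 131 (.both (.play 132 (.ref 0 64)) (.play 70 (.ref 1 66)))))) (.both (.play 69 (.ref 19 1)) (.both (.ref 65 1) (.ref 15 64))))))
 (.seq (.one (.play 68 (.both (.play 66 (.both (.play 65 (.both (.ref 66 1) (.play 129 (.ref 1 64)))) (.play 2 (.ref 7 2)))) (.play 4 (.ref 5 3)))))
 (.one (.both (.play 192 (.ref 4 0)) (.play 321 (.ref 7 64)))))))
 (.seq (.seq (.one (.both (.play 0 (.ref 4 0)) (.play 321 (.ref 68 64))))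
 (.seq (.one (.both (.play 0 (.ref 4 0)) (.play 129 (.ref 7 64))))
 (.one (.both (.play 64 (.ref 70 0)) (.play 385 (.ref 7 128))))))
 (.seq (.one (.both (.play 64 (.both (.play 193 (.ref 70 0)) (.play 256 (.ref 4 64)))) (.both (.play 193 (.ref 71 0)) (.both (.play 256 (.ref 69 64)) (.play 385 (.both (.play 193 (.ref 7 128)) (.play 256 (.ref 68 128))))))))
 (.seq (.one (.play 129 (.both (.ref 29 0) (.play 386 (.ref 4 129)))))
 (.one (.play 64 (.both (.play 1 (.ref 5 0)) (.play 257 (.ref 4 64))))))))))
 (.seq (.seq (.seq (.seq (.one (.play 65 (.both (.ref 74 0) (.play 129 (.ref 5 64)))))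
 (.one (.play 129 (.both (.play 65 (.both (.ref 43 0) (.play 258 (.ref 4 65)))) (.both (.ref 75 1) (.play 385 (.ref 48 64)))))))
 (.seq (.one (.both (.play 4 (.ref 2 0)) (.play 132 (.ref 0 64))))
 (.seq (.one (.play 132 (.both (.play 4 (.both (.play 3 (.ref 2 0)) (.play 68 (.ref 77 1)))) (.play 131 (.ref 0 64)))))
 (.one (.play 1 (.both (.play 0 (.ref 3 0)) (.play 2 (.ref 3 1))))))))
 (.seq (.seq (.one (.both (.ref 79 0) (.ref 18 1)))
 (.seq (.one (.both (.ref 79 0) (.ref 15 65)))
 (.one (.play 69 (.both (.play 65 (.ref 81 0)) (.both (.play 65 (.ref 80 0)) (.ref 78 2)))))))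
 (.seq (.one (.both (.play 0 (.ref 0 0)) (.play 4 (.ref 0 1))))
 (.seq (.one (.play 323 (.both (.play 195 (.ref 31 0)) (.play 324 (.ref 0 256)))))
 (.one (.play 260 (.both (.play 193 (.both (.ref 84 1) (.play 192 (.ref 3 192)))) (.both (.play 261 (.ref 81 192)) (.both (.play 261 (.ref 80 192)) (.play 261 (.ref 19 193)))))))))))
 (.seq (.seq (.seq (.one (.play 4 (.both (.play 1 (.ref 1 0)) (.play 5 (.ref 1 1)))))
 (.seq (.one (.both (.play 64 (.ref 2 0)) (.ref 86 1)))
 (.one (.both (.play 3 (.ref 2 0)) (.play 131 (.ref 0 64))))))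
 (.seq (.one (.play 65 (.both (.play 0 (.ref 7 0)) (.play 256 (.ref 6 64)))))
 (.seq (.one (.play 64 (.both (.ref 89 0) (.play 128 (.ref 7 64)))))
 (.one (.play 129 (.both (.ref 90 0) (.ref 38 65)))))))
 (.seq (.seq (.one (.play 193 (.both (.ref 91 0) (.both (.play 129 (.ref 48 64)) (.both (.play 129 (.both (.play 256 (.both (.play 65 (.ref 6 64)) (.play 192 (.ref 7 192)))) (.ref 38 65))) (.ref 43 128))))))
 (.seq (.one (.play 449 (.both (.ref 92 0) (.play 514 (.ref 42 256)))))
 (.one (.both (.ref 93 2) (.play 388 (.ref 0 320))))))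
 (.seq (.one (.both (.play 3 (.ref 2 0)) (.play 132 (.both (.play 68 (.ref 77 1)) (.play 131 (.ref 0 64))))))
 (.seq (.one (.play 69 (.both (.play 65 (.ref 20 0)) (.both (.play 6 (.ref 95 2)) (.play 65 (.ref 17 64))))))
 (.one (.play 1 (.both (.play 64 (.ref 1 0)) (.play 68 (.ref 0 1))))))))))))
 (.seq (.seq (.seq (.seq (.seq (.seq (.one (.play 65 (.both (.play 69 (.both (.ref 97 0) (.play 70 (.ref 0 2)))) (.play 66 (.ref 1 1)))))
 (.one (.both (.play 64 (.ref 2 0)) (.play 68 (.ref 2 1)))))
 (.seq (.one (.both (.play 65 (.ref 99 0)) (.play 6 (.ref 1 2))))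
 (.seq (.one (.play 68 (.both (.play 5 (.ref 2 1)) (.play 129 (.ref 1 64)))))
 (.one (.both (.play 1 (.ref 3 0)) (.play 128 (.ref 1 64)))))))
 (.seq (.seq (.one (.play 69 (.both (.play 65 (.both (.play 64 (.ref 1 0)) (.ref 63 1))) (.play 68 (.ref 0 1)))))
 (.seq (.one (.both (.play 0 (.ref 0 0)) (.play 69 (.ref 0 1))))
 (.one (.play 67 (.both (.play 68 (.both (.play 1 (.ref 104 0)) (.play 7 (.ref 1 3)))) (.play 66 (.ref 1 2)))))))
 (.seq (.one (.play 6 (.both (.ref 105 0) (.both (.ref 15 2) (.ref 103 2)))))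
 (.seq (.one (.play 68 (.both (.ref 18 0) (.play 69 (.ref 17 64)))))
 (.one (.play 70 (.both (.ref 18 2) (.ref 105 64))))))))
 (.seq (.seq (.seq (.one (.both (.play 193 (.ref 6 0)) (.play 320 (.ref 5 64))))
 (.one (.both (.play 1 (.ref 6 0)) (.play 320 (.ref 109 64)))))
 (.seq (.one (.play 260 (.both (.play 259 (.both (.play 132 (.both (.play 68 (.ref 110 3)) (.play 133 (.ref 2 129)))) (.play 192 (.ref 0 192)))) (.play 261 (.ref 0 193)))))
 (.seq (.one (.play 197 (.both (.ref 111 1) (.both (.ref 108 128) (.both (.ref 78 130) (.both (.ref 107 130) (.ref 106 192)))))))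
 (.one (.play 259 (.both (.play 387 (.both (.play 195 (.both (.ref 91 2) (.ref 27 194))) (.play 388 (.ref 0 320)))) (.play 260 (.ref 2 256))))))))
 (.seq (.seq (.one (.both (.play 326 (.both (.ref 113 3) (.both (.play 327 (.ref 20 258)) (.ref 103 322)))) (.both (.ref 112 129) (.both (.play 386 (.both (.play 322 (.ref 102 257)) (.both (.play 262 (.both (.play 322 (.both (.play 258 (.ref 3 257)) (.play 261 (.ref 2 258)))) (.ref 101 258))) (.play 387 (.ref 100 320))))) (.both (.play 322 (.both (.play 258 (.ref 3 257)) (.ref 98 320))) (.ref 96 257))))))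
 (.seq (.one (.play 257 (.both (.play 0 (.ref 7 0)) (.play 320 (.ref 35 64)))))
 (.one (.play 67 (.both (.play 3 (.ref 5 2)) (.ref 86 64))))))
 (.seq (.one (.both (.play 67 (.ref 2 0)) (.play 5 (.ref 1 1))))
 (.seq (.one (.both (.play 64 (.ref 2 0)) (.play 5 (.ref 117 1))))
 (.one (.play 194 (.both (.play 258 (.ref 6 2)) (.play 193 (.ref 118 128))))))))))
 (.seq (.seq (.seq (.seq (.one (.play 260 (.both (.play 196 (.both (.play 3 (.ref 4 3)) (.ref 119 64))) (.play 324 (.ref 4 67)))))
 (.one (.both (.play 64 (.ref 2 0)) (.play 2 (.ref 1 1)))))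
 (.seq (.one (.both (.play 65 (.ref 121 0)) (.play 6 (.ref 1 2))))
 (.seq (.one (.both (.play 2 (.ref 5 1)) (.play 320 (.ref 35 64))))
 (.one (.both (.play 1 (.ref 5 0)) (.play 320 (.ref 5 64)))))))
 (.seq (.seq (.one (.play 193 (.both (.play 257 (.ref 4 0)) (.play 320 (.ref 124 64)))))
 (.seq (.one (.play 257 (.both (.ref 23 1) (.both (.ref 125 1) (.play 321 (.ref 123 64))))))
 (.one (.both (.play 1 (.ref 6 0)) (.play 384 (.ref 5 128))))))
 (.seq (.one (.play 320 (.both (.play 192 (.ref 127 0)) (.play 257 (.ref 6 64)))))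
 (.seq (.one (.both (.play 64 (.ref 2 0)) (.play 5 (.ref 1 1))))
 (.one (.both (.play 2 (.ref 4 2)) (.play 196 (.ref 129 192))))))))
 (.seq (.seq (.seq (.one (.play 65 (.both (.play 321 (.both (.ref 74 0) (.play 385 (.ref 4 128)))) (.play 129 (.ref 5 64)))))
 (.seq (.one (.play 386 (.both (.play 131 (.both (.ref 131 3) (.play 322 (.ref 6 130)))) (.both (.play 387 (.both (.play 388 (.both (.play 324 (.ref 130 129)) (.play 452 (.ref 4 195)))) (.play 450 (.ref 6 194)))) (.both (.ref 128 130) (.play 387 (.both (.play 324 (.both (.ref 126 194) (.play 325 (.ref 122 320)))) (.play 450 (.ref 6 194)))))))))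
 (.one (.both (.play 0 (.ref 7 0)) (.play 322 (.ref 4 65))))))
 (.seq (.one (.play 258 (.both (.play 257 (.ref 133 0)) (.play 194 (.ref 4 1)))))
 (.seq (.one (.both (.play 1 (.ref 6 0)) (.play 128 (.ref 5 64))))
 (.one (.both (.play 65 (.ref 135 0)) (.play 384 (.ref 5 128)))))))
 (.seq (.seq (.one (.play 195 (.both (.play 131 (.ref 136 2)) (.ref 86 192))))
 (.seq (.one (.both (.play 0 (.ref 7 0)) (.play 320 (.ref 6 64))))
 (.one (.play 387 (.both (.play 450 (.both (.play 195 (.both (.ref 137 1) (.play 386 (.ref 6 194)))) (.both (.ref 128 194) (.play 451 (.ref 138 194))))) (.both (.play 195 (.both (.ref 137 1) (.both (.play 131 (.ref 39 67)) (.ref 134 194)))) (.both (.ref 132 64) (.both (.play 195 (.both (.ref 120 128) (.ref 116 129))) (.ref 115 194)))))))))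
 (.seq (.one (.play 65 (.both (.play 0 (.ref 3 0)) (.play 4 (.ref 2 1)))))
 (.seq (.one (.play 5 (.both (.ref 140 0) (.play 6 (.ref 2 2)))))
 (.one (.play 1 (.both (.ref 141 0) (.play 2 (.ref 3 1)))))))))))
 (.seq (.seq (.seq (.seq (.seq (.one (.both (.play 4 (.ref 5 3)) (.play 128 (.ref 2 64))))
 (.one (.play 259 (.both (.ref 93 2) (.both (.play 451 (.both (.play 260 (.ref 143 192)) (.play 516 (.ref 42 258)))) (.play 260 (.ref 87 256)))))))
 (.seq (.one (.both (.ref 144 0) (.play 388 (.ref 0 320))))
 (.seq (.one (.both (.play 64 (.ref 1 0)) (.play 5 (.ref 1 1))))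
 (.one (.play 68 (.both (.ref 18 0) (.play 129 (.ref 146 64))))))))
 (.seq (.seq (.one (.play 131 (.both (.ref 147 1) (.play 132 (.ref 0 64)))))
 (.seq (.one (.play 68 (.both (.play 69 (.ref 80 0)) (.ref 15 64))))
 (.one (.both (.play 0 (.ref 3 0)) (.play 69 (.ref 3 1))))))
 (.seq (.one (.play 3 (.both (.play 4 (.ref 2 0)) (.play 69 (.both (.play 2 (.ref 150 1)) (.ref 15 65))))))
 (.seq (.one (.play 68 (.both (.ref 18 0) (.both (.ref 151 0) (.both (.ref 78 1) (.ref 149 1))))))
 (.one (.play 69 (.both (.play 70 (.ref 19 2)) (.ref 16 64))))))))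
 (.seq (.seq (.seq (.one (.play 129 (.both (.ref 51 0) (.both (.play 65 (.ref 44 0)) (.play 385 (.ref 39 65))))))
 (.one (.play 68 (.both (.play 1 (.ref 3 0)) (.play 5 (.ref 2 1))))))
 (.seq (.one (.play 5 (.both (.play 1 (.both (.play 0 (.ref 3 0)) (.ref 155 1))) (.play 4 (.ref 2 1)))))
 (.seq (.one (.play 195 (.both (.play 323 (.both (.play 131 (.both (.play 67 (.ref 40 2)) (.both (.ref 29 2) (.play 387 (.ref 45 66))))) (.play 324 (.ref 0 256)))) (.play 196 (.ref 2 192)))))
 (.one (.play 259 (.both (.ref 157 0) (.both (.play 260 (.both (.play 261 (.both (.play 194 (.both (.play 322 (.both (.ref 154 1) (.play 321 (.ref 1 257)))) (.play 193 (.ref 3 193)))) (.both (.ref 156 193) (.ref 153 193)))) (.both (.ref 149 193) (.ref 15 256)))) (.both (.play 260 (.both (.play 261 (.both (.play 322 (.both (.play 194 (.both (.ref 154 1) (.play 193 (.ref 3 193)))) (.play 321 (.ref 1 257)))) (.both (.play 262 (.ref 81 193)) (.ref 153 193)))) (.both (.ref 18 192) (.ref 107 193)))) (.both (.ref 78 192) (.both (.ref 152 192) (.play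 260 (.both (.ref 148 192) (.both (.ref 78 193) (.both (.ref 107 193) (.ref 15 256)))))))))))))))
 (.seq (.seq (.one (.play 67 (.both (.play 0 (.ref 0 0)) (.play 6 (.ref 146 2)))))
 (.seq (.one (.play 68 (.both (.ref 159 0) (.play 69 (.ref 0 1)))))
 (.one (.play 2 (.both (.ref 98 0) (.both (.ref 16 1) (.ref 160 1)))))))
 (.seq (.one (.play 68 (.both (.ref 148 0) (.both (.play 5 (.ref 95 1)) (.both (.ref 107 1) (.ref 15 64))))))
 (.seq (.one (.play 70 (.both (.ref 153 2) (.both (.ref 162 3) (.both (.ref 161 64) (.ref 98 65))))))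
 (.one (.play 67 (.both (.play 68 (.ref 104 0)) (.play 66 (.ref 146 1))))))))))
 (.seq (.seq (.seq (.seq (.one (.play 67 (.both (.play 66 (.both (.ref 18 2) (.ref 98 64))) (.both (.play 71 (.ref 20 2)) (.both (.play 71 (.both (.ref 18 3) (.ref 164 66))) (.ref 98 65))))))
 (.one (.play 4 (.both (.play 3 (.ref 2 0)) (.ref 101 0)))))
 (.seq (.one (.play 129 (.both (.ref 166 1) (.play 128 (.ref 1 64)))))
 (.seq (.one (.play 321 (.both (.play 65 (.ref 45 0)) (.both (.play 385 (.ref 44 64)) (.play 386 (.ref 42 128))))))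
 (.one (.play 69 (.both (.ref 149 2) (.ref 16 64)))))))
 (.seq (.seq (.one (.play 129 (.both (.play 65 (.both (.play 4 (.ref 2 1)) (.play 128 (.ref 1 64)))) (.play 130 (.ref 1 65)))))
 (.seq (.one (.play 5 (.both (.ref 170 0) (.play 6 (.ref 2 2)))))
 (.one (.both (.play 64 (.ref 2 0)) (.play 5 (.ref 2 1))))))
 (.seq (.one (.play 4 (.both (.play 65 (.ref 172 0)) (.play 71 (.ref 3 3)))))
 (.seq (.one (.play 3 (.both (.ref 173 0) (.play 2 (.ref 3 2)))))
 (.one (.play 259 (.both (.play 323 (.ref 71 2)) (.play 260 (.ref 0 192)))))))))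
 (.seq (.seq (.seq (.one (.play 132 (.both (.play 131 (.both (.ref 175 1) (.play 192 (.ref 2 128)))) (.play 133 (.ref 2 129)))))
 (.seq (.one (.play 197 (.both (.ref 176 1) (.both (.play 198 (.both (.ref 174 128) (.ref 15 194))) (.both (.play 198 (.both (.ref 174 128) (.both (.ref 18 130) (.ref 156 130)))) (.both (.ref 149 130) (.play 134 (.ref 95 130))))))))
 (.one (.play 197 (.both (.ref 177 1) (.both (.ref 171 128) (.both (.ref 153 129) (.ref 169 129))))))))
 (.seq (.one (.both (.play 64 (.ref 2 0)) (.play 6 (.ref 1 2))))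
 (.seq (.one (.both (.play 3 (.ref 179 0)) (.play 68 (.ref 2 1))))
 (.one (.both (.play 1 (.ref 6 0)) (.play 320 (.ref 5 64)))))))
 (.seq (.seq (.one (.both (.play 5 (.ref 95 1)) (.play 128 (.ref 1 64))))
 (.seq (.one (.play 134 (.both (.play 198 (.both (.play 261 (.both (.play 325 (.ref 136 5)) (.play 199 (.both (.play 200 (.ref 182 132)) (.both (.ref 15 195) (.play 262 (.both (.play 263 (.ref 0 195)) (.play 200 (.ref 146 196))))))))) (.play 135 (.ref 2 131)))) (.both (.play 198 (.both (.play 262 (.both (.play 261 (.both (.play 325 (.ref 181 69)) (.play 194 (.ref 0 194)))) (.play 263 (.ref 0 195)))) (.play 135 (.ref 2 131)))) (.both (.play 194 (.both (.play 133 (.ref 2 130)) (.ref 98 192))) (.play 135 (.ref 180 130)))))))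
 (.one (.both (.play 65 (.ref 3 0)) (.play 69 (.ref 3 1))))))
 (.seq (.one (.both (.play 0 (.ref 0 0)) (.play 69 (.ref 184 1))))
 (.seq (.one (.play 257 (.both (.play 64 (.ref 7 0)) (.ref 23 1))))
 (.one (.play 257 (.both (.play 1 (.ref 26 0)) (.both (.ref 22 64) (.ref 186 64)))))))))))))
 (.seq (.seq (.seq (.seq (.seq (.seq (.seq (.one (.both (.play 192 (.ref 4 0)) (.play 65 (.ref 7 0))))
 (.one (.both (.ref 79 0) (.ref 16 64))))
 (.seq (.one (.play 1 (.both (.ref 140 0) (.play 2 (.ref 3 1)))))
 (.seq (.one (.play 66 (.both (.ref 190 0) (.ref 16 65))))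
 (.one (.play 67 (.both (.ref 191 0) (.both (.play 66 (.ref 189 1)) (.both (.play 66 (.both (.play 4 (.both (.play 65 (.ref 2 1)) (.play 3 (.ref 3 3)))) (.ref 16 65))) (.ref 79 2)))))))))
 (.seq (.seq (.one (.play 71 (.both (.ref 192 0) (.ref 78 4))))
 (.seq (.one (.both (.play 262 (.ref 4 5)) (.ref 193 128)))
 (.one (.play 196 (.both (.play 198 (.ref 194 0)) (.play 260 (.ref 6 4)))))))
 (.seq (.one (.play 196 (.both (.play 132 (.ref 136 3)) (.play 197 (.ref 122 192)))))
 (.seq (.one (.both (.play 4 (.ref 2 0)) (.play 131 (.ref 0 64))))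
 (.one (.both (.play 0 (.ref 4 0)) (.play 321 (.ref 7 64))))))))
 (.seq (.seq (.seq (.one (.both (.play 0 (.ref 4 0)) (.play 321 (.ref 4 64))))
 (.one (.play 259 (.both (.play 387 (.ref 94 0)) (.play 260 (.ref 2 256))))))
 (.seq (.one (.both (.play 385 (.both (.ref 200 1) (.play 384 (.ref 1 320)))) (.both (.play 325 (.ref 20 256)) (.both (.play 325 (.ref 19 257)) (.play 325 (.ref 17 320))))))
 (.seq (.one (.play 387 (.both (.play 259 (.both (.play 451 (.both (.ref 92 2) (.ref 24 258))) (.play 260 (.ref 2 256)))) (.play 388 (.ref 0 320)))))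
 (.one (.play 68 (.both (.play 0 (.ref 3 0)) (.play 129 (.ref 1 64))))))))
 (.seq (.seq (.one (.both (.play 1 (.ref 6 0)) (.play 320 (.ref 6 64))))
 (.seq (.one (.play 257 (.both (.play 65 (.ref 204 0)) (.play 196 (.ref 1 192)))))
 (.one (.play 256 (.both (.play 64 (.ref 5 0)) (.play 129 (.ref 109 0)))))))
 (.seq (.one (.play 65 (.both (.play 192 (.ref 135 0)) (.play 257 (.ref 6 64)))))
 (.seq (.one (.both (.ref 207 0) (.both (.play 192 (.ref 136 0)) (.both (.play 257 (.ref 110 64)) (.ref 206 128)))))
 (.one (.both (.play 194 (.both (.play 130 (.ref 208 1)) (.both (.ref 205 65) (.both (.play 193 (.both (.play 130 (.ref 181 65)) (.play 261 (.ref 3 193)))) (.ref 203 193))))) (.play 320 (.ref 1 256)))))))))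
 (.seq (.seq (.seq (.seq (.one (.play 257 (.both (.play 2 (.ref 5 1)) (.play 322 (.ref 42 64)))))
 (.one (.play 257 (.both (.ref 25 0) (.play 66 (.ref 5 1))))))
 (.seq (.one (.play 257 (.both (.play 1 (.ref 26 0)) (.both (.ref 211 64) (.ref 59 65)))))
 (.seq (.one (.play 65 (.both (.play 0 (.ref 3 0)) (.play 128 (.ref 1 64)))))
 (.one (.both (.play 129 (.both (.ref 213 0) (.play 130 (.ref 1 65)))) (.play 2 (.ref 3 1)))))))
 (.seq (.seq (.one (.play 66 (.both (.play 1 (.ref 214 0)) (.play 5 (.ref 2 2)))))
 (.seq (.one (.play 195 (.both (.play 197 (.both (.play 261 (.ref 4 4)) (.ref 215 128))) (.play 259 (.ref 6 3)))))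
 (.one (.play 129 (.both (.ref 75 1) (.ref 43 64))))))
 (.seq (.one (.play 193 (.both (.ref 217 0) (.both (.play 129 (.ref 48 64)) (.both (.play 129 (.both (.ref 43 64) (.play 258 (.both (.play 65 (.ref 4 65)) (.play 194 (.ref 5 193)))))) (.ref 38 129))))))
 (.seq (.one (.play 452 (.both (.play 260 (.both (.ref 218 3) (.both (.ref 131 132) (.ref 216 256)))) (.both (.play 261 (.ref 208 132)) (.both (.ref 212 259) (.ref 210 259))))))
 (.one (.play 4 (.both (.play 1 (.ref 1 0)) (.play 66 (.ref 117 0)))))))))
 (.seq (.seq (.seq (.one (.both (.play 65 (.both (.play 3 (.ref 121 0)) (.play 68 (.ref 2 1)))) (.both (.play 3 (.ref 122 0)) (.both (.play 68 (.ref 118 1)) (.ref 220 2)))))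
 (.seq (.one (.play 257 (.both (.play 321 (.ref 45 0)) (.ref 23 1))))
 (.one (.play 196 (.both (.play 260 (.ref 4 3)) (.play 197 (.ref 13 128)))))))
 (.seq (.one (.play 259 (.both (.play 66 (.both (.play 130 (.both (.ref 223 0) (.play 323 (.ref 7 66)))) (.play 2 (.ref 7 2)))) (.both (.ref 47 2) (.ref 23 3)))))
 (.seq (.one (.both (.play 0 (.ref 7 0)) (.play 321 (.ref 7 64))))
 (.one (.play 192 (.both (.play 256 (.ref 204 0)) (.play 128 (.ref 225 64))))))))
 (.seq (.seq (.one (.play 321 (.both (.ref 226 0) (.both (.ref 25 64) (.ref 47 64)))))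
 (.seq (.one (.play 258 (.both (.play 194 (.both (.play 3 (.ref 6 2)) (.ref 223 64))) (.play 322 (.ref 6 66)))))
 (.one (.play 131 (.both (.play 259 (.both (.ref 228 0) (.both (.ref 227 2) (.both (.ref 224 64) (.both (.ref 222 66) (.play 322 (.ref 35 66))))))) (.play 132 (.ref 3 66)))))))
 (.seq (.one (.play 69 (.both (.ref 79 0) (.play 70 (.ref 19 2)))))
 (.seq (.one (.play 3 (.both (.play 4 (.ref 172 0)) (.play 2 (.ref 150 1)))))
 (.one (.play 69 (.both (.ref 231 0) (.both (.ref 18 1) (.ref 230 1)))))))))))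
 (.seq (.seq (.seq (.seq (.seq (.one (.play 195 (.both (.play 259 (.ref 69 2)) (.play 196 (.ref 184 128)))))
 (.one (.play 450 (.both (.play 258 (.both (.ref 218 1) (.play 449 (.both (.play 451 (.both (.play 515 (.ref 4 258)) (.play 452 (.ref 3 384)))) (.play 513 (.ref 6 257)))))) (.both (.play 259 (.ref 136 130)) (.both (.ref 233 256) (.play 514 (.both (.play 259 (.ref 5 258)) (.ref 24 321)))))))))
 (.seq (.one (.play 65 (.both (.play 5 (.ref 2 1)) (.ref 16 64))))
 (.seq (.one (.play 452 (.both (.play 260 (.both (.ref 218 3) (.both (.ref 131 132) (.play 453 (.both (.play 451 (.both (.play 515 (.ref 6 259)) (.play 450 (.both (.ref 235 384) (.play 385 (.ref 3 385)))))) (.play 517 (.ref 4 260))))))) (.both (.play 261 (.ref 208 132)) (.both (.ref 212 259) (.ref 210 259))))))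
 (.one (.both (.play 0 (.ref 3 0)) (.ref 16 64))))))
 (.seq (.seq (.one (.play 133 (.both (.play 65 (.both (.play 0 (.ref 3 0)) (.play 132 (.ref 0 65)))) (.play 134 (.ref 0 66)))))
 (.seq (.one (.play 68 (.both (.ref 18 0) (.play 69 (.both (.ref 79 0) (.ref 103 65))))))
 (.one (.play 69 (.both (.ref 79 0) (.ref 107 2))))))
 (.seq (.one (.play 68 (.both (.ref 230 0) (.both (.ref 240 0) (.ref 15 64)))))
 (.seq (.one (.play 68 (.both (.ref 18 0) (.play 69 (.ref 81 0)))))
 (.one (.play 68 (.both (.play 0 (.ref 3 0)) (.ref 78 1))))))))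
 (.seq (.seq (.seq (.one (.play 68 (.both (.ref 18 0) (.both (.play 3 (.both (.play 4 (.ref 2 0)) (.play 69 (.ref 150 1)))) (.ref 243 1)))))
 (.one (.play 256 (.both (.play 192 (.ref 6 0)) (.play 257 (.ref 138 0))))))
 (.seq (.one (.play 257 (.both (.play 2 (.ref 5 1)) (.ref 245 64))))
 (.seq (.one (.play 65 (.both (.play 0 (.ref 7 0)) (.play 258 (.ref 4 65)))))
 (.one (.play 322 (.both (.play 64 (.both (.ref 247 0) (.play 128 (.ref 7 64)))) (.play 386 (.ref 4 129))))))))
 (.seq (.seq (.one (.play 257 (.both (.ref 25 0) (.play 2 (.ref 5 1)))))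
 (.seq (.one (.play 449 (.both (.play 193 (.both (.ref 217 0) (.ref 23 193))) (.both (.play 514 (.ref 42 256)) (.ref 249 256)))))
 (.one (.play 320 (.both (.play 64 (.both (.play 0 (.ref 7 0)) (.ref 21 64))) (.play 256 (.ref 6 64)))))))
 (.seq (.one (.both (.play 5 (.ref 2 1)) (.play 128 (.ref 1 64))))
 (.seq (.one (.play 129 (.both (.play 1 (.both (.ref 213 0) (.play 2 (.ref 3 1)))) (.play 130 (.ref 1 65)))))
 (.one (.play 66 (.both (.ref 253 0) (.play 6 (.ref 2 2))))))))))
 (.seq (.seq (.seq (.seq (.one (.play 196 (.both (.play 260 (.ref 6 4)) (.ref 254 128))))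
 (.one (.play 68 (.both (.play 4 (.ref 7 4)) (.play 259 (.both (.ref 255 64) (.both (.play 260 (.both (.play 322 (.both (.play 262 (.both (.play 326 (.ref 4 69)) (.play 323 (.ref 1 258)))) (.play 258 (.ref 252 193)))) (.play 324 (.ref 6 68)))) (.play 195 (.both (.play 323 (.ref 5 67)) (.play 194 (.ref 1 130)))))))))))
 (.seq (.one (.play 3 (.both (.play 4 (.ref 2 0)) (.play 130 (.ref 5 2)))))
 (.seq (.one (.both (.play 2 (.ref 5 1)) (.play 321 (.ref 7 64))))
 (.one (.play 68 (.both (.ref 78 1) (.play 128 (.ref 1 64))))))))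
 (.seq (.seq (.one (.play 129 (.both (.ref 248 0) (.both (.ref 131 1) (.play 385 (.ref 48 64))))))
 (.seq (.one (.play 257 (.both (.play 0 (.ref 7 0)) (.ref 25 0))))
 (.one (.both (.play 0 (.ref 4 0)) (.play 385 (.ref 7 128))))))
 (.seq (.one (.play 321 (.both (.play 193 (.ref 262 0)) (.play 256 (.ref 4 64)))))
 (.seq (.one (.play 193 (.both (.ref 91 0) (.play 386 (.ref 4 193)))))
 (.one (.play 450 (.both (.ref 264 0) (.both (.ref 263 193) (.play 449 (.both (.ref 261 256) (.play 514 (.ref 4 257))))))))))))
 (.seq (.seq (.seq (.one (.both (.play 64 (.ref 7 0)) (.play 322 (.ref 4 65))))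
 (.seq (.one (.play 258 (.both (.play 257 (.ref 266 0)) (.play 194 (.ref 4 1)))))
 (.one (.both (.play 0 (.ref 7 0)) (.ref 267 64)))))
 (.seq (.one (.both (.play 64 (.ref 1 0)) (.play 69 (.ref 0 1))))
 (.seq (.one (.play 68 (.both (.play 67 (.ref 0 0)) (.play 4 (.ref 269 0)))))
 (.one (.play 68 (.both (.play 0 (.ref 3 0)) (.ref 270 65)))))))
 (.seq (.seq (.one (.play 64 (.both (.ref 38 0) (.play 321 (.ref 4 64)))))
 (.seq (.one (.play 64 (.both (.play 192 (.ref 262 0)) (.play 129 (.ref 7 64)))))
 (.one (.play 129 (.both (.ref 51 0) (.ref 61 128))))))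
 (.seq (.one (.play 261 (.both (.play 389 (.both (.ref 93 4) (.both (.ref 265 4) (.both (.ref 274 68) (.both (.play 196 (.both (.ref 273 68) (.both (.play 197 (.both (.ref 272 69) (.play 132 (.ref 7 132)))) (.play 453 (.both (.play 260 (.ref 7 196)) (.ref 60 260)))))) (.both (.play 197 (.both (.ref 248 68) (.both (.ref 51 68) (.both (.ref 131 69) (.play 390 (.both (.play 327 (.both (.play 199 (.both (.play 263 (.both (.play 135 (.ref 6 134)) (.play 264 (.ref 2 260)))) (.both (.play 198 (.both (.play 200 (.ref 182 132)) (.play 134 (.ref 5 133)))) (.play 198 (.both (.play 136 (.both (.play 200 (.ref 252 132)) (.play 196 (.both (.play 132 (.ref 7 132)) (.play 135 (.ref 2 132)))))) (.play 134 (.ref 5 133))))))) (.both (.ref 65 260) (.ref 271 260)))) (.play 454 (.ref 4 197)))))))) (.play 453 (.both (.ref 256 192) (.both (.play 260 (.ref 268 196)) (.both (.ref 251 196) (.play 516 (.ref 35 260)))))))))))) (.both (.play 389 (.both (.ref 250 4) (.both (.ref 265 4) (.both (.ref 52 68) (.both (.ref 260 68) (.both (.play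 197 (.both (.ref 248 68) (.both (.ref 51 68) (.both (.ref 131 69) (.play 198 (.both (.play 196 (.both (.play 132 (.ref 7 132)) (.play 199 (.both (.ref 65 132) (.both (.ref 259 132) (.both (.play 262 (.both (.play 390 (.ref 258 133)) (.play 200 (.ref 146 196)))) (.play 390 (.both (.ref 257 132) (.play 454 (.ref 68 197)))))))))) (.play 134 (.ref 5 133)))))))) (.both (.play 453 (.ref 50 132)) (.play 453 (.both (.ref 256 192) (.both (.ref 251 196) (.ref 62 197))))))))))) (.both (.play 197 (.both (.ref 76 4) (.both (.ref 73 4) (.both (.play 390 (.ref 72 69)) (.play 263 (.both (.play 389 (.both (.play 264 (.both (.play 198 (.both (.play 196 (.both (.play 132 (.ref 7 132)) (.play 199 (.ref 0 196)))) (.play 134 (.ref 5 133)))) (.play 327 (.ref 118 260)))) (.ref 61 196))) (.play 262 (.ref 2 259)))))))) (.both (.play 262 (.both (.play 389 (.both (.ref 250 4) (.both (.play 197 (.both (.ref 248 68) (.both (.ref 51 68) (.play 198 (.both (.play 199 (.both (.play 390 (.both (.play 135 (.ref 5 134)) (.play 454 (.ref 4 197))))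 (.play 200 (.ref 146 196)))) (.play 134 (.ref 5 133))))))) (.ref 246 196)))) (.play 263 (.ref 2 259)))) (.ref 244 259)))))))
 (.seq (.one (.play 4 (.both (.play 3 (.ref 2 0)) (.ref 155 0))))
 (.one (.play 68 (.both (.ref 276 1) (.ref 15 64)))))))))))
 (.seq (.seq (.seq (.seq (.seq (.seq (.one (.play 68 (.both (.play 1 (.ref 3 0)) (.ref 18 0))))
 (.one (.play 257 (.both (.play 65 (.ref 7 0)) (.play 321 (.ref 7 64))))))
 (.seq (.one (.play 257 (.both (.play 64 (.ref 7 0)) (.play 320 (.ref 35 64)))))
 (.seq (.one (.play 195 (.both (.play 67 (.both (.ref 280 2) (.play 68 (.ref 2 64)))) (.play 196 (.ref 0 128)))))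
 (.one (.play 133 (.both (.ref 281 2) (.both (.play 134 (.both (.play 197 (.both (.play 68 (.both (.ref 279 4) (.play 135 (.ref 3 67)))) (.play 198 (.ref 0 130)))) (.both (.play 135 (.both (.play 68 (.ref 3 67)) (.ref 78 68))) (.ref 15 130)))) (.both (.play 134 (.both (.ref 173 64) (.both (.ref 18 66) (.ref 278 67)))) (.both (.ref 277 66) (.play 70 (.ref 95 66)))))))))))
 (.seq (.seq (.one (.play 196 (.both (.play 194 (.both (.play 258 (.ref 6 2)) (.ref 282 64))) (.play 260 (.ref 4 3)))))
 (.seq (.one (.both (.play 1 (.ref 5 0)) (.play 321 (.ref 4 64))))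
 (.one (.play 65 (.both (.play 64 (.ref 284 0)) (.play 129 (.ref 5 64)))))))
 (.seq (.one (.play 129 (.both (.ref 285 1) (.ref 43 64))))
 (.seq (.one (.play 66 (.both (.play 65 (.ref 3 0)) (.play 130 (.ref 1 65)))))
 (.one (.play 197 (.both (.play 195 (.both (.play 259 (.ref 6 3)) (.play 194 (.ref 214 128)))) (.play 261 (.ref 4 4)))))))))
 (.seq (.seq (.seq (.one (.play 260 (.both (.ref 92 3) (.ref 288 256))))
 (.one (.play 68 (.both (.ref 18 0) (.both (.play 69 (.both (.play 3 (.both (.play 4 (.ref 2 0)) (.play 70 (.ref 3 2)))) (.ref 15 65))) (.both (.play 69 (.ref 19 1)) (.ref 277 1)))))))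
 (.seq (.one (.play 66 (.both (.ref 253 0) (.ref 290 2))))
 (.seq (.one (.both (.play 0 (.ref 4 0)) (.ref 279 64)))
 (.one (.both (.play 2 (.ref 4 2)) (.play 260 (.ref 0 192)))))))
 (.seq (.seq (.one (.play 197 (.both (.play 194 (.both (.play 261 (.ref 293 2)) (.ref 253 128))) (.both (.play 261 (.ref 292 4)) (.ref 291 128)))))
 (.seq (.one (.both (.ref 294 0) (.play 259 (.ref 6 3))))
 (.one (.play 65 (.both (.ref 97 0) (.play 66 (.ref 1 1)))))))
 (.seq (.one (.play 261 (.both (.play 197 (.both (.play 196 (.both (.play 195 (.both (.play 194 (.both (.play 258 (.both (.ref 205 2) (.play 257 (.ref 1 193)))) (.both (.play 260 (.both (.play 67 (.ref 69 3)) (.play 193 (.ref 0 193)))) (.ref 296 192)))) (.play 130 (.ref 3 130)))) (.both (.play 132 (.ref 13 129)) (.play 199 (.both (.play 132 (.ref 3 131)) (.play 260 (.ref 146 195))))))) (.play 6 (.ref 6 5)))) (.both (.play 197 (.ref 110 5)) (.play 262 (.ref 295 66))))))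
 (.seq (.one (.play 256 (.both (.play 193 (.ref 110 0)) (.both (.play 128 (.ref 124 0)) (.both (.play 1 (.both (.play 193 (.ref 6 0)) (.play 128 (.ref 5 0)))) (.ref 206 64))))))
 (.one (.both (.play 66 (.ref 5 1)) (.play 320 (.ref 6 64)))))))))
 (.seq (.seq (.seq (.seq (.one (.play 256 (.both (.play 192 (.ref 6 0)) (.play 257 (.ref 299 0)))))
 (.one (.both (.play 2 (.ref 5 1)) (.ref 300 64))))
 (.seq (.one (.both (.play 0 (.ref 7 0)) (.play 321 (.ref 5 65))))
 (.seq (.one (.play 193 (.both (.play 2 (.ref 5 1)) (.play 256 (.both (.play 320 (.ref 6 64)) (.play 194 (.ref 1 192)))))))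
 (.one (.play 68 (.both (.play 69 (.both (.play 1 (.ref 3 1)) (.ref 276 2))) (.ref 15 64)))))))
 (.seq (.seq (.one (.play 259 (.both (.play 323 (.ref 71 2)) (.play 260 (.ref 10 192)))))
 (.seq (.one (.both (.play 259 (.ref 6 3)) (.ref 291 128)))
 (.one (.play 197 (.both (.play 195 (.ref 306 0)) (.play 261 (.ref 4 4)))))))
 (.seq (.one (.play 66 (.both (.ref 170 0) (.play 1 (.ref 3 1)))))
 (.seq (.one (.both (.play 0 (.ref 7 0)) (.ref 27 64)))
 (.one (.both (.play 129 (.ref 7 0)) (.play 128 (.ref 4 0))))))))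
 (.seq (.seq (.seq (.one (.both (.play 193 (.ref 6 0)) (.play 64 (.ref 5 0))))
 (.seq (.one (.both (.play 129 (.ref 6 0)) (.play 128 (.ref 5 0))))
 (.one (.both (.play 2 (.ref 5 1)) (.ref 61 64)))))
 (.seq (.one (.play 257 (.both (.play 129 (.ref 313 0)) (.both (.play 2 (.ref 312 1)) (.both (.play 130 (.ref 110 1)) (.play 321 (.both (.play 130 (.ref 311 65)) (.both (.ref 212 128) (.ref 210 128)))))))))
 (.seq (.one (.both (.ref 92 0) (.play 512 (.ref 6 256))))
 (.one (.both (.play 257 (.ref 315 0)) (.both (.play 256 (.ref 71 128)) (.both (.play 512 (.ref 110 256)) (.play 513 (.ref 309 256)))))))))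
 (.seq (.seq (.one (.play 129 (.both (.ref 51 0) (.play 384 (.ref 6 128)))))
 (.seq (.one (.play 129 (.both (.ref 90 0) (.both (.play 65 (.both (.ref 38 1) (.play 256 (.ref 6 64)))) (.play 385 (.ref 48 64))))))
 (.one (.play 257 (.both (.play 385 (.ref 315 0)) (.both (.play 193 (.both (.ref 318 0) (.both (.ref 317 0) (.play 384 (.ref 311 192))))) (.both (.play 384 (.ref 136 128)) (.play 512 (.ref 312 256)))))))))
 (.seq (.one (.both (.ref 218 0) (.play 514 (.ref 4 257))))
 (.seq (.one (.play 257 (.both (.play 385 (.ref 320 0)) (.both (.play 193 (.both (.ref 76 0) (.both (.ref 73 0) (.play 386 (.ref 188 193))))) (.both (.play 386 (.ref 71 129)) (.play 514 (.ref 310 257)))))))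
 (.one (.both (.play 385 (.both (.play 257 (.ref 320 0)) (.both (.play 258 (.ref 136 129)) (.both (.play 513 (.ref 313 256)) (.play 514 (.ref 69 257)))))) (.both (.ref 321 0) (.both (.ref 319 1) (.both (.play 386 (.ref 316 1)) (.both (.ref 314 256) (.play 514 (.both (.play 257 (.ref 310 257)) (.both (.play 385 (.ref 69 257)) (.both (.play 386 (.ref 309 257)) (.play 578 (.both (.play 385 (.ref 188 321)) (.both (.ref 187 385) (.ref 115 385))))))))))))))))))))
 (.seq (.seq (.seq (.seq (.seq (.one (.play 195 (.both (.ref 279 2) (.play 196 (.ref 10 128)))))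
 (.one (.both (.play 0 (.ref 3 0)) (.play 5 (.ref 2 1)))))
 (.seq (.one (.play 192 (.both (.play 256 (.ref 6 0)) (.play 132 (.ref 1 128)))))
 (.seq (.one (.play 129 (.both (.play 65 (.ref 48 0)) (.ref 23 129))))
 (.one (.play 1 (.both (.play 65 (.ref 324 0)) (.play 2 (.ref 3 1))))))))
 (.seq (.seq (.one (.play 68 (.both (.play 0 (.ref 3 0)) (.play 5 (.ref 95 1)))))
 (.seq (.one (.play 193 (.both (.play 129 (.both (.ref 51 0) (.play 386 (.ref 4 129)))) (.both (.play 258 (.both (.play 129 (.ref 199 65)) (.play 194 (.ref 5 193)))) (.ref 38 129)))))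
 (.one (.both (.play 257 (.ref 4 0)) (.play 256 (.ref 5 0))))))
 (.seq (.one (.both (.ref 253 0) (.both (.play 70 (.ref 20 1)) (.play 70 (.ref 80 1)))))
 (.seq (.one (.play 66 (.both (.play 1 (.ref 214 0)) (.both (.play 70 (.ref 81 1)) (.play 70 (.ref 17 65))))))
 (.one (.play 129 (.both (.play 257 (.both (.play 65 (.ref 5 1)) (.play 256 (.ref 1 192)))) (.play 128 (.ref 3 128)))))))))
 (.seq (.seq (.seq (.one (.play 196 (.both (.ref 333 0) (.play 133 (.ref 95 129)))))
 (.one (.play 131 (.both (.play 259 (.both (.play 67 (.ref 7 2)) (.play 260 (.ref 0 192)))) (.play 132 (.ref 2 128))))))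
 (.seq (.one (.play 194 (.both (.ref 335 2) (.play 129 (.ref 214 128)))))
 (.seq (.one (.play 66 (.both (.play 65 (.ref 81 0)) (.both (.play 1 (.ref 214 0)) (.play 70 (.ref 17 65))))))
 (.one (.both (.play 0 (.ref 3 0)) (.play 133 (.ref 0 65)))))))
 (.seq (.seq (.one (.play 1 (.both (.play 65 (.ref 338 0)) (.play 2 (.ref 3 1)))))
 (.seq (.one (.play 66 (.both (.ref 79 1) (.play 65 (.ref 17 64)))))
 (.one (.both (.play 64 (.ref 7 0)) (.ref 27 64)))))
 (.seq (.one (.play 259 (.both (.play 131 (.both (.play 67 (.ref 341 2)) (.play 132 (.ref 2 128)))) (.play 260 (.ref 0 192)))))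
 (.seq (.one (.both (.play 1 (.ref 214 0)) (.play 6 (.ref 2 2))))
 (.one (.both (.play 66 (.ref 4 2)) (.play 260 (.ref 0 192)))))))))
 (.seq (.seq (.seq (.seq (.one (.play 257 (.both (.play 130 (.ref 6 1)) (.ref 259 128))))
 (.one (.play 262 (.both (.play 198 (.both (.play 134 (.both (.play 70 (.ref 7 5)) (.play 135 (.ref 2 131)))) (.play 263 (.ref 0 195)))) (.play 194 (.both (.ref 253 128) (.play 261 (.ref 0 194))))))))
 (.seq (.one (.play 256 (.both (.play 64 (.ref 5 0)) (.play 320 (.ref 5 64)))))
 (.seq (.one (.both (.play 1 (.ref 6 0)) (.ref 347 64)))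
 (.one (.play 131 (.both (.play 67 (.ref 348 2)) (.play 132 (.ref 2 128))))))))
 (.seq (.seq (.one (.play 259 (.both (.play 130 (.ref 4 2)) (.play 260 (.ref 10 192)))))
 (.seq (.one (.both (.play 260 (.ref 4 3)) (.play 132 (.ref 172 128))))
 (.one (.play 257 (.both (.play 130 (.ref 6 1)) (.play 256 (.ref 1 192)))))))
 (.seq (.one (.play 259 (.both (.play 130 (.ref 4 2)) (.play 260 (.ref 0 192)))))
 (.seq (.one (.both (.play 2 (.ref 6 1)) (.play 256 (.ref 1 192))))
 (.one (.play 196 (.both (.play 199 (.both (.play 260 (.ref 354 3)) (.ref 78 132))) (.both (.play 260 (.ref 348 4)) (.ref 193 128)))))))))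
 (.seq (.seq (.seq (.one (.play 133 (.both (.ref 355 0) (.play 261 (.ref 5 5)))))
 (.seq (.one (.play 321 (.both (.play 65 (.ref 39 1)) (.both (.play 385 (.ref 40 64)) (.play 384 (.ref 35 128))))))
 (.one (.play 65 (.both (.play 1 (.ref 6 0)) (.play 257 (.ref 6 64)))))))
 (.seq (.one (.both (.ref 358 0) (.play 384 (.ref 5 128))))
 (.seq (.one (.play 257 (.both (.play 321 (.ref 359 1)) (.play 256 (.ref 1 192)))))
 (.one (.play 68 (.both (.ref 78 1) (.play 129 (.ref 1 64))))))))
 (.seq (.seq (.one (.play 67 (.both (.play 65 (.both (.ref 361 0) (.play 1 (.ref 7 1)))) (.play 3 (.ref 5 2)))))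
 (.seq (.one (.play 259 (.both (.play 195 (.both (.ref 318 2) (.both (.ref 317 2) (.both (.play 386 (.ref 208 66)) (.play 387 (.both (.ref 362 129) (.both (.ref 251 130) (.ref 27 194)))))))) (.play 260 (.ref 2 256)))))
 (.one (.play 257 (.both (.ref 25 0) (.play 321 (.ref 39 1)))))))
 (.seq (.one (.play 321 (.both (.play 194 (.both (.play 258 (.ref 199 1)) (.play 130 (.ref 124 65)))) (.both (.ref 49 64) (.ref 23 65)))))
 (.seq (.one (.play 257 (.both (.ref 25 0) (.play 66 (.ref 124 1)))))
 (.one (.play 194 (.both (.play 258 (.ref 4 1)) (.ref 366 64)))))))))))))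
 (.seq (.seq (.seq (.seq (.seq (.seq (.seq (.seq (.one (.play 259 (.both (.play 66 (.ref 7 2)) (.play 323 (.both (.ref 120 64) (.both (.ref 367 66) (.both (.ref 365 66) (.both (.ref 364 130) (.play 386 (.ref 35 130))))))))))
 (.one (.play 261 (.both (.ref 227 4) (.both (.ref 195 64) (.ref 267 68))))))
 (.seq (.one (.play 322 (.both (.play 130 (.both (.play 66 (.ref 40 1)) (.both (.ref 131 2) (.play 323 (.both (.play 324 (.both (.play 321 (.both (.play 385 (.ref 6 129)) (.play 257 (.ref 150 256)))) (.both (.play 321 (.both (.play 385 (.ref 6 129)) (.ref 281 193))) (.ref 243 257)))) (.play 387 (.ref 4 130))))))) (.both (.play 131 (.ref 208 2)) (.both (.ref 212 129) (.ref 210 129))))))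
 (.seq (.one (.both (.play 1 (.ref 1 0)) (.play 67 (.ref 2 0))))
 (.one (.both (.play 65 (.ref 3 0)) (.play 2 (.ref 0 0)))))))
 (.seq (.seq (.one (.play 321 (.both (.ref 38 1) (.ref 222 128))))
 (.seq (.one (.play 257 (.both (.ref 25 0) (.both (.ref 49 0) (.ref 373 0)))))
 (.one (.play 198 (.both (.play 196 (.both (.play 260 (.ref 6 4)) (.play 199 (.both (.ref 192 128) (.ref 277 132))))) (.play 262 (.ref 4 5)))))))
 (.seq (.one (.both (.play 6 (.ref 5 5)) (.ref 375 64)))
 (.seq (.one (.play 68 (.both (.play 1 (.ref 3 0)) (.ref 15 64))))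
 (.one (.play 68 (.both (.play 64 (.ref 19 0)) (.both (.ref 276 1) (.ref 377 1)))))))))
 (.seq (.seq (.seq (.one (.play 195 (.both (.play 259 (.both (.play 67 (.both (.play 66 (.ref 7 2)) (.play 68 (.ref 2 64)))) (.both (.play 66 (.ref 68 2)) (.ref 187 66)))) (.play 196 (.ref 0 128)))))
 (.one (.play 195 (.both (.ref 347 3) (.play 194 (.ref 122 128))))))
 (.seq (.one (.play 132 (.both (.play 68 (.ref 338 0)) (.play 131 (.ref 0 64)))))
 (.seq (.one (.play 131 (.both (.ref 380 0) (.both (.ref 381 67) (.play 130 (.ref 17 129))))))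
 (.one (.both (.play 0 (.ref 0 0)) (.play 70 (.ref 3 2)))))))
 (.seq (.seq (.one (.play 135 (.both (.play 67 (.both (.ref 191 0) (.play 134 (.ref 0 67)))) (.both (.play 71 (.both (.play 72 (.both (.play 4 (.ref 3 4)) (.ref 18 4))) (.play 136 (.ref 0 68)))) (.play 136 (.both (.play 134 (.ref 383 67)) (.play 71 (.ref 0 68))))))))
 (.seq (.one (.play 65 (.both (.play 64 (.ref 2 0)) (.play 128 (.ref 1 64)))))
 (.one (.play 129 (.both (.ref 385 0) (.play 130 (.ref 1 65)))))))
 (.seq (.one (.both (.play 0 (.ref 4 0)) (.play 256 (.ref 4 64))))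
 (.seq (.one (.both (.play 64 (.ref 387 0)) (.play 385 (.ref 7 128))))
 (.one (.play 259 (.both (.play 323 (.ref 388 2)) (.play 260 (.ref 0 192))))))))))
 (.seq (.seq (.seq (.seq (.one (.play 197 (.both (.play 194 (.both (.ref 389 2) (.ref 386 128))) (.play 198 (.ref 150 130)))))
 (.one (.play 65 (.both (.play 193 (.both (.ref 61 0) (.play 192 (.ref 1 128)))) (.play 64 (.ref 3 64))))))
 (.seq (.one (.both (.play 0 (.ref 3 0)) (.play 64 (.ref 2 0))))
 (.seq (.one (.play 257 (.both (.play 321 (.ref 136 1)) (.play 256 (.ref 1 192)))))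
 (.one (.play 259 (.both (.play 323 (.ref 136 3)) (.play 258 (.ref 122 192))))))))
 (.seq (.seq (.one (.play 195 (.both (.ref 394 0) (.both (.play 131 (.both (.play 198 (.both (.ref 393 2) (.play 199 (.ref 3 131)))) (.play 130 (.ref 3 65)))) (.both (.play 130 (.both (.play 131 (.ref 3 65)) (.play 194 (.ref 392 129)))) (.play 194 (.both (.ref 391 65) (.play 193 (.ref 2 129)))))))))
 (.seq (.one (.both (.play 1 (.ref 83 0)) (.play 70 (.ref 3 2))))
 (.one (.play 196 (.both (.play 260 (.ref 4 3)) (.play 197 (.ref 396 128)))))))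
 (.seq (.one (.play 323 (.both (.play 131 (.both (.play 68 (.both (.play 67 (.both (.play 3 (.ref 6 2)) (.play 4 (.ref 5 3)))) (.play 132 (.ref 5 67)))) (.ref 397 128))) (.play 387 (.ref 225 130)))))
 (.seq (.one (.play 129 (.both (.play 65 (.ref 204 0)) (.ref 23 129))))
 (.one (.play 66 (.both (.play 65 (.both (.play 64 (.ref 2 0)) (.play 130 (.ref 3 65)))) (.play 134 (.ref 3 66)))))))))
 (.seq (.seq (.seq (.one (.both (.play 259 (.ref 4 2)) (.play 196 (.ref 150 128))))
 (.seq (.one (.play 67 (.both (.play 68 (.ref 3 0)) (.play 132 (.ref 0 64)))))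
 (.one (.play 66 (.both (.ref 253 0) (.play 134 (.ref 0 66)))))))
 (.seq (.one (.play 1 (.both (.ref 238 0) (.play 2 (.ref 3 1)))))
 (.seq (.one (.both (.play 257 (.ref 124 1)) (.play 192 (.ref 1 128))))
 (.one (.play 130 (.both (.play 66 (.both (.play 194 (.ref 405 1)) (.play 65 (.ref 3 65)))) (.both (.ref 404 64) (.play 197 (.both (.ref 296 128) (.play 198 (.ref 0 130)))))))))))
 (.seq (.seq (.one (.play 66 (.both (.ref 327 0) (.ref 16 65))))
 (.seq (.one (.play 259 (.both (.play 130 (.ref 69 2)) (.play 260 (.ref 0 192)))))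
 (.one (.play 195 (.both (.play 261 (.both (.play 4 (.ref 4 4)) (.ref 403 128))) (.both (.play 4 (.ref 34 3)) (.ref 380 64)))))))
 (.seq (.one (.play 197 (.both (.ref 409 0) (.both (.play 198 (.both (.play 195 (.both (.ref 408 3) (.both (.ref 407 128) (.ref 98 193)))) (.both (.play 133 (.ref 401 3)) (.both (.ref 406 65) (.play 131 (.ref 14 129)))))) (.both (.play 198 (.both (.play 262 (.both (.play 133 (.ref 4 5)) (.ref 403 129))) (.both (.play 195 (.both (.play 259 (.ref 354 2)) (.play 263 (.both (.play 133 (.both (.play 194 (.ref 172 129)) (.ref 402 132))) (.play 262 (.ref 0 195)))))) (.both (.play 133 (.ref 401 3)) (.ref 400 65))))) (.play 261 (.ref 292 4)))))))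
 (.seq (.one (.play 257 (.both (.play 64 (.ref 7 0)) (.ref 25 0))))
 (.one (.both (.ref 192 0) (.play 8 (.ref 2 4))))))))))
 (.seq (.seq (.seq (.seq (.seq (.one (.play 257 (.both (.ref 47 0) (.play 66 (.ref 5 1)))))
 (.one (.play 68 (.both (.play 0 (.ref 3 0)) (.ref 232 0)))))
 (.seq (.one (.play 66 (.both (.play 2 (.ref 7 2)) (.play 65 (.ref 1 64)))))
 (.seq (.one (.both (.ref 415 0) (.play 4 (.ref 5 3))))
 (.one (.play 131 (.both (.play 67 (.ref 44 2)) (.both (.play 67 (.ref 39 3)) (.play 132 (.ref 416 64)))))))))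
 (.seq (.seq (.one (.play 131 (.both (.play 67 (.ref 45 2)) (.both (.play 67 (.ref 40 2)) (.ref 36 64)))))
 (.seq (.one (.play 257 (.both (.play 64 (.ref 225 0)) (.ref 23 1))))
 (.one (.play 192 (.both (.play 256 (.ref 6 0)) (.ref 419 64))))))
 (.seq (.one (.play 259 (.both (.ref 228 0) (.both (.ref 420 2) (.both (.ref 227 2) (.both (.play 324 (.ref 42 66)) (.ref 222 66)))))))
 (.seq (.one (.play 194 (.both (.play 258 (.ref 6 2)) (.play 193 (.ref 87 128)))))
 (.one (.play 68 (.both (.play 4 (.ref 5 3)) (.play 69 (.ref 122 64)))))))))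
 (.seq (.seq (.seq (.one (.both (.play 64 (.ref 5 0)) (.play 129 (.ref 6 0))))
 (.one (.play 129 (.both (.ref 207 0) (.both (.play 192 (.ref 136 0)) (.both (.play 257 (.ref 204 64)) (.play 384 (.ref 424 128))))))))
 (.seq (.one (.play 196 (.both (.play 260 (.ref 69 3)) (.play 197 (.ref 13 128)))))
 (.seq (.one (.play 196 (.both (.play 198 (.both (.play 262 (.ref 4 5)) (.play 195 (.both (.ref 191 128) (.ref 290 131))))) (.play 260 (.ref 6 4)))))
 (.one (.play 193 (.both (.play 257 (.both (.play 64 (.ref 199 0)) (.play 448 (.ref 5 192)))) (.play 129 (.ref 5 128))))))))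
 (.seq (.seq (.one (.play 385 (.both (.ref 428 1) (.ref 25 128))))
 (.seq (.one (.play 129 (.both (.ref 285 1) (.ref 25 128))))
 (.one (.play 129 (.both (.play 65 (.ref 48 0)) (.ref 25 128))))))
 (.seq (.one (.both (.play 256 (.ref 6 0)) (.play 257 (.ref 7 0))))
 (.seq (.one (.play 193 (.both (.play 256 (.ref 312 0)) (.both (.play 129 (.ref 432 0)) (.both (.play 257 (.ref 310 0)) (.play 128 (.ref 330 0)))))))
 (.one (.both (.play 193 (.ref 330 1)) (.play 128 (.ref 1 64)))))))))
 (.seq (.seq (.seq (.seq (.one (.play 69 (.both (.play 66 (.both (.play 130 (.ref 434 1)) (.both (.play 132 (.both (.play 196 (.ref 432 3)) (.play 133 (.ref 104 65)))) (.play 65 (.ref 17 64))))) (.play 70 (.ref 3 2)))))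
 (.one (.both (.ref 195 0) (.play 261 (.ref 5 5)))))
 (.seq (.one (.play 197 (.both (.play 261 (.ref 4 4)) (.ref 291 128))))
 (.seq (.one (.both (.play 196 (.both (.play 260 (.ref 6 4)) (.ref 193 128))) (.play 262 (.ref 4 5))))
 (.one (.play 65 (.both (.play 4 (.ref 172 0)) (.ref 16 64)))))))
 (.seq (.seq (.one (.play 66 (.both (.play 65 (.ref 189 0)) (.ref 18 2))))
 (.seq (.one (.play 67 (.both (.ref 440 0) (.both (.ref 79 2) (.ref 231 2)))))
 (.one (.play 198 (.both (.play 199 (.both (.play 196 (.both (.ref 352 3) (.both (.ref 441 128) (.ref 440 129)))) (.both (.play 196 (.both (.ref 353 4) (.play 131 (.ref 214 130)))) (.both (.play 135 (.both (.play 263 (.ref 7 6)) (.play 132 (.both (.play 200 (.both (.ref 323 69) (.play 133 (.ref 3 132)))) (.both (.play 131 (.both (.play 133 (.ref 383 130)) (.play 196 (.ref 3 131)))) (.play 196 (.ref 324 131))))))) (.both (.play 263 (.ref 310 6)) (.play 196 (.both (.ref 440 129) (.both (.play 131 (.ref 214 130)) (.both (.play 133 (.both (.ref 439 130) (.ref 381 132))) (.play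 200 (.ref 81 131))))))))))) (.both (.play 133 (.ref 438 0)) (.both (.play 134 (.both (.ref 437 2) (.play 262 (.ref 7 5)))) (.play 262 (.ref 310 5)))))))))
 (.seq (.one (.play 130 (.both (.play 259 (.both (.play 195 (.ref 5 3)) (.play 66 (.both (.play 65 (.ref 3 65)) (.play 194 (.both (.play 258 (.both (.ref 249 65) (.play 323 (.ref 4 66)))) (.play 193 (.ref 1 129)))))))) (.both (.ref 386 64) (.play 65 (.both (.play 129 (.ref 392 64)) (.play 66 (.ref 3 65))))))))
 (.seq (.one (.play 65 (.both (.play 1 (.ref 6 0)) (.play 322 (.ref 4 65)))))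
 (.one (.play 257 (.both (.ref 23 1) (.play 321 (.ref 7 64)))))))))
 (.seq (.seq (.seq (.one (.both (.play 69 (.ref 3 1)) (.play 128 (.ref 1 64))))
 (.seq (.one (.play 259 (.both (.play 195 (.both (.play 4 (.ref 6 3)) (.ref 422 64))) (.both (.play 195 (.ref 181 3)) (.play 260 (.ref 432 67))))))
 (.one (.play 68 (.both (.play 0 (.ref 3 0)) (.ref 15 64))))))
 (.seq (.one (.play 67 (.both (.play 4 (.ref 2 0)) (.ref 448 0))))
 (.seq (.one (.play 193 (.both (.ref 91 0) (.ref 25 192))))
 (.one (.play 193 (.both (.ref 91 0) (.play 450 (.ref 4 193))))))))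
 (.seq (.seq (.one (.play 323 (.both (.ref 429 2) (.both (.play 387 (.both (.ref 428 3) (.both (.ref 23 131) (.ref 62 131)))) (.both (.ref 120 64) (.both (.play 388 (.ref 42 130)) (.ref 364 130)))))))
 (.seq (.one (.play 64 (.both (.play 65 (.ref 138 0)) (.play 128 (.ref 7 64)))))
 (.one (.play 129 (.both (.ref 453 0) (.ref 23 129))))))
 (.seq (.one (.play 451 (.both (.play 259 (.both (.ref 218 2) (.both (.ref 131 131) (.ref 283 256)))) (.both (.play 260 (.ref 208 131)) (.both (.ref 212 258) (.ref 210 258))))))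
 (.seq (.one (.play 193 (.both (.play 129 (.both (.ref 29 0) (.play 384 (.ref 6 128)))) (.both (.play 256 (.both (.play 129 (.ref 204 64)) (.play 192 (.ref 7 192)))) (.ref 43 128)))))
 (.one (.play 135 (.both (.play 132 (.both (.ref 281 4) (.both (.ref 192 64) (.ref 142 66)))) (.both (.play 68 (.ref 14 66)) (.both (.ref 378 68) (.ref 328 68)))))))))))))
 (.seq (.seq (.seq (.seq (.seq (.seq (.one (.play 1 (.both (.play 256 (.ref 6 0)) (.play 194 (.ref 4 1)))))
 (.one (.both (.play 0 (.ref 0 0)) (.play 69 (.ref 3 1)))))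
 (.seq (.one (.both (.play 6 (.ref 5 5)) (.ref 195 64)))
 (.seq (.one (.play 1 (.both (.play 192 (.ref 6 0)) (.play 194 (.ref 4 1)))))
 (.one (.play 260 (.both (.play 262 (.both (.ref 461 4) (.both (.play 198 (.ref 69 5)) (.play 261 (.ref 194 64))))) (.both (.play 196 (.ref 348 4)) (.play 261 (.both (.ref 437 65) (.play 324 (.ref 6 68)))))))))))
 (.seq (.seq (.one (.play 453 (.both (.play 261 (.both (.ref 218 4) (.ref 195 256))) (.both (.play 262 (.ref 136 133)) (.both (.ref 462 256) (.play 517 (.ref 460 256)))))))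
 (.seq (.one (.play 391 (.both (.ref 463 2) (.both (.play 455 (.both (.play 263 (.both (.ref 218 6) (.both (.ref 131 135) (.play 456 (.both (.play 520 (.ref 4 263)) (.ref 457 322)))))) (.both (.play 264 (.ref 359 135)) (.both (.play 264 (.ref 136 135)) (.play 456 (.both (.play 263 (.both (.play 390 (.both (.play 392 (.both (.play 199 (.ref 4 199)) (.play 389 (.ref 104 388)))) (.both (.play 454 (.both (.play 199 (.ref 6 198)) (.play 389 (.ref 459 388)))) (.both (.ref 458 198) (.play 389 (.ref 14 387)))))) (.play 520 (.ref 4 263)))) (.both (.play 520 (.ref 69 263)) (.ref 457 322)))))))) (.both (.play 392 (.both (.play 326 (.both (.play 456 (.both (.play 264 (.both (.ref 456 7) (.both (.ref 137 70) (.both (.ref 91 71) (.both (.ref 51 135) (.ref 362 198)))))) (.both (.ref 265 71) (.ref 115 263)))) (.play 325 (.ref 3 260)))) (.both (.ref 398 133) (.both (.ref 395 195) (.ref 390 196))))) (.both (.ref 455 4) (.both (.play 455 (.both (.play 263 (.both (.ref 218 6) (.both (.play 326 (.both (.ref 454 70) (.play 325 (.ref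 3 260)))) (.both (.ref 131 135) (.play 326 (.both (.play 264 (.both (.play 456 (.both (.play 392 (.both (.play 265 (.both (.play 201 (.ref 5 200)) (.play 266 (.ref 1 262)))) (.ref 397 261))) (.play 520 (.ref 4 263)))) (.play 200 (.ref 5 199)))) (.play 325 (.ref 3 260)))))))) (.both (.play 264 (.ref 208 135)) (.both (.ref 452 196) (.ref 210 262))))) (.both (.play 392 (.both (.play 456 (.both (.play 457 (.both (.ref 451 71) (.both (.play 264 (.both (.play 455 (.ref 204 199)) (.play 521 (.ref 4 264)))) (.play 458 (.ref 13 389))))) (.both (.play 264 (.both (.ref 91 71) (.ref 445 263))) (.both (.play 520 (.both (.ref 450 71) (.play 584 (.ref 7 327)))) (.both (.ref 187 263) (.play 520 (.both (.ref 195 323) (.play 584 (.ref 7 327))))))))) (.both (.play 264 (.both (.ref 317 71) (.both (.ref 426 197) (.play 326 (.both (.play 325 (.both (.play 265 (.ref 2 261)) (.play 324 (.ref 0 324)))) (.play 456 (.both (.play 394 (.both (.play 455 (.both (.play 519 (.ref 6 263)) (.play 457 (.both (.play 521 (.ref 4 264)) (.ref 449 391)))))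 (.play 393 (.ref 3 326)))) (.both (.play 521 (.both (.play 457 (.ref 4 264)) (.play 520 (.both (.play 584 (.ref 7 327)) (.play 585 (.ref 4 328)))))) (.play 519 (.both (.play 455 (.ref 6 263)) (.play 520 (.ref 432 327)))))))))))) (.both (.play 264 (.both (.ref 317 71) (.both (.play 200 (.both (.play 201 (.both (.play 265 (.both (.play 199 (.both (.play 135 (.ref 7 135)) (.play 198 (.ref 10 197)))) (.play 456 (.ref 5 200)))) (.play 137 (.ref 5 136)))) (.play 136 (.ref 6 135)))) (.play 393 (.both (.ref 380 260) (.both (.ref 443 260) (.play 394 (.ref 150 326)))))))) (.both (.play 264 (.both (.play 200 (.ref 204 135)) (.both (.play 200 (.both (.play 136 (.ref 6 135)) (.ref 62 136))) (.play 456 (.both (.ref 447 260) (.both (.play 457 (.both (.play 455 (.both (.play 519 (.both (.ref 49 262) (.both (.ref 373 262) (.play 518 (.both (.play 582 (.ref 6 326)) (.play 517 (.ref 121 452))))))) (.both (.play 519 (.both (.ref 49 262) (.play 458 (.ref 446 390)))) (.play 458 (.ref 150 390))))) (.play 521 (.ref 4 264)))) (.both (.play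 519 (.ref 35 263)) (.both (.ref 445 263) (.ref 27 263))))))))) (.both (.play 393 (.both (.play 264 (.both (.ref 444 135) (.ref 443 260))) (.both (.ref 394 196) (.ref 328 326)))) (.both (.ref 390 196) (.play 326 (.both (.play 325 (.ref 3 260)) (.play 519 (.both (.play 393 (.both (.ref 442 322) (.play 394 (.ref 3 326)))) (.both (.play 455 (.ref 436 322)) (.both (.play 454 (.both (.play 393 (.both (.play 455 (.both (.play 583 (.ref 5 327)) (.play 453 (.ref 99 388)))) (.play 394 (.ref 3 326)))) (.both (.play 393 (.both (.play 390 (.ref 434 325)) (.play 394 (.ref 3 326)))) (.both (.play 518 (.both (.play 455 (.both (.play 582 (.ref 6 326)) (.play 583 (.ref 5 327)))) (.both (.play 582 (.ref 424 326)) (.both (.play 390 (.ref 330 326)) (.play 583 (.both (.play 390 (.ref 4 326)) (.play 455 (.ref 5 327)))))))) (.play 453 (.ref 221 387)))))) (.both (.ref 435 324) (.ref 433 327))))))))))))))) (.both (.play 455 (.both (.play 263 (.both (.ref 326 70) (.both (.ref 431 70) (.both (.ref 430 70) (.ref 427 258))))) (.both (.play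 264 (.ref 359 135)) (.both (.play 264 (.ref 136 135)) (.play 519 (.both (.ref 429 198) (.play 264 (.ref 5 263)))))))) (.both (.play 392 (.both (.play 264 (.both (.ref 425 71) (.both (.play 456 (.both (.ref 423 197) (.ref 427 259))) (.ref 426 197)))) (.both (.play 264 (.both (.ref 196 69) (.both (.ref 425 71) (.both (.ref 317 71) (.play 456 (.both (.ref 423 197) (.ref 223 261))))))) (.both (.play 455 (.both (.play 263 (.both (.ref 272 135) (.ref 422 260))) (.both (.play 264 (.ref 208 135)) (.both (.play 454 (.both (.play 518 (.ref 110 262)) (.play 453 (.ref 118 388)))) (.play 519 (.both (.play 264 (.ref 5 263)) (.ref 421 324))))))) (.both (.ref 390 196) (.play 393 (.both (.play 325 (.both (.play 390 (.both (.ref 360 197) (.play 389 (.ref 392 324)))) (.play 326 (.ref 0 325)))) (.both (.play 394 (.both (.play 395 (.ref 3 327)) (.ref 98 389))) (.ref 328 326))))))))) (.both (.play 263 (.both (.ref 418 68) (.both (.ref 417 68) (.play 455 (.both (.play 456 (.both (.play 457 (.both (.play 454 (.both (.play 518 (.both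 (.play 327 (.ref 6 262)) (.play 517 (.ref 1 453)))) (.ref 281 326))) (.both (.ref 328 390) (.both (.ref 414 390) (.play 458 (.both (.play 390 (.ref 3 390)) (.ref 149 391))))))) (.play 520 (.ref 4 263)))) (.both (.play 518 (.ref 35 262)) (.both (.play 520 (.both (.play 456 (.ref 4 263)) (.play 519 (.both (.ref 300 326) (.play 584 (.ref 4 327)))))) (.both (.play 519 (.both (.ref 25 262) (.both (.ref 300 326) (.ref 413 326)))) (.play 519 (.both (.ref 23 263) (.ref 413 326))))))))))) (.both (.play 325 (.both (.play 389 (.both (.play 453 (.both (.play 455 (.both (.play 264 (.ref 359 135)) (.both (.play 452 (.both (.play 516 (.ref 348 260)) (.both (.play 261 (.both (.play 516 (.ref 6 260)) (.play 454 (.both (.play 518 (.ref 4 261)) (.play 392 (.ref 2 388)))))) (.play 454 (.ref 412 384))))) (.ref 210 262)))) (.both (.ref 411 260) (.ref 186 260)))) (.both (.play 197 (.both (.play 198 (.both (.play 200 (.both (.play 199 (.ref 182 132)) (.both (.play 199 (.both (.ref 257 133) (.play 260 (.ref 1 196)))) (.both (.play 264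 (.ref 348 135)) (.play 264 (.both (.play 199 (.ref 269 196)) (.ref 347 199))))))) (.play 134 (.ref 5 133)))) (.play 390 (.both (.play 454 (.ref 4 197)) (.play 388 (.ref 2 324)))))) (.both (.play 453 (.both (.ref 120 194) (.both (.ref 368 258) (.ref 411 260)))) (.play 388 (.both (.ref 298 196) (.play 390 (.ref 2 324)))))))) (.play 326 (.ref 3 260)))) (.both (.play 455 (.both (.play 264 (.both (.ref 358 135) (.both (.play 200 (.ref 135 135)) (.ref 410 259)))) (.both (.play 264 (.ref 208 135)) (.both (.ref 212 262) (.ref 210 262))))) (.both (.play 392 (.both (.play 326 (.both (.play 456 (.both (.play 264 (.both (.play 200 (.ref 204 135)) (.ref 116 198))) (.both (.play 520 (.both (.ref 399 135) (.play 584 (.ref 7 327)))) (.play 520 (.ref 225 263))))) (.play 325 (.ref 3 260)))) (.both (.ref 398 133) (.both (.ref 395 195) (.ref 390 196))))) (.play 455 (.both (.play 456 (.both (.play 454 (.both (.play 263 (.ref 34 262)) (.both (.ref 380 323) (.ref 384 386)))) (.both (.play 454 (.both (.play 518 (.ref 348 262)) (.ref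 282 324))) (.both (.play 520 (.ref 292 263)) (.play 457 (.both (.ref 382 323) (.both (.play 394 (.both (.play 454 (.both (.ref 380 323) (.play 393 (.ref 2 390)))) (.both (.play 458 (.ref 324 390)) (.play 395 (.ref 180 390))))) (.both (.play 454 (.both (.ref 380 323) (.ref 379 326))) (.both (.ref 378 390) (.ref 328 390)))))))))) (.both (.play 519 (.ref 376 258)) (.both (.ref 210 262) (.both (.play 519 (.both (.ref 365 262) (.play 264 (.ref 5 263)))) (.play 519 (.both (.play 264 (.ref 5 263)) (.ref 374 326))))))))))))))))))))))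
 (.one (.both (.play 260 (.ref 4 3)) (.play 129 (.ref 0 128))))))
 (.seq (.one (.play 129 (.both (.play 65 (.ref 45 0)) (.ref 38 65))))
 (.seq (.one (.play 193 (.both (.ref 431 0) (.both (.ref 43 128) (.ref 226 128)))))
 (.one (.play 452 (.both (.play 386 (.both (.play 388 (.both (.play 324 (.both (.play 260 (.both (.ref 467 3) (.play 515 (.ref 6 259)))) (.both (.play 260 (.both (.ref 466 67) (.play 515 (.ref 6 259)))) (.both (.ref 317 131) (.play 516 (.both (.ref 362 258) (.play 517 (.ref 465 321)))))))) (.play 389 (.ref 2 385)))) (.ref 360 256))) (.both (.ref 167 384) (.both (.play 389 (.ref 95 385)) (.ref 103 448))))))))))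
 (.seq (.seq (.seq (.one (.play 385 (.both (.play 258 (.both (.ref 363 1) (.play 449 (.ref 136 129)))) (.play 384 (.ref 1 320)))))
 (.one (.play 256 (.both (.play 1 (.ref 5 0)) (.ref 23 0)))))
 (.seq (.one (.play 132 (.both (.ref 402 1) (.play 131 (.ref 0 64)))))
 (.seq (.one (.play 4 (.both (.play 64 (.ref 1 0)) (.ref 15 0))))
 (.one (.play 66 (.both (.ref 79 1) (.ref 296 64)))))))
 (.seq (.seq (.one (.both (.play 131 (.both (.play 2 (.ref 7 2)) (.play 132 (.ref 2 128)))) (.play 260 (.ref 0 192))))
 (.seq (.one (.play 68 (.both (.ref 18 0) (.ref 270 65))))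
 (.one (.play 193 (.both (.play 257 (.ref 5 1)) (.play 192 (.ref 1 128)))))))
 (.seq (.one (.play 65 (.both (.ref 476 0) (.play 64 (.ref 3 64)))))
 (.seq (.one (.play 65 (.both (.play 4 (.ref 2 1)) (.ref 16 64))))
 (.one (.play 257 (.both (.play 66 (.ref 5 1)) (.play 322 (.ref 42 64))))))))))
 (.seq (.seq (.seq (.seq (.one (.play 193 (.both (.play 65 (.both (.ref 479 0) (.play 64 (.ref 3 64)))) (.play 192 (.ref 1 128)))))
 (.one (.play 131 (.both (.play 134 (.both (.ref 480 2) (.both (.ref 156 66) (.ref 290 67)))) (.both (.play 130 (.both (.ref 478 64) (.both (.ref 190 64) (.play 134 (.ref 189 65))))) (.both (.play 130 (.ref 343 64)) (.play 70 (.ref 221 65))))))))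
 (.seq (.one (.play 196 (.both (.play 260 (.ref 6 4)) (.ref 481 64))))
 (.seq (.one (.play 64 (.both (.play 320 (.both (.ref 89 0) (.play 384 (.ref 6 128)))) (.play 128 (.ref 7 64)))))
 (.one (.play 65 (.both (.play 1 (.ref 4 1)) (.play 320 (.ref 6 64))))))))
 (.seq (.seq (.one (.play 195 (.both (.ref 484 2) (.play 257 (.ref 172 192)))))
 (.seq (.one (.both (.play 130 (.both (.ref 281 2) (.play 65 (.ref 214 64)))) (.both (.play 134 (.both (.ref 480 2) (.play 71 (.ref 95 67)))) (.both (.ref 332 64) (.both (.play 130 (.ref 331 64)) (.both (.ref 82 65) (.ref 96 65)))))))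
 (.one (.play 69 (.both (.ref 153 1) (.both (.ref 164 64) (.ref 15 65)))))))
 (.seq (.one (.play 66 (.both (.play 65 (.ref 189 0)) (.ref 15 66))))
 (.seq (.one (.play 67 (.both (.ref 340 0) (.both (.play 2 (.ref 214 1)) (.both (.play 132 (.both (.play 66 (.both (.ref 79 1) (.play 133 (.ref 104 65)))) (.play 131 (.ref 1 67)))) (.ref 16 66))))))
 (.one (.play 195 (.both (.play 67 (.both (.ref 280 2) (.play 128 (.ref 77 64)))) (.both (.play 259 (.both (.play 66 (.ref 188 2)) (.both (.play 66 (.ref 68 2)) (.both (.ref 46 2) (.ref 187 66))))) (.play 196 (.ref 185 128))))))))))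
 (.seq (.seq (.seq (.one (.play 259 (.both (.play 132 (.ref 110 3)) (.play 258 (.ref 122 192)))))
 (.seq (.one (.play 66 (.both (.play 1 (.ref 214 0)) (.both (.play 70 (.ref 81 1)) (.ref 98 64)))))
 (.one (.play 130 (.both (.play 194 (.both (.play 258 (.both (.play 66 (.both (.play 67 (.ref 5 2)) (.play 65 (.ref 3 65)))) (.both (.play 67 (.ref 109 2)) (.ref 212 65)))) (.play 193 (.ref 1 129)))) (.both (.play 129 (.ref 81 64)) (.play 129 (.ref 17 128))))))))
 (.seq (.one (.both (.play 2 (.ref 5 1)) (.play 320 (.ref 6 64))))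
 (.seq (.one (.both (.play 129 (.both (.play 2 (.ref 5 1)) (.play 128 (.ref 3 128)))) (.play 256 (.ref 1 192))))
 (.one (.play 195 (.both (.play 259 (.both (.play 131 (.ref 313 2)) (.both (.play 198 (.ref 495 2)) (.play 258 (.ref 100 192))))) (.both (.play 131 (.both (.play 259 (.ref 313 2)) (.ref 400 64))) (.both (.play 259 (.both (.play 131 (.ref 313 2)) (.both (.play 258 (.both (.play 131 (.ref 494 2)) (.play 198 (.ref 1 194)))) (.play 258 (.ref 221 192))))) (.both (.ref 493 64) (.both (.ref 332 128) (.both (.ref 492 128) (.ref 337 128))))))))))))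
 (.seq (.seq (.one (.both (.play 196 (.both (.play 260 (.ref 4 3)) (.play 129 (.ref 459 128)))) (.play 258 (.ref 6 2))))
 (.seq (.one (.play 132 (.both (.play 68 (.both (.play 196 (.both (.play 260 (.ref 225 3)) (.play 197 (.ref 0 129)))) (.play 69 (.ref 2 65)))) (.both (.play 69 (.both (.play 193 (.both (.ref 101 65) (.play 192 (.ref 1 128)))) (.play 68 (.ref 2 65)))) (.play 193 (.both (.play 192 (.ref 1 128)) (.ref 64 129)))))))
 (.one (.both (.ref 75 0) (.play 385 (.ref 4 128))))))
 (.seq (.one (.play 64 (.both (.play 322 (.both (.ref 247 0) (.play 386 (.ref 4 129)))) (.play 128 (.ref 7 64)))))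
 (.seq (.one (.play 323 (.both (.play 326 (.both (.play 132 (.both (.play 261 (.both (.play 133 (.both (.ref 75 5) (.play 68 (.ref 7 68)))) (.play 389 (.ref 7 132)))) (.ref 333 130))) (.both (.ref 408 131) (.ref 78 259)))) (.both (.play 322 (.both (.play 389 (.ref 474 130)) (.ref 253 256))) (.both (.ref 332 256) (.both (.play 322 (.ref 331 256)) (.both (.ref 82 257) (.ref 96 257))))))))
 (.one (.both (.play 1 (.ref 5 0)) (.ref 59 64)))))))))
 (.seq (.seq (.seq (.seq (.seq (.one (.play 68 (.both (.ref 18 0) (.play 129 (.ref 1 64)))))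
 (.one (.play 68 (.both (.play 64 (.ref 19 0)) (.both (.ref 503 1) (.ref 64 65))))))
 (.seq (.one (.play 65 (.both (.play 1 (.ref 269 0)) (.play 66 (.ref 1 1)))))
 (.seq (.one (.play 66 (.both (.ref 79 1) (.ref 505 64))))
 (.one (.play 67 (.both (.ref 473 0) (.ref 15 67)))))))
 (.seq (.seq (.one (.play 69 (.both (.play 65 (.ref 80 0)) (.both (.play 70 (.ref 81 1)) (.ref 78 2)))))
 (.seq (.one (.play 455 (.both (.ref 468 4) (.both (.play 582 (.both (.play 583 (.both (.play 581 (.both (.ref 319 133) (.both (.play 517 (.both (.ref 425 261) (.play 516 (.ref 13 514)))) (.both (.play 584 (.both (.play 645 (.both (.play 518 (.both (.play 390 (.ref 6 389)) (.ref 277 517))) (.play 644 (.ref 1 580)))) (.both (.play 580 (.ref 20 515)) (.both (.play 580 (.both (.play 585 (.both (.play 519 (.both (.play 518 (.both (.play 579 (.ref 2 515)) (.play 586 (.ref 3 518)))) (.play 520 (.ref 2 516)))) (.ref 15 581))) (.ref 16 579))) (.play 521 (.ref 95 517)))))) (.both (.play 580 (.ref 331 514)) (.ref 508 515)))))) (.both (.ref 321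 133) (.both (.play 518 (.both (.ref 73 261) (.both (.ref 355 385) (.play 584 (.both (.ref 183 387) (.both (.ref 406 451) (.both (.play 517 (.ref 13 515)) (.ref 328 517)))))))) (.both (.ref 501 258) (.play 581 (.ref 486 450))))))) (.both (.play 646 (.both (.play 583 (.both (.play 519 (.ref 316 134)) (.both (.play 584 (.both (.play 581 (.both (.play 645 (.ref 495 388)) (.both (.ref 507 513) (.both (.ref 506 514) (.ref 98 579))))) (.both (.ref 504 517) (.both (.ref 259 517) (.play 645 (.ref 221 579)))))) (.both (.play 584 (.both (.play 581 (.both (.play 645 (.ref 495 388)) (.both (.play 580 (.both (.ref 473 513) (.ref 18 516))) (.both (.ref 440 514) (.play 580 (.ref 20 515)))))) (.both (.play 581 (.both (.play 517 (.both (.play 389 (.ref 4 389)) (.play 516 (.ref 13 514)))) (.ref 78 517))) (.both (.ref 259 517) (.play 645 (.ref 122 579)))))) (.play 519 (.both (.play 391 (.ref 6 390)) (.play 647 (.both (.ref 223 452) (.play 710 (.ref 6 454)))))))))) (.both (.play 518 (.ref 28 389)) (.both (.play 518 (.ref 268 389))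 (.play 518 (.ref 502 390)))))) (.both (.play 583 (.both (.play 519 (.ref 316 134)) (.both (.ref 501 258) (.both (.play 519 (.both (.play 391 (.both (.ref 500 262) (.both (.play 584 (.ref 499 263)) (.play 390 (.both (.play 392 (.both (.play 328 (.ref 5 327)) (.play 393 (.ref 146 389)))) (.play 326 (.ref 7 326))))))) (.both (.ref 317 262) (.play 581 (.both (.play 517 (.both (.play 646 (.both (.play 389 (.ref 4 389)) (.play 710 (.both (.play 645 (.ref 4 453)) (.play 774 (.ref 5 518)))))) (.play 516 (.ref 13 514)))) (.both (.ref 498 452) (.play 580 (.ref 343 514)))))))) (.both (.play 519 (.both (.play 390 (.ref 71 262)) (.both (.ref 317 262) (.both (.play 647 (.both (.play 390 (.ref 7 390)) (.play 646 (.ref 497 452)))) (.play 646 (.both (.play 391 (.ref 6 390)) (.play 647 (.ref 497 452)))))))) (.both (.ref 496 386) (.play 584 (.both (.ref 491 387) (.both (.play 646 (.both (.play 519 (.both (.play 391 (.ref 6 390)) (.play 585 (.both (.ref 277 518) (.play 645 (.ref 1 581)))))) (.both (.play 519 (.ref 110 390)) (.play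 645 (.ref 100 579))))) (.both (.ref 490 453) (.ref 96 516))))))))))) (.both (.play 581 (.ref 322 132)) (.both (.play 583 (.ref 322 133)) (.both (.play 583 (.both (.play 584 (.both (.play 585 (.both (.ref 113 262) (.both (.ref 78 518) (.both (.play 586 (.both (.ref 18 518) (.both (.ref 153 518) (.ref 169 518)))) (.both (.play 586 (.both (.play 587 (.ref 20 518)) (.ref 15 582))) (.play 586 (.both (.play 587 (.both (.ref 156 519) (.ref 16 582))) (.ref 15 582)))))))) (.both (.ref 178 388) (.both (.ref 490 453) (.both (.ref 165 514) (.both (.ref 163 515) (.ref 96 516))))))) (.both (.ref 314 389) (.both (.play 581 (.both (.play 580 (.both (.ref 480 451) (.both (.ref 340 513) (.both (.play 515 (.ref 214 514)) (.both (.play 579 (.both (.ref 79 514) (.ref 160 578))) (.ref 161 577)))))) (.both (.play 580 (.both (.ref 480 451) (.both (.play 579 (.ref 81 514)) (.ref 98 578)))) (.both (.play 584 (.both (.ref 391 452) (.both (.play 585 (.ref 81 516)) (.ref 103 580)))) (.both (.play 580 (.both (.ref 489 512) (.both (.ref 488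 513) (.both (.ref 106 578) (.ref 103 579))))) (.both (.ref 332 514) (.play 584 (.both (.play 580 (.ref 81 515)) (.both (.play 585 (.ref 81 516)) (.both (.ref 487 516) (.play 585 (.both (.ref 79 516) (.ref 153 517))))))))))))) (.both (.play 581 (.ref 486 450)) (.play 584 (.ref 486 451))))))) (.both (.play 518 (.both (.play 581 (.both (.play 583 (.both (.play 580 (.both (.play 389 (.both (.play 325 (.ref 70 261)) (.ref 352 387))) (.both (.ref 485 322) (.both (.ref 191 513) (.play 579 (.ref 343 513)))))) (.both (.play 647 (.both (.play 390 (.ref 4 390)) (.play 648 (.ref 10 580)))) (.both (.play 647 (.ref 292 390)) (.ref 323 452))))) (.both (.play 580 (.both (.ref 485 322) (.both (.play 644 (.both (.play 517 (.both (.play 389 (.ref 6 388)) (.play 583 (.both (.ref 471 516) (.play 643 (.ref 1 579)))))) (.both (.play 517 (.ref 110 388)) (.play 643 (.ref 100 577))))) (.play 579 (.ref 343 513))))) (.both (.play 583 (.both (.play 645 (.both (.play 390 (.ref 6 389)) (.play 644 (.ref 122 578)))) (.both (.play 390 (.ref 34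 389)) (.ref 323 452)))) (.play 645 (.ref 348 389)))))) (.both (.play 389 (.ref 72 261)) (.both (.ref 212 389) (.ref 115 389))))) (.both (.play 518 (.both (.play 390 (.both (.ref 483 261) (.both (.ref 51 261) (.ref 482 385)))) (.both (.play 389 (.ref 72 261)) (.both (.play 391 (.ref 208 262)) (.play 646 (.ref 28 389)))))) (.play 646 (.both (.play 518 (.both (.play 390 (.ref 40 325)) (.both (.play 390 (.ref 39 326)) (.ref 195 449)))) (.both (.play 581 (.both (.play 517 (.both (.play 389 (.ref 4 389)) (.play 580 (.both (.ref 380 449) (.both (.play 583 (.both (.ref 477 451) (.ref 66 516))) (.both (.play 579 (.both (.ref 191 512) (.play 647 (.ref 0 579)))) (.play 647 (.ref 10 579)))))))) (.both (.play 580 (.both (.play 583 (.both (.play 647 (.ref 474 388)) (.both (.play 584 (.both (.ref 65 517) (.ref 16 579))) (.both (.ref 475 516) (.ref 103 579))))) (.both (.play 579 (.both (.play 578 (.both (.ref 79 513) (.play 645 (.ref 0 578)))) (.both (.play 583 (.ref 189 514)) (.ref 296 577)))) (.both (.ref 403 513) (.play 647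 (.ref 14 578)))))) (.both (.play 580 (.both (.play 583 (.both (.play 647 (.ref 474 388)) (.both (.play 584 (.ref 81 515)) (.both (.ref 230 515) (.play 584 (.both (.ref 79 515) (.ref 65 517))))))) (.both (.ref 403 513) (.both (.play 583 (.both (.ref 473 513) (.both (.play 584 (.ref 80 515)) (.play 584 (.both (.ref 18 516) (.ref 472 581)))))) (.play 647 (.ref 10 579)))))) (.both (.play 517 (.both (.play 645 (.both (.play 390 (.ref 5 389)) (.ref 422 450))) (.play 389 (.ref 4 389)))) (.both (.play 517 (.both (.play 645 (.both (.play 390 (.ref 5 389)) (.play 644 (.both (.play 647 (.both (.ref 360 451) (.ref 471 580))) (.play 643 (.ref 172 578)))))) (.play 389 (.ref 4 389)))) (.play 517 (.both (.play 645 (.both (.play 390 (.ref 5 389)) (.play 708 (.both (.play 644 (.ref 6 452)) (.play 580 (.both (.play 709 (.both (.play 772 (.ref 6 516)) (.play 773 (.both (.play 516 (.ref 7 516)) (.ref 470 581))))) (.play 579 (.ref 104 578)))))))) (.play 389 (.ref 4 389)))))))))) (.play 518 (.ref 28 389)))))))))))))) (.both (.play 517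 (.both (.ref 463 128) (.both (.ref 455 130) (.play 516 (.ref 100 450))))) (.both (.play 456 (.both (.play 519 (.both (.play 517 (.both (.ref 219 129) (.play 516 (.ref 1 452)))) (.ref 349 261))) (.both (.play 457 (.both (.play 518 (.both (.play 390 (.both (.ref 274 197) (.play 389 (.ref 3 389)))) (.play 517 (.ref 1 453)))) (.both (.play 458 (.ref 189 389)) (.both (.play 458 (.ref 81 389)) (.play 458 (.ref 17 453)))))) (.both (.ref 167 388) (.ref 242 389))))) (.both (.play 456 (.ref 201 132)) (.both (.play 456 (.both (.ref 469 132) (.both (.ref 202 133) (.both (.play 517 (.both (.ref 152 389) (.play 516 (.ref 1 452)))) (.both (.play 393 (.ref 95 389)) (.ref 241 389)))))) (.both (.play 456 (.both (.ref 469 132) (.both (.play 517 (.ref 209 196)) (.both (.ref 167 388) (.ref 239 389))))) (.both (.play 456 (.both (.ref 202 133) (.both (.play 517 (.both (.play 390 (.both (.play 581 (.ref 208 261)) (.both (.play 389 (.both (.play 581 (.ref 124 325)) (.play 457 (.ref 3 389)))) (.both (.play 518 (.both (.play 581 (.ref 181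 325)) (.play 457 (.ref 1 453)))) (.ref 203 389))))) (.play 516 (.ref 1 452)))) (.ref 167 388)))) (.ref 158 197)))))))))))
 (.one (.play 456 (.both (.ref 509 2) (.both (.play 454 (.both (.ref 468 5) (.play 453 (.ref 3 388)))) (.both (.ref 464 128) (.both (.play 517 (.both (.play 519 (.both (.ref 236 131) (.both (.play 583 (.both (.play 392 (.ref 136 263)) (.both (.play 582 (.both (.play 584 (.both (.play 648 (.both (.play 391 (.ref 4 391)) (.play 581 (.ref 338 516)))) (.both (.play 391 (.ref 34 390)) (.play 581 (.both (.play 516 (.ref 3 516)) (.ref 153 516)))))) (.both (.play 646 (.ref 348 390)) (.play 516 (.both (.play 581 (.ref 13 514)) (.both (.play 515 (.ref 12 514)) (.both (.play 518 (.ref 104 515)) (.play 584 (.ref 372 516))))))))) (.ref 210 390)))) (.both (.ref 370 261) (.play 518 (.both (.play 516 (.ref 2 452)) (.play 457 (.ref 371 453)))))))) (.both (.play 519 (.both (.ref 236 131) (.both (.ref 370 261) (.both (.play 516 (.both (.ref 314 323) (.play 518 (.ref 2 452)))) (.play 518 (.both (.play 520 (.both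 (.ref 175 325) (.play 457 (.ref 2 453)))) (.play 516 (.ref 2 452)))))))) (.both (.play 453 (.both (.ref 369 320) (.play 454 (.ref 3 388)))) (.both (.play 453 (.both (.play 581 (.both (.ref 120 322) (.both (.ref 368 386) (.ref 22 388)))) (.play 454 (.ref 3 388)))) (.both (.play 453 (.both (.ref 187 324) (.play 454 (.ref 3 388)))) (.play 454 (.both (.play 453 (.ref 3 388)) (.play 518 (.ref 100 451)))))))))) (.both (.play 454 (.both (.play 457 (.both (.ref 275 131) (.both (.play 391 (.both (.ref 363 134) (.ref 360 261))) (.both (.play 458 (.both (.play 459 (.both (.play 520 (.both (.play 392 (.both (.ref 357 263) (.play 391 (.ref 3 391)))) (.play 519 (.ref 1 455)))) (.both (.ref 230 391) (.ref 103 455)))) (.both (.ref 18 390) (.ref 107 391)))) (.both (.play 518 (.both (.play 519 (.both (.play 647 (.both (.play 583 (.ref 258 390)) (.both (.play 646 (.both (.ref 356 449) (.both (.play 583 (.ref 295 451)) (.both (.play 648 (.both (.play 645 (.both (.ref 352 452) (.play 585 (.ref 95 581)))) (.both (.play 645 (.both (.ref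 352 452) (.ref 353 453))) (.both (.play 645 (.both (.ref 352 452) (.play 583 (.ref 351 452)))) (.both (.ref 350 453) (.both (.play 649 (.both (.play 583 (.both (.play 712 (.ref 4 455)) (.play 582 (.ref 150 581)))) (.both (.play 712 (.both (.ref 349 454) (.play 583 (.ref 4 455)))) (.play 586 (.ref 95 582))))) (.play 649 (.both (.play 645 (.both (.play 582 (.both (.play 709 (.ref 6 453)) (.play 581 (.ref 3 581)))) (.ref 18 581))) (.both (.play 650 (.ref 81 581)) (.play 586 (.ref 95 582))))))))))) (.play 710 (.ref 312 454)))))) (.play 646 (.both (.play 645 (.both (.ref 346 450) (.both (.ref 345 452) (.play 582 (.ref 34 453))))) (.both (.play 648 (.both (.play 584 (.both (.play 649 (.both (.play 713 (.ref 344 454)) (.both (.play 520 (.ref 34 455)) (.ref 153 581)))) (.both (.play 645 (.ref 343 579)) (.play 585 (.ref 118 581))))) (.both (.play 645 (.both (.play 712 (.both (.play 584 (.both (.play 520 (.both (.play 455 (.ref 7 455)) (.play 711 (.ref 6 455)))) (.play 585 (.ref 2 581)))) (.play 713 (.ref 0 645)))) (.play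 580 (.ref 214 579)))) (.both (.play 649 (.both (.ref 342 454) (.both (.ref 108 580) (.both (.play 586 (.ref 95 582)) (.both (.ref 107 582) (.ref 106 644)))))) (.both (.play 649 (.both (.ref 342 454) (.both (.play 650 (.ref 20 581)) (.ref 103 645)))) (.both (.play 645 (.both (.ref 340 578) (.both (.play 644 (.ref 189 579)) (.both (.play 711 (.both (.ref 339 579) (.ref 147 581))) (.play 649 (.ref 20 580)))))) (.both (.ref 337 579) (.ref 96 580)))))))) (.both (.play 648 (.both (.ref 336 451) (.both (.ref 334 453) (.both (.ref 332 579) (.both (.play 645 (.ref 331 579)) (.both (.play 645 (.both (.play 644 (.ref 189 579)) (.both (.play 649 (.ref 189 580)) (.both (.ref 153 580) (.ref 230 580))))) (.both (.ref 82 580) (.ref 96 580)))))))) (.play 582 (.ref 330 454))))))))) (.play 458 (.ref 1 454)))) (.play 517 (.ref 1 453)))) (.ref 167 389)))))) (.play 453 (.ref 3 388)))) (.both (.play 457 (.both (.play 584 (.both (.play 517 (.both (.play 520 (.both (.play 392 (.both (.ref 218 135) (.ref 288 388))) (.both (.play 393 (.ref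 136 264)) (.both (.ref 297 386) (.ref 210 391))))) (.both (.play 518 (.both (.play 583 (.both (.play 520 (.ref 316 135)) (.play 582 (.ref 13 515)))) (.play 454 (.ref 1 453)))) (.both (.ref 229 322) (.ref 287 388))))) (.both (.play 520 (.both (.play 392 (.both (.ref 329 135) (.both (.ref 51 263) (.play 454 (.both (.ref 308 387) (.both (.play 458 (.both (.play 521 (.both (.play 459 (.both (.play 391 (.ref 3 391)) (.play 460 (.ref 1 456)))) (.play 522 (.ref 0 454)))) (.both (.ref 328 391) (.ref 15 454)))) (.ref 98 452))))))) (.both (.ref 210 391) (.ref 115 391)))) (.both (.play 454 (.both (.play 520 (.both (.play 583 (.both (.play 585 (.both (.play 392 (.both (.ref 92 135) (.play 649 (.ref 4 392)))) (.both (.play 582 (.both (.play 518 (.both (.play 646 (.both (.play 391 (.ref 5 390)) (.play 645 (.ref 1 581)))) (.play 517 (.ref 3 517)))) (.both (.play 645 (.both (.play 581 (.ref 252 516)) (.play 646 (.ref 1 581)))) (.ref 327 516)))) (.ref 323 454)))) (.both (.play 392 (.ref 315 135)) (.both (.play 392 (.both (.ref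 326 199) (.play 647 (.ref 6 391)))) (.play 582 (.both (.play 518 (.both (.play 646 (.both (.play 391 (.ref 5 390)) (.ref 325 453))) (.play 517 (.ref 1 453)))) (.both (.play 517 (.both (.play 518 (.ref 1 453)) (.play 581 (.ref 324 516)))) (.play 585 (.both (.ref 323 454) (.both (.ref 235 516) (.play 586 (.ref 17 581)))))))))))) (.both (.play 391 (.ref 71 263)) (.both (.ref 212 391) (.ref 115 391))))) (.play 453 (.ref 3 388)))) (.both (.play 521 (.both (.play 585 (.ref 316 136)) (.play 522 (.ref 10 454)))) (.both (.play 585 (.ref 322 135)) (.both (.play 392 (.both (.play 517 (.both (.play 520 (.both (.ref 51 263) (.play 453 (.both (.play 581 (.both (.ref 228 322) (.both (.ref 227 324) (.both (.ref 224 386) (.both (.play 644 (.ref 35 388)) (.play 585 (.both (.play 583 (.both (.play 647 (.ref 6 391)) (.play 582 (.ref 237 516)))) (.play 649 (.ref 4 392))))))))) (.play 454 (.ref 3 388)))))) (.both (.play 520 (.both (.ref 51 263) (.ref 288 388))) (.ref 287 388)))) (.both (.play 521 (.both (.play 328 (.ref 69 264)) (.play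 454 (.both (.ref 308 387) (.play 522 (.ref 0 454)))))) (.both (.play 520 (.both (.ref 248 263) (.both (.ref 51 263) (.ref 307 388)))) (.both (.ref 305 262) (.play 454 (.both (.play 453 (.ref 3 388)) (.ref 304 390)))))))) (.both (.play 454 (.both (.play 453 (.ref 3 388)) (.play 648 (.both (.play 585 (.both (.play 518 (.both (.play 646 (.both (.play 582 (.ref 123 389)) (.both (.ref 303 389) (.both (.play 647 (.both (.play 582 (.ref 284 390)) (.ref 86 582))) (.play 647 (.ref 87 581)))))) (.play 517 (.ref 1 453)))) (.play 521 (.both (.play 393 (.ref 6 392)) (.play 522 (.ref 0 454)))))) (.both (.play 521 (.both (.play 520 (.ref 302 391)) (.play 522 (.ref 0 454)))) (.both (.play 520 (.ref 28 391)) (.play 520 (.ref 301 391)))))))) (.play 521 (.both (.ref 298 392) (.play 522 (.ref 10 454)))))))))))) (.both (.play 520 (.both (.play 517 (.both (.play 584 (.both (.ref 289 132) (.both (.play 391 (.ref 71 263)) (.both (.ref 297 386) (.ref 115 391))))) (.both (.play 518 (.both (.play 584 (.both (.ref 289 132) (.both (.play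 391 (.ref 71 263)) (.both (.play 583 (.both (.play 647 (.ref 110 391)) (.play 582 (.ref 13 515)))) (.ref 115 391))))) (.play 454 (.ref 1 453)))) (.both (.ref 229 322) (.ref 287 388))))) (.both (.play 584 (.both (.play 392 (.both (.ref 92 135) (.both (.ref 286 199) (.ref 283 389)))) (.both (.play 391 (.ref 71 263)) (.both (.ref 212 391) (.ref 115 391))))) (.play 454 (.both (.play 453 (.ref 3 388)) (.ref 66 390)))))) (.both (.play 454 (.both (.ref 275 131) (.play 453 (.ref 3 388)))) (.both (.play 458 (.both (.ref 202 135) (.both (.play 395 (.ref 95 391)) (.both (.ref 242 391) (.both (.ref 241 391) (.ref 239 391)))))) (.both (.play 454 (.both (.ref 157 198) (.both (.ref 141 388) (.ref 238 388)))) (.both (.ref 177 261) (.play 454 (.both (.play 453 (.ref 237 388)) (.play 394 (.ref 95 390))))))))))) (.both (.play 517 (.both (.play 519 (.both (.ref 236 131) (.both (.play 518 (.both (.ref 234 133) (.play 516 (.ref 2 452)))) (.both (.play 518 (.both (.ref 234 133) (.play 457 (.ref 117 453)))) (.play 518 (.ref 118 452))))))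 (.both (.play 454 (.both (.play 457 (.both (.play 458 (.both (.ref 176 262) (.both (.ref 151 390) (.both (.ref 232 390) (.both (.ref 78 391) (.ref 149 391)))))) (.play 518 (.ref 1 453)))) (.play 453 (.ref 3 388)))) (.both (.ref 229 322) (.play 518 (.ref 221 451)))))) (.both (.play 454 (.ref 114 131)) (.both (.play 454 (.both (.play 457 (.both (.play 521 (.both (.play 519 (.both (.ref 219 131) (.both (.play 458 (.ref 209 198)) (.play 518 (.ref 122 452))))) (.play 522 (.ref 0 454)))) (.both (.ref 202 134) (.ref 167 389)))) (.play 453 (.ref 3 388)))) (.both (.play 454 (.both (.play 457 (.ref 201 133)) (.play 453 (.ref 3 388)))) (.both (.play 457 (.both (.play 518 (.both (.play 458 (.both (.play 522 (.both (.play 393 (.both (.play 329 (.ref 72 201)) (.both (.play 521 (.both (.play 329 (.ref 199 265)) (.play 454 (.ref 0 454)))) (.both (.play 394 (.both (.play 329 (.ref 198 265)) (.play 454 (.ref 2 390)))) (.play 454 (.ref 197 390)))))) (.play 523 (.ref 0 455)))) (.play 519 (.ref 1 454)))) (.both (.play 454 (.both (.ref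 111 261) (.play 517 (.ref 1 453)))) (.play 519 (.ref 100 452))))) (.both (.play 521 (.both (.play 585 (.both (.play 393 (.both (.ref 196 198) (.ref 195 388))) (.both (.play 392 (.both (.play 328 (.ref 188 328)) (.play 649 (.ref 7 392)))) (.both (.ref 187 392) (.ref 115 392))))) (.both (.ref 139 198) (.both (.play 454 (.both (.ref 171 388) (.play 522 (.ref 0 454)))) (.play 522 (.ref 185 454)))))) (.both (.ref 183 260) (.both (.ref 112 261) (.both (.ref 178 261) (.both (.play 458 (.both (.play 522 (.both (.play 394 (.both (.ref 168 265) (.play 395 (.ref 2 391)))) (.play 523 (.ref 0 455)))) (.both (.ref 167 390) (.ref 103 454)))) (.both (.ref 165 387) (.both (.ref 163 388) (.ref 96 389)))))))))) (.both (.ref 33 196) (.play 454 (.both (.ref 158 198) (.play 453 (.ref 3 388))))))))))))))))))))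
 (.seq (.one (.play 70 (.both (.ref 115 6) (.play 131 (.both (.play 130 (.both (.ref 253 64) (.play 69 (.ref 2 66)))) (.play 134 (.ref 2 67)))))))
 (.seq (.one (.play 257 (.both (.play 193 (.ref 4 0)) (.play 256 (.ref 284 0)))))
 (.one (.play 257 (.both (.ref 25 0) (.ref 512 65))))))))
 (.seq (.seq (.seq (.one (.play 196 (.both (.play 194 (.both (.play 258 (.ref 6 2)) (.ref 508 128))) (.play 260 (.ref 4 3)))))
 (.one (.play 132 (.both (.play 196 (.ref 136 3)) (.both (.play 131 (.ref 416 64)) (.ref 479 130))))))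
 (.seq (.one (.play 129 (.both (.play 65 (.ref 39 1)) (.ref 43 64))))
 (.seq (.one (.play 196 (.both (.play 260 (.both (.play 3 (.ref 4 3)) (.play 324 (.ref 188 67)))) (.play 130 (.ref 0 128)))))
 (.one (.play 196 (.both (.play 132 (.ref 359 3)) (.play 258 (.ref 2 192))))))))
 (.seq (.seq (.one (.play 195 (.both (.ref 518 0) (.both (.ref 154 2) (.both (.ref 517 128) (.play 258 (.ref 77 192)))))))
 (.seq (.one (.both (.play 132 (.ref 359 3)) (.both (.play 132 (.ref 136 3)) (.play 258 (.ref 118 192)))))
 (.one (.play 68 (.both (.play 4 (.ref 5 3)) (.play 130 (.ref 118 64)))))))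
 (.seq (.one (.both (.play 68 (.ref 0 0)) (.play 4 (.ref 1 0))))
 (.seq (.one (.play 195 (.both (.play 259 (.ref 68 2)) (.play 196 (.ref 0 128)))))
 (.one (.play 324 (.both (.play 259 (.both (.play 195 (.both (.play 131 (.ref 499 3)) (.ref 43 130))) (.both (.ref 329 2) (.both (.ref 286 66) (.both (.play 260 (.both (.play 258 (.both (.play 261 (.both (.play 197 (.both (.play 325 (.both (.play 326 (.both (.ref 444 68) (.ref 230 258))) (.both (.play 133 (.ref 204 68)) (.play 326 (.both (.ref 523 195) (.both (.ref 230 258) (.ref 240 258))))))) (.play 198 (.ref 2 194)))) (.both (.play 326 (.both (.play 325 (.both (.ref 389 131) (.play 258 (.ref 0 258)))) (.both (.play 325 (.ref 459 258)) (.play 262 (.ref 522 259))))) (.both (.ref 78 194) (.both (.play 262 (.both (.ref 18 194) (.play 263 (.ref 1 259)))) (.ref 66 194)))))) (.play 194 (.ref 7 194)))) (.play 196 (.ref 5 195)))) (.ref 29 130)))))) (.play 386 (.ref 2 320))))))))))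
 (.seq (.seq (.seq (.seq (.one (.play 256 (.both (.play 65 (.ref 204 0)) (.play 449 (.ref 7 192)))))
 (.one (.both (.ref 525 0) (.play 128 (.ref 7 128)))))
 (.seq (.one (.play 385 (.both (.play 192 (.ref 526 0)) (.both (.ref 25 128) (.ref 251 128)))))
 (.seq (.one (.play 385 (.both (.play 192 (.ref 526 0)) (.ref 23 129))))
 (.one (.play 323 (.both (.ref 528 2) (.both (.ref 527 2) (.both (.ref 228 64) (.both (.ref 222 130) (.play 386 (.ref 35 130)))))))))))
 (.seq (.seq (.one (.play 1 (.both (.play 192 (.ref 6 0)) (.play 258 (.ref 4 1)))))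
 (.seq (.one (.both (.play 3 (.ref 4 3)) (.play 257 (.ref 172 192))))
 (.one (.both (.play 1 (.ref 3 0)) (.play 133 (.ref 0 65))))))
 (.seq (.one (.play 132 (.both (.play 68 (.ref 532 0)) (.play 131 (.ref 0 64)))))
 (.seq (.one (.both (.play 0 (.ref 3 0)) (.ref 533 1)))
 (.one (.play 65 (.both (.ref 79 0) (.play 5 (.ref 2 1)))))))))
 (.seq (.seq (.seq (.one (.both (.play 131 (.both (.play 195 (.both (.play 67 (.both (.play 259 (.ref 124 3)) (.play 66 (.ref 3 66)))) (.play 194 (.ref 1 130)))) (.both (.play 130 (.ref 81 65)) (.play 130 (.ref 17 129))))) (.both (.play 131 (.both (.play 130 (.both (.ref 535 64) (.ref 16 129))) (.both (.ref 277 67) (.play 130 (.ref 17 129))))) (.both (.play 67 (.ref 396 65)) (.play 135 (.ref 534 67))))))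
 (.seq (.one (.play 130 (.both (.play 66 (.both (.ref 535 0) (.play 129 (.ref 1 65)))) (.both (.play 70 (.both (.ref 277 3) (.play 131 (.ref 1 66)))) (.play 129 (.both (.play 131 (.ref 179 64)) (.play 66 (.ref 1 65))))))))
 (.one (.play 257 (.both (.play 2 (.ref 6 1)) (.ref 259 128))))))
 (.seq (.one (.play 195 (.both (.ref 538 0) (.both (.play 2 (.ref 34 1)) (.ref 323 64)))))
 (.seq (.one (.play 4 (.both (.play 3 (.ref 2 0)) (.play 68 (.ref 324 0)))))
 (.one (.play 68 (.both (.ref 540 1) (.ref 15 64)))))))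
 (.seq (.seq (.one (.play 257 (.both (.play 130 (.ref 110 1)) (.play 256 (.ref 1 192)))))
 (.seq (.one (.play 131 (.both (.play 258 (.ref 6 2)) (.play 193 (.ref 172 128)))))
 (.one (.play 68 (.both (.play 69 (.both (.play 70 (.ref 3 2)) (.play 132 (.ref 2 65)))) (.play 128 (.ref 2 64)))))))
 (.seq (.one (.play 195 (.both (.play 194 (.both (.ref 543 0) (.both (.play 197 (.both (.play 261 (.ref 293 2)) (.play 257 (.both (.play 131 (.both (.ref 385 128) (.play 198 (.ref 150 130)))) (.play 258 (.ref 1 193)))))) (.both (.ref 345 1) (.ref 544 65))))) (.both (.play 194 (.both (.ref 543 0) (.both (.play 197 (.both (.ref 542 1) (.both (.ref 541 130) (.ref 103 193)))) (.both (.ref 498 65) (.play 133 (.ref 221 128)))))) (.both (.ref 539 2) (.play 259 (.ref 348 3)))))))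
 (.seq (.one (.play 65 (.both (.play 2 (.ref 5 1)) (.play 256 (.ref 6 64)))))
 (.one (.play 66 (.both (.ref 546 0) (.play 130 (.ref 5 65)))))))))))))
 (.seq (.seq (.seq (.seq (.seq (.seq (.seq (.one (.play 320 (.both (.ref 547 0) (.play 384 (.ref 6 128)))))
 (.one (.play 386 (.both (.play 129 (.both (.play 65 (.both (.play 1 (.ref 6 0)) (.ref 38 1))) (.play 322 (.ref 4 129)))) (.play 450 (.ref 4 193))))))
 (.seq (.one (.play 196 (.both (.play 131 (.both (.play 258 (.both (.play 322 (.ref 359 2)) (.play 197 (.ref 1 193)))) (.play 132 (.ref 2 128)))) (.both (.ref 18 128) (.ref 361 129)))))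
 (.seq (.one (.play 68 (.both (.ref 230 0) (.play 129 (.ref 1 64)))))
 (.one (.play 67 (.both (.ref 166 0) (.play 132 (.ref 0 64))))))))
 (.seq (.seq (.one (.play 68 (.both (.play 1 (.ref 3 0)) (.play 5 (.ref 95 1)))))
 (.seq (.one (.play 195 (.both (.play 193 (.both (.play 257 (.ref 6 1)) (.ref 553 128))) (.play 259 (.ref 4 2)))))
 (.one (.play 68 (.both (.play 4 (.ref 5 3)) (.play 129 (.ref 2 64)))))))
 (.seq (.one (.play 68 (.both (.play 1 (.ref 3 0)) (.ref 107 1))))
 (.seq (.one (.play 71 (.both (.play 67 (.both (.ref 407 0) (.ref 15 67))) (.both (.ref 377 4) (.both (.ref 162 4) (.both (.ref 553 4) (.ref 556 4)))))))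
 (.one (.play 131 (.both (.play 259 (.ref 7 2)) (.play 132 (.ref 0 64)))))))))
 (.seq (.seq (.seq (.one (.both (.play 68 (.ref 3 0)) (.play 4 (.ref 2 0))))
 (.one (.both (.play 66 (.ref 3 0)) (.play 2 (.ref 0 0)))))
 (.seq (.one (.both (.play 2 (.ref 1 0)) (.play 66 (.ref 2 0))))
 (.seq (.one (.both (.play 4 (.ref 561 0)) (.both (.play 68 (.ref 560 0)) (.both (.play 2 (.ref 522 0)) (.play 66 (.ref 559 0))))))
 (.one (.play 192 (.both (.play 1 (.ref 6 0)) (.play 385 (.ref 225 128))))))))
 (.seq (.seq (.one (.play 256 (.both (.ref 563 0) (.play 320 (.ref 6 64)))))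
 (.seq (.one (.play 65 (.both (.ref 564 0) (.ref 38 1))))
 (.one (.play 129 (.both (.ref 483 0) (.both (.ref 43 64) (.ref 564 64)))))))
 (.seq (.one (.play 195 (.both (.ref 466 2) (.both (.ref 566 2) (.both (.ref 51 66) (.both (.ref 565 66) (.play 194 (.both (.play 258 (.both (.ref 423 128) (.play 451 (.ref 7 194)))) (.play 130 (.ref 7 130))))))))))
 (.seq (.one (.play 322 (.both (.play 259 (.both (.play 387 (.both (.ref 567 0) (.play 388 (.ref 0 320)))) (.play 260 (.ref 2 256)))) (.both (.ref 78 256) (.both (.ref 278 256) (.both (.ref 149 256) (.ref 241 256)))))))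
 (.one (.play 258 (.both (.play 129 (.both (.play 65 (.ref 69 1)) (.play 128 (.ref 3 128)))) (.play 197 (.ref 1 193))))))))))
 (.seq (.seq (.seq (.seq (.one (.play 450 (.both (.play 258 (.both (.ref 92 1) (.both (.ref 483 129) (.ref 554 256)))) (.both (.play 257 (.ref 72 129)) (.both (.ref 187 257) (.ref 115 257))))))
 (.one (.play 322 (.both (.ref 200 0) (.both (.ref 276 256) (.ref 533 256))))))
 (.seq (.one (.play 68 (.both (.ref 210 2) (.play 130 (.ref 2 64)))))
 (.seq (.one (.both (.play 4 (.ref 5 3)) (.play 130 (.ref 2 64))))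
 (.one (.play 195 (.both (.play 131 (.both (.ref 483 2) (.both (.play 67 (.ref 40 2)) (.ref 67 64)))) (.both (.ref 53 2) (.both (.play 387 (.both (.ref 29 66) (.both (.play 196 (.ref 573 128)) (.ref 47 130)))) (.both (.ref 168 66) (.ref 572 128))))))))))
 (.seq (.seq (.one (.play 195 (.both (.ref 56 0) (.both (.ref 53 2) (.both (.play 387 (.both (.ref 326 2) (.both (.ref 431 2) (.both (.play 131 (.ref 26 130)) (.play 451 (.ref 26 194)))))) (.both (.ref 52 2) (.both (.ref 46 66) (.both (.play 387 (.ref 41 66)) (.ref 37 128)))))))))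
 (.seq (.one (.play 66 (.both (.ref 552 0) (.ref 246 0))))
 (.one (.play 68 (.both (.ref 18 0) (.play 128 (.ref 1 64)))))))
 (.seq (.one (.play 194 (.both (.play 130 (.ref 136 1)) (.play 195 (.both (.ref 577 128) (.play 260 (.ref 0 192)))))))
 (.seq (.one (.play 258 (.both (.play 322 (.ref 40 1)) (.both (.play 322 (.ref 39 2)) (.play 259 (.both (.play 260 (.both (.play 257 (.both (.play 321 (.ref 6 65)) (.play 193 (.ref 3 192)))) (.both (.play 193 (.ref 8 192)) (.ref 378 193)))) (.play 323 (.ref 4 66))))))))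
 (.one (.both (.play 0 (.ref 3 0)) (.ref 290 1)))))))
 (.seq (.seq (.seq (.one (.play 321 (.both (.play 65 (.ref 40 0)) (.both (.ref 62 65) (.play 384 (.ref 35 128))))))
 (.seq (.one (.play 259 (.both (.play 260 (.both (.play 324 (.ref 72 3)) (.both (.play 324 (.both (.play 67 (.ref 4 67)) (.play 258 (.ref 338 192)))) (.play 258 (.ref 580 192))))) (.both (.play 323 (.ref 41 2)) (.both (.ref 357 2) (.both (.ref 581 2) (.both (.play 260 (.both (.play 67 (.both (.play 258 (.both (.play 322 (.ref 6 66)) (.play 192 (.ref 3 192)))) (.play 324 (.ref 4 67)))) (.both (.play 324 (.ref 292 67)) (.play 258 (.ref 580 192))))) (.both (.play 258 (.both (.play 322 (.both (.play 67 (.ref 6 66)) (.play 386 (.both (.play 323 (.ref 6 130)) (.play 450 (.ref 7 193)))))) (.play 260 (.ref 580 192)))) (.ref 579 65)))))))))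
 (.one (.play 259 (.both (.play 195 (.both (.play 388 (.both (.play 131 (.both (.ref 29 2) (.play 324 (.ref 4 131)))) (.both (.play 324 (.ref 69 131)) (.play 387 (.both (.play 386 (.both (.play 450 (.ref 6 194)) (.play 385 (.ref 3 320)))) (.play 452 (.ref 4 195))))))) (.both (.ref 572 128) (.play 258 (.ref 77 192))))) (.both (.play 260 (.both (.play 387 (.both (.play 196 (.ref 136 67)) (.both (.play 386 (.both (.play 450 (.both (.play 193 (.ref 4 193)) (.play 195 (.ref 6 194)))) (.play 388 (.ref 3 320)))) (.ref 210 194)))) (.play 258 (.ref 1 256)))) (.both (.ref 582 128) (.play 258 (.ref 522 256)))))))))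
 (.seq (.one (.play 257 (.both (.ref 367 0) (.both (.ref 23 1) (.both (.ref 364 64) (.play 320 (.ref 35 64)))))))
 (.seq (.one (.play 194 (.both (.play 130 (.ref 71 2)) (.play 193 (.ref 522 192)))))
 (.one (.play 322 (.both (.play 130 (.both (.ref 51 1) (.ref 554 128))) (.both (.ref 53 1) (.both (.ref 52 1) (.both (.ref 46 65) (.both (.play 386 (.ref 41 65)) (.play 386 (.both (.ref 362 128) (.play 449 (.ref 35 193))))))))))))))
 (.seq (.seq (.one (.both (.play 1 (.ref 3 0)) (.ref 290 1)))
 (.seq (.one (.play 193 (.both (.ref 326 0) (.both (.ref 29 64) (.both (.ref 500 64) (.play 449 (.ref 39 129)))))))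
 (.one (.play 67 (.both (.play 68 (.both (.play 65 (.both (.play 1 (.ref 7 1)) (.play 129 (.ref 1 64)))) (.both (.ref 504 1) (.play 129 (.ref 117 64))))) (.play 3 (.ref 5 2)))))))
 (.seq (.one (.play 193 (.both (.ref 431 0) (.both (.ref 51 64) (.both (.play 130 (.both (.play 384 (.both (.ref 546 64) (.play 448 (.ref 6 192)))) (.play 194 (.ref 5 129)))) (.play 449 (.ref 45 128)))))))
 (.seq (.one (.both (.ref 113 1) (.play 256 (.ref 3 256))))
 (.one (.play 65 (.both (.play 193 (.ref 127 0)) (.play 128 (.ref 5 64)))))))))))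
 (.seq (.seq (.seq (.seq (.seq (.one (.play 66 (.both (.play 65 (.ref 494 0)) (.play 130 (.ref 5 65)))))
 (.one (.play 129 (.both (.ref 273 1) (.both (.play 130 (.ref 138 65)) (.play 386 (.both (.play 193 (.ref 7 129)) (.ref 233 192))))))))
 (.seq (.one (.play 65 (.both (.ref 43 0) (.play 256 (.ref 6 64)))))
 (.seq (.one (.play 129 (.both (.ref 29 0) (.play 320 (.ref 6 128)))))
 (.one (.play 258 (.both (.play 194 (.both (.ref 596 1) (.both (.play 259 (.both (.play 321 (.both (.play 130 (.ref 6 129)) (.ref 86 256))) (.play 195 (.ref 5 194)))) (.ref 38 130)))) (.both (.ref 91 65) (.both (.play 194 (.both (.ref 595 65) (.both (.ref 43 129) (.ref 563 129)))) (.both (.ref 51 129) (.ref 362 192))))))))))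
 (.seq (.seq (.one (.play 256 (.both (.play 192 (.ref 6 0)) (.play 257 (.ref 494 0)))))
 (.seq (.one (.play 257 (.both (.play 193 (.both (.play 0 (.ref 4 0)) (.play 384 (.ref 124 128)))) (.play 321 (.ref 4 64)))))
 (.one (.play 67 (.both (.ref 503 1) (.play 128 (.ref 1 64)))))))
 (.seq (.one (.play 257 (.both (.ref 23 1) (.ref 245 64))))
 (.seq (.one (.play 321 (.both (.ref 38 1) (.ref 601 128))))
 (.one (.play 259 (.both (.ref 49 2) (.both (.play 258 (.both (.ref 602 2) (.play 197 (.ref 1 194)))) (.ref 422 64)))))))))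
 (.seq (.seq (.seq (.one (.both (.play 260 (.ref 4 3)) (.play 128 (.ref 0 128))))
 (.one (.play 323 (.both (.play 131 (.both (.ref 29 2) (.play 324 (.ref 604 128)))) (.both (.ref 30 2) (.play 324 (.ref 185 256)))))))
 (.seq (.one (.play 390 (.both (.play 326 (.both (.play 387 (.both (.play 325 (.both (.ref 570 4) (.play 386 (.ref 1 322)))) (.both (.play 389 (.both (.play 327 (.ref 2 323)) (.ref 98 385))) (.both (.play 325 (.ref 146 322)) (.play 327 (.ref 561 323)))))) (.both (.play 325 (.both (.ref 144 3) (.play 327 (.ref 102 259)))) (.both (.play 389 (.both (.play 262 (.both (.ref 585 67) (.both (.ref 317 69) (.play 454 (.both (.play 517 (.both (.play 263 (.both (.play 199 (.ref 5 198)) (.play 518 (.ref 299 261)))) (.play 453 (.ref 6 261)))) (.both (.play 263 (.ref 502 198)) (.play 453 (.both (.play 455 (.ref 401 260)) (.play 517 (.ref 6 261)))))))))) (.both (.ref 605 131) (.play 387 (.both (.ref 394 192) (.play 327 (.ref 2 323))))))) (.both (.ref 574 67) (.both (.ref 586 132) (.both (.play 387 (.both (.ref 603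 192) (.both (.play 454 (.both (.ref 37 259) (.both (.play 518 (.both (.play 389 (.both (.play 325 (.ref 225 261)) (.play 455 (.ref 0 387)))) (.both (.play 455 (.both (.ref 422 323) (.play 389 (.ref 0 387)))) (.play 581 (.ref 35 325))))) (.play 389 (.ref 77 323))))) (.play 325 (.ref 146 322))))) (.play 387 (.both (.ref 603 192) (.both (.ref 600 258) (.play 327 (.ref 561 323)))))))))))) (.both (.play 326 (.both (.play 325 (.both (.ref 144 3) (.play 387 (.ref 146 322)))) (.both (.play 325 (.ref 145 3)) (.both (.play 262 (.both (.play 198 (.both (.ref 516 5) (.both (.play 134 (.both (.ref 131 6) (.both (.ref 38 70) (.ref 599 70)))) (.both (.ref 51 69) (.both (.play 134 (.both (.ref 43 69) (.ref 599 70))) (.ref 67 131)))))) (.both (.play 261 (.both (.play 198 (.both (.ref 326 5) (.both (.ref 555 131) (.play 260 (.ref 77 195))))) (.both (.play 197 (.ref 71 69)) (.ref 115 197)))) (.both (.play 198 (.both (.ref 51 69) (.both (.play 134 (.ref 44 69)) (.both (.ref 131 70) (.ref 67 131))))) (.both (.ref 52 69) (.both (.play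 454 (.both (.play 327 (.both (.play 198 (.both (.ref 43 133) (.play 391 (.ref 199 134)))) (.ref 598 261))) (.both (.play 198 (.ref 44 133)) (.both (.ref 364 261) (.play 518 (.ref 26 261)))))) (.both (.ref 357 133) (.play 454 (.both (.play 263 (.both (.play 261 (.both (.play 197 (.ref 7 197)) (.play 260 (.both (.play 327 (.ref 0 259)) (.play 323 (.ref 1 259)))))) (.play 199 (.ref 5 198)))) (.play 517 (.ref 35 261))))))))))) (.play 325 (.both (.play 387 (.ref 146 322)) (.play 391 (.ref 0 323)))))))) (.both (.play 389 (.both (.play 326 (.both (.play 454 (.both (.ref 597 4) (.play 455 (.ref 185 387)))) (.both (.play 262 (.both (.ref 594 68) (.both (.ref 318 69) (.both (.ref 317 69) (.both (.play 454 (.both (.ref 593 133) (.both (.play 518 (.ref 39 198)) (.ref 233 260)))) (.play 454 (.both (.ref 137 132) (.both (.ref 589 196) (.ref 233 260))))))))) (.both (.play 454 (.both (.play 263 (.both (.play 262 (.both (.play 198 (.both (.ref 43 133) (.play 453 (.ref 6 197)))) (.play 199 (.ref 5 198)))) (.both (.ref 592 134)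 (.play 518 (.both (.play 327 (.ref 5 262)) (.ref 24 325)))))) (.both (.ref 233 260) (.play 387 (.ref 77 323))))) (.play 327 (.ref 87 323)))))) (.both (.play 391 (.ref 591 67)) (.both (.ref 328 323) (.both (.ref 414 323) (.play 391 (.both (.play 323 (.ref 3 323)) (.ref 241 324)))))))) (.both (.play 326 (.both (.play 262 (.both (.ref 590 5) (.both (.ref 585 67) (.both (.play 260 (.both (.play 198 (.both (.play 134 (.ref 45 69)) (.both (.play 134 (.ref 40 69)) (.ref 589 132)))) (.both (.play 327 (.ref 560 259)) (.both (.play 261 (.ref 522 259)) (.play 325 (.ref 559 259)))))) (.both (.play 325 (.ref 31 67)) (.play 454 (.both (.ref 521 195) (.play 517 (.ref 35 261))))))))) (.both (.play 262 (.both (.ref 588 5) (.both (.ref 518 67) (.both (.ref 517 195) (.play 325 (.ref 77 259)))))) (.both (.ref 575 67) (.play 391 (.ref 560 323)))))) (.both (.play 326 (.both (.ref 519 67) (.both (.play 262 (.both (.play 391 (.both (.play 455 (.ref 72 134)) (.both (.play 455 (.both (.play 198 (.ref 4 198)) (.play 389 (.ref 532 323))))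 (.play 389 (.ref 587 323))))) (.both (.play 454 (.ref 41 133)) (.both (.ref 357 133) (.both (.ref 581 133) (.both (.play 391 (.both (.play 198 (.both (.play 389 (.both (.play 453 (.ref 6 197)) (.play 324 (.ref 3 323)))) (.play 455 (.ref 4 198)))) (.both (.play 455 (.ref 292 198)) (.play 389 (.ref 587 323))))) (.both (.play 389 (.both (.play 453 (.ref 110 197)) (.play 391 (.ref 587 323)))) (.ref 579 196)))))))) (.both (.ref 586 132) (.play 391 (.ref 560 323)))))) (.both (.play 391 (.both (.play 326 (.both (.play 262 (.both (.ref 585 67) (.both (.ref 73 69) (.both (.play 455 (.ref 72 134)) (.play 454 (.both (.play 263 (.ref 416 195)) (.both (.play 261 (.both (.play 197 (.ref 7 197)) (.ref 584 261))) (.ref 62 198)))))))) (.play 325 (.ref 0 323)))) (.play 389 (.ref 3 323)))) (.both (.play 389 (.both (.play 387 (.both (.ref 84 131) (.both (.ref 394 192) (.ref 98 385)))) (.play 391 (.ref 3 323)))) (.both (.play 389 (.both (.play 387 (.both (.play 326 (.both (.play 325 (.both (.ref 349 131) (.play 386 (.ref 1 322))))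 (.play 327 (.ref 2 323)))) (.ref 393 194))) (.play 391 (.ref 3 323)))) (.play 389 (.both (.play 387 (.both (.play 451 (.both (.play 260 (.ref 181 195)) (.play 450 (.ref 1 386)))) (.both (.ref 305 194) (.ref 98 385)))) (.play 391 (.ref 3 323))))))))))))))
 (.seq (.one (.play 195 (.both (.ref 422 0) (.play 259 (.both (.ref 23 3) (.both (.ref 125 3) (.ref 210 66)))))))
 (.one (.play 259 (.both (.play 195 (.both (.play 2 (.ref 4 2)) (.ref 397 64))) (.both (.play 195 (.ref 198 2)) (.play 258 (.ref 330 66)))))))))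
 (.seq (.seq (.one (.play 321 (.both (.ref 43 0) (.ref 364 128))))
 (.seq (.one (.play 65 (.both (.play 64 (.ref 2 0)) (.play 133 (.ref 0 65)))))
 (.one (.play 195 (.both (.play 194 (.both (.play 196 (.both (.play 260 (.both (.ref 47 3) (.ref 610 128))) (.both (.play 260 (.both (.ref 609 3) (.both (.ref 47 3) (.play 261 (.both (.play 325 (.ref 4 68)) (.play 262 (.ref 8 194))))))) (.play 193 (.ref 172 128))))) (.play 258 (.ref 6 2)))) (.both (.ref 608 1) (.both (.play 260 (.ref 42 2)) (.both (.play 259 (.both (.ref 25 2) (.play 323 (.ref 5 67)))) (.ref 61 2)))))))))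
 (.seq (.one (.play 257 (.both (.play 0 (.ref 7 0)) (.ref 23 1))))
 (.seq (.one (.play 193 (.both (.play 256 (.ref 6 0)) (.ref 612 0))))
 (.one (.play 197 (.both (.ref 195 0) (.both (.ref 598 4) (.ref 512 5))))))))))
 (.seq (.seq (.seq (.seq (.one (.play 195 (.both (.play 194 (.both (.play 258 (.ref 4 1)) (.play 196 (.ref 3 128)))) (.ref 558 0))))
 (.one (.play 194 (.both (.play 129 (.both (.ref 615 1) (.play 128 (.ref 1 64)))) (.play 258 (.ref 5 2))))))
 (.seq (.one (.play 196 (.both (.play 195 (.both (.ref 389 1) (.play 256 (.ref 1 192)))) (.both (.play 195 (.ref 446 128)) (.play 132 (.ref 522 129))))))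
 (.seq (.one (.play 4 (.both (.play 67 (.ref 118 0)) (.both (.play 2 (.ref 146 0)) (.both (.play 64 (.both (.play 67 (.ref 2 0)) (.play 2 (.ref 1 0)))) (.ref 220 1))))))
 (.one (.play 323 (.both (.ref 202 1) (.play 384 (.ref 1 320))))))))
 (.seq (.seq (.one (.play 129 (.both (.ref 453 0) (.ref 38 65))))
 (.seq (.one (.both (.play 260 (.ref 4 3)) (.play 130 (.ref 0 128))))
 (.one (.both (.ref 51 2) (.play 324 (.ref 621 128))))))
 (.seq (.one (.play 65 (.both (.play 256 (.ref 204 0)) (.ref 38 1))))
 (.seq (.one (.play 385 (.both (.ref 525 0) (.both (.ref 25 128) (.ref 411 192)))))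
 (.one (.play 259 (.both (.play 195 (.both (.ref 620 2) (.both (.ref 624 66) (.play 451 (.ref 40 130))))) (.both (.play 386 (.both (.play 450 (.ref 110 194)) (.play 324 (.ref 122 320)))) (.play 261 (.ref 562 258))))))))))
 (.seq (.seq (.seq (.one (.both (.play 66 (.ref 5 1)) (.ref 61 64)))
 (.seq (.one (.both (.play 129 (.both (.play 66 (.ref 5 1)) (.play 128 (.ref 3 128)))) (.play 256 (.ref 1 192))))
 (.one (.play 193 (.both (.play 2 (.ref 6 1)) (.play 196 (.ref 146 192)))))))
 (.seq (.one (.play 260 (.both (.play 196 (.both (.play 5 (.ref 5 4)) (.play 324 (.both (.play 323 (.both (.ref 628 66) (.play 387 (.ref 6 131)))) (.both (.play 195 (.both (.play 388 (.ref 7 131)) (.play 262 (.ref 13 193)))) (.ref 22 131)))))) (.both (.play 196 (.ref 284 4)) (.play 259 (.both (.play 323 (.both (.play 262 (.ref 627 66)) (.both (.play 195 (.ref 626 66)) (.play 322 (.ref 100 256))))) (.both (.play 195 (.both (.play 323 (.ref 626 66)) (.play 194 (.ref 13 192)))) (.both (.play 323 (.both (.play 195 (.ref 626 66)) (.both (.play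 322 (.both (.play 195 (.ref 299 66)) (.play 262 (.ref 1 258)))) (.play 322 (.ref 221 256))))) (.both (.ref 493 128) (.both (.ref 332 192) (.both (.ref 492 192) (.ref 337 192))))))))))))
 (.seq (.one (.play 66 (.both (.play 2 (.ref 5 1)) (.play 68 (.ref 1 64)))))
 (.one (.play 323 (.both (.ref 597 1) (.play 324 (.ref 2 320))))))))
 (.seq (.seq (.one (.play 193 (.both (.play 2 (.ref 5 1)) (.ref 211 64))))
 (.seq (.one (.play 3 (.both (.play 4 (.ref 2 0)) (.play 131 (.both (.play 195 (.ref 6 2)) (.play 132 (.ref 0 64)))))))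
 (.one (.play 196 (.both (.play 129 (.both (.play 65 (.ref 292 1)) (.play 128 (.ref 3 128)))) (.ref 78 129))))))
 (.seq (.one (.play 259 (.both (.play 196 (.both (.play 260 (.ref 4 3)) (.play 130 (.both (.play 323 (.ref 7 66)) (.play 129 (.ref 185 128)))))) (.both (.ref 23 3) (.ref 280 66)))))
 (.seq (.one (.play 257 (.both (.play 0 (.ref 7 0)) (.ref 22 64))))
 (.one (.play 449 (.both (.ref 450 0) (.both (.ref 624 128) (.both (.play 513 (.ref 526 128)) (.both (.ref 636 256) (.ref 245 256))))))))))))))
 (.seq (.seq (.seq (.seq (.seq (.seq (.one (.play 193 (.both (.ref 596 0) (.play 385 (.ref 6 192)))))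
 (.one (.play 456 (.both (.play 392 (.both (.play 390 (.both (.play 326 (.both (.play 391 (.both (.ref 631 5) (.both (.play 393 (.both (.ref 634 198) (.play 454 (.ref 1 389)))) (.both (.play 328 (.both (.play 327 (.both (.play 263 (.ref 198 199)) (.play 393 (.both (.play 394 (.ref 3 326)) (.play 454 (.ref 1 389)))))) (.play 329 (.ref 2 325)))) (.both (.ref 166 325) (.play 393 (.both (.ref 276 326) (.play 454 (.ref 1 389))))))))) (.play 517 (.ref 181 261)))) (.both (.play 582 (.both (.play 581 (.both (.play 583 (.both (.play 517 (.both (.ref 638 133) (.ref 328 516))) (.play 647 (.ref 4 390)))) (.play 645 (.ref 6 389)))) (.both (.ref 528 261) (.both (.ref 527 261) (.both (.play 647 (.ref 42 389)) (.ref 222 389)))))) (.both (.play 391 (.both (.play 327 (.ref 136 198)) (.play 393 (.ref 1 389)))) (.play 582 (.both (.ref 630 325) (.ref 261 389))))))) (.both (.play 390 (.both (.play 328 (.both (.play 264 (.both (.ref 466 71) (.both (.ref 566 71) (.both (.ref 29 135) (.both (.ref 565 135) (.play 263 (.both (.play 265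 (.both (.play 327 (.both (.ref 259 198) (.play 520 (.both (.play 328 (.ref 7 263)) (.play 584 (.both (.play 391 (.ref 7 327)) (.play 649 (.ref 42 391)))))))) (.play 201 (.ref 5 200)))) (.play 199 (.ref 7 199))))))))) (.both (.play 329 (.both (.play 326 (.both (.play 262 (.both (.ref 593 133) (.both (.ref 453 133) (.play 261 (.both (.play 197 (.ref 7 197)) (.play 263 (.both (.play 199 (.ref 5 198)) (.play 264 (.ref 0 261))))))))) (.play 327 (.ref 1 325)))) (.play 391 (.ref 2 325)))) (.both (.play 520 (.ref 622 197)) (.play 520 (.both (.play 329 (.ref 573 261)) (.play 521 (.ref 621 325)))))))) (.both (.play 327 (.both (.play 263 (.both (.play 328 (.ref 71 135)) (.play 326 (.ref 5 262)))) (.both (.play 391 (.both (.play 263 (.both (.play 199 (.ref 4 199)) (.play 326 (.ref 5 262)))) (.play 582 (.ref 5 326)))) (.ref 479 325)))) (.both (.ref 637 133) (.both (.ref 529 259) (.play 582 (.both (.play 391 (.ref 460 321)) (.both (.play 646 (.ref 40 325)) (.both (.play 646 (.ref 39 326)) (.play 646 (.ref 26 389)))))))))))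 (.both (.play 393 (.both (.play 391 (.both (.play 394 (.both (.play 330 (.both (.play 327 (.both (.play 458 (.ref 94 71)) (.play 326 (.ref 3 326)))) (.play 331 (.ref 2 327)))) (.both (.play 395 (.ref 81 326)) (.both (.play 395 (.ref 80 326)) (.play 395 (.ref 19 327)))))) (.play 390 (.ref 1 389)))) (.play 455 (.ref 2 389)))) (.both (.play 390 (.both (.ref 637 133) (.both (.play 520 (.both (.play 521 (.both (.ref 73 199) (.play 455 (.ref 0 453)))) (.both (.ref 515 197) (.play 455 (.ref 77 389))))) (.play 582 (.both (.ref 195 385) (.both (.ref 635 387) (.both (.ref 24 389) (.ref 261 389)))))))) (.both (.play 393 (.both (.play 391 (.both (.ref 634 198) (.play 390 (.ref 1 389)))) (.play 455 (.ref 2 389)))) (.play 455 (.both (.play 520 (.both (.play 584 (.both (.play 583 (.both (.play 517 (.both (.ref 54 389) (.play 516 (.ref 121 451)))) (.play 647 (.ref 6 391)))) (.both (.ref 612 391) (.ref 261 391)))) (.play 521 (.ref 0 453)))) (.play 393 (.ref 2 389)))))))))) (.both (.ref 625 131) (.both (.play 455 (.ref 201 132))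 (.both (.ref 571 133) (.both (.play 582 (.both (.play 390 (.both (.ref 578 197) (.both (.ref 548 261) (.ref 195 385)))) (.play 646 (.ref 7 389)))) (.both (.play 517 (.both (.play 581 (.both (.play 582 (.both (.play 580 (.both (.play 583 (.both (.play 390 (.both (.play 326 (.ref 135 261)) (.ref 353 388))) (.both (.play 518 (.both (.ref 444 325) (.play 584 (.ref 150 516)))) (.both (.ref 277 516) (.ref 328 516))))) (.play 644 (.ref 6 388)))) (.play 646 (.ref 4 389)))) (.both (.play 390 (.ref 301 324)) (.both (.ref 62 325) (.play 644 (.ref 35 388)))))) (.both (.play 390 (.both (.play 326 (.ref 181 261)) (.play 455 (.both (.play 582 (.both (.play 391 (.both (.play 327 (.ref 5 326)) (.ref 615 389))) (.both (.ref 24 389) (.ref 246 389)))) (.play 457 (.ref 1 453)))))) (.play 455 (.ref 146 452))))) (.play 455 (.both (.play 517 (.both (.play 645 (.both (.play 581 (.ref 376 384)) (.both (.play 647 (.both (.play 646 (.both (.play 582 (.both (.play 583 (.ref 531 387)) (.play 709 (.ref 6 453)))) (.both (.ref 491 450) (.both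 (.play 644 (.both (.play 584 (.both (.play 648 (.both (.play 713 (.both (.play 649 (.ref 344 454)) (.play 712 (.ref 0 645)))) (.play 585 (.ref 2 581)))) (.play 583 (.ref 2 580)))) (.play 579 (.ref 214 578)))) (.ref 345 452))))) (.both (.play 392 (.both (.play 393 (.ref 2 389)) (.play 520 (.both (.play 584 (.ref 35 391)) (.play 521 (.ref 0 453)))))) (.both (.play 583 (.both (.ref 633 389) (.play 582 (.ref 69 390)))) (.play 646 (.both (.play 709 (.both (.play 582 (.ref 6 453)) (.play 708 (.both (.play 707 (.ref 371 643)) (.play 648 (.ref 1 644)))))) (.both (.ref 350 452) (.both (.play 582 (.ref 34 453)) (.play 644 (.both (.ref 488 577) (.both (.ref 253 578) (.both (.ref 404 578) (.play 648 (.ref 17 643)))))))))))))) (.both (.ref 632 388) (.ref 433 453))))) (.play 516 (.ref 1 452)))) (.both (.ref 167 388) (.both (.play 393 (.ref 95 389)) (.ref 103 452))))))))))))))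
 (.seq (.one (.play 454 (.both (.play 518 (.both (.ref 639 0) (.both (.play 456 (.both (.play 390 (.both (.play 326 (.both (.play 392 (.both (.play 391 (.both (.ref 631 5) (.play 393 (.ref 1 389)))) (.both (.play 457 (.both (.play 328 (.both (.ref 73 135) (.both (.play 327 (.both (.play 263 (.both (.play 518 (.ref 5 262)) (.play 520 (.ref 7 263)))) (.play 329 (.ref 1 325)))) (.play 521 (.ref 69 264))))) (.play 391 (.ref 0 389)))) (.both (.play 328 (.both (.play 329 (.both (.play 265 (.ref 208 136)) (.play 327 (.ref 1 325)))) (.both (.play 264 (.both (.ref 131 136) (.play 263 (.both (.play 199 (.ref 7 199)) (.play 327 (.ref 5 262)))))) (.both (.ref 154 135) (.ref 630 261))))) (.play 391 (.ref 522 389)))))) (.play 517 (.ref 181 261)))) (.both (.ref 578 197) (.both (.ref 447 322) (.ref 576 325))))) (.both (.play 517 (.both (.ref 619 132) (.both (.play 581 (.both (.play 390 (.ref 301 324)) (.both (.ref 119 386) (.ref 298 389)))) (.play 646 (.both (.play 516 (.both (.ref 629 385) (.play 455 (.ref 1 452)))) (.play 582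 (.ref 7 389))))))) (.both (.ref 625 131) (.both (.ref 568 133) (.play 517 (.both (.ref 607 386) (.both (.play 455 (.ref 146 452)) (.play 520 (.ref 562 453)))))))))) (.both (.play 390 (.both (.play 326 (.both (.play 262 (.both (.play 198 (.both (.ref 326 5) (.play 389 (.ref 6 197)))) (.both (.ref 547 133) (.ref 38 198)))) (.both (.play 262 (.both (.ref 596 69) (.ref 23 262))) (.both (.ref 131 198) (.ref 62 262))))) (.both (.play 456 (.both (.play 392 (.both (.play 520 (.both (.play 328 (.both (.ref 467 71) (.both (.ref 431 135) (.play 329 (.ref 573 261))))) (.both (.play 328 (.both (.ref 431 135) (.both (.ref 51 199) (.both (.play 391 (.both (.ref 623 199) (.ref 134 327))) (.play 584 (.ref 44 263)))))) (.both (.play 328 (.ref 622 197)) (.both (.play 519 (.both (.ref 594 198) (.play 521 (.ref 3 453)))) (.play 521 (.ref 560 453))))))) (.both (.play 455 (.both (.ref 605 197) (.play 393 (.ref 2 389)))) (.both (.play 520 (.ref 57 197)) (.play 393 (.ref 561 389)))))) (.both (.play 455 (.ref 32 196)) (.both (.play 392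 (.both (.play 391 (.both (.play 520 (.both (.play 327 (.ref 71 199)) (.both (.play 328 (.both (.ref 555 261) (.ref 55 325))) (.ref 115 327)))) (.play 457 (.ref 0 389)))) (.both (.play 520 (.ref 57 197)) (.both (.ref 582 261) (.play 391 (.ref 522 389)))))) (.both (.play 455 (.both (.play 517 (.both (.play 520 (.both (.play 519 (.both (.ref 389 325) (.ref 476 388))) (.play 521 (.ref 0 453)))) (.play 516 (.ref 1 452)))) (.play 457 (.ref 3 389)))) (.play 392 (.ref 562 389))))))) (.both (.play 326 (.both (.ref 620 133) (.both (.play 327 (.ref 301 261)) (.play 517 (.ref 181 261))))) (.both (.play 326 (.both (.ref 454 133) (.both (.play 517 (.ref 181 261)) (.play 583 (.ref 42 325))))) (.play 326 (.ref 41 197))))))) (.both (.play 517 (.both (.play 581 (.both (.play 645 (.both (.play 456 (.both (.ref 619 132) (.both (.play 584 (.both (.play 520 (.both (.ref 588 199) (.both (.play 457 (.both (.play 393 (.both (.play 329 (.ref 311 328)) (.play 648 (.ref 5 392)))) (.play 519 (.ref 2 453)))) (.both (.play 585 (.both (.play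 649 (.ref 69 392)) (.play 519 (.ref 0 517)))) (.play 519 (.ref 77 453)))))) (.both (.play 520 (.both (.play 457 (.ref 520 261)) (.both (.play 392 (.both (.ref 51 263) (.play 647 (.both (.play 583 (.ref 6 391)) (.play 648 (.both (.play 713 (.both (.play 649 (.ref 4 456)) (.play 712 (.ref 465 517)))) (.play 711 (.ref 6 455)))))))) (.both (.play 519 (.both (.play 583 (.both (.play 392 (.ref 204 327)) (.play 516 (.ref 0 516)))) (.play 457 (.ref 2 453)))) (.ref 572 389))))) (.both (.play 644 (.both (.play 708 (.ref 6 452)) (.play 646 (.both (.play 710 (.ref 4 453)) (.play 647 (.ref 95 580)))))) (.play 583 (.both (.play 644 (.both (.play 708 (.ref 6 452)) (.play 646 (.both (.play 710 (.ref 4 453)) (.play 647 (.ref 2 580)))))) (.play 519 (.ref 10 516)))))))) (.both (.ref 600 388) (.play 520 (.ref 562 453)))))) (.play 709 (.ref 5 453)))) (.both (.play 455 (.both (.ref 617 324) (.both (.play 516 (.both (.play 580 (.both (.play 644 (.ref 181 388)) (.play 579 (.ref 129 514)))) (.play 515 (.ref 2 451)))) (.both (.ref 259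 388) (.ref 618 452))))) (.both (.play 455 (.both (.ref 617 324) (.both (.play 516 (.ref 129 451)) (.play 516 (.both (.play 515 (.ref 2 451)) (.play 519 (.both (.ref 616 451) (.both (.play 520 (.ref 446 452)) (.play 520 (.both (.play 521 (.ref 3 453)) (.ref 15 516))))))))))) (.both (.play 580 (.both (.play 644 (.ref 110 388)) (.play 519 (.ref 122 514)))) (.ref 614 448)))))) (.both (.play 581 (.both (.ref 375 384) (.both (.play 644 (.ref 35 388)) (.both (.ref 513 388) (.both (.play 645 (.both (.ref 25 388) (.play 709 (.ref 502 453)))) (.ref 126 388)))))) (.both (.play 516 (.both (.play 519 (.both (.play 580 (.both (.play 644 (.ref 109 388)) (.play 579 (.ref 1 515)))) (.ref 78 452))) (.both (.play 515 (.both (.ref 478 449) (.both (.play 514 (.both (.play 453 (.ref 2 450)) (.ref 15 514))) (.ref 103 514)))) (.play 455 (.ref 129 451))))) (.both (.play 516 (.both (.ref 323 387) (.both (.play 519 (.both (.play 646 (.both (.play 582 (.ref 7 389)) (.play 455 (.both (.play 456 (.ref 2 452)) (.play 583 (.both (.ref 613 454)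 (.play 584 (.ref 0 516)))))))) (.both (.ref 471 452) (.play 456 (.both (.play 455 (.ref 2 452)) (.play 520 (.ref 559 453))))))) (.play 515 (.ref 172 450))))) (.both (.ref 611 386) (.ref 607 386))))))) (.both (.play 582 (.both (.play 390 (.both (.play 326 (.both (.ref 454 133) (.ref 38 262))) (.both (.ref 548 261) (.ref 482 385)))) (.play 646 (.ref 7 389)))) (.both (.ref 606 130) (.both (.play 456 (.both (.play 390 (.both (.ref 265 133) (.both (.ref 583 133) (.both (.ref 578 197) (.ref 576 325))))) (.both (.play 582 (.both (.play 455 (.both (.ref 202 133) (.both (.play 457 (.both (.ref 84 198) (.both (.ref 487 389) (.ref 166 390)))) (.both (.ref 550 261) (.both (.play 391 (.both (.ref 305 261) (.both (.ref 358 262) (.play 457 (.both (.play 521 (.both (.play 520 (.both (.play 584 (.both (.play 648 (.ref 7 391)) (.play 581 (.ref 561 517)))) (.play 453 (.ref 0 453)))) (.play 522 (.ref 0 454)))) (.both (.ref 277 390) (.play 458 (.both (.ref 278 391) (.play 519 (.ref 1 454)))))))))) (.both (.play 393 (.ref 95 389))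 (.ref 65 389))))))) (.play 646 (.ref 7 389)))) (.both (.play 520 (.both (.play 455 (.ref 145 133)) (.both (.ref 575 197) (.both (.ref 574 197) (.play 521 (.ref 560 453)))))) (.both (.ref 571 133) (.both (.play 455 (.both (.play 520 (.both (.ref 570 134) (.play 521 (.ref 0 453)))) (.both (.play 457 (.both (.play 390 (.both (.play 391 (.both (.ref 175 261) (.play 458 (.ref 3 390)))) (.play 389 (.ref 3 389)))) (.both (.ref 230 389) (.ref 15 453)))) (.both (.play 390 (.both (.play 582 (.both (.ref 131 262) (.both (.play 646 (.both (.ref 38 326) (.play 453 (.ref 7 389)))) (.ref 186 389)))) (.play 457 (.ref 3 389)))) (.play 457 (.both (.ref 569 261) (.ref 15 453))))))) (.both (.ref 568 133) (.both (.play 455 (.both (.ref 84 197) (.both (.ref 377 389) (.ref 278 389)))) (.both (.play 582 (.both (.play 390 (.both (.ref 549 197) (.play 392 (.ref 562 389)))) (.play 646 (.ref 7 389)))) (.both (.play 455 (.both (.play 391 (.both (.ref 389 261) (.both (.play 582 (.both (.play 327 (.ref 135 262)) (.play 646 (.ref 7 389)))) (.play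 582 (.both (.play 583 (.both (.play 581 (.both (.play 519 (.both (.ref 484 325) (.play 580 (.ref 343 514)))) (.both (.play 519 (.both (.ref 484 325) (.play 520 (.ref 129 516)))) (.both (.ref 538 388) (.both (.ref 291 514) (.ref 537 514)))))) (.both (.play 584 (.both (.ref 558 389) (.both (.ref 557 514) (.play 585 (.both (.play 581 (.both (.ref 407 514) (.ref 18 517))) (.both (.ref 533 518) (.play 522 (.ref 95 518)))))))) (.both (.play 581 (.both (.ref 346 386) (.both (.ref 538 388) (.play 390 (.ref 34 389))))) (.play 647 (.ref 292 390)))))) (.play 646 (.ref 5 390))))))) (.both (.ref 377 389) (.both (.ref 553 389) (.both (.ref 556 389) (.both (.play 457 (.both (.ref 166 390) (.ref 15 453))) (.play 457 (.both (.play 390 (.ref 3 389)) (.ref 148 389))))))))) (.play 455 (.both (.play 520 (.both (.play 584 (.both (.play 392 (.both (.ref 555 325) (.ref 554 390))) (.both (.ref 115 391) (.both (.play 648 (.both (.play 391 (.ref 7 391)) (.ref 222 455))) (.play 648 (.both (.play 391 (.ref 7 391)) (.ref 227 391))))))) (.play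 521 (.ref 0 453)))) (.both (.play 393 (.ref 95 389)) (.both (.play 521 (.both (.ref 552 390) (.play 520 (.ref 0 453)))) (.both (.play 457 (.both (.ref 551 390) (.ref 15 453))) (.play 457 (.both (.ref 18 389) (.both (.ref 166 390) (.ref 551 390))))))))))))))))))) (.both (.play 582 (.both (.play 390 (.both (.play 326 (.both (.play 262 (.both (.ref 90 133) (.play 517 (.ref 6 261)))) (.ref 38 262))) (.both (.play 391 (.both (.play 392 (.both (.ref 84 133) (.both (.ref 550 197) (.both (.ref 65 325) (.ref 472 389))))) (.play 327 (.ref 5 326)))) (.ref 399 197)))) (.play 646 (.ref 7 389)))) (.both (.play 582 (.both (.play 390 (.both (.ref 549 197) (.both (.ref 548 261) (.play 581 (.both (.play 580 (.both (.play 583 (.ref 351 387)) (.both (.play 583 (.both (.play 647 (.ref 4 390)) (.ref 480 451))) (.ref 254 513)))) (.play 645 (.ref 6 389))))))) (.play 646 (.ref 7 389)))) (.both (.play 582 (.both (.ref 545 386) (.play 646 (.ref 7 389)))) (.play 582 (.both (.play 583 (.both (.ref 409 386) (.both (.play 581 (.both (.play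 645 (.ref 348 389)) (.both (.ref 537 514) (.play 580 (.both (.play 515 (.ref 214 514)) (.both (.ref 235 514) (.play 584 (.both (.ref 79 515) (.ref 277 517))))))))) (.both (.play 647 (.ref 292 390)) (.play 584 (.ref 536 450)))))) (.both (.play 646 (.both (.play 645 (.both (.play 583 (.both (.play 647 (.ref 531 387)) (.both (.play 581 (.both (.play 390 (.ref 6 389)) (.play 644 (.ref 129 579)))) (.both (.ref 530 389) (.play 644 (.ref 221 578)))))) (.play 709 (.ref 6 453)))) (.play 453 (.ref 7 389)))) (.both (.ref 368 387) (.both (.play 646 (.both (.ref 529 387) (.play 453 (.ref 7 389)))) (.both (.play 646 (.both (.play 647 (.both (.play 581 (.both (.play 645 (.both (.play 390 (.ref 6 389)) (.play 648 (.ref 150 580)))) (.both (.play 583 (.both (.play 390 (.ref 4 390)) (.play 648 (.ref 459 580)))) (.both (.ref 458 389) (.play 648 (.ref 14 579)))))) (.play 711 (.ref 4 454)))) (.play 453 (.ref 7 389)))) (.play 646 (.both (.play 453 (.ref 268 389)) (.both (.ref 251 389) (.play 390 (.ref 26 389)))))))))))))))))))))) (.play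 388 (.ref 0 386)))))
 (.seq (.one (.play 262 (.both (.play 260 (.both (.play 196 (.ref 110 4)) (.both (.ref 461 4) (.play 261 (.ref 306 65))))) (.both (.play 198 (.ref 292 5)) (.play 261 (.ref 438 64))))))
 (.one (.play 261 (.both (.ref 251 4) (.both (.play 325 (.ref 44 4)) (.ref 427 64))))))))
 (.seq (.seq (.one (.play 257 (.both (.ref 25 0) (.both (.ref 420 0) (.both (.play 322 (.ref 42 64)) (.ref 222 64))))))
 (.seq (.one (.play 385 (.both (.ref 566 0) (.both (.ref 483 64) (.both (.ref 47 128) (.ref 643 192))))))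
 (.one (.both (.play 68 (.ref 412 0)) (.both (.play 4 (.ref 13 2)) (.both (.play 8 (.ref 118 4)) (.play 72 (.ref 580 4))))))))
 (.seq (.one (.both (.ref 478 0) (.play 6 (.ref 2 2))))
 (.seq (.one (.play 68 (.both (.play 67 (.both (.play 65 (.ref 3 0)) (.play 128 (.ref 2 64)))) (.both (.ref 449 65) (.ref 618 65)))))
 (.one (.play 259 (.both (.play 2 (.ref 4 2)) (.play 192 (.ref 0 192)))))))))
 (.seq (.seq (.seq (.one (.play 194 (.both (.play 258 (.ref 110 2)) (.play 193 (.ref 99 128)))))
 (.one (.play 256 (.both (.play 65 (.ref 5 0)) (.ref 23 0)))))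
 (.seq (.one (.play 260 (.both (.play 67 (.both (.play 3 (.ref 7 3)) (.ref 307 64))) (.both (.play 324 (.ref 45 3)) (.both (.play 324 (.ref 44 3)) (.play 324 (.ref 26 67)))))))
 (.seq (.one (.play 129 (.both (.play 1 (.ref 4 1)) (.play 128 (.ref 3 128)))))
 (.one (.play 257 (.both (.play 64 (.ref 7 0)) (.ref 49 0)))))))
 (.seq (.seq (.one (.play 66 (.both (.play 65 (.ref 80 0)) (.ref 16 65))))
 (.seq (.one (.play 2 (.both (.play 0 (.ref 0 0)) (.play 64 (.ref 1 0)))))
 (.one (.play 194 (.both (.play 129 (.both (.play 257 (.both (.play 66 (.ref 424 1)) (.play 256 (.ref 1 192)))) (.play 128 (.ref 3 128)))) (.play 133 (.ref 2 129)))))))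
 (.seq (.one (.play 129 (.both (.play 2 (.ref 5 1)) (.ref 479 64))))
 (.seq (.one (.play 258 (.both (.play 194 (.both (.ref 657 1) (.ref 655 193))) (.both (.ref 656 65) (.both (.play 259 (.ref 646 192)) (.play 194 (.both (.play 193 (.ref 560 193)) (.both (.play 257 (.ref 561 193)) (.both (.ref 655 193) (.play 259 (.ref 392 193)))))))))))
 (.one (.both (.play 257 (.both (.play 193 (.ref 354 0)) (.play 258 (.ref 1 193)))) (.play 129 (.ref 3 129)))))))))
 (.seq (.seq (.seq (.seq (.one (.play 194 (.both (.play 130 (.ref 659 0)) (.ref 389 2))))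
 (.one (.play 259 (.both (.ref 84 0) (.both (.ref 381 192) (.ref 540 192))))))
 (.seq (.one (.play 192 (.both (.play 1 (.ref 5 0)) (.ref 650 64))))
 (.seq (.one (.play 196 (.both (.ref 652 0) (.ref 472 193))))
 (.one (.play 131 (.both (.play 3 (.ref 4 3)) (.play 259 (.both (.ref 119 64) (.play 324 (.ref 4 67))))))))))
 (.seq (.seq (.one (.play 131 (.both (.play 65 (.both (.play 4 (.ref 2 1)) (.play 64 (.ref 0 64)))) (.play 70 (.ref 146 66)))))
 (.seq (.one (.play 66 (.both (.play 5 (.ref 2 2)) (.ref 296 64))))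
 (.one (.play 195 (.both (.ref 542 2) (.both (.ref 666 128) (.both (.ref 478 129) (.ref 665 129))))))))
 (.seq (.one (.play 195 (.both (.ref 657 2) (.play 258 (.ref 122 192)))))
 (.seq (.one (.play 133 (.both (.ref 355 0) (.play 262 (.ref 4 5)))))
 (.one (.play 67 (.both (.ref 488 0) (.both (.ref 16 66) (.ref 164 66)))))))))
 (.seq (.seq (.seq (.one (.play 131 (.both (.play 195 (.ref 7 2)) (.play 132 (.ref 0 64)))))
 (.seq (.one (.play 195 (.both (.play 259 (.both (.play 260 (.both (.play 131 (.ref 284 3)) (.play 199 (.ref 1 195)))) (.play 258 (.ref 1 194)))) (.both (.ref 666 128) (.both (.ref 478 129) (.ref 665 129))))))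
 (.one (.play 67 (.both (.play 65 (.both (.ref 630 0) (.play 322 (.ref 4 65)))) (.play 260 (.both (.play 324 (.ref 344 65)) (.play 192 (.ref 3 192)))))))))
 (.seq (.one (.play 193 (.both (.ref 22 0) (.both (.ref 325 0) (.play 64 (.both (.play 257 (.ref 7 0)) (.play 132 (.ref 3 64))))))))
 (.seq (.one (.play 196 (.both (.play 260 (.ref 4 3)) (.ref 282 64))))
 (.one (.play 131 (.both (.ref 675 0) (.play 259 (.ref 7 2))))))))
 (.seq (.seq (.one (.play 69 (.both (.play 70 (.ref 20 1)) (.both (.play 6 (.ref 95 2)) (.play 65 (.ref 17 64))))))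
 (.seq (.one (.play 69 (.both (.play 65 (.ref 20 0)) (.both (.play 6 (.ref 95 2)) (.ref 103 65)))))
 (.one (.play 132 (.both (.ref 379 1) (.both (.play 133 (.ref 20 64)) (.play 133 (.ref 17 128))))))))
 (.seq (.one (.play 196 (.both (.play 260 (.both (.play 261 (.both (.play 132 (.ref 266 3)) (.play 193 (.ref 0 193)))) (.both (.play 132 (.ref 341 3)) (.play 261 (.ref 14 192))))) (.both (.play 260 (.both (.play 193 (.both (.play 132 (.both (.play 67 (.ref 7 3)) (.play 133 (.ref 2 129)))) (.play 261 (.ref 0 193)))) (.both (.play 132 (.ref 341 3)) (.play 261 (.ref 185 193))))) (.both (.play 132 (.both (.play 260 (.ref 341 3)) (.play 133 (.ref 118 129)))) (.both (.ref 679 65) (.both (.ref 96 128) (.both (.ref 678 128) (.ref 677 128)))))))))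
 (.seq (.one (.play 196 (.both (.play 260 (.both (.play 261 (.both (.play 132 (.ref 133 3)) (.play 193 (.ref 0 193)))) (.both (.play 132 (.ref 309 3)) (.play 261 (.ref 14 192))))) (.both (.play 260 (.both (.play 193 (.ref 474 1)) (.both (.play 132 (.ref 309 3)) (.play 261 (.ref 185 193))))) (.both (.play 132 (.both (.play 260 (.ref 309 3)) (.ref 544 65))) (.both (.ref 679 65) (.both (.ref 96 128) (.both (.ref 678 128) (.ref 677 128)))))))))
 (.one (.play 68 (.both (.ref 540 1) (.play 128 (.ref 1 64)))))))))))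
 (.seq (.seq (.seq (.seq (.seq (.one (.play 196 (.both (.ref 307 0) (.play 260 (.ref 5 4)))))
 (.one (.both (.play 64 (.ref 7 0)) (.play 321 (.ref 5 65)))))
 (.seq (.one (.play 193 (.both (.play 194 (.both (.ref 542 0) (.play 192 (.ref 2 128)))) (.both (.play 129 (.both (.play 257 (.ref 123 0)) (.play 130 (.ref 269 128)))) (.both (.play 130 (.both (.play 194 (.own 130 (.both (.ref 542 0) (.ref 304 129)))) (.both (.ref 298 1) (.play 197 (.ref 459 129))))) (.both (.play 194 (.both (.play 192 (.ref 2 128)) (.ref 304 129))) (.play 194 (.both (.play 192 (.ref 2 128)) (.ref 103 192)))))))))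
 (.seq (.one (.play 196 (.both (.play 257 (.ref 627 0)) (.ref 78 129))))
 (.one (.play 197 (.both (.ref 375 0) (.both (.ref 300 4) (.ref 650 5))))))))
 (.seq (.seq (.one (.play 195 (.both (.play 259 (.ref 7 2)) (.play 196 (.ref 0 128)))))
 (.seq (.one (.play 65 (.both (.play 64 (.ref 2 0)) (.ref 15 65))))
 (.one (.play 68 (.both (.play 67 (.both (.ref 488 0) (.play 6 (.ref 2 3)))) (.both (.ref 170 2) (.ref 16 67)))))))
 (.seq (.one (.both (.play 327 (.both (.play 328 (.both (.play 330 (.both (.play 329 (.ref 591 6)) (.both (.play 392 (.both (.ref 583 7) (.play 456 (.ref 7 199)))) (.both (.play 329 (.both (.play 262 (.ref 3 262)) (.ref 377 263))) (.play 266 (.ref 562 263)))))) (.both (.play 265 (.both (.ref 112 69) (.both (.play 262 (.both (.ref 690 193) (.both (.play 326 (.both (.play 390 (.both (.play 454 (.ref 124 198)) (.play 329 (.both (.play 330 (.ref 0 262)) (.play 389 (.ref 1 325)))))) (.play 325 (.ref 1 261)))) (.play 329 (.ref 459 261))))) (.ref 682 198)))) (.both (.play 326 (.both (.ref 380 195) (.both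 (.play 329 (.both (.play 390 (.both (.ref 347 198) (.play 389 (.ref 1 325)))) (.ref 290 262))) (.play 265 (.ref 129 261))))) (.play 392 (.both (.ref 223 197) (.play 456 (.ref 7 199)))))))) (.both (.play 325 (.both (.play 324 (.both (.play 261 (.both (.play 197 (.ref 494 68)) (.play 262 (.ref 1 260)))) (.play 326 (.ref 2 260)))) (.both (.play 265 (.both (.ref 112 69) (.both (.ref 259 198) (.play 326 (.ref 371 261))))) (.play 391 (.both (.play 390 (.both (.play 454 (.ref 6 198)) (.play 389 (.ref 645 320)))) (.play 455 (.ref 5 199))))))) (.both (.play 265 (.both (.ref 112 69) (.both (.play 262 (.both (.ref 690 193) (.both (.play 455 (.both (.play 457 (.both (.play 326 (.both (.play 454 (.both (.ref 632 197) (.both (.play 390 (.ref 284 198)) (.play 456 (.both (.ref 670 386) (.both (.ref 488 387) (.both (.ref 153 389) (.both (.ref 487 389) (.ref 98 452))))))))) (.play 325 (.ref 1 261)))) (.ref 671 198))) (.play 391 (.ref 5 199)))) (.ref 689 196)))) (.ref 682 198)))) (.both (.play 265 (.both (.ref 112 69) (.both (.play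 262 (.both (.ref 690 193) (.both (.ref 689 196) (.ref 616 197)))) (.ref 682 198)))) (.both (.play 329 (.both (.play 326 (.both (.play 325 (.both (.play 328 (.both (.play 389 (.both (.ref 569 132) (.play 388 (.ref 1 324)))) (.ref 688 197))) (.play 324 (.ref 2 260)))) (.both (.play 328 (.both (.ref 480 197) (.play 392 (.both (.play 393 (.both (.play 457 (.ref 198 200)) (.play 394 (.ref 459 326)))) (.play 456 (.ref 7 199)))))) (.play 325 (.ref 87 260))))) (.both (.play 328 (.ref 536 195)) (.both (.play 328 (.both (.play 326 (.both (.play 265 (.both (.ref 688 198) (.play 266 (.ref 2 262)))) (.ref 191 259))) (.both (.ref 323 198) (.both (.play 330 (.both (.play 394 (.both (.play 266 (.both (.play 457 (.both (.play 393 (.both (.play 265 (.ref 7 200)) (.play 202 (.ref 6 201)))) (.both (.ref 613 265) (.ref 298 265)))) (.play 267 (.ref 2 263)))) (.play 395 (.ref 0 327)))) (.play 331 (.ref 3 263)))) (.both (.ref 384 259) (.play 326 (.both (.ref 407 259) (.ref 244 262)))))))) (.both (.play 328 (.both (.ref 382 195) (.both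 (.play 326 (.both (.ref 477 197) (.ref 323 197))) (.both (.ref 557 259) (.play 262 (.ref 396 260)))))) (.both (.play 265 (.both (.play 262 (.both (.ref 386 196) (.play 330 (.ref 0 262)))) (.both (.play 266 (.ref 446 198)) (.play 266 (.both (.play 267 (.ref 3 199)) (.play 330 (.ref 104 262))))))) (.play 330 (.both (.play 265 (.ref 10 262)) (.both (.play 328 (.ref 150 262)) (.both (.play 262 (.both (.play 265 (.ref 0 262)) (.play 328 (.ref 3 262)))) (.ref 9 263))))))))))) (.both (.ref 687 194) (.both (.ref 614 194) (.both (.play 391 (.both (.ref 410 195) (.play 455 (.ref 5 199)))) (.both (.play 391 (.both (.ref 307 195) (.both (.play 455 (.both (.play 390 (.both (.play 454 (.ref 6 198)) (.play 328 (.both (.play 519 (.ref 5 263)) (.play 329 (.ref 100 324)))))) (.both (.ref 25 198) (.ref 479 262)))) (.both (.ref 60 198) (.ref 470 199))))) (.both (.play 456 (.both (.play 326 (.both (.ref 629 195) (.play 325 (.ref 221 259)))) (.both (.play 328 (.both (.ref 481 195) (.play 392 (.ref 7 199)))) (.both (.play 391 (.ref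 42 198)) (.play 392 (.both (.play 391 (.ref 4 199)) (.play 328 (.ref 7 199)))))))) (.both (.play 391 (.both (.play 390 (.both (.play 392 (.both (.play 456 (.ref 4 199)) (.play 389 (.both (.ref 253 323) (.both (.play 388 (.ref 20 323)) (.play 393 (.ref 80 324))))))) (.play 454 (.ref 6 198)))) (.play 455 (.ref 5 199)))) (.play 391 (.both (.play 392 (.both (.play 390 (.both (.ref 177 196) (.play 454 (.ref 6 198)))) (.play 456 (.ref 4 199)))) (.both (.ref 364 198) (.both (.play 454 (.ref 35 198)) (.both (.ref 374 198) (.ref 650 199)))))))))))))))))) (.both (.play 198 (.both (.play 391 (.both (.play 262 (.both (.play 261 (.both (.ref 360 68) (.play 260 (.ref 2 196)))) (.both (.play 390 (.both (.play 392 (.both (.play 389 (.both (.play 326 (.both (.play 325 (.both (.play 134 (.ref 6 133)) (.play 324 (.ref 3 324)))) (.play 453 (.ref 6 197)))) (.both (.play 263 (.both (.play 326 (.both (.play 454 (.ref 5 198)) (.ref 192 321))) (.ref 335 197))) (.both (.ref 542 196) (.ref 253 323))))) (.both (.ref 686 197) (.both (.ref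 332 323) (.both (.play 389 (.ref 331 323)) (.both (.ref 82 324) (.ref 96 324))))))) (.both (.ref 669 193) (.both (.play 455 (.both (.play 392 (.both (.play 328 (.ref 6 199)) (.play 393 (.both (.ref 507 322) (.both (.ref 78 326) (.ref 577 326)))))) (.play 326 (.ref 4 198)))) (.both (.ref 680 196) (.both (.play 326 (.both (.ref 211 197) (.play 455 (.ref 4 198)))) (.play 392 (.both (.ref 686 197) (.both (.play 393 (.both (.play 455 (.both (.play 328 (.ref 110 199)) (.play 454 (.ref 146 389)))) (.both (.ref 408 198) (.ref 153 325)))) (.play 455 (.both (.play 326 (.ref 4 198)) (.play 328 (.ref 6 199))))))))))))) (.play 328 (.both (.ref 610 196) (.ref 613 199)))))) (.both (.play 327 (.ref 302 134)) (.play 392 (.both (.ref 669 194) (.both (.play 390 (.both (.ref 336 195) (.both (.ref 334 197) (.both (.ref 332 323) (.both (.play 389 (.ref 331 323)) (.both (.play 393 (.both (.ref 488 323) (.both (.ref 440 323) (.both (.play 389 (.ref 19 325)) (.play 394 (.ref 19 326)))))) (.both (.ref 82 324) (.ref 96 324)))))))) (.both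 (.play 390 (.both (.play 389 (.both (.play 453 (.both (.play 325 (.both (.play 261 (.ref 626 196)) (.play 324 (.ref 3 324)))) (.play 452 (.ref 1 388)))) (.both (.ref 253 323) (.both (.play 388 (.ref 20 323)) (.ref 142 323))))) (.both (.play 393 (.both (.ref 352 197) (.both (.ref 253 324) (.ref 230 325)))) (.both (.ref 345 197) (.both (.play 389 (.ref 331 323)) (.ref 508 324)))))) (.play 456 (.ref 310 199))))))))) (.play 132 (.ref 11 131)))) (.both (.play 198 (.both (.play 262 (.both (.play 327 (.ref 198 70)) (.play 265 (.both (.play 261 (.both (.play 260 (.ref 2 196)) (.ref 16 260))) (.ref 541 198))))) (.play 132 (.ref 11 131)))) (.both (.play 198 (.both (.play 262 (.both (.ref 649 67) (.both (.play 327 (.ref 198 70)) (.ref 611 131)))) (.play 265 (.ref 459 197)))) (.both (.ref 685 68) (.both (.play 265 (.both (.play 391 (.both (.play 327 (.ref 684 134)) (.both (.ref 442 194) (.play 392 (.both (.play 328 (.ref 295 196)) (.both (.play 328 (.both (.ref 294 196) (.play 456 (.ref 7 199)))) (.both (.ref 681 197) (.play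 328 (.ref 432 199))))))))) (.both (.play 327 (.both (.ref 683 195) (.ref 682 198))) (.play 266 (.ref 150 198))))) (.both (.play 265 (.both (.play 391 (.both (.play 327 (.both (.play 198 (.both (.play 134 (.ref 7 134)) (.play 197 (.ref 0 197)))) (.ref 427 194))) (.both (.play 198 (.both (.play 327 (.ref 302 134)) (.play 197 (.ref 0 197)))) (.play 392 (.both (.ref 681 197) (.both (.play 328 (.both (.ref 675 197) (.play 455 (.ref 6 199)))) (.both (.ref 676 197) (.play 328 (.ref 432 199))))))))) (.both (.play 327 (.both (.play 391 (.both (.ref 283 196) (.play 455 (.ref 5 199)))) (.play 266 (.ref 446 198)))) (.play 266 (.ref 150 198))))) (.both (.play 198 (.both (.play 132 (.ref 11 131)) (.play 391 (.both (.play 327 (.ref 7 134)) (.play 392 (.both (.play 393 (.both (.ref 345 198) (.both (.play 328 (.ref 34 199)) (.both (.play 457 (.both (.play 265 (.both (.play 266 (.both (.ref 381 199) (.both (.ref 540 199) (.ref 633 199)))) (.play 329 (.ref 7 200)))) (.play 328 (.ref 4 200)))) (.ref 96 325))))) (.both (.play 265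 (.both (.ref 680 197) (.play 266 (.ref 3 198)))) (.both (.play 265 (.both (.ref 676 197) (.play 266 (.ref 3 198)))) (.play 328 (.ref 432 199)))))))))) (.play 198 (.both (.play 132 (.ref 11 131)) (.play 391 (.both (.play 327 (.ref 7 134)) (.ref 435 196))))))))))))))
 (.seq (.one (.play 257 (.both (.play 0 (.ref 7 0)) (.ref 364 64))))
 (.one (.play 192 (.both (.play 256 (.ref 6 0)) (.play 321 (.ref 225 64)))))))))
 (.seq (.seq (.seq (.one (.play 257 (.both (.play 0 (.ref 7 0)) (.play 322 (.ref 42 64)))))
 (.seq (.one (.play 257 (.both (.ref 25 0) (.both (.ref 693 0) (.ref 694 64)))))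
 (.one (.both (.play 3 (.ref 0 0)) (.play 65 (.ref 3 0))))))
 (.seq (.one (.play 129 (.both (.ref 595 0) (.both (.ref 29 0) (.ref 602 64)))))
 (.seq (.one (.play 257 (.both (.ref 23 1) (.ref 636 64))))
 (.one (.play 65 (.both (.play 1 (.ref 6 0)) (.play 320 (.ref 311 64))))))))
 (.seq (.seq (.one (.both (.play 192 (.ref 387 0)) (.play 129 (.ref 7 64))))
 (.seq (.one (.play 453 (.both (.play 198 (.both (.play 134 (.both (.ref 51 5) (.play 325 (.ref 6 133)))) (.play 390 (.ref 6 197)))) (.both (.play 390 (.ref 110 197)) (.play 517 (.both (.play 325 (.ref 5 261)) (.ref 642 320)))))))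
 (.one (.play 67 (.both (.ref 473 0) (.both (.play 66 (.ref 189 1)) (.both (.play 66 (.both (.ref 79 1) (.play 132 (.both (.play 65 (.ref 0 65)) (.play 131 (.ref 1 67)))))) (.ref 16 66))))))))
 (.seq (.one (.play 453 (.both (.ref 638 5) (.both (.play 390 (.ref 110 197)) (.play 517 (.both (.play 325 (.ref 5 261)) (.play 581 (.both (.ref 427 384) (.both (.play 645 (.both (.ref 23 389) (.both (.play 709 (.both (.play 516 (.both (.play 518 (.both (.play 515 (.both (.ref 473 448) (.ref 66 451))) (.play 454 (.ref 5 453)))) (.play 452 (.ref 7 452)))) (.both (.play 773 (.ref 45 452)) (.play 773 (.ref 40 452))))) (.ref 222 452)))) (.both (.play 645 (.both (.ref 25 388) (.both (.play 709 (.both (.play 518 (.both (.play 516 (.both (.play 519 (.both (.ref 702 448) (.ref 65 452))) (.play 452 (.ref 7 452)))) (.play 454 (.ref 5 453)))) (.both (.play 773 (.ref 44 452)) (.play 773 (.ref 39 453))))) (.ref 364 452)))) (.both (.play 645 (.both (.ref 227 388) (.both (.ref 195 448) (.both (.play 709 (.both (.play 516 (.both (.play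 518 (.both (.play 519 (.both (.ref 702 448) (.play 456 (.ref 95 452)))) (.play 454 (.ref 5 453)))) (.play 452 (.ref 7 452)))) (.ref 23 453))) (.play 710 (.ref 42 452)))))) (.both (.play 645 (.both (.ref 365 388) (.both (.ref 307 449) (.both (.play 709 (.both (.play 518 (.both (.play 516 (.both (.play 515 (.both (.play 450 (.ref 214 449)) (.ref 66 451))) (.play 452 (.ref 7 452)))) (.play 454 (.ref 5 453)))) (.ref 25 452))) (.play 708 (.ref 35 452)))))) (.play 646 (.ref 42 388))))))))))))))
 (.seq (.one (.play 133 (.both (.play 197 (.both (.play 261 (.both (.play 325 (.ref 41 4)) (.both (.play 70 (.ref 311 5)) (.ref 687 128)))) (.play 196 (.ref 1 132)))) (.both (.ref 666 66) (.both (.play 132 (.both (.play 71 (.both (.play 70 (.both (.play 131 (.ref 2 67)) (.play 137 (.ref 150 69)))) (.play 72 (.ref 2 68)))) (.ref 16 131))) (.play 132 (.both (.play 71 (.ref 2 68)) (.ref 159 131))))))))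
 (.one (.play 327 (.both (.play 326 (.both (.play 391 (.both (.ref 701 2) (.both (.ref 699 135) (.ref 704 192)))) (.both (.play 391 (.both (.ref 701 2) (.both (.ref 672 130) (.play 455 (.ref 208 135))))) (.both (.play 391 (.both (.ref 701 2) (.both (.play 329 (.both (.ref 652 133) (.ref 682 262))) (.play 455 (.ref 208 135))))) (.both (.play 391 (.both (.ref 701 2) (.both (.ref 703 2) (.both (.ref 664 131) (.play 262 (.both (.play 134 (.ref 4 134)) (.ref 674 197))))))) (.both (.play 391 (.both (.ref 703 2) (.both (.play 325 (.both (.play 389 (.both (.play 262 (.ref 348 133)) (.play 388 (.ref 1 324)))) (.play 324 (.both (.play 263 (.ref 2 260)) (.play 392 (.ref 0 324)))))) (.play 455 (.ref 136 135))))) (.both (.play 389 (.both (.play 388 (.both (.play 387 (.both (.play 386 (.both (.play 450 (.both (.play 322 (.both (.play 514 (.both (.ref 218 65) (.ref 60 321))) (.play 321 (.ref 3 321)))) (.play 449 (.ref 1 385)))) (.both (.play 385 (.ref 81 320)) (.ref 98 384)))) (.play 390 (.ref 2 323)))) (.play 325 (.ref 1 324))))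 (.both (.ref 668 130) (.ref 551 261)))) (.both (.play 391 (.both (.ref 667 130) (.both (.ref 664 131) (.play 455 (.ref 208 135))))) (.play 391 (.both (.ref 672 130) (.both (.ref 664 131) (.ref 699 135)))))))))))) (.both (.play 391 (.both (.ref 701 2) (.both (.play 455 (.both (.play 262 (.ref 700 134)) (.both (.ref 46 198) (.both (.ref 462 258) (.ref 651 259))))) (.both (.play 200 (.both (.play 392 (.both (.ref 658 131) (.ref 698 199))) (.play 136 (.ref 6 135)))) (.ref 699 135))))) (.both (.play 200 (.both (.play 136 (.both (.ref 547 7) (.both (.play 263 (.both (.play 72 (.ref 6 71)) (.play 329 (.ref 401 134)))) (.ref 62 72)))) (.both (.play 392 (.ref 41 71)) (.both (.play 391 (.ref 348 135)) (.play 392 (.both (.ref 427 195) (.both (.play 457 (.ref 42 199)) (.both (.ref 601 199) (.both (.ref 698 199) (.ref 695 199)))))))))) (.both (.play 200 (.both (.ref 317 7) (.both (.ref 697 7) (.play 392 (.both (.play 393 (.both (.play 457 (.ref 4 200)) (.play 326 (.ref 185 325)))) (.both (.ref 601 199) (.ref 695 199)))))))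 (.both (.play 200 (.both (.ref 317 7) (.both (.ref 697 7) (.play 392 (.both (.play 393 (.both (.play 391 (.both (.play 200 (.ref 34 199)) (.play 394 (.ref 150 326)))) (.both (.play 457 (.ref 292 200)) (.play 394 (.both (.play 326 (.ref 696 326)) (.play 395 (.ref 3 327))))))) (.both (.play 455 (.ref 35 199)) (.both (.ref 695 199) (.both (.play 456 (.both (.ref 23 200) (.both (.ref 694 263) (.ref 692 263)))) (.play 456 (.both (.ref 25 199) (.both (.ref 693 199) (.ref 692 263)))))))))))) (.both (.play 263 (.ref 691 64)) (.both (.play 326 (.both (.play 262 (.both (.ref 673 69) (.both (.play 391 (.ref 69 134)) (.ref 674 197)))) (.both (.play 262 (.both (.ref 673 69) (.both (.play 391 (.ref 292 134)) (.play 329 (.both (.play 261 (.ref 3 261)) (.ref 541 262)))))) (.both (.play 391 (.both (.ref 672 130) (.both (.play 455 (.ref 136 135)) (.play 519 (.both (.play 390 (.both (.play 329 (.both (.play 518 (.both (.play 521 (.both (.ref 671 262) (.play 520 (.both (.ref 670 450) (.both (.ref 488 451) (.both (.ref 153 453) (.ref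 487 453))))))) (.both (.ref 669 321) (.both (.ref 356 321) (.play 454 (.ref 330 326)))))) (.play 330 (.ref 1 326)))) (.both (.play 389 (.both (.play 518 (.both (.ref 669 321) (.both (.ref 356 321) (.both (.ref 496 322) (.play 454 (.ref 330 326)))))) (.play 388 (.ref 2 324)))) (.play 389 (.ref 129 324))))) (.play 455 (.ref 5 263))))))) (.both (.play 262 (.both (.play 325 (.both (.ref 542 132) (.play 263 (.both (.play 196 (.ref 11 195)) (.play 324 (.ref 2 260)))))) (.both (.play 391 (.ref 292 134)) (.play 390 (.both (.ref 216 194) (.both (.ref 22 197) (.play 454 (.both (.ref 609 197) (.both (.ref 47 197) (.ref 23 198)))))))))) (.both (.play 329 (.both (.play 389 (.both (.ref 668 130) (.play 390 (.ref 1 325)))) (.both (.play 262 (.ref 534 261)) (.ref 541 262)))) (.both (.play 391 (.both (.ref 667 130) (.both (.ref 664 131) (.play 455 (.ref 136 135))))) (.both (.play 391 (.both (.ref 663 133) (.play 455 (.ref 136 135)))) (.play 329 (.both (.ref 391 197) (.both (.play 262 (.ref 534 261)) (.play 330 (.both (.ref 540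 263) (.ref 16 325)))))))))))))) (.both (.play 329 (.both (.play 392 (.both (.play 200 (.both (.play 137 (.both (.play 136 (.ref 416 69)) (.play 201 (.ref 5 136)))) (.ref 61 199))) (.both (.play 389 (.both (.play 261 (.both (.ref 632 132) (.both (.ref 303 132) (.play 262 (.ref 372 261))))) (.both (.play 326 (.both (.play 262 (.both (.play 325 (.ref 354 132)) (.play 261 (.ref 3 261)))) (.play 390 (.ref 1 325)))) (.both (.play 261 (.both (.ref 662 133) (.both (.play 390 (.both (.play 325 (.ref 284 133)) (.play 326 (.ref 1 325)))) (.play 262 (.ref 372 261))))) (.play 456 (.both (.ref 288 260) (.both (.ref 134 263) (.ref 245 263)))))))) (.both (.play 393 (.both (.play 457 (.ref 198 200)) (.play 330 (.both (.play 326 (.both (.ref 79 261) (.play 325 (.ref 0 325)))) (.ref 475 263))))) (.play 330 (.both (.ref 506 260) (.both (.ref 156 262) (.ref 65 263)))))))) (.both (.ref 661 71) (.both (.ref 660 132) (.play 330 (.both (.play 262 (.both (.play 326 (.ref 659 132)) (.play 263 (.ref 3 262)))) (.play 267 (.ref 95 263))))))))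 (.both (.play 329 (.both (.ref 661 71) (.both (.ref 660 132) (.play 330 (.ref 331 261))))) (.both (.play 392 (.both (.play 456 (.both (.play 391 (.both (.play 200 (.ref 204 135)) (.ref 445 263))) (.both (.ref 624 135) (.both (.ref 195 259) (.both (.play 520 (.ref 26 263)) (.ref 24 263)))))) (.both (.play 391 (.both (.ref 658 131) (.play 455 (.ref 181 199)))) (.both (.play 393 (.both (.play 457 (.ref 69 200)) (.play 326 (.ref 10 325)))) (.play 456 (.both (.play 455 (.both (.play 454 (.both (.play 457 (.both (.play 521 (.ref 344 262)) (.ref 480 325))) (.both (.play 453 (.both (.ref 441 385) (.play 393 (.ref 2 389)))) (.both (.play 453 (.both (.ref 654 386) (.play 393 (.ref 2 389)))) (.play 453 (.ref 343 387)))))) (.play 519 (.ref 6 263)))) (.both (.play 521 (.ref 42 263)) (.both (.play 519 (.both (.play 455 (.ref 6 263)) (.play 520 (.both (.play 583 (.ref 6 327)) (.ref 267 327))))) (.both (.play 520 (.both (.ref 25 263) (.ref 653 327))) (.play 520 (.both (.ref 23 264) (.both (.ref 267 327) (.ref 653 327)))))))))))))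 (.play 329 (.both (.ref 394 132) (.both (.play 326 (.both (.play 391 (.both (.ref 652 133) (.play 455 (.ref 208 135)))) (.both (.ref 391 197) (.ref 98 324)))) (.both (.play 330 (.both (.ref 360 134) (.play 267 (.ref 95 263)))) (.play 330 (.both (.play 326 (.ref 81 261)) (.both (.ref 156 262) (.play 267 (.ref 95 263))))))))))))))))))))))))))
 (.seq (.seq (.seq (.seq (.one (.play 450 (.both (.play 193 (.both (.ref 466 0) (.both (.ref 29 64) (.both (.play 256 (.both (.ref 623 64) (.play 192 (.ref 7 192)))) (.ref 43 128))))) (.play 514 (.ref 4 257)))))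
 (.one (.play 260 (.both (.play 259 (.both (.play 322 (.both (.ref 456 2) (.play 321 (.ref 118 256)))) (.play 196 (.ref 5 195)))) (.both (.ref 592 131) (.both (.play 259 (.both (.play 258 (.both (.play 194 (.ref 7 194)) (.play 322 (.both (.play 321 (.ref 129 256)) (.play 515 (.ref 7 258)))))) (.play 196 (.ref 5 195)))) (.play 515 (.both (.ref 251 258) (.play 324 (.ref 5 259))))))))))
 (.seq (.one (.play 131 (.both (.ref 521 0) (.ref 228 0))))
 (.seq (.one (.play 257 (.both (.play 385 (.both (.play 449 (.both (.ref 218 0) (.play 512 (.ref 35 256)))) (.play 384 (.ref 1 320)))) (.play 256 (.ref 3 256)))))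
 (.one (.play 322 (.both (.play 389 (.both (.ref 709 1) (.play 390 (.ref 0 322)))) (.both (.play 321 (.ref 81 256)) (.both (.play 321 (.ref 189 256)) (.play 321 (.ref 17 320))))))))))
 (.seq (.seq (.one (.play 323 (.both (.ref 710 0) (.both (.play 262 (.ref 180 258)) (.play 326 (.ref 88 259))))))
 (.seq (.one (.play 68 (.both (.play 66 (.both (.ref 153 0) (.play 2 (.ref 7 2)))) (.play 4 (.ref 5 3)))))
 (.one (.play 195 (.both (.ref 656 0) (.play 259 (.ref 6 3)))))))
 (.seq (.one (.play 66 (.both (.play 68 (.both (.play 4 (.ref 5 3)) (.play 129 (.ref 1 64)))) (.play 2 (.ref 7 2)))))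
 (.seq (.one (.play 67 (.both (.play 66 (.both (.play 1 (.ref 214 0)) (.play 6 (.both (.play 5 (.ref 2 2)) (.play 70 (.ref 7 6)))))) (.both (.play 70 (.both (.play 3 (.both (.play 2 (.ref 3 2)) (.play 196 (.ref 7 3)))) (.play 6 (.ref 7 6)))) (.play 196 (.ref 28 3))))))
 (.one (.play 260 (.both (.play 132 (.both (.ref 715 0) (.both (.ref 632 3) (.ref 714 4)))) (.both (.play 262 (.both (.play 326 (.ref 6 70)) (.play 261 (.both (.play 327 (.both (.play 259 (.both (.ref 654 192) (.both (.ref 253 193) (.both (.play 196 (.both (.ref 439 193) (.play 195 (.ref 3 195)))) (.ref 79 194))))) (.play 328 (.ref 0 260)))) (.play 200 (.ref 2 196)))))) (.both (.play 262 (.both (.play 326 (.ref 6 70)) (.play 261 (.ref 343 194)))) (.both (.play 326 (.both (.play 262 (.ref 6 70)) (.play 327 (.both (.play 328 (.both (.play 392 (.ref 4 135)) (.play 325 (.ref 214 259)))) (.play 390 (.ref 6 134)))))) (.ref 713 67)))))))))))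
 (.seq (.seq (.seq (.one (.play 195 (.both (.play 259 (.ref 110 3)) (.play 194 (.ref 214 128)))))
 (.seq (.one (.play 196 (.both (.ref 717 0) (.both (.play 195 (.both (.play 4 (.ref 34 3)) (.play 194 (.ref 214 128)))) (.both (.play 261 (.ref 69 4)) (.play 260 (.both (.play 195 (.both (.ref 397 65) (.both (.play 325 (.both (.play 261 (.ref 4 68)) (.play 198 (.both (.play 135 (.both (.play 134 (.ref 2 131)) (.play 199 (.ref 252 131)))) (.both (.play 389 (.both (.play 262 (.both (.play 134 (.both (.play 135 (.ref 2 131)) (.play 326 (.ref 6 133)))) (.play 263 (.ref 0 195)))) (.play 324 (.ref 69 132)))) (.ref 270 195)))))) (.play 194 (.ref 214 128))))) (.both (.ref 422 65) (.ref 61 67)))))))))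
 (.one (.play 66 (.both (.play 2 (.ref 7 2)) (.play 65 (.ref 0 64)))))))
 (.seq (.one (.play 67 (.both (.play 66 (.ref 3 0)) (.play 131 (.ref 7 67)))))
 (.seq (.one (.play 261 (.both (.play 196 (.ref 4 4)) (.play 325 (.both (.play 133 (.ref 7 68)) (.play 389 (.both (.play 453 (.ref 40 132)) (.both (.ref 62 133) (.ref 375 192)))))))))
 (.one (.play 70 (.both (.play 6 (.ref 7 6)) (.play 131 (.both (.ref 215 64) (.play 134 (.ref 2 67))))))))))
 (.seq (.seq (.one (.play 68 (.both (.play 4 (.ref 5 3)) (.play 128 (.ref 1 64)))))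
 (.seq (.one (.play 193 (.both (.play 256 (.ref 6 0)) (.play 132 (.ref 561 128)))))
 (.one (.play 261 (.both (.play 197 (.ref 4 4)) (.play 260 (.both (.ref 717 64) (.play 325 (.ref 4 68)))))))))
 (.seq (.one (.play 327 (.both (.play 519 (.both (.play 388 (.both (.play 516 (.both (.play 323 (.both (.play 322 (.both (.ref 709 1) (.both (.ref 339 256) (.ref 505 320)))) (.both (.play 261 (.both (.play 322 (.both (.play 262 (.ref 2 258)) (.ref 505 320))) (.play 452 (.ref 5 260)))) (.play 452 (.ref 28 259))))) (.both (.ref 632 259) (.both (.ref 662 260) (.ref 725 323))))) (.both (.play 516 (.both (.ref 715 256) (.both (.play 452 (.ref 123 259)) (.ref 725 323)))) (.both (.play 328 (.both (.play 389 (.both (.play 453 (.both (.ref 447 257) (.both (.play 581 (.both (.play 583 (.both (.play 584 (.both (.play 520 (.both (.play 327 (.ref 4 327)) (.play 582 (.ref 172 516)))) (.play 648 (.ref 4 391)))) (.both (.ref 452 324) (.both (.ref 255 386) (.play 646 (.ref 35 390)))))) (.play 517 (.ref 7 324)))) (.play 520 (.both (.play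 584 (.ref 69 327)) (.play 454 (.ref 10 452))))))) (.play 326 (.ref 1 324)))) (.play 264 (.ref 5 263)))) (.ref 714 260))))) (.both (.play 453 (.both (.play 389 (.both (.play 516 (.both (.play 262 (.both (.ref 546 196) (.play 326 (.ref 7 262)))) (.ref 724 324))) (.both (.play 516 (.both (.play 454 (.both (.play 452 (.both (.play 516 (.ref 354 259)) (.both (.ref 648 259) (.ref 296 450)))) (.ref 203 388))) (.both (.play 452 (.ref 348 260)) (.ref 724 324)))) (.play 326 (.both (.ref 723 260) (.play 262 (.ref 7 262))))))) (.both (.play 517 (.both (.play 328 (.both (.play 389 (.both (.ref 548 196) (.both (.play 326 (.both (.play 262 (.ref 7 262)) (.play 388 (.ref 1 324)))) (.ref 227 260)))) (.play 264 (.ref 5 263)))) (.both (.play 326 (.both (.play 389 (.both (.ref 723 260) (.play 584 (.both (.play 516 (.both (.play 580 (.ref 6 324)) (.play 518 (.ref 197 452)))) (.both (.play 516 (.both (.play 580 (.ref 6 324)) (.play 583 (.ref 621 388)))) (.play 520 (.ref 292 327))))))) (.play 262 (.ref 7 262)))) (.play 520 (.both (.play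 584 (.ref 4 327)) (.play 518 (.ref 580 452))))))) (.both (.play 520 (.both (.play 521 (.both (.play 522 (.both (.ref 113 199) (.both (.ref 533 455) (.ref 278 455)))) (.both (.play 454 (.ref 696 453)) (.ref 82 453)))) (.play 584 (.ref 69 327)))) (.both (.play 520 (.both (.play 584 (.ref 4 327)) (.play 454 (.ref 10 452)))) (.play 520 (.both (.play 584 (.ref 4 327)) (.play 454 (.ref 185 452))))))))) (.both (.ref 716 256) (.both (.play 516 (.both (.play 328 (.both (.play 388 (.both (.play 452 (.ref 123 259)) (.play 326 (.both (.play 262 (.ref 7 262)) (.play 389 (.ref 1 324)))))) (.play 264 (.ref 5 263)))) (.both (.play 388 (.both (.play 452 (.both (.play 261 (.ref 5 260)) (.play 579 (.both (.play 515 (.ref 6 323)) (.play 580 (.both (.play 643 (.ref 6 387)) (.play 581 (.both (.play 645 (.ref 69 388)) (.play 582 (.ref 95 515)))))))))) (.ref 714 260))) (.both (.play 518 (.both (.play 582 (.ref 6 326)) (.play 517 (.ref 646 450)))) (.both (.play 518 (.both (.play 582 (.ref 6 326)) (.play 517 (.both (.play 515 (.both (.ref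 79 450) (.play 454 (.ref 2 451)))) (.play 456 (.ref 2 452)))))) (.ref 713 323)))))) (.both (.ref 375 322) (.play 582 (.ref 35 326)))))))) (.both (.play 263 (.both (.ref 51 134) (.both (.ref 722 192) (.ref 521 196)))) (.both (.ref 52 134) (.both (.ref 46 198) (.play 519 (.ref 41 198))))))))
 (.seq (.one (.play 520 (.both (.play 328 (.both (.play 329 (.both (.play 330 (.both (.play 327 (.both (.ref 202 7) (.play 391 (.ref 1 326)))) (.both (.play 395 (.both (.play 331 (.both (.play 267 (.both (.ref 93 10) (.play 268 (.ref 2 264)))) (.play 396 (.ref 0 328)))) (.both (.play 267 (.both (.play 331 (.ref 31 72)) (.both (.play 266 (.ref 118 263)) (.play 327 (.ref 88 263))))) (.play 394 (.ref 185 327))))) (.both (.ref 85 71) (.both (.play 327 (.both (.ref 232 262) (.play 391 (.ref 1 326)))) (.play 327 (.both (.ref 241 263) (.play 391 (.ref 1 326))))))))) (.both (.play 392 (.ref 520 133)) (.both (.play 327 (.both (.play 392 (.ref 28 263)) (.play 326 (.ref 1 325)))) (.play 391 (.ref 221 324)))))) (.both (.ref 711 65) (.both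 (.play 392 (.both (.ref 483 199) (.both (.ref 722 257) (.ref 228 261)))) (.both (.play 392 (.both (.ref 483 199) (.both (.ref 548 199) (.ref 67 261)))) (.ref 708 261)))))) (.both (.play 455 (.both (.play 391 (.both (.play 327 (.both (.ref 264 70) (.both (.play 328 (.both (.play 519 (.ref 284 263)) (.ref 86 325))) (.ref 263 263)))) (.play 388 (.ref 0 388)))) (.both (.play 519 (.ref 691 256)) (.both (.play 519 (.both (.play 583 (.both (.play 518 (.both (.ref 672 322) (.both (.ref 667 322) (.both (.play 454 (.both (.play 326 (.ref 4 326)) (.play 582 (.both (.play 581 (.both (.play 645 (.ref 6 389)) (.play 580 (.ref 2 516)))) (.play 646 (.both (.play 453 (.ref 7 389)) (.play 710 (.ref 124 454)))))))) (.both (.ref 663 325) (.both (.play 521 (.both (.ref 652 325) (.ref 541 454))) (.ref 704 384))))))) (.both (.play 454 (.both (.play 518 (.both (.play 326 (.ref 4 326)) (.ref 271 453))) (.both (.play 647 (.ref 700 326)) (.play 455 (.both (.play 647 (.ref 7 390)) (.play 521 (.ref 459 453))))))) (.both (.play 647 (.both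 (.play 454 (.ref 7 390)) (.ref 59 455))) (.ref 614 450))))) (.both (.ref 685 324) (.both (.play 391 (.both (.play 583 (.both (.play 326 (.ref 7 326)) (.play 647 (.ref 684 390)))) (.play 584 (.ref 198 327)))) (.play 583 (.both (.play 582 (.both (.play 647 (.both (.play 646 (.ref 204 390)) (.play 711 (.ref 5 455)))) (.play 581 (.ref 118 516)))) (.both (.play 584 (.both (.play 582 (.both (.play 585 (.both (.play 646 (.ref 354 389)) (.ref 277 518))) (.play 581 (.ref 172 516)))) (.both (.play 648 (.ref 225 391)) (.play 648 (.both (.ref 397 453) (.play 712 (.ref 7 455))))))) (.both (.ref 608 389) (.both (.ref 212 390) (.both (.play 647 (.ref 436 450)) (.ref 683 451))))))))))) (.play 388 (.ref 12 387)))))) (.both (.ref 726 65) (.both (.play 388 (.both (.ref 710 65) (.both (.play 392 (.both (.play 585 (.both (.play 328 (.both (.play 264 (.ref 48 199)) (.play 521 (.ref 4 328)))) (.both (.play 329 (.both (.play 328 (.ref 416 261)) (.ref 58 328))) (.ref 721 388)))) (.both (.play 585 (.both (.play 328 (.both (.play 329 (.ref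 573 261)) (.play 521 (.ref 4 328)))) (.both (.play 329 (.both (.play 328 (.ref 573 261)) (.ref 58 328))) (.ref 721 388)))) (.both (.play 391 (.both (.ref 18 324) (.play 455 (.ref 0 388)))) (.both (.play 584 (.both (.play 517 (.both (.play 648 (.both (.play 453 (.both (.ref 115 324) (.play 712 (.both (.ref 720 388) (.ref 25 455))))) (.both (.play 453 (.both (.ref 115 324) (.play 712 (.both (.ref 720 388) (.ref 23 456))))) (.both (.play 581 (.both (.play 453 (.ref 28 324)) (.ref 288 452))) (.play 711 (.ref 35 455)))))) (.both (.play 581 (.both (.play 453 (.ref 28 324)) (.both (.play 518 (.both (.play 454 (.ref 110 325)) (.play 519 (.ref 269 516)))) (.play 453 (.both (.play 324 (.ref 7 324)) (.play 454 (.both (.play 455 (.ref 3 388)) (.play 645 (.ref 5 389))))))))) (.both (.play 649 (.both (.play 581 (.both (.play 453 (.ref 28 324)) (.ref 718 452))) (.play 585 (.ref 4 392)))) (.both (.play 453 (.both (.play 581 (.ref 28 324)) (.play 455 (.both (.play 454 (.ref 3 388)) (.ref 24 391))))) (.play 648 (.both (.play 519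 (.both (.play 649 (.both (.play 585 (.both (.play 392 (.ref 4 392)) (.play 518 (.ref 0 517)))) (.play 713 (.ref 4 456)))) (.both (.play 518 (.both (.play 455 (.both (.play 516 (.ref 2 452)) (.play 712 (.ref 7 455)))) (.play 585 (.ref 0 517)))) (.ref 134 455)))) (.both (.ref 120 389) (.both (.play 585 (.both (.ref 119 453) (.play 712 (.both (.ref 719 453) (.ref 210 519))))) (.both (.play 712 (.both (.play 777 (.both (.play 585 (.both (.ref 719 453) (.play 776 (.ref 284 520)))) (.play 713 (.ref 4 520)))) (.ref 25 455))) (.play 711 (.ref 35 455)))))))))))) (.both (.play 453 (.both (.play 649 (.both (.play 581 (.both (.play 517 (.ref 28 324)) (.ref 718 452))) (.play 585 (.ref 4 392)))) (.ref 714 325))) (.both (.ref 712 325) (.play 391 (.ref 268 327)))))) (.play 391 (.both (.play 327 (.both (.play 328 (.ref 2 324)) (.play 584 (.ref 7 327)))) (.play 455 (.ref 0 388))))))))) (.both (.play 327 (.both (.play 328 (.both (.play 392 (.both (.play 263 (.ref 7 263)) (.ref 62 264))) (.play 391 (.ref 2 324)))) (.play 387 (.both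 (.play 386 (.ref 189 321)) (.play 326 (.ref 2 323)))))) (.play 455 (.ref 12 387)))))) (.both (.play 392 (.both (.ref 707 69) (.both (.ref 567 133) (.both (.ref 418 197) (.both (.ref 53 199) (.both (.ref 644 199) (.both (.play 329 (.both (.play 328 (.ref 573 261)) (.play 584 (.both (.play 393 (.ref 5 328)) (.ref 421 389))))) (.play 584 (.both (.ref 716 321) (.both (.ref 712 325) (.both (.ref 251 327) (.play 393 (.both (.play 329 (.ref 5 328)) (.ref 643 391)))))))))))))) (.both (.play 328 (.both (.ref 711 65) (.both (.play 392 (.both (.ref 706 71) (.both (.ref 483 199) (.both (.ref 228 261) (.ref 251 263))))) (.both (.play 392 (.both (.ref 483 199) (.both (.ref 51 199) (.play 329 (.ref 301 263))))) (.both (.ref 708 261) (.play 392 (.both (.ref 362 262) (.both (.play 584 (.ref 45 263)) (.play 584 (.ref 40 263)))))))))) (.both (.play 392 (.both (.ref 707 69) (.both (.play 328 (.both (.ref 706 71) (.both (.ref 51 199) (.both (.ref 521 261) (.play 329 (.both (.ref 415 261) (.play 391 (.ref 2 325)))))))) (.both (.ref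 515 197) (.both (.ref 52 199) (.both (.play 584 (.both (.play 391 (.both (.play 329 (.both (.play 328 (.ref 143 261)) (.play 393 (.ref 5 328)))) (.ref 22 391))) (.both (.ref 131 264) (.play 647 (.ref 35 391))))) (.ref 651 324))))))) (.both (.ref 705 192) (.both (.play 584 (.both (.ref 590 199) (.both (.play 392 (.both (.ref 466 199) (.both (.play 328 (.ref 48 263)) (.both (.play 519 (.both (.ref 593 263) (.ref 419 391))) (.play 648 (.ref 44 327)))))) (.both (.play 392 (.both (.play 328 (.ref 48 263)) (.ref 195 387))) (.both (.play 392 (.both (.play 328 (.ref 48 263)) (.both (.play 648 (.ref 45 327)) (.both (.ref 47 327) (.both (.play 648 (.ref 44 327)) (.play 648 (.ref 26 391))))))) (.both (.ref 462 387) (.ref 651 388))))))) (.both (.play 455 (.both (.play 454 (.both (.play 584 (.both (.play 392 (.both (.ref 620 199) (.both (.ref 131 264) (.play 585 (.both (.play 583 (.both (.play 647 (.ref 6 391)) (.ref 647 454))) (.play 649 (.ref 4 392))))))) (.both (.play 648 (.both (.play 392 (.both (.ref 620 199) (.ref 23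 392))) (.both (.ref 584 455) (.both (.ref 186 455) (.both (.ref 280 455) (.play 712 (.both (.play 519 (.ref 7 455)) (.ref 364 519)))))))) (.both (.ref 132 261) (.both (.play 521 (.both (.play 648 (.both (.ref 430 263) (.both (.ref 280 455) (.play 712 (.both (.play 519 (.ref 7 455)) (.ref 650 520)))))) (.both (.play 522 (.both (.ref 649 389) (.play 523 (.ref 3 455)))) (.play 522 (.ref 184 454))))) (.both (.ref 529 325) (.both (.ref 187 391) (.play 648 (.both (.ref 514 453) (.both (.ref 224 453) (.both (.ref 222 455) (.both (.play 711 (.ref 35 455)) (.both (.play 712 (.both (.ref 25 455) (.play 776 (.ref 44 455)))) (.play 712 (.both (.ref 25 455) (.play 776 (.both (.ref 43 455) (.ref 62 520)))))))))))))))))) (.play 388 (.ref 11 387)))) (.both (.play 584 (.both (.play 392 (.both (.ref 620 199) (.both (.ref 131 264) (.ref 514 389)))) (.both (.play 391 (.ref 388 263)) (.both (.play 392 (.both (.play 328 (.ref 44 263)) (.both (.play 328 (.ref 39 264)) (.play 648 (.ref 45 327))))) (.play 648 (.both (.ref 527 327) (.play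 391 (.ref 7 391)))))))) (.play 388 (.ref 12 387))))) (.both (.play 455 (.both (.play 584 (.both (.play 391 (.both (.play 327 (.ref 387 263)) (.both (.play 327 (.ref 70 263)) (.ref 545 388)))) (.both (.play 391 (.ref 72 263)) (.both (.ref 187 391) (.ref 115 391))))) (.both (.play 454 (.both (.play 517 (.both (.play 518 (.both (.play 516 (.both (.play 583 (.both (.play 519 (.ref 293 324)) (.play 582 (.ref 604 387)))) (.both (.play 519 (.both (.play 583 (.ref 293 324)) (.play 455 (.ref 2 452)))) (.play 515 (.ref 343 449))))) (.both (.play 519 (.both (.play 581 (.ref 354 324)) (.both (.play 584 (.both (.ref 648 324) (.play 585 (.ref 0 517)))) (.ref 98 515)))) (.both (.play 581 (.ref 110 325)) (.play 516 (.both (.play 519 (.both (.ref 523 388) (.play 455 (.ref 2 452)))) (.both (.play 515 (.ref 343 449)) (.ref 337 449)))))))) (.both (.play 453 (.ref 405 324)) (.both (.ref 298 325) (.play 516 (.both (.play 518 (.ref 99 451)) (.play 453 (.ref 1 452)))))))) (.both (.play 584 (.both (.play 583 (.both (.play 647 (.both (.play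 519 (.ref 302 390)) (.play 392 (.ref 6 391)))) (.both (.ref 539 390) (.both (.play 585 (.both (.play 649 (.both (.play 586 (.both (.play 522 (.both (.play 458 (.ref 110 393)) (.play 523 (.ref 118 519)))) (.both (.play 522 (.both (.play 650 (.both (.play 713 (.both (.play 458 (.ref 6 457)) (.play 777 (.ref 7 520)))) (.play 651 (.ref 0 583)))) (.play 523 (.ref 2 519)))) (.both (.ref 448 519) (.ref 328 519))))) (.play 392 (.ref 4 392)))) (.both (.play 649 (.ref 292 392)) (.ref 647 454)))) (.play 582 (.both (.ref 498 453) (.both (.play 581 (.both (.ref 489 513) (.both (.play 580 (.both (.ref 340 513) (.play 519 (.ref 2 516)))) (.both (.ref 215 514) (.both (.ref 478 515) (.play 585 (.both (.ref 541 518) (.ref 16 580)))))))) (.both (.play 581 (.ref 646 515)) (.play 521 (.ref 87 517)))))))))) (.both (.ref 641 387) (.both (.ref 369 387) (.both (.play 522 (.both (.play 585 (.both (.play 649 (.ref 69 392)) (.play 586 (.ref 645 515)))) (.both (.play 519 (.both (.ref 426 389) (.play 521 (.ref 3 454)))) (.both (.play 585 (.both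 (.play 649 (.ref 69 392)) (.ref 618 519))) (.play 521 (.ref 184 454)))))) (.both (.play 583 (.both (.play 647 (.both (.play 519 (.both (.play 390 (.ref 7 390)) (.ref 422 452))) (.play 392 (.ref 6 391)))) (.both (.play 647 (.ref 110 391)) (.ref 481 451)))) (.both (.play 648 (.both (.ref 120 389) (.both (.ref 411 455) (.ref 186 455)))) (.both (.ref 187 391) (.play 648 (.both (.ref 427 451) (.both (.ref 411 455) (.ref 267 455)))))))))))) (.play 453 (.ref 338 388))))) (.play 388 (.ref 12 387))))) (.both (.play 584 (.both (.play 392 (.both (.ref 483 263) (.both (.ref 248 263) (.ref 375 387)))) (.both (.ref 644 263) (.both (.ref 529 325) (.both (.play 648 (.both (.ref 248 327) (.both (.ref 452 389) (.both (.ref 609 391) (.ref 47 391))))) (.both (.ref 46 327) (.ref 642 387))))))) (.play 455 (.both (.play 584 (.both (.play 392 (.both (.play 328 (.ref 40 263)) (.both (.play 328 (.ref 39 264)) (.ref 307 388)))) (.both (.play 392 (.both (.ref 623 263) (.both (.ref 131 264) (.ref 635 389)))) (.both (.play 583 (.both (.play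 392 (.both (.play 521 (.both (.ref 628 326) (.both (.play 585 (.ref 130 326)) (.both (.ref 530 327) (.play 522 (.ref 221 517)))))) (.play 647 (.ref 6 391)))) (.both (.play 647 (.ref 110 391)) (.ref 481 451)))) (.both (.ref 641 387) (.both (.ref 369 387) (.both (.ref 187 391) (.play 648 (.both (.ref 307 452) (.both (.ref 22 455) (.ref 267 455))))))))))) (.play 388 (.ref 12 387))))))))))))))))))
 (.one (.play 456 (.both (.ref 727 0) (.both (.play 392 (.both (.play 328 (.both (.ref 524 5) (.both (.play 329 (.ref 520 133)) (.both (.play 520 (.both (.play 264 (.ref 48 199)) (.both (.ref 49 263) (.both (.play 584 (.ref 40 263)) (.both (.play 584 (.ref 39 264)) (.play 584 (.ref 26 327))))))) (.ref 511 257))))) (.both (.ref 640 3) (.both (.play 328 (.both (.ref 524 5) (.both (.play 264 (.both (.play 263 (.both (.play 265 (.both (.play 266 (.both (.ref 84 7) (.both (.play 267 (.ref 19 199)) (.play 327 (.ref 146 262))))) (.play 201 (.ref 5 200)))) (.play 199 (.ref 7 199)))) (.both (.play 200 (.ref 48 135)) (.both (.play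 200 (.ref 44 135)) (.play 200 (.ref 39 136)))))) (.both (.play 457 (.both (.play 391 (.both (.ref 451 71) (.play 389 (.ref 0 389)))) (.both (.play 521 (.ref 292 264)) (.play 391 (.ref 10 389))))) (.play 391 (.ref 77 325)))))) (.both (.play 391 (.both (.play 520 (.both (.play 328 (.both (.ref 92 71) (.both (.play 327 (.both (.play 263 (.ref 7 263)) (.play 329 (.ref 129 325)))) (.ref 521 261)))) (.both (.play 329 (.both (.play 328 (.ref 143 261)) (.play 393 (.both (.play 330 (.ref 2 326)) (.play 584 (.ref 5 328)))))) (.ref 115 327)))) (.play 457 (.ref 0 389)))) (.both (.play 328 (.both (.play 329 (.ref 520 133)) (.both (.ref 260 135) (.both (.play 391 (.both (.play 327 (.both (.play 520 (.ref 225 263)) (.play 388 (.ref 2 324)))) (.play 457 (.ref 0 389)))) (.play 391 (.ref 77 325)))))) (.both (.ref 519 133) (.both (.play 520 (.both (.play 328 (.both (.ref 516 135) (.both (.play 264 (.ref 48 199)) (.both (.play 457 (.both (.play 263 (.both (.play 264 (.ref 133 199)) (.play 327 (.ref 7 263)))) (.ref 366 327))) (.play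 584 (.ref 40 263)))))) (.both (.ref 515 197) (.both (.ref 417 197) (.both (.ref 452 261) (.play 584 (.both (.play 648 (.ref 40 327)) (.both (.ref 62 328) (.ref 514 389))))))))) (.both (.play 457 (.both (.play 328 (.both (.ref 73 135) (.both (.play 264 (.both (.ref 51 135) (.both (.play 200 (.both (.ref 38 136) (.play 393 (.ref 4 200)))) (.play 520 (.both (.ref 43 199) (.ref 513 327)))))) (.play 520 (.both (.play 519 (.both (.play 583 (.ref 6 327)) (.play 458 (.ref 100 453)))) (.both (.ref 513 327) (.ref 126 327))))))) (.play 391 (.ref 0 389)))) (.play 391 (.both (.play 328 (.both (.ref 511 257) (.play 329 (.ref 2 325)))) (.play 457 (.ref 0 389))))))))))))) (.both (.ref 510 1) (.both (.play 391 (.both (.play 392 (.ref 145 69)) (.both (.play 388 (.both (.ref 142 322) (.play 455 (.ref 0 388)))) (.play 457 (.ref 12 388))))) (.both (.play 455 (.both (.play 391 (.both (.ref 139 132) (.play 388 (.ref 0 388)))) (.both (.play 457 (.ref 114 132)) (.play 388 (.ref 12 387))))) (.both (.play 457 (.both (.play 458 (.both (.play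 395 (.both (.play 523 (.both (.play 459 (.ref 94 136)) (.both (.play 455 (.ref 88 391)) (.play 522 (.ref 10 455))))) (.both (.play 459 (.both (.play 523 (.both (.ref 30 202) (.play 524 (.ref 0 456)))) (.play 396 (.ref 2 392)))) (.play 394 (.ref 87 391))))) (.both (.ref 85 199) (.both (.play 391 (.both (.play 392 (.ref 83 389)) (.play 455 (.ref 3 390)))) (.ref 82 390))))) (.both (.play 392 (.both (.play 328 (.both (.ref 76 135) (.both (.ref 73 135) (.both (.play 521 (.ref 72 200)) (.play 520 (.both (.ref 67 261) (.both (.ref 62 264) (.ref 61 327)))))))) (.play 391 (.ref 0 389)))) (.both (.play 392 (.both (.play 328 (.ref 57 133)) (.play 391 (.ref 0 389)))) (.ref 33 197))))) (.play 455 (.ref 14 387))))))))))))))))))))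
    (by decide +kernel)

theorem Cert_L40 : PW ⟨17, nat_lit 558212140259026091941880684457987482384143377689056023277277598527510378612427897472238030057276861002268104843412268633760452345031819264, nat_lit 126557596694307039983820772788753733762295030935188337276057103359475252722989244504498385554880195425161294832107921188726522712342198418118890735110987986762308279557021232494803907091903213813786285346672021212629080053793183641671814775181564767464807447123995697791114132879227301623505814946481845299052800, 19, nat_lit 126557596694307039983820772788753733762295030935188337276057103359475252722989244504498385554880195425161294832107921188726522712342198418118890735110987986762308279557021232494803907091903213813786285346672021212629080053793183641671814775181564767464807447123995697791114132879227301623505814946481845299052800⟩ :=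
  sound2 baseTbl baseTbl_ok
    (.seq (.seq (.seq (.seq (.seq (.seq (.seq (.one (.play 4 (.both (.play 3 (.ref 2 0)) (.play 5 (.ref 2 1)))))
 (.one (.play 1 (.both (.play 0 (.ref 3 0)) (.play 2 (.ref 3 1))))))
 (.seq (.one (.both (.ref 9 0) (.ref 8 1)))
 (.seq (.one (.play 65 (.both (.play 64 (.ref 1 0)) (.play 66 (.ref 1 1)))))
 (.one (.both (.ref 8 1) (.ref 11 64))))))
 (.seq (.seq (.one (.both (.play 0 (.ref 3 0)) (.play 128 (.ref 1 64))))
 (.seq (.one (.play 129 (.both (.play 1 (.both (.play 65 (.ref 13 0)) (.play 2 (.ref 3 1)))) (.play 130 (.ref 1 65)))))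
 (.one (.play 66 (.both (.ref 14 0) (.both (.play 70 (.ref 12 1)) (.play 70 (.ref 10 1))))))))
 (.seq (.one (.both (.play 64 (.ref 1 0)) (.play 5 (.ref 1 1))))
 (.seq (.one (.play 68 (.both (.play 67 (.both (.play 0 (.ref 0 0)) (.play 6 (.ref 16 2)))) (.play 69 (.ref 0 1)))))
 (.one (.play 1 (.both (.play 64 (.ref 1 0)) (.play 68 (.ref 0 1)))))))))
 (.seq (.seq (.seq (.one (.play 65 (.both (.play 69 (.both (.ref 18 0) (.play 70 (.ref 0 2)))) (.play 66 (.ref 1 1)))))
 (.one (.play 2 (.both (.ref 19 0) (.both (.ref 11 1) (.ref 17 1))))))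
 (.seq (.one (.play 68 (.both (.play 67 (.ref 0 0)) (.play 69 (.ref 0 1)))))
 (.seq (.one (.both (.ref 11 0) (.ref 21 1)))
 (.one (.play 66 (.both (.ref 9 1) (.play 65 (.ref 22 64))))))))
 (.seq (.seq (.one (.both (.play 192 (.ref 4 0)) (.play 321 (.ref 7 64))))
 (.seq (.one (.both (.play 0 (.ref 4 0)) (.play 321 (.ref 24 64))))
 (.one (.play 257 (.both (.play 258 (.both (.play 129 (.both (.play 65 (.ref 25 1)) (.play 128 (.ref 3 128)))) (.play 197 (.ref 1 193)))) (.play 256 (.ref 1 192)))))))
 (.seq (.one (.play 65 (.both (.play 64 (.ref 2 0)) (.play 68 (.ref 2 1)))))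
 (.seq (.one (.both (.ref 27 0) (.play 6 (.ref 1 2))))
 (.one (.both (.play 256 (.ref 6 0)) (.play 258 (.ref 4 1)))))))))
 (.seq (.seq (.seq (.seq (.one (.both (.play 192 (.ref 6 0)) (.play 258 (.both (.play 194 (.ref 4 1)) (.play 257 (.ref 29 64))))))
 (.one (.both (.play 0 (.ref 7 0)) (.play 320 (.ref 30 64)))))
 (.seq (.one (.play 64 (.both (.play 257 (.ref 31 0)) (.play 132 (.ref 3 64)))))
 (.seq (.one (.play 257 (.both (.play 64 (.ref 7 0)) (.play 320 (.ref 6 64)))))
 (.one (.play 320 (.both (.play 64 (.both (.play 0 (.ref 7 0)) (.ref 33 64))) (.play 256 (.ref 6 64))))))))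
 (.seq (.seq (.one (.play 256 (.both (.play 65 (.ref 5 0)) (.play 321 (.ref 4 64)))))
 (.seq (.one (.play 257 (.both (.play 193 (.ref 4 0)) (.ref 35 0))))
 (.one (.play 256 (.both (.play 192 (.ref 6 0)) (.play 320 (.ref 6 64)))))))
 (.seq (.one (.play 257 (.both (.ref 37 0) (.ref 36 65))))
 (.seq (.one (.both (.play 0 (.ref 7 0)) (.play 321 (.ref 7 64))))
 (.one (.play 257 (.both (.play 193 (.ref 4 0)) (.play 321 (.ref 4 64)))))))))
 (.seq (.seq (.seq (.one (.play 65 (.both (.play 1 (.ref 5 0)) (.play 129 (.ref 5 64)))))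
 (.one (.play 320 (.both (.ref 41 0) (.ref 40 64)))))
 (.seq (.one (.play 257 (.both (.ref 37 0) (.ref 42 1))))
 (.seq (.one (.both (.play 256 (.both (.play 192 (.ref 6 0)) (.play 257 (.ref 29 64)))) (.play 194 (.ref 4 1))))
 (.one (.play 65 (.both (.play 1 (.ref 5 0)) (.play 320 (.ref 5 64))))))))
 (.seq (.seq (.one (.play 64 (.both (.play 0 (.ref 7 0)) (.play 128 (.ref 7 64)))))
 (.seq (.one (.both (.ref 46 0) (.ref 37 64)))
 (.one (.play 257 (.both (.play 321 (.ref 47 0)) (.ref 40 1))))))
 (.seq (.one (.play 257 (.both (.ref 37 0) (.both (.play 192 (.both (.play 256 (.ref 6 0)) (.play 321 (.both (.play 128 (.ref 39 64)) (.ref 40 65))))) (.both (.play 322 (.ref 44 64)) (.ref 48 64))))))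
 (.seq (.one (.both (.ref 37 0) (.ref 40 1)))
 (.one (.play 321 (.both (.ref 46 0) (.play 385 (.ref 50 128)))))))))))
 (.seq (.seq (.seq (.seq (.seq (.one (.both (.ref 46 0) (.ref 41 1)))
 (.one (.play 1 (.both (.play 129 (.both (.play 65 (.ref 13 0)) (.play 130 (.ref 1 65)))) (.play 2 (.ref 3 1))))))
 (.seq (.one (.both (.ref 9 0) (.ref 21 65)))
 (.seq (.one (.play 67 (.both (.play 69 (.both (.play 66 (.both (.play 65 (.ref 54 0)) (.both (.ref 53 0) (.play 70 (.ref 22 65))))) (.play 5 (.ref 5 4)))) (.play 3 (.ref 7 3)))))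
 (.one (.play 321 (.both (.ref 41 1) (.play 385 (.ref 50 128))))))))
 (.seq (.seq (.one (.play 257 (.both (.ref 37 0) (.play 66 (.ref 5 1)))))
 (.seq (.one (.play 257 (.both (.play 1 (.ref 50 0)) (.both (.ref 57 64) (.ref 36 65)))))
 (.one (.play 68 (.both (.play 65 (.ref 3 0)) (.play 69 (.ref 3 1)))))))
 (.seq (.one (.play 257 (.both (.play 64 (.ref 7 0)) (.ref 37 0))))
 (.seq (.one (.play 257 (.both (.play 66 (.ref 5 1)) (.play 322 (.ref 44 64)))))
 (.one (.play 68 (.both (.play 3 (.ref 0 0)) (.play 69 (.ref 3 1)))))))))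
 (.seq (.seq (.seq (.one (.both (.play 0 (.ref 7 0)) (.play 322 (.ref 44 64))))
 (.one (.play 65 (.both (.play 0 (.ref 7 0)) (.play 256 (.ref 6 64))))))
 (.seq (.one (.play 64 (.both (.play 320 (.both (.ref 64 0) (.play 384 (.ref 6 128)))) (.play 128 (.ref 7 64)))))
 (.seq (.one (.play 256 (.both (.play 192 (.ref 6 0)) (.play 257 (.both (.play 66 (.ref 5 1)) (.play 320 (.ref 6 64)))))))
 (.one (.both (.play 1 (.ref 5 0)) (.play 321 (.ref 4 64)))))))
 (.seq (.seq (.one (.play 129 (.both (.play 66 (.both (.play 65 (.ref 67 1)) (.play 130 (.ref 5 65)))) (.ref 46 64))))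
 (.seq (.one (.both (.play 0 (.ref 0 0)) (.play 69 (.ref 0 1))))
 (.one (.both (.play 0 (.ref 0 0)) (.play 66 (.ref 3 1))))))
 (.seq (.one (.both (.play 1 (.ref 70 0)) (.play 70 (.ref 3 2))))
 (.seq (.one (.play 196 (.both (.play 198 (.both (.play 262 (.ref 4 5)) (.play 131 (.both (.play 132 (.both (.play 134 (.ref 2 67)) (.play 199 (.ref 3 131)))) (.both (.play 130 (.both (.play 195 (.ref 71 128)) (.both (.play 129 (.both (.play 195 (.ref 70 128)) (.play 132 (.ref 0 129)))) (.both (.play 132 (.ref 69 129)) (.play 198 (.both (.play 195 (.ref 3 130)) (.play 132 (.ref 0 130)))))))) (.play 195 (.both (.play 194 (.both (.play 134 (.ref 2 130)) (.ref 11 193))) (.play 130 (.ref 3 130))))))))) (.play 260 (.ref 6 4)))))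
 (.one (.play 389 (.both (.play 197 (.both (.ref 68 4) (.both (.ref 65 68) (.ref 72 192)))) (.both (.play 453 (.both (.play 197 (.both (.ref 68 4) (.ref 37 196))) (.both (.ref 49 260) (.both (.ref 57 260) (.both (.ref 61 260) (.play 517 (.both (.play 326 (.ref 5 261)) (.ref 48 324)))))))) (.both (.play 453 (.both (.play 197 (.both (.ref 68 4) (.ref 40 197))) (.both (.play 518 (.ref 44 260)) (.ref 66 260)))) (.both (.play 454 (.both (.play 197 (.both (.ref 65 68) (.play 390 (.ref 4 197)))) (.both (.play 453 (.both (.play 452 (.both (.play 388 (.both (.play 197 (.ref 6 196)) (.play 387 (.both (.play 386 (.ref 0 386)) (.play 455 (.ref 3 387)))))) (.play 516 (.ref 6 260)))) (.play 518 (.ref 4 261)))) (.both (.play 518 (.both (.play 390 (.both (.play 197 (.ref 4 197)) (.play 582 (.ref 7 325)))) (.play 453 (.ref 4 261)))) (.play 453 (.both (.play 388 (.both (.play 517 (.both (.ref 37 260) (.both (.play 452 (.both (.play 516 (.ref 6 260)) (.play 581 (.ref 39 324)))) (.play 581 (.ref 63 324))))) (.play 387 (.both (.play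 386 (.ref 0 386)) (.ref 62 387))))) (.play 518 (.ref 4 261)))))))) (.both (.play 324 (.both (.play 453 (.both (.play 197 (.both (.play 132 (.both (.play 133 (.both (.play 68 (.ref 7 68)) (.play 388 (.ref 6 132)))) (.play 196 (.ref 7 132)))) (.ref 40 197))) (.both (.ref 61 260) (.play 517 (.both (.play 326 (.ref 5 261)) (.ref 60 324)))))) (.both (.play 323 (.both (.play 390 (.both (.play 454 (.ref 25 197)) (.ref 59 323))) (.play 322 (.ref 2 258)))) (.ref 27 258)))) (.both (.ref 58 196) (.play 453 (.both (.play 452 (.both (.play 454 (.both (.play 518 (.ref 4 261)) (.play 451 (.both (.ref 14 385) (.both (.play 450 (.ref 12 385)) (.play 455 (.ref 10 386))))))) (.play 516 (.ref 6 260)))) (.both (.play 517 (.both (.ref 40 261) (.both (.play 581 (.both (.ref 55 321) (.both (.ref 34 324) (.ref 56 324)))) (.ref 48 324)))) (.both (.play 517 (.both (.ref 37 260) (.both (.play 581 (.both (.ref 55 321) (.both (.play 645 (.ref 52 324)) (.both (.ref 51 324) (.ref 42 325))))) (.ref 43 324)))) (.both (.play 518 (.ref 44 260))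 (.both (.ref 49 260) (.play 517 (.both (.play 454 (.both (.play 518 (.ref 4 261)) (.play 581 (.both (.ref 37 324) (.ref 45 325))))) (.both (.ref 40 261) (.both (.play 582 (.ref 44 324)) (.ref 43 324))))))))))))))))))))))))
 (.seq (.seq (.seq (.seq (.one (.play 68 (.both (.play 1 (.ref 3 0)) (.play 5 (.ref 2 1)))))
 (.one (.play 4 (.both (.play 1 (.ref 1 0)) (.play 5 (.ref 1 1))))))
 (.seq (.one (.play 66 (.both (.play 64 (.ref 2 0)) (.ref 75 1))))
 (.seq (.one (.play 4 (.both (.play 195 (.both (.play 196 (.both (.play 129 (.both (.play 257 (.both (.play 193 (.both (.play 2 (.ref 5 1)) (.play 320 (.ref 30 64)))) (.both (.play 193 (.both (.play 2 (.ref 5 1)) (.play 256 (.both (.play 320 (.ref 6 64)) (.play 194 (.ref 1 192)))))) (.both (.play 258 (.both (.play 193 (.ref 67 1)) (.ref 75 193))) (.ref 76 192))))) (.play 128 (.ref 1 64)))) (.play 132 (.ref 6 3)))) (.play 131 (.ref 5 3)))) (.play 5 (.ref 2 1)))))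
 (.one (.both (.play 4 (.ref 2 0)) (.play 194 (.ref 5 2)))))))
 (.seq (.seq (.one (.play 67 (.both (.play 68 (.ref 69 0)) (.play 66 (.ref 16 1)))))
 (.seq (.one (.both (.ref 8 0) (.ref 21 64)))
 (.one (.play 69 (.both (.play 70 (.ref 80 2)) (.ref 11 64))))))
 (.seq (.one (.play 69 (.both (.ref 81 1) (.both (.ref 79 64) (.ref 21 65)))))
 (.seq (.one (.both (.ref 9 0) (.ref 11 64)))
 (.one (.play 66 (.both (.play 65 (.ref 83 0)) (.ref 21 66))))))))
 (.seq (.seq (.seq (.one (.play 67 (.both (.ref 84 0) (.both (.ref 11 66) (.ref 79 66)))))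
 (.seq (.one (.both (.ref 85 0) (.both (.ref 84 1) (.both (.ref 81 3) (.ref 82 3)))))
 (.one (.play 132 (.both (.play 133 (.both (.play 6 (.both (.play 70 (.both (.play 261 (.both (.play 71 (.both (.play 263 (.both (.play 135 (.both (.play 199 (.ref 7 6)) (.play 136 (.ref 0 68)))) (.play 262 (.ref 86 192)))) (.play 72 (.ref 1 68)))) (.play 197 (.ref 5 5)))) (.play 7 (.ref 2 3)))) (.play 5 (.ref 2 2)))) (.play 65 (.ref 0 65)))) (.both (.play 5 (.ref 78 2)) (.play 196 (.ref 63 3))))))))
 (.seq (.one (.play 131 (.both (.play 195 (.ref 31 2)) (.play 132 (.ref 0 64)))))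
 (.seq (.one (.play 67 (.both (.play 4 (.ref 2 0)) (.play 132 (.ref 0 64)))))
 (.one (.play 132 (.both (.play 4 (.both (.play 3 (.ref 2 0)) (.ref 89 1))) (.play 131 (.ref 0 64))))))))
 (.seq (.seq (.one (.play 129 (.both (.play 193 (.both (.play 2 (.ref 5 1)) (.play 258 (.both (.play 322 (.ref 4 65)) (.play 260 (.both (.play 192 (.ref 3 192)) (.ref 90 193))))))) (.play 128 (.ref 1 64)))))
 (.seq (.one (.both (.play 2 (.ref 5 1)) (.play 322 (.ref 44 64))))
 (.one (.play 129 (.both (.play 193 (.ref 92 0)) (.play 128 (.ref 1 64)))))))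
 (.seq (.one (.play 129 (.both (.play 65 (.both (.play 1 (.both (.play 0 (.ref 3 0)) (.play 193 (.ref 44 0)))) (.play 128 (.ref 1 64)))) (.play 130 (.ref 1 65)))))
 (.seq (.one (.play 69 (.both (.play 65 (.both (.play 64 (.ref 1 0)) (.play 5 (.both (.play 66 (.ref 1 1)) (.play 70 (.ref 0 2)))))) (.play 68 (.ref 0 1)))))
 (.one (.both (.play 5 (.ref 2 1)) (.ref 95 64))))))))))
 (.seq (.seq (.seq (.seq (.seq (.seq (.one (.both (.play 67 (.ref 2 0)) (.play 5 (.ref 1 1))))
 (.one (.both (.play 64 (.ref 2 0)) (.play 5 (.ref 97 1)))))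
 (.seq (.one (.play 131 (.both (.play 65 (.both (.ref 9 0) (.play 132 (.ref 69 64)))) (.play 130 (.ref 1 66)))))
 (.seq (.one (.play 199 (.both (.play 263 (.both (.play 135 (.both (.play 200 (.both (.play 264 (.ref 4 7)) (.play 261 (.ref 2 196)))) (.play 326 (.ref 6 70)))) (.both (.play 135 (.both (.ref 40 7) (.play 326 (.ref 6 70)))) (.both (.play 261 (.both (.play 259 (.both (.ref 23 192) (.both (.ref 53 193) (.both (.ref 99 193) (.ref 11 258))))) (.both (.ref 84 193) (.both (.ref 82 195) (.ref 95 259))))) (.both (.play 261 (.both (.play 200 (.ref 2 196)) (.ref 19 258))) (.play 261 (.ref 96 195))))))) (.both (.play 198 (.both (.play 135 (.ref 6 6)) (.ref 76 195))) (.both (.play 135 (.both (.play 198 (.ref 6 6)) (.play 263 (.both (.play 328 (.both (.play 264 (.ref 4 71)) (.play 327 (.both (.play 392 (.ref 4 135)) (.play 261 (.ref 0 260)))))) (.play 326 (.ref 6 70)))))) (.both (.play 135 (.ref 30 6)) (.play 261 (.both (.play 259 (.both (.play 198 (.ref 2 195)) (.ref 19 257))) (.both (.play 198 (.ref 98 195)) (.play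 263 (.ref 96 195)))))))))))
 (.one (.both (.play 65 (.ref 54 0)) (.both (.play 65 (.ref 10 0)) (.ref 90 2)))))))
 (.seq (.seq (.one (.play 65 (.both (.play 0 (.ref 3 0)) (.play 4 (.ref 2 1)))))
 (.seq (.one (.play 1 (.both (.ref 102 0) (.play 2 (.ref 3 1)))))
 (.one (.play 66 (.both (.ref 103 0) (.ref 11 65))))))
 (.seq (.one (.play 196 (.both (.play 198 (.both (.play 262 (.ref 4 5)) (.play 199 (.both (.play 195 (.both (.ref 104 128) (.both (.play 194 (.ref 83 129)) (.both (.play 194 (.both (.play 132 (.both (.play 193 (.ref 2 129)) (.play 131 (.ref 3 131)))) (.ref 11 193))) (.ref 9 130))))) (.ref 90 132))))) (.play 260 (.ref 6 4)))))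
 (.seq (.one (.play 69 (.both (.play 197 (.both (.play 261 (.both (.play 68 (.ref 39 4)) (.both (.ref 105 64) (.play 325 (.ref 50 68))))) (.play 198 (.ref 0 130)))) (.play 70 (.ref 2 66)))))
 (.one (.play 257 (.both (.play 321 (.both (.play 194 (.both (.play 258 (.ref 4 1)) (.play 385 (.ref 5 129)))) (.ref 37 64))) (.both (.ref 40 1) (.both (.play 321 (.ref 50 64)) (.ref 38 64))))))))))
 (.seq (.seq (.seq (.one (.play 3 (.both (.play 4 (.ref 2 0)) (.play 130 (.ref 5 2)))))
 (.one (.both (.play 64 (.ref 2 0)) (.play 2 (.ref 1 1)))))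
 (.seq (.one (.both (.play 65 (.ref 109 0)) (.play 6 (.ref 1 2))))
 (.seq (.one (.play 66 (.both (.ref 53 0) (.play 6 (.ref 2 2)))))
 (.one (.play 69 (.both (.ref 9 0) (.play 70 (.ref 80 2))))))))
 (.seq (.seq (.one (.play 256 (.both (.play 192 (.ref 6 0)) (.ref 33 0))))
 (.seq (.one (.play 257 (.both (.ref 40 1) (.ref 113 64))))
 (.one (.play 65 (.both (.ref 9 0) (.play 4 (.ref 2 1)))))))
 (.seq (.one (.play 4 (.both (.play 3 (.ref 2 0)) (.play 68 (.both (.play 0 (.ref 3 0)) (.play 5 (.ref 2 1)))))))
 (.seq (.one (.both (.play 0 (.ref 3 0)) (.play 69 (.ref 3 1))))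
 (.one (.play 65 (.both (.play 4 (.ref 2 1)) (.ref 11 64)))))))))
 (.seq (.seq (.seq (.seq (.one (.play 66 (.both (.ref 53 0) (.both (.play 70 (.ref 54 1)) (.play 70 (.ref 22 65))))))
 (.one (.play 66 (.both (.ref 118 0) (.both (.ref 103 0) (.play 70 (.ref 83 1)))))))
 (.seq (.one (.play 68 (.both (.ref 8 0) (.both (.play 69 (.both (.play 3 (.both (.play 4 (.ref 2 0)) (.play 70 (.ref 3 2)))) (.ref 21 65))) (.both (.play 69 (.ref 80 1)) (.play 69 (.both (.play 6 (.both (.play 5 (.ref 2 2)) (.ref 74 2))) (.ref 21 65))))))))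
 (.seq (.one (.play 197 (.both (.play 195 (.both (.play 259 (.ref 6 3)) (.play 194 (.both (.ref 14 128) (.ref 121 130))))) (.play 261 (.ref 4 4)))))
 (.one (.play 1 (.both (.play 0 (.ref 0 0)) (.play 4 (.ref 0 1))))))))
 (.seq (.seq (.one (.play 261 (.both (.play 69 (.both (.play 68 (.both (.play 4 (.ref 7 4)) (.ref 123 66))) (.ref 122 65))) (.both (.play 325 (.both (.play 70 (.ref 5 69)) (.ref 105 128))) (.both (.play 325 (.both (.play 70 (.ref 5 69)) (.ref 57 132))) (.both (.ref 58 68) (.play 325 (.both (.play 70 (.ref 5 69)) (.play 389 (.both (.play 198 (.ref 5 133)) (.ref 40 133)))))))))))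
 (.seq (.one (.play 257 (.both (.play 64 (.ref 7 0)) (.ref 40 1))))
 (.one (.play 133 (.both (.play 197 (.both (.play 261 (.both (.play 69 (.both (.play 70 (.both (.play 6 (.ref 5 5)) (.ref 75 67))) (.ref 105 64))) (.both (.play 325 (.both (.play 68 (.ref 7 68)) (.ref 122 129))) (.both (.play 325 (.both (.play 68 (.ref 7 68)) (.ref 125 132))) (.both (.play 325 (.both (.play 69 (.ref 50 68)) (.both (.ref 113 132) (.ref 125 132)))) (.play 325 (.both (.play 68 (.ref 7 68)) (.ref 60 132)))))))) (.play 198 (.ref 0 130)))) (.both (.play 134 (.ref 12 65)) (.both (.play 134 (.ref 80 66)) (.play 134 (.ref 22 129)))))))))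
 (.seq (.one (.play 197 (.both (.ref 124 0) (.play 196 (.ref 1 132)))))
 (.seq (.one (.play 134 (.both (.play 133 (.both (.ref 127 0) (.both (.play 132 (.ref 54 67)) (.both (.play 132 (.ref 83 67)) (.play 132 (.ref 22 131)))))) (.both (.ref 126 4) (.both (.ref 119 67) (.both (.ref 15 67) (.play 137 (.ref 101 68))))))))
 (.one (.play 129 (.both (.play 6 (.both (.play 133 (.both (.play 70 (.ref 78 3)) (.ref 18 64))) (.play 5 (.ref 2 2)))) (.play 130 (.ref 1 65)))))))))
 (.seq (.seq (.seq (.one (.play 4 (.both (.play 3 (.ref 2 0)) (.play 132 (.both (.ref 89 1) (.play 131 (.ref 0 64)))))))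
 (.one (.both (.play 65 (.ref 12 0)) (.both (.ref 130 2) (.play 65 (.ref 22 64))))))
 (.seq (.one (.play 66 (.both (.play 65 (.ref 83 0)) (.ref 8 2))))
 (.seq (.one (.play 263 (.both (.play 260 (.both (.play 198 (.both (.play 134 (.both (.play 199 (.both (.play 6 (.ref 4 6)) (.play 259 (.ref 2 195)))) (.play 325 (.ref 6 69)))) (.both (.play 324 (.both (.play 325 (.both (.play 134 (.ref 6 69)) (.play 264 (.ref 1 260)))) (.play 323 (.ref 1 259)))) (.play 323 (.both (.play 259 (.both (.play 199 (.ref 2 195)) (.play 322 (.ref 1 258)))) (.play 324 (.ref 1 259))))))) (.both (.ref 84 193) (.both (.ref 82 195) (.ref 95 259))))) (.both (.play 260 (.both (.play 198 (.both (.play 327 (.both (.play 134 (.ref 4 70)) (.play 328 (.ref 0 260)))) (.both (.play 134 (.ref 29 69)) (.ref 121 196)))) (.both (.ref 84 193) (.ref 132 193)))) (.both (.play 260 (.both (.ref 106 130) (.both (.ref 84 193) (.both (.ref 132 193) (.play 259 (.ref 80 195)))))) (.both (.ref 126 131) (.both (.play 260 (.both (.ref 85 192) (.both (.play 259 (.both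 (.ref 84 192) (.ref 8 195))) (.both (.play 259 (.ref 12 194)) (.play 264 (.ref 12 195)))))) (.both (.play 260 (.ref 131 194)) (.both (.play 264 (.ref 131 195)) (.both (.play 264 (.both (.play 260 (.ref 12 195)) (.both (.ref 90 197) (.ref 95 260)))) (.both (.play 264 (.both (.play 265 (.ref 12 196)) (.both (.ref 130 197) (.play 260 (.ref 22 259))))) (.play 264 (.both (.play 260 (.ref 80 196)) (.both (.play 265 (.ref 12 196)) (.ref 95 260)))))))))))))))
 (.one (.play 1 (.both (.play 64 (.ref 1 0)) (.play 69 (.ref 0 1))))))))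
 (.seq (.seq (.one (.both (.play 65 (.both (.play 1 (.ref 6 0)) (.play 128 (.ref 5 64)))) (.play 384 (.ref 5 128))))
 (.seq (.one (.both (.play 65 (.both (.ref 18 0) (.play 66 (.ref 1 1)))) (.play 70 (.ref 0 2))))
 (.one (.play 256 (.both (.play 1 (.ref 6 0)) (.play 320 (.both (.play 257 (.ref 6 64)) (.play 384 (.ref 5 128)))))))))
 (.seq (.one (.play 65 (.both (.play 64 (.both (.play 1 (.ref 5 0)) (.play 257 (.ref 4 64)))) (.play 129 (.ref 5 64)))))
 (.seq (.one (.play 129 (.both (.ref 138 1) (.ref 46 64))))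
 (.one (.play 193 (.both (.ref 139 0) (.both (.play 129 (.ref 52 64)) (.both (.play 129 (.both (.ref 46 64) (.play 258 (.both (.play 65 (.ref 4 65)) (.play 194 (.ref 5 193)))))) (.ref 41 129))))))))))))
 (.seq (.seq (.seq (.seq (.seq (.one (.both (.ref 123 0) (.play 70 (.ref 3 2))))
 (.one (.play 196 (.both (.play 260 (.ref 4 3)) (.play 197 (.ref 141 128))))))
 (.seq (.one (.play 259 (.both (.play 195 (.both (.play 2 (.ref 4 2)) (.ref 142 64))) (.both (.play 195 (.both (.play 2 (.ref 4 2)) (.play 323 (.ref 7 66)))) (.play 258 (.both (.play 323 (.ref 4 66)) (.play 322 (.ref 5 66))))))))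
 (.seq (.one (.both (.play 0 (.ref 4 0)) (.play 321 (.ref 4 64))))
 (.one (.play 65 (.both (.play 0 (.ref 7 0)) (.play 2 (.ref 5 1))))))))
 (.seq (.seq (.one (.play 64 (.both (.ref 145 0) (.play 128 (.ref 7 64)))))
 (.seq (.one (.play 66 (.both (.ref 146 0) (.play 130 (.ref 5 65)))))
 (.one (.play 129 (.both (.ref 147 0) (.play 386 (.ref 4 129)))))))
 (.seq (.one (.both (.play 257 (.both (.ref 140 0) (.play 514 (.ref 4 257)))) (.both (.play 258 (.ref 135 129)) (.both (.play 513 (.both (.play 258 (.ref 5 257)) (.ref 107 320))) (.play 514 (.ref 25 257))))))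
 (.seq (.one (.both (.play 64 (.ref 2 0)) (.play 5 (.ref 2 1))))
 (.one (.play 66 (.both (.ref 9 1) (.play 129 (.both (.ref 134 64) (.play 130 (.ref 1 65)))))))))))
 (.seq (.seq (.seq (.one (.play 67 (.both (.play 1 (.ref 69 0)) (.play 66 (.ref 1 2)))))
 (.one (.play 66 (.both (.ref 53 0) (.play 134 (.ref 0 66))))))
 (.seq (.one (.play 67 (.both (.ref 153 0) (.both (.ref 152 65) (.ref 11 66)))))
 (.seq (.one (.play 67 (.both (.ref 9 2) (.play 66 (.ref 136 64)))))
 (.one (.play 67 (.both (.play 66 (.both (.play 65 (.ref 10 0)) (.ref 11 65))) (.play 135 (.ref 0 67))))))))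
 (.seq (.seq (.one (.play 257 (.both (.ref 51 0) (.play 66 (.ref 5 1)))))
 (.seq (.one (.play 129 (.both (.play 65 (.both (.ref 46 0) (.play 322 (.ref 4 65)))) (.play 66 (.ref 5 65)))))
 (.one (.play 64 (.both (.play 66 (.both (.ref 145 0) (.play 130 (.ref 5 65)))) (.play 128 (.ref 7 64)))))))
 (.seq (.one (.both (.ref 46 0) (.ref 40 65)))
 (.seq (.one (.both (.play 1 (.ref 6 0)) (.play 320 (.ref 6 64))))
 (.one (.play 192 (.both (.play 256 (.both (.play 65 (.ref 161 0)) (.play 449 (.ref 7 192)))) (.play 128 (.ref 7 128))))))))))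
 (.seq (.seq (.seq (.seq (.one (.play 385 (.both (.ref 162 0) (.both (.ref 37 128) (.ref 34 128)))))
 (.one (.play 385 (.both (.ref 162 0) (.ref 40 129)))))
 (.seq (.one (.both (.play 129 (.both (.ref 159 0) (.ref 107 128))) (.play 192 (.ref 3 192))))
 (.seq (.one (.play 257 (.both (.play 65 (.ref 7 0)) (.play 321 (.ref 7 64)))))
 (.one (.play 449 (.both (.ref 140 0) (.play 512 (.ref 30 256))))))))
 (.seq (.seq (.one (.play 257 (.both (.play 385 (.both (.ref 167 0) (.play 384 (.ref 1 320)))) (.play 256 (.ref 3 256)))))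
 (.seq (.one (.play 257 (.both (.play 64 (.ref 7 0)) (.play 322 (.ref 4 65)))))
 (.one (.play 129 (.both (.play 65 (.ref 47 0)) (.ref 41 65))))))
 (.seq (.one (.play 193 (.both (.ref 170 0) (.both (.ref 147 64) (.both (.play 256 (.both (.play 129 (.both (.play 320 (.ref 161 64)) (.ref 41 65))) (.play 192 (.ref 7 192)))) (.ref 46 128))))))
 (.seq (.one (.both (.play 64 (.ref 5 0)) (.play 320 (.ref 5 64))))
 (.one (.both (.play 1 (.ref 6 0)) (.play 320 (.ref 172 64))))))))
 (.seq (.seq (.seq (.one (.play 259 (.both (.play 2 (.ref 4 2)) (.play 260 (.ref 0 192)))))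
 (.seq (.one (.play 67 (.both (.play 69 (.both (.play 66 (.both (.ref 14 0) (.play 133 (.ref 0 66)))) (.play 5 (.ref 5 4)))) (.play 3 (.ref 7 3)))))
 (.one (.play 129 (.both (.play 65 (.both (.play 4 (.ref 2 1)) (.play 128 (.ref 1 64)))) (.play 130 (.ref 1 65)))))))
 (.seq (.one (.play 324 (.both (.ref 168 3) (.both (.play 323 (.both (.ref 132 256) (.both (.ref 9 258) (.play 261 (.both (.play 262 (.ref 150 258)) (.play 260 (.ref 117 259))))))) (.ref 176 258)))))
 (.seq (.one (.play 257 (.both (.play 65 (.ref 7 0)) (.play 128 (.ref 24 0)))))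
 (.one (.play 257 (.both (.play 192 (.ref 25 0)) (.both (.play 129 (.ref 39 0)) (.both (.play 0 (.both (.play 192 (.ref 4 0)) (.play 129 (.ref 7 0)))) (.ref 178 64)))))))))
 (.seq (.seq (.one (.both (.play 0 (.ref 4 0)) (.ref 166 64)))
 (.seq (.one (.both (.play 0 (.ref 4 0)) (.play 129 (.ref 7 64))))
 (.one (.play 65 (.both (.ref 46 0) (.play 258 (.ref 4 65)))))))
 (.seq (.one (.play 257 (.both (.ref 37 0) (.play 2 (.ref 5 1)))))
 (.seq (.one (.play 519 (.both (.play 391 (.both (.play 327 (.ref 149 6)) (.both (.ref 158 198) (.play 583 (.both (.play 390 (.both (.play 326 (.ref 7 326)) (.play 389 (.ref 70 388)))) (.play 646 (.ref 30 390))))))) (.both (.play 583 (.both (.play 582 (.both (.play 581 (.both (.play 517 (.both (.play 453 (.both (.play 389 (.both (.ref 171 132) (.both (.play 325 (.both (.ref 170 132) (.play 518 (.ref 4 325)))) (.both (.play 325 (.both (.ref 147 196) (.play 518 (.ref 4 325)))) (.both (.ref 182 260) (.play 645 (.both (.ref 46 324) (.play 709 (.both (.ref 37 452) (.play 774 (.both (.play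 710 (.ref 4 517)) (.play 773 (.ref 67 517))))))))))))) (.both (.play 389 (.both (.ref 182 260) (.play 646 (.ref 4 389)))) (.both (.play 645 (.both (.play 452 (.both (.play 388 (.ref 7 388)) (.ref 113 452))) (.both (.play 710 (.both (.play 452 (.both (.play 388 (.ref 7 388)) (.ref 169 452))) (.play 646 (.ref 4 453)))) (.play 646 (.both (.play 644 (.both (.play 708 (.ref 6 452)) (.play 643 (.ref 150 578)))) (.play 710 (.ref 4 453))))))) (.play 646 (.ref 180 389)))))) (.both (.play 645 (.both (.play 644 (.both (.ref 137 452) (.ref 27 578))) (.both (.ref 32 452) (.play 584 (.ref 13 516))))) (.both (.play 645 (.both (.play 710 (.both (.play 646 (.both (.play 453 (.ref 4 453)) (.play 518 (.ref 5 454)))) (.both (.play 709 (.both (.ref 183 516) (.play 774 (.ref 4 517)))) (.ref 179 517)))) (.both (.play 644 (.both (.play 709 (.both (.play 710 (.both (.play 708 (.both (.play 772 (.ref 6 516)) (.play 643 (.both (.play 642 (.ref 2 578)) (.play 711 (.ref 3 643)))))) (.play 774 (.ref 4 517)))) (.both (.play 710 (.both (.play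 774 (.ref 25 517)) (.play 711 (.ref 71 642)))) (.both (.ref 183 516) (.play 773 (.ref 92 516)))))) (.play 584 (.ref 1 580)))) (.play 644 (.ref 28 578))))) (.play 516 (.both (.play 518 (.both (.play 456 (.ref 2 452)) (.play 515 (.ref 0 515)))) (.play 584 (.ref 3 516)))))))) (.both (.ref 177 256) (.both (.play 517 (.both (.play 453 (.both (.play 389 (.both (.ref 182 260) (.both (.ref 138 261) (.play 645 (.ref 52 324))))) (.both (.ref 148 260) (.both (.play 646 (.both (.play 389 (.both (.play 518 (.ref 181 325)) (.play 581 (.ref 4 389)))) (.both (.play 518 (.both (.play 389 (.ref 181 325)) (.play 710 (.ref 7 453)))) (.both (.play 581 (.ref 25 389)) (.ref 178 453))))) (.play 645 (.both (.ref 175 385) (.both (.play 710 (.both (.play 454 (.both (.play 390 (.ref 5 389)) (.ref 35 453))) (.play 646 (.ref 4 453)))) (.ref 107 452)))))))) (.both (.play 516 (.both (.play 518 (.both (.play 452 (.both (.play 388 (.ref 180 324)) (.play 451 (.ref 3 451)))) (.play 456 (.ref 2 452)))) (.play 584 (.ref 3 516)))) (.play 516 (.ref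 71 514))))) (.both (.play 644 (.both (.play 580 (.both (.play 516 (.both (.ref 167 259) (.play 515 (.ref 3 515)))) (.play 643 (.ref 1 579)))) (.both (.play 516 (.both (.play 580 (.ref 165 323)) (.both (.play 517 (.ref 71 514)) (.play 584 (.both (.play 517 (.ref 3 516)) (.play 645 (.ref 1 580))))))) (.play 645 (.ref 28 578))))) (.both (.play 580 (.both (.play 516 (.both (.play 644 (.both (.play 452 (.both (.ref 139 259) (.ref 107 451))) (.play 643 (.ref 1 579)))) (.play 515 (.ref 3 515)))) (.both (.ref 115 514) (.ref 176 514)))) (.both (.play 710 (.both (.play 645 (.both (.play 709 (.ref 149 260)) (.play 644 (.ref 110 578)))) (.both (.play 518 (.both (.play 645 (.both (.play 709 (.ref 135 389)) (.play 644 (.ref 110 578)))) (.play 646 (.ref 5 454)))) (.both (.play 646 (.ref 172 454)) (.play 645 (.both (.ref 179 517) (.play 644 (.ref 110 578)))))))) (.both (.play 580 (.both (.ref 26 387) (.both (.ref 118 514) (.ref 115 514)))) (.ref 120 514))))))))) (.both (.play 581 (.both (.ref 177 256) (.both (.play 518 (.both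 (.play 390 (.both (.play 454 (.both (.play 326 (.both (.ref 46 261) (.play 262 (.ref 4 262)))) (.play 645 (.ref 6 389)))) (.both (.play 454 (.both (.ref 175 322) (.play 645 (.ref 6 389)))) (.play 391 (.both (.play 326 (.ref 7 326)) (.play 327 (.ref 6 326))))))) (.play 580 (.both (.play 516 (.both (.play 517 (.ref 2 452)) (.play 515 (.ref 3 515)))) (.play 579 (.ref 2 515)))))) (.both (.play 584 (.both (.ref 168 260) (.ref 174 389))) (.both (.play 584 (.both (.play 580 (.both (.play 645 (.both (.play 518 (.both (.play 454 (.ref 173 389)) (.play 579 (.ref 2 515)))) (.play 644 (.ref 1 580)))) (.both (.play 579 (.both (.ref 53 513) (.play 518 (.ref 2 515)))) (.ref 11 579)))) (.ref 174 389))) (.both (.play 584 (.both (.ref 174 389) (.ref 104 514))) (.play 584 (.both (.ref 174 389) (.ref 53 515))))))))) (.both (.play 391 (.both (.ref 146 262) (.play 646 (.ref 6 390)))) (.play 646 (.ref 173 390)))))) (.both (.play 391 (.both (.ref 171 134) (.both (.play 327 (.both (.play 263 (.ref 52 198)) (.ref 37 326))) (.both (.ref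 163 262) (.ref 34 326))))) (.both (.play 391 (.both (.play 327 (.both (.ref 65 198) (.play 264 (.ref 5 263)))) (.both (.ref 146 262) (.both (.ref 164 262) (.play 390 (.both (.play 326 (.ref 7 326)) (.play 648 (.both (.ref 169 390) (.play 584 (.ref 4 391)))))))))) (.both (.play 391 (.both (.play 327 (.both (.ref 46 262) (.play 264 (.ref 5 263)))) (.play 648 (.ref 44 390)))) (.both (.play 647 (.both (.play 646 (.both (.play 645 (.both (.play 648 (.both (.ref 168 324) (.play 712 (.both (.ref 166 519) (.play 713 (.ref 0 645)))))) (.both (.play 644 (.both (.play 708 (.both (.play 580 (.ref 165 387)) (.play 707 (.ref 1 643)))) (.play 584 (.ref 2 580)))) (.both (.play 644 (.both (.ref 118 578) (.play 584 (.ref 2 580)))) (.both (.play 644 (.both (.ref 115 578) (.play 584 (.ref 2 580)))) (.ref 120 578)))))) (.play 710 (.ref 6 454)))) (.both (.play 711 (.ref 47 390)) (.both (.play 711 (.ref 160 390)) (.play 711 (.ref 50 454)))))) (.both (.play 647 (.both (.ref 164 326) (.both (.ref 163 326) (.both (.play 646 (.both (.play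 582 (.both (.play 391 (.ref 6 390)) (.play 648 (.both (.play 712 (.ref 4 455)) (.play 649 (.ref 71 580)))))) (.play 710 (.ref 6 454)))) (.both (.ref 48 454) (.play 710 (.ref 30 454))))))) (.play 647 (.both (.play 391 (.ref 160 326)) (.both (.ref 34 390) (.play 712 (.ref 44 454)))))))))))) (.both (.play 454 (.both (.play 518 (.both (.play 390 (.both (.play 582 (.both (.ref 140 133) (.ref 38 389))) (.play 389 (.ref 3 389)))) (.play 517 (.ref 1 453)))) (.both (.ref 155 386) (.both (.ref 154 386) (.both (.ref 151 387) (.ref 53 388)))))) (.both (.ref 73 194) (.both (.play 391 (.both (.play 327 (.both (.ref 159 198) (.both (.play 518 (.both (.play 454 (.both (.play 263 (.ref 6 262)) (.play 517 (.ref 1 453)))) (.play 582 (.ref 6 326)))) (.play 518 (.both (.play 582 (.ref 6 326)) (.play 517 (.ref 109 452))))))) (.both (.ref 158 198) (.play 583 (.both (.ref 72 386) (.both (.play 648 (.ref 44 390)) (.both (.play 647 (.both (.ref 40 391) (.ref 66 454))) (.both (.play 647 (.both (.ref 40 391) (.ref 157 454))) (.play 647 (.both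 (.ref 37 390) (.both (.play 711 (.both (.play 520 (.ref 5 455)) (.play 774 (.ref 30 518)))) (.ref 157 454)))))))))))) (.both (.play 454 (.both (.play 390 (.both (.play 518 (.both (.play 326 (.ref 144 262)) (.play 457 (.ref 13 389)))) (.both (.play 326 (.both (.play 262 (.ref 4 262)) (.play 583 (.both (.play 518 (.ref 4 326)) (.play 391 (.ref 7 326)))))) (.play 389 (.ref 141 387))))) (.both (.play 453 (.both (.ref 156 385) (.both (.ref 153 386) (.ref 9 388)))) (.both (.play 453 (.both (.ref 156 385) (.both (.ref 152 451) (.ref 11 452)))) (.both (.ref 154 386) (.ref 14 388)))))) (.both (.play 454 (.both (.play 390 (.both (.play 583 (.both (.play 326 (.both (.play 262 (.ref 4 262)) (.play 518 (.ref 4 326)))) (.play 647 (.ref 7 390)))) (.play 389 (.ref 3 389)))) (.both (.ref 154 386) (.ref 151 387)))) (.play 454 (.both (.ref 155 386) (.both (.ref 154 386) (.both (.ref 151 387) (.both (.play 518 (.both (.play 390 (.both (.play 582 (.both (.play 581 (.both (.play 583 (.both (.play 647 (.both (.ref 51 390) (.play 580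 (.both (.play 579 (.ref 2 515)) (.play 648 (.ref 0 580)))))) (.both (.play 647 (.both (.play 711 (.both (.ref 46 390) (.ref 43 518))) (.both (.ref 51 390) (.play 648 (.both (.play 712 (.ref 4 455)) (.ref 62 581)))))) (.play 580 (.ref 150 515))))) (.play 645 (.ref 6 389)))) (.both (.ref 143 388) (.both (.play 647 (.ref 44 389)) (.both (.play 646 (.both (.ref 37 389) (.play 710 (.ref 5 454)))) (.ref 107 389)))))) (.play 389 (.ref 3 389)))) (.play 517 (.ref 1 453)))) (.ref 14 388)))))))))))))))
 (.one (.play 455 (.both (.ref 184 0) (.both (.play 391 (.both (.play 327 (.ref 149 6)) (.play 390 (.ref 71 388)))) (.both (.play 394 (.both (.play 395 (.both (.play 396 (.both (.play 397 (.both (.play 461 (.both (.play 333 (.both (.play 525 (.both (.play 269 (.both (.play 205 (.both (.play 140 (.both (.ref 64 76) (.play 204 (.ref 7 140)))) (.ref 41 141))) (.both (.play 205 (.ref 52 140)) (.both (.play 205 (.both (.play 332 (.both (.play 141 (.ref 6 140)) (.play 268 (.ref 7 268)))) (.ref 41 141))) (.ref 46 204))))) (.ref 114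 332))) (.play 334 (.ref 2 330)))) (.play 462 (.ref 0 394)))) (.both (.ref 130 330) (.both (.play 398 (.both (.ref 8 330) (.play 399 (.ref 54 330)))) (.both (.play 398 (.both (.ref 112 330) (.both (.play 399 (.both (.ref 9 330) (.play 400 (.both (.ref 8 332) (.play 401 (.ref 22 396)))))) (.ref 21 394)))) (.play 398 (.both (.ref 8 330) (.play 399 (.both (.ref 9 330) (.ref 95 395)))))))))) (.play 393 (.ref 1 392)))) (.play 458 (.ref 2 391)))) (.both (.play 458 (.both (.play 519 (.both (.play 520 (.both (.play 583 (.both (.play 647 (.both (.play 391 (.both (.ref 148 198) (.ref 37 390))) (.play 711 (.ref 5 455)))) (.both (.play 584 (.both (.play 582 (.both (.play 391 (.both (.play 327 (.ref 4 327)) (.play 646 (.ref 6 390)))) (.ref 111 515))) (.both (.play 648 (.ref 39 391)) (.play 648 (.both (.ref 142 453) (.play 712 (.ref 7 455))))))) (.both (.play 647 (.both (.play 711 (.both (.play 584 (.both (.play 648 (.ref 144 391)) (.ref 45 455))) (.both (.ref 56 454) (.ref 40 455)))) (.both (.ref 122 451) (.ref 66 454)))) (.both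 (.ref 143 389) (.both (.ref 58 390) (.play 647 (.both (.ref 105 450) (.play 711 (.ref 5 455)))))))))) (.play 459 (.ref 1 455)))) (.play 518 (.ref 1 454)))) (.play 395 (.ref 2 391)))) (.play 454 (.both (.play 453 (.both (.ref 26 260) (.both (.ref 85 385) (.both (.ref 23 386) (.both (.ref 53 387) (.ref 99 387)))))) (.play 393 (.ref 2 390))))))) (.both (.play 454 (.both (.play 648 (.both (.play 584 (.both (.play 518 (.both (.play 582 (.both (.play 390 (.both (.ref 140 133) (.play 583 (.both (.play 581 (.both (.play 645 (.ref 6 389)) (.play 649 (.ref 0 581)))) (.play 647 (.ref 4 390)))))) (.both (.play 391 (.ref 135 262)) (.both (.play 581 (.both (.play 583 (.both (.play 647 (.both (.play 390 (.ref 4 390)) (.play 580 (.ref 0 580)))) (.play 649 (.ref 0 581)))) (.both (.ref 137 389) (.play 583 (.ref 136 579))))) (.play 646 (.ref 92 389)))))) (.play 517 (.ref 110 451)))) (.ref 108 390))) (.both (.play 391 (.both (.play 518 (.both (.play 582 (.ref 135 262)) (.play 517 (.ref 1 453)))) (.both (.play 393 (.both (.play 646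 (.both (.ref 100 386) (.play 518 (.both (.play 582 (.ref 5 390)) (.play 517 (.ref 110 451)))))) (.play 394 (.ref 2 390)))) (.ref 116 390)))) (.both (.play 649 (.both (.play 458 (.both (.play 391 (.both (.play 646 (.both (.play 518 (.both (.play 582 (.ref 5 390)) (.play 517 (.ref 1 453)))) (.play 647 (.ref 86 578)))) (.play 390 (.ref 3 390)))) (.ref 8 390))) (.both (.ref 133 387) (.both (.ref 129 388) (.ref 128 513))))) (.both (.ref 87 388) (.both (.play 517 (.both (.play 453 (.both (.ref 88 389) (.play 516 (.ref 1 452)))) (.play 518 (.ref 1 453)))) (.both (.play 517 (.both (.play 520 (.both (.play 393 (.ref 78 390)) (.ref 134 452))) (.play 518 (.ref 1 453)))) (.ref 77 389)))))))) (.both (.play 648 (.both (.play 649 (.both (.play 646 (.both (.ref 94 388) (.both (.ref 93 389) (.both (.play 518 (.both (.play 647 (.both (.play 711 (.both (.play 582 (.ref 4 454)) (.play 650 (.both (.play 712 (.both (.play 645 (.ref 69 644)) (.play 651 (.ref 1 647)))) (.both (.ref 21 646) (.play 651 (.both (.play 712 (.ref 1 647)) (.ref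 21 647)))))))) (.both (.play 582 (.both (.play 711 (.ref 4 454)) (.play 581 (.ref 3 581)))) (.ref 84 579)))) (.play 517 (.ref 1 453)))) (.both (.play 647 (.both (.ref 127 513) (.both (.play 650 (.ref 83 581)) (.both (.play 650 (.ref 54 581)) (.both (.play 650 (.both (.ref 9 581) (.ref 82 582))) (.ref 95 645)))))) (.play 647 (.both (.ref 81 581) (.both (.play 650 (.both (.play 651 (.both (.ref 8 583) (.play 712 (.both (.play 713 (.both (.play 645 (.ref 0 645)) (.play 652 (.ref 1 648)))) (.play 711 (.ref 1 647)))))) (.both (.ref 130 583) (.ref 21 646)))) (.both (.ref 20 643) (.ref 19 644)))))))))) (.both (.ref 133 387) (.both (.ref 129 388) (.ref 128 513))))) (.both (.play 646 (.both (.play 584 (.both (.ref 108 390) (.play 647 (.both (.play 710 (.both (.ref 124 513) (.both (.play 649 (.both (.ref 112 581) (.play 709 (.ref 1 645)))) (.play 709 (.ref 28 643))))) (.both (.ref 120 579) (.both (.ref 119 579) (.both (.play 645 (.both (.ref 118 579) (.both (.play 644 (.both (.play 583 (.ref 2 580)) (.ref 21 644))) (.ref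 95 644)))) (.both (.play 649 (.both (.ref 104 579) (.both (.play 650 (.both (.play 651 (.both (.play 583 (.ref 3 583)) (.ref 8 583))) (.ref 21 646))) (.play 650 (.ref 22 645))))) (.both (.play 649 (.both (.play 645 (.both (.ref 115 579) (.both (.ref 9 580) (.play 583 (.both (.play 644 (.ref 2 580)) (.play 650 (.ref 117 582))))))) (.both (.play 645 (.ref 54 580)) (.play 650 (.both (.ref 116 583) (.ref 21 646)))))) (.play 645 (.both (.play 644 (.ref 54 579)) (.both (.ref 115 579) (.play 712 (.both (.play 776 (.both (.ref 105 579) (.both (.play 840 (.both (.play 777 (.both (.play 841 (.ref 4 584)) (.play 711 (.both (.play 904 (.ref 7 647)) (.play 710 (.both (.play 709 (.ref 0 709)) (.ref 59 710))))))) (.both (.ref 40 584) (.play 904 (.both (.play 711 (.ref 7 647)) (.play 967 (.ref 30 711))))))) (.both (.ref 114 583) (.play 840 (.both (.play 583 (.ref 7 583)) (.ref 37 583))))))) (.play 713 (.ref 0 645)))))))))))))))) (.both (.play 584 (.both (.play 647 (.both (.play 649 (.both (.play 582 (.both (.play 518 (.ref 67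 390)) (.play 581 (.ref 3 581)))) (.both (.ref 112 581) (.ref 95 645)))) (.both (.ref 111 579) (.play 585 (.both (.play 645 (.both (.play 583 (.ref 109 580)) (.play 648 (.ref 2 581)))) (.both (.play 583 (.ref 110 580)) (.both (.play 648 (.ref 98 581)) (.play 586 (.both (.play 583 (.ref 1 582)) (.play 648 (.ref 97 582))))))))))) (.ref 108 390))) (.both (.ref 94 388) (.both (.ref 93 389) (.both (.ref 91 389) (.play 647 (.both (.play 645 (.both (.play 709 (.both (.play 581 (.both (.play 517 (.both (.play 518 (.ref 5 453)) (.ref 107 516))) (.play 580 (.ref 3 580)))) (.play 708 (.ref 1 644)))) (.both (.play 644 (.ref 54 579)) (.ref 19 643)))) (.both (.play 649 (.both (.ref 106 516) (.both (.play 650 (.ref 12 581)) (.both (.play 650 (.ref 80 582)) (.play 650 (.ref 22 645)))))) (.both (.play 645 (.both (.ref 53 579) (.both (.play 580 (.both (.play 584 (.both (.ref 102 579) (.play 585 (.ref 2 581)))) (.play 581 (.ref 3 580)))) (.play 649 (.ref 12 580))))) (.play 645 (.ref 101 579)))))))))))) (.both (.play 646 (.both (.play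 393 (.both (.ref 100 386) (.play 394 (.ref 2 390)))) (.both (.ref 94 388) (.both (.ref 93 389) (.ref 91 389))))) (.both (.play 453 (.both (.ref 53 387) (.ref 88 389))) (.both (.play 520 (.both (.play 453 (.both (.ref 14 387) (.play 521 (.ref 0 453)))) (.play 393 (.ref 78 390)))) (.both (.ref 87 388) (.ref 77 389)))))))) (.both (.ref 53 388) (.play 394 (.both (.play 390 (.both (.play 389 (.ref 3 389)) (.ref 74 390))) (.play 393 (.ref 2 390)))))))) (.both (.play 519 (.both (.ref 73 194) (.both (.play 391 (.both (.play 327 (.both (.play 262 (.both (.play 263 (.both (.play 198 (.ref 7 198)) (.play 520 (.ref 4 263)))) (.play 326 (.ref 7 262)))) (.play 264 (.ref 5 263)))) (.both (.play 390 (.both (.play 327 (.both (.play 326 (.ref 39 262)) (.play 264 (.ref 5 263)))) (.play 458 (.ref 3 390)))) (.both (.play 520 (.both (.play 327 (.both (.play 263 (.ref 4 263)) (.play 264 (.ref 5 263)))) (.play 458 (.both (.play 390 (.ref 3 390)) (.play 459 (.ref 1 455)))))) (.play 583 (.both (.play 390 (.both (.play 326 (.ref 7 326))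 (.play 458 (.ref 3 390)))) (.ref 38 390))))))) (.both (.play 391 (.both (.play 518 (.both (.play 327 (.both (.play 264 (.ref 5 263)) (.play 582 (.ref 6 326)))) (.play 458 (.ref 1 454)))) (.both (.play 327 (.both (.ref 34 262) (.play 264 (.ref 5 263)))) (.both (.ref 32 326) (.play 458 (.ref 13 390)))))) (.play 518 (.ref 28 452)))))) (.both (.play 454 (.both (.ref 26 261) (.both (.ref 23 387) (.both (.ref 14 388) (.both (.play 453 (.both (.ref 9 388) (.ref 17 452))) (.ref 20 451)))))) (.ref 15 388)))))))))))))))))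
    (by decide +kernel)

end Crest.Agent.Snaky
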