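import Crest.Agent.Lib_Snaky.Root

set_option autoImplicit false
set_option linter.all false
set_option maxRecDepth 1000000

namespace Crest.Agent.Snaky

theorem Cert_L41 : PW ⟨18, nat_lit 82377571921567316579782809588976718607313918910409880806160308984351612321844675931496628922713412764619450974885796583777640273286604032983260313617529044992, nat_lit 19575144797711062249514736619410921471949714407365906631953756889196660843999680684454198981782141963846038763207508655416807829072653219402523971662487669553552285265975102645364788697324319987105450087181383018169543225396296055970404682244149522607176250767616291816196932696299047268697429220749066032020412974650120477110463900607570198656976000, 18, nat_lit 19575144797711062249514736619410921471949714407365906631953756889196660843999680684454198981782141963846038763207508655416807829072653219402523971662487669553552285265975102645364788697324319987105450087181383018169543225396296055970404682244149522607176250767616291816196932696299047268697429220749066032020412974650120477110463900607570198656976000⟩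 :=
  sound2 baseTbl baseTbl_ok
    (.seq (.seq (.seq (.seq (.seq (.seq (.seq (.seq (.seq (.seq (.one (.play 68 (.both (.play 67 (.ref 0 0)) (.play 69 (.ref 0 1)))))
 (.seq (.one (.play 65 (.both (.play 1 (.both (.play 64 (.ref 1 0)) (.ref 8 1))) (.play 66 (.ref 1 1)))))
 (.one (.both (.play 0 (.ref 3 0)) (.play 2 (.ref 3 1))))))
 (.seq (.one (.play 65 (.both (.play 1 (.ref 10 0)) (.play 132 (.ref 0 65)))))
 (.seq (.one (.both (.ref 11 0) (.play 134 (.ref 0 66))))
 (.one (.both (.play 1 (.ref 10 0)) (.play 128 (.ref 1 64)))))))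
 (.seq (.seq (.one (.both (.play 65 (.ref 13 0)) (.play 130 (.ref 1 65))))
 (.seq (.one (.both (.play 192 (.ref 6 0)) (.play 320 (.ref 6 64))))
 (.one (.both (.play 256 (.ref 15 0)) (.play 322 (.ref 4 65))))))
 (.seq (.one (.both (.play 257 (.ref 16 0)) (.play 194 (.ref 4 1))))
 (.seq (.one (.both (.play 1 (.ref 5 0)) (.play 320 (.ref 5 64))))
 (.one (.both (.play 67 (.ref 2 0)) (.play 2 (.ref 1 0))))))))
 (.seq (.seq (.seq (.one (.play 192 (.both (.play 256 (.ref 6 0)) (.play 131 (.ref 19 128)))))
 (.seq (.one (.play 194 (.both (.ref 20 0) (.play 258 (.ref 4 1)))))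
 (.one (.play 257 (.both (.play 66 (.both (.play 2 (.ref 5 1)) (.ref 21 64))) (.both (.play 66 (.ref 18 1)) (.play 322 (.ref 17 64))))))))
 (.seq (.one (.play 65 (.both (.play 64 (.ref 1 0)) (.play 66 (.ref 1 1)))))
 (.seq (.one (.play 1 (.both (.ref 23 0) (.play 68 (.ref 0 1)))))
 (.one (.both (.ref 24 0) (.play 70 (.ref 0 2)))))))
 (.seq (.seq (.one (.both (.play 256 (.ref 6 0)) (.play 257 (.ref 7 0))))
 (.seq (.one (.play 256 (.both (.play 192 (.ref 6 0)) (.play 257 (.ref 26 64)))))
 (.one (.play 257 (.both (.play 193 (.ref 4 0)) (.play 321 (.ref 4 64)))))))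
 (.seq (.one (.play 257 (.both (.ref 28 1) (.play 321 (.ref 7 64)))))
 (.seq (.one (.both (.play 0 (.ref 3 0)) (.play 69 (.ref 3 1))))
 (.one (.play 195 (.both (.play 259 (.ref 4 2)) (.play 196 (.ref 30 128))))))))))
 (.seq (.seq (.seq (.seq (.one (.both (.play 256 (.ref 6 0)) (.play 131 (.ref 1 128))))
 (.seq (.one (.play 258 (.both (.play 194 (.both (.play 1 (.ref 4 1)) (.play 256 (.ref 32 64)))) (.play 322 (.ref 4 65)))))
 (.one (.play 257 (.both (.ref 33 0) (.play 66 (.ref 18 1)))))))
 (.seq (.one (.play 193 (.both (.play 65 (.both (.play 68 (.both (.ref 34 0) (.play 69 (.ref 2 65)))) (.play 64 (.ref 3 64)))) (.play 192 (.ref 1 128)))))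
 (.seq (.one (.both (.play 65 (.ref 5 0)) (.ref 28 0)))
 (.one (.both (.play 1 (.ref 5 0)) (.play 320 (.ref 36 64)))))))
 (.seq (.seq (.one (.play 0 (.both (.play 64 (.ref 7 0)) (.play 1 (.ref 3 0)))))
 (.seq (.one (.play 65 (.both (.play 66 (.ref 18 1)) (.play 64 (.ref 3 64)))))
 (.one (.play 65 (.both (.play 64 (.both (.play 1 (.ref 5 0)) (.ref 28 64))) (.play 129 (.ref 5 64)))))))
 (.seq (.one (.play 256 (.both (.play 65 (.ref 5 0)) (.play 321 (.ref 4 64)))))
 (.seq (.one (.play 257 (.both (.play 193 (.ref 4 0)) (.ref 41 0))))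
 (.one (.play 256 (.both (.play 192 (.ref 6 0)) (.play 257 (.both (.play 320 (.ref 6 64)) (.ref 42 65))))))))))
 (.seq (.seq (.seq (.one (.play 257 (.both (.play 256 (.ref 15 0)) (.play 66 (.ref 5 1)))))
 (.seq (.one (.both (.play 2 (.ref 5 1)) (.ref 44 64)))
 (.one (.both (.play 1 (.ref 5 0)) (.play 129 (.ref 5 64))))))
 (.seq (.one (.play 64 (.both (.play 0 (.ref 7 0)) (.play 128 (.ref 7 64)))))
 (.seq (.one (.play 65 (.both (.ref 47 0) (.play 322 (.ref 4 65)))))
 (.one (.both (.play 0 (.ref 4 0)) (.play 321 (.ref 4 64)))))))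
 (.seq (.seq (.one (.play 3 (.both (.play 4 (.ref 2 0)) (.play 130 (.ref 5 2)))))
 (.seq (.one (.play 64 (.both (.play 0 (.ref 7 0)) (.ref 50 0))))
 (.one (.play 66 (.both (.play 65 (.both (.ref 47 0) (.play 2 (.ref 5 1)))) (.play 130 (.ref 5 65)))))))
 (.seq (.seq (.one (.play 129 (.both (.ref 52 0) (.both (.play 322 (.both (.play 130 (.both (.ref 51 64) (.play 66 (.ref 5 65)))) (.play 386 (.ref 4 129)))) (.play 322 (.ref 49 65))))))
 (.one (.both (.ref 28 1) (.play 320 (.ref 6 64)))))
 (.seq (.one (.both (.play 192 (.ref 6 0)) (.play 257 (.ref 54 0))))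
 (.one (.play 193 (.both (.play 257 (.ref 4 0)) (.play 384 (.ref 5 128)))))))))))
 (.seq (.seq (.seq (.seq (.seq (.one (.play 320 (.both (.play 321 (.both (.ref 56 1) (.play 384 (.ref 6 128)))) (.play 256 (.ref 6 64)))))
 (.seq (.one (.play 64 (.both (.play 65 (.both (.play 0 (.ref 7 0)) (.play 66 (.ref 46 1)))) (.play 128 (.ref 7 64)))))
 (.one (.play 129 (.both (.ref 58 0) (.both (.play 322 (.ref 49 65)) (.play 385 (.both (.ref 57 128) (.both (.ref 28 129) (.both (.play 448 (.ref 55 192)) (.ref 43 192)))))))))))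
 (.seq (.one (.both (.play 66 (.ref 4 2)) (.play 260 (.ref 0 192))))
 (.seq (.one (.play 132 (.both (.play 131 (.both (.play 260 (.ref 60 1)) (.play 192 (.ref 2 128)))) (.play 133 (.ref 2 129)))))
 (.one (.play 196 (.both (.ref 61 0) (.play 129 (.ref 30 128))))))))
 (.seq (.seq (.one (.play 193 (.both (.play 195 (.both (.ref 62 0) (.play 259 (.ref 4 2)))) (.play 257 (.ref 6 1)))))
 (.seq (.one (.play 129 (.both (.play 2 (.ref 5 1)) (.play 320 (.ref 55 64)))))
 (.one (.play 4 (.both (.play 65 (.ref 1 0)) (.ref 8 0))))))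
 (.seq (.one (.both (.play 64 (.ref 1 0)) (.ref 65 1)))
 (.seq (.one (.both (.play 64 (.ref 2 0)) (.play 2 (.ref 1 1))))
 (.one (.both (.play 65 (.ref 67 0)) (.play 6 (.ref 1 2))))))))
 (.seq (.seq (.seq (.one (.both (.play 64 (.ref 2 0)) (.play 68 (.ref 2 1))))
 (.seq (.one (.both (.play 65 (.ref 69 0)) (.play 6 (.ref 1 2))))
 (.one (.both (.play 3 (.ref 2 0)) (.play 5 (.ref 2 1))))))
 (.seq (.one (.play 132 (.both (.play 68 (.both (.play 4 (.ref 71 0)) (.play 133 (.ref 0 65)))) (.play 131 (.ref 0 64)))))
 (.seq (.one (.play 68 (.both (.play 4 (.ref 71 0)) (.play 69 (.ref 1 65)))))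
 (.one (.both (.play 257 (.ref 4 0)) (.play 256 (.ref 5 0)))))))
 (.seq (.seq (.one (.play 257 (.both (.play 193 (.ref 7 0)) (.play 256 (.ref 74 64)))))
 (.seq (.one (.both (.play 193 (.ref 6 0)) (.play 320 (.ref 5 64))))
 (.one (.both (.play 1 (.ref 6 0)) (.play 320 (.ref 76 64))))))
 (.seq (.one (.play 4 (.both (.play 3 (.ref 2 0)) (.play 68 (.both (.play 5 (.ref 2 1)) (.ref 8 64))))))
 (.seq (.one (.play 68 (.both (.ref 78 1) (.play 128 (.ref 1 64)))))
 (.one (.play 68 (.both (.play 1 (.ref 3 0)) (.ref 8 64)))))))))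
 (.seq (.seq (.seq (.seq (.one (.both (.play 65 (.ref 7 0)) (.play 321 (.ref 7 64))))
 (.seq (.one (.play 195 (.both (.play 259 (.ref 81 2)) (.play 128 (.ref 0 128)))))
 (.one (.both (.ref 82 0) (.play 197 (.ref 0 129))))))
 (.seq (.one (.play 257 (.both (.play 2 (.ref 6 1)) (.play 321 (.ref 7 64)))))
 (.seq (.one (.play 195 (.both (.play 259 (.ref 7 2)) (.play 196 (.ref 0 128)))))
 (.one (.both (.play 64 (.ref 2 0)) (.play 5 (.ref 2 1)))))))
 (.seq (.seq (.one (.both (.ref 85 1) (.play 192 (.ref 1 128))))
 (.seq (.one (.both (.play 193 (.ref 6 0)) (.play 128 (.ref 5 0))))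
 (.one (.both (.play 193 (.ref 77 0)) (.both (.play 128 (.ref 18 0)) (.both (.play 1 (.ref 88 0)) (.play 320 (.both (.play 128 (.ref 5 64)) (.play 193 (.ref 76 64))))))))))
 (.seq (.one (.both (.play 3 (.both (.play 4 (.ref 2 0)) (.play 195 (.ref 55 2)))) (.play 132 (.ref 0 64))))
 (.seq (.one (.both (.play 0 (.ref 7 0)) (.play 321 (.ref 5 65))))
 (.one (.both (.play 131 (.both (.play 195 (.ref 91 2)) (.play 64 (.ref 0 64)))) (.play 133 (.ref 0 65))))))))
 (.seq (.seq (.seq (.one (.play 3 (.both (.play 4 (.ref 2 0)) (.play 194 (.ref 88 2)))))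
 (.seq (.one (.play 131 (.both (.ref 93 0) (.play 132 (.ref 0 64)))))
 (.one (.both (.play 0 (.ref 7 0)) (.play 2 (.ref 5 1))))))
 (.seq (.one (.play 130 (.both (.play 66 (.both (.play 1 (.both (.play 65 (.both (.play 0 (.ref 3 0)) (.play 133 (.both (.play 197 (.ref 95 4)) (.play 132 (.ref 0 65)))))) (.play 2 (.ref 3 1)))) (.play 129 (.ref 1 65)))) (.play 131 (.ref 1 66)))))
 (.seq (.one (.play 67 (.both (.play 0 (.ref 0 0)) (.play 66 (.ref 1 2)))))
 (.one (.both (.play 192 (.ref 4 0)) (.play 321 (.ref 7 64)))))))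
 (.seq (.seq (.one (.both (.play 0 (.ref 4 0)) (.play 321 (.ref 98 64))))
 (.seq (.one (.play 193 (.both (.play 192 (.ref 99 0)) (.play 194 (.ref 6 1)))))
 (.one (.both (.play 0 (.ref 3 0)) (.ref 23 64)))))
 (.seq (.seq (.one (.both (.play 65 (.ref 101 0)) (.play 2 (.ref 3 1))))
 (.one (.play 257 (.both (.play 64 (.ref 7 0)) (.ref 28 1)))))
 (.seq (.one (.both (.play 256 (.ref 6 0)) (.ref 103 0)))
 (.one (.both (.play 260 (.ref 4 3)) (.play 129 (.ref 0 128)))))))))))
 (.seq (.seq (.seq (.seq (.seq (.seq (.one (.play 260 (.both (.play 196 (.ref 4 3)) (.play 259 (.ref 105 64)))))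
 (.seq (.one (.both (.ref 106 0) (.play 258 (.ref 6 2))))
 (.one (.play 129 (.both (.play 193 (.ref 45 0)) (.play 128 (.ref 1 64)))))))
 (.seq (.one (.play 66 (.both (.ref 108 0) (.play 133 (.ref 0 65)))))
 (.seq (.one (.play 67 (.both (.play 0 (.ref 0 0)) (.play 260 (.ref 7 3)))))
 (.one (.play 132 (.both (.play 2 (.both (.ref 110 0) (.play 69 (.ref 0 1)))) (.play 259 (.ref 6 3))))))))
 (.seq (.seq (.one (.both (.play 0 (.ref 0 0)) (.play 4 (.ref 0 1))))
 (.seq (.one (.both (.play 1 (.ref 112 0)) (.play 70 (.ref 3 2))))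
 (.one (.both (.play 2 (.ref 4 2)) (.play 256 (.ref 2 192))))))
 (.seq (.one (.play 195 (.both (.play 130 (.both (.play 196 (.both (.play 197 (.both (.play 260 (.ref 114 1)) (.play 198 (.ref 3 130)))) (.both (.play 129 (.both (.play 257 (.both (.play 193 (.both (.play 321 (.ref 5 65)) (.play 192 (.both (.play 132 (.ref 1 128)) (.play 260 (.ref 3 192)))))) (.play 256 (.ref 2 192)))) (.play 128 (.ref 0 128)))) (.play 197 (.ref 113 128))))) (.play 323 (.ref 7 66)))) (.play 322 (.ref 6 66)))))
 (.seq (.one (.play 196 (.both (.play 66 (.both (.play 4 (.both (.play 197 (.both (.play 129 (.both (.play 257 (.both (.play 193 (.ref 45 0)) (.play 258 (.ref 2 193)))) (.play 128 (.ref 1 64)))) (.play 261 (.ref 4 4)))) (.play 5 (.ref 2 1)))) (.play 133 (.ref 0 65)))) (.play 323 (.ref 6 67)))))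
 (.one (.play 68 (.both (.play 4 (.ref 71 0)) (.play 129 (.ref 1 64)))))))))
 (.seq (.seq (.seq (.one (.both (.ref 117 1) (.play 128 (.ref 1 64))))
 (.seq (.one (.play 64 (.both (.play 4 (.ref 71 0)) (.play 131 (.ref 0 64)))))
 (.one (.play 132 (.both (.ref 119 0) (.play 133 (.ref 0 65)))))))
 (.seq (.one (.play 65 (.both (.play 1 (.ref 10 0)) (.play 4 (.ref 2 1)))))
 (.seq (.one (.both (.ref 121 0) (.play 6 (.ref 2 2))))
 (.one (.both (.play 64 (.ref 7 0)) (.play 66 (.ref 5 1)))))))
 (.seq (.seq (.one (.play 257 (.both (.play 129 (.both (.play 65 (.ref 123 0)) (.play 128 (.ref 3 128)))) (.play 256 (.ref 1 192)))))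
 (.seq (.one (.play 196 (.both (.ref 124 0) (.ref 72 129))))
 (.one (.both (.play 1 (.ref 6 0)) (.play 320 (.ref 5 64))))))
 (.seq (.one (.play 129 (.both (.play 65 (.ref 126 0)) (.play 196 (.ref 3 128)))))
 (.seq (.one (.play 129 (.both (.ref 127 1) (.play 128 (.ref 3 128)))))
 (.one (.both (.ref 128 0) (.play 256 (.ref 1 192)))))))))
 (.seq (.seq (.seq (.seq (.one (.play 66 (.both (.play 2 (.ref 5 1)) (.play 128 (.ref 1 64)))))
 (.seq (.one (.both (.ref 130 0) (.play 322 (.ref 4 65))))
 (.one (.play 193 (.both (.play 129 (.ref 131 0)) (.play 192 (.ref 3 192)))))))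
 (.seq (.one (.both (.play 0 (.ref 3 0)) (.play 133 (.ref 0 65))))
 (.seq (.one (.both (.play 0 (.ref 0 0)) (.play 64 (.ref 1 0))))
 (.one (.both (.play 64 (.ref 2 0)) (.play 133 (.ref 0 65)))))))
 (.seq (.seq (.one (.both (.play 132 (.both (.ref 110 0) (.play 259 (.ref 6 3)))) (.play 69 (.ref 0 1))))
 (.seq (.one (.play 256 (.both (.play 192 (.ref 6 0)) (.play 257 (.ref 1 192)))))
 (.one (.both (.ref 137 0) (.play 258 (.ref 4 1))))))
 (.seq (.one (.play 129 (.both (.play 65 (.ref 138 0)) (.play 128 (.ref 3 128)))))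
 (.seq (.one (.both (.ref 139 0) (.play 133 (.ref 2 129))))
 (.one (.play 68 (.both (.play 1 (.ref 0 0)) (.play 323 (.ref 36 67)))))))))
 (.seq (.seq (.seq (.one (.play 68 (.both (.play 1 (.ref 0 0)) (.play 132 (.both (.play 323 (.ref 5 67)) (.play 193 (.ref 2 128)))))))
 (.seq (.one (.both (.play 4 (.ref 2 0)) (.play 132 (.ref 0 64))))
 (.one (.both (.play 258 (.ref 4 1)) (.play 128 (.ref 3 128))))))
 (.seq (.one (.both (.play 2 (.ref 5 1)) (.play 258 (.ref 144 64))))
 (.seq (.one (.play 129 (.both (.play 193 (.ref 145 0)) (.play 128 (.ref 1 64)))))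
 (.one (.play 66 (.both (.ref 146 0) (.play 133 (.ref 0 65))))))))
 (.seq (.seq (.one (.play 258 (.both (.ref 147 1) (.both (.ref 109 1) (.both (.play 325 (.both (.play 197 (.both (.play 324 (.ref 6 68)) (.play 259 (.ref 143 194)))) (.both (.play 197 (.both (.ref 142 66) (.play 324 (.ref 6 68)))) (.both (.play 197 (.both (.ref 141 66) (.both (.ref 142 66) (.play 326 (.ref 105 130))))) (.both (.play 197 (.both (.ref 141 66) (.play 324 (.ref 6 68)))) (.play 259 (.ref 25 256))))))) (.play 197 (.both (.play 259 (.ref 140 65)) (.play 324 (.ref 6 68)))))))))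
 (.seq (.one (.play 259 (.both (.play 66 (.ref 7 2)) (.play 260 (.ref 0 192)))))
 (.one (.both (.ref 149 0) (.play 132 (.ref 2 128))))))
 (.seq (.seq (.one (.play 68 (.both (.play 69 (.ref 3 1)) (.ref 8 64))))
 (.one (.both (.play 0 (.ref 3 0)) (.play 64 (.ref 2 0)))))
 (.seq (.one (.play 66 (.both (.play 65 (.ref 152 0)) (.play 130 (.both (.play 69 (.both (.ref 151 2) (.play 129 (.ref 1 65)))) (.play 258 (.ref 5 2)))))))
 (.one (.play 66 (.both (.play 1 (.ref 102 0)) (.play 6 (.ref 2 2)))))))))))
 (.seq (.seq (.seq (.seq (.seq (.one (.both (.play 0 (.ref 0 0)) (.play 66 (.ref 3 1))))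
 (.seq (.one (.play 321 (.both (.ref 47 0) (.play 320 (.ref 1 256)))))
 (.one (.both (.ref 156 0) (.play 322 (.ref 4 65))))))
 (.seq (.one (.play 258 (.both (.play 325 (.both (.play 194 (.both (.play 130 (.ref 157 1)) (.play 193 (.ref 3 193)))) (.play 326 (.ref 0 258)))) (.both (.ref 139 65) (.both (.play 325 (.ref 12 192)) (.play 325 (.ref 25 256)))))))
 (.seq (.one (.play 259 (.both (.ref 158 0) (.both (.play 132 (.both (.play 131 (.both (.play 195 (.both (.play 323 (.ref 5 67)) (.play 194 (.both (.play 134 (.ref 1 130)) (.play 193 (.ref 155 192)))))) (.play 130 (.ref 152 65)))) (.both (.play 197 (.both (.play 325 (.ref 7 68)) (.ref 154 192))) (.both (.play 325 (.both (.ref 153 65) (.play 197 (.ref 7 68)))) (.play 197 (.both (.play 325 (.ref 7 68)) (.play 198 (.both (.play 199 (.ref 113 130)) (.play 258 (.ref 2 194)))))))))) (.both (.play 132 (.both (.ref 153 65) (.play 197 (.ref 26 68)))) (.both (.play 197 (.both (.play 258 (.ref 140 65)) (.play 324 (.ref 6 68)))) (.play 197 (.both (.play 258 (.ref 150 66))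 (.play 324 (.ref 6 68))))))))))
 (.one (.both (.play 64 (.ref 2 0)) (.play 5 (.ref 1 1)))))))
 (.seq (.seq (.one (.play 195 (.both (.play 2 (.ref 4 2)) (.play 196 (.ref 160 192)))))
 (.seq (.one (.both (.play 259 (.both (.ref 161 0) (.play 323 (.ref 4 66)))) (.play 321 (.ref 6 65))))
 (.one (.both (.play 1 (.ref 102 0)) (.play 133 (.ref 0 66))))))
 (.seq (.one (.both (.play 66 (.ref 163 0)) (.play 135 (.ref 0 67))))
 (.seq (.one (.both (.play 131 (.both (.play 67 (.ref 7 2)) (.play 132 (.ref 2 128)))) (.play 260 (.ref 0 192))))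
 (.one (.play 261 (.both (.play 132 (.ref 4 4)) (.play 194 (.ref 12 128)))))))))
 (.seq (.seq (.seq (.one (.play 66 (.both (.play 259 (.ref 7 2)) (.play 65 (.ref 112 64)))))
 (.seq (.one (.play 257 (.both (.play 64 (.ref 7 0)) (.play 321 (.ref 18 65)))))
 (.one (.both (.play 0 (.ref 0 0)) (.play 69 (.ref 0 1))))))
 (.seq (.one (.play 68 (.both (.play 1 (.ref 169 0)) (.play 7 (.ref 1 3)))))
 (.seq (.one (.both (.play 66 (.ref 6 1)) (.play 256 (.ref 1 192))))
 (.one (.play 257 (.both (.play 193 (.ref 171 0)) (.play 258 (.ref 1 193))))))))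
 (.seq (.seq (.one (.both (.ref 172 0) (.play 129 (.ref 3 129))))
 (.seq (.one (.play 66 (.both (.play 133 (.ref 12 0)) (.ref 23 65))))
 (.one (.both (.play 256 (.ref 18 0)) (.play 132 (.ref 3 64))))))
 (.seq (.seq (.one (.both (.play 64 (.ref 1 0)) (.play 5 (.ref 1 1))))
 (.one (.play 260 (.both (.play 3 (.both (.play 4 (.ref 2 0)) (.play 196 (.ref 4 3)))) (.play 324 (.ref 4 67))))))
 (.seq (.one (.both (.play 195 (.both (.ref 177 0) (.play 322 (.ref 6 66)))) (.play 132 (.ref 0 64))))
 (.one (.both (.play 130 (.ref 4 2)) (.play 260 (.ref 0 192)))))))))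
 (.seq (.seq (.seq (.seq (.one (.play 260 (.both (.play 196 (.ref 179 1)) (.play 259 (.ref 0 192)))))
 (.seq (.one (.play 257 (.both (.play 130 (.both (.play 66 (.ref 6 1)) (.play 129 (.ref 30 128)))) (.play 256 (.ref 1 192)))))
 (.one (.play 195 (.both (.ref 181 1) (.both (.ref 180 2) (.play 262 (.ref 163 128))))))))
 (.seq (.one (.play 65 (.both (.play 193 (.both (.ref 38 0) (.play 192 (.ref 3 192)))) (.play 128 (.ref 1 64)))))
 (.seq (.one (.play 257 (.both (.ref 183 0) (.ref 23 256))))
 (.one (.both (.play 0 (.ref 3 0)) (.ref 80 1))))))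
 (.seq (.seq (.one (.play 1 (.both (.play 65 (.both (.play 0 (.ref 3 0)) (.ref 8 65))) (.play 2 (.ref 3 1)))))
 (.seq (.one (.play 6 (.both (.play 5 (.ref 2 2)) (.play 259 (.both (.play 322 (.both (.play 195 (.both (.play 131 (.ref 6 66)) (.ref 186 192))) (.play 321 (.ref 1 257)))) (.both (.ref 181 65) (.both (.play 194 (.ref 185 193)) (.play 322 (.ref 66 257)))))))))
 (.one (.play 131 (.both (.play 259 (.ref 7 2)) (.play 132 (.ref 2 128)))))))
 (.seq (.one (.play 325 (.both (.play 257 (.both (.play 129 (.both (.ref 183 0) (.play 130 (.ref 1 65)))) (.play 324 (.ref 0 257)))) (.play 326 (.ref 0 258)))))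
 (.seq (.one (.play 132 (.both (.play 131 (.both (.play 196 (.both (.ref 177 1) (.play 324 (.ref 7 67)))) (.play 64 (.ref 0 64)))) (.play 133 (.ref 0 65)))))
 (.one (.play 129 (.both (.play 65 (.ref 6 0)) (.play 128 (.ref 3 128)))))))))
 (.seq (.seq (.seq (.one (.play 195 (.both (.ref 181 1) (.both (.play 129 (.ref 102 128)) (.both (.play 130 (.ref 185 129)) (.play 258 (.ref 66 193)))))))
 (.seq (.one (.play 257 (.both (.play 66 (.ref 5 1)) (.play 256 (.ref 1 192)))))
 (.one (.play 129 (.both (.play 193 (.both (.play 2 (.ref 5 1)) (.play 258 (.both (.ref 193 64) (.play 322 (.ref 4 65)))))) (.play 128 (.ref 1 64)))))))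
 (.seq (.one (.play 129 (.both (.play 65 (.both (.play 1 (.both (.play 0 (.ref 3 0)) (.play 193 (.ref 17 0)))) (.play 128 (.ref 1 64)))) (.play 130 (.ref 1 65)))))
 (.seq (.one (.both (.play 0 (.ref 3 0)) (.play 194 (.ref 7 1))))
 (.one (.play 1 (.both (.play 65 (.ref 196 0)) (.play 2 (.ref 3 1))))))))
 (.seq (.seq (.one (.play 322 (.both (.ref 197 0) (.play 321 (.ref 1 257)))))
 (.seq (.one (.play 259 (.both (.play 130 (.both (.play 66 (.both (.play 260 (.both (.play 258 (.both (.ref 198 0) (.both (.play 194 (.ref 144 65)) (.ref 23 257)))) (.ref 72 195))) (.play 129 (.ref 1 65)))) (.play 131 (.ref 1 66)))) (.both (.ref 195 1) (.both (.ref 146 2) (.both (.ref 194 2) (.ref 192 65)))))))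
 (.one (.play 68 (.both (.ref 199 0) (.both (.play 259 (.both (.ref 146 2) (.both (.ref 108 2) (.both (.play 131 (.both (.play 134 (.both (.play 6 (.both (.play 7 (.ref 2 3)) (.play 198 (.both (.play 199 (.both (.play 263 (.ref 4 6)) (.play 260 (.ref 2 195)))) (.both (.play 260 (.ref 150 67)) (.ref 103 69)))))) (.play 135 (.ref 0 67)))) (.play 130 (.ref 1 66)))) (.play 134 (.both (.play 260 (.both (.play 323 (.both (.play 263 (.both (.ref 191 67) (.play 324 (.ref 1 259)))) (.play 322 (.ref 1 258)))) (.play 198 (.ref 150 67)))) (.play 135 (.ref 0 67)))))))) (.both (.ref 190 2) (.play 134 (.ref 25 65)))))))))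
 (.seq (.seq (.one (.play 257 (.both (.play 130 (.both (.play 66 (.ref 6 1)) (.ref 117 129))) (.play 256 (.ref 1 192)))))
 (.one (.both (.play 1 (.ref 5 0)) (.play 321 (.ref 4 64)))))
 (.seq (.one (.both (.play 129 (.ref 202 1)) (.play 192 (.ref 3 192))))
 (.one (.both (.play 194 (.ref 203 1)) (.play 325 (.ref 25 256))))))))))))
 (.seq (.seq (.seq (.seq (.seq (.seq (.seq (.one (.play 68 (.both (.play 129 (.ref 118 0)) (.ref 8 64))))
 (.seq (.one (.both (.play 256 (.ref 6 0)) (.play 258 (.ref 4 1))))
 (.one (.both (.play 130 (.both (.play 66 (.ref 206 1)) (.play 197 (.ref 3 129)))) (.play 128 (.ref 3 128))))))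
 (.seq (.one (.play 1 (.both (.ref 23 0) (.play 69 (.ref 0 1)))))
 (.seq (.one (.play 66 (.both (.play 2 (.ref 10 1)) (.ref 208 64))))
 (.one (.play 260 (.both (.play 135 (.both (.play 67 (.both (.play 132 (.both (.ref 209 0) (.both (.play 196 (.ref 95 3)) (.play 196 (.ref 45 3))))) (.play 134 (.ref 0 67)))) (.play 136 (.ref 0 68)))) (.both (.play 135 (.both (.play 67 (.both (.play 3 (.both (.play 2 (.ref 3 2)) (.play 196 (.both (.play 132 (.ref 7 3)) (.play 261 (.ref 207 67)))))) (.play 134 (.ref 0 67)))) (.play 136 (.ref 0 68)))) (.both (.play 135 (.both (.play 67 (.both (.play 3 (.both (.play 2 (.ref 3 2)) (.play 196 (.both (.play 132 (.ref 7 3)) (.play 261 (.ref 185 195)))))) (.play 134 (.ref 0 67)))) (.play 136 (.ref 0 68)))) (.both (.play 261 (.both (.play 196 (.ref 203 3)) (.both (.play 196 (.ref 207 67)) (.play 324 (.ref 66 259))))) (.play 261 (.both (.play 135 (.both (.play 67 (.both (.play 134 (.ref 0 67)) (.play 327 (.ref 164 193)))) (.play 136 (.ref 0 68)))) (.both (.play 264 (.both (.play 135 (.both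 (.play 67 (.both (.play 134 (.ref 0 67)) (.ref 78 197))) (.play 136 (.ref 0 68)))) (.ref 23 259))) (.both (.ref 174 193) (.both (.ref 205 196) (.play 324 (.ref 66 259))))))))))))))))
 (.seq (.seq (.one (.play 67 (.both (.play 68 (.ref 169 0)) (.play 66 (.ref 1 2)))))
 (.seq (.one (.play 2 (.both (.play 66 (.both (.play 1 (.ref 3 1)) (.ref 9 64))) (.play 3 (.ref 3 2)))))
 (.one (.play 67 (.both (.ref 212 0) (.both (.play 2 (.ref 102 1)) (.both (.play 2 (.both (.play 66 (.both (.play 1 (.ref 3 1)) (.ref 211 65))) (.play 3 (.ref 3 2)))) (.ref 23 66))))))))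
 (.seq (.one (.play 263 (.both (.play 69 (.both (.ref 210 0) (.both (.play 135 (.ref 164 1)) (.both (.play 260 (.both (.ref 146 3) (.both (.ref 108 3) (.play 261 (.both (.play 327 (.ref 164 193)) (.both (.ref 174 193) (.both (.play 264 (.both (.ref 78 197) (.ref 23 259))) (.both (.ref 205 196) (.play 327 (.ref 25 258)))))))))) (.play 135 (.ref 25 66)))))) (.both (.play 69 (.both (.ref 213 0) (.both (.play 135 (.ref 178 4)) (.play 135 (.ref 25 66))))) (.both (.play 69 (.both (.ref 210 0) (.both (.play 261 (.both (.play 8 (.both (.play 260 (.ref 204 2)) (.play 7 (.ref 2 4)))) (.both (.play 8 (.both (.play 7 (.ref 2 4)) (.play 260 (.both (.ref 201 67) (.both (.ref 72 196) (.play 327 (.ref 25 258))))))) (.both (.play 260 (.both (.play 196 (.both (.play 132 (.both (.play 5 (.ref 5 4)) (.ref 137 67))) (.play 195 (.ref 3 195)))) (.both (.play 324 (.both (.play 197 (.both (.play 133 (.ref 6 68)) (.ref 72 196))) (.play 323 (.ref 1 259)))) (.play 196 (.ref 185 195))))) (.both (.play 8 (.both (.play 260 (.both (.play 196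 (.ref 203 3)) (.ref 72 196))) (.play 7 (.ref 2 4)))) (.both (.play 8 (.both (.play 260 (.both (.play 196 (.ref 203 3)) (.both (.ref 201 67) (.play 324 (.both (.play 196 (.both (.play 197 (.both (.play 133 (.ref 6 68)) (.play 264 (.ref 3 196)))) (.play 195 (.ref 3 195)))) (.play 323 (.ref 1 259))))))) (.play 7 (.ref 2 4)))) (.play 8 (.both (.play 7 (.ref 2 4)) (.ref 125 68))))))))) (.both (.ref 190 3) (.both (.play 135 (.ref 178 4)) (.play 135 (.ref 136 67))))))) (.both (.ref 200 1) (.both (.play 135 (.both (.play 260 (.both (.play 261 (.both (.play 69 (.both (.ref 189 2) (.play 136 (.ref 0 68)))) (.both (.play 136 (.both (.play 69 (.ref 0 68)) (.ref 174 193))) (.both (.play 136 (.both (.play 324 (.both (.play 264 (.both (.ref 188 69) (.play 325 (.ref 1 260)))) (.play 323 (.ref 1 259)))) (.play 69 (.ref 0 68)))) (.play 324 (.ref 66 259)))))) (.both (.play 69 (.both (.ref 187 2) (.play 136 (.ref 0 68)))) (.both (.ref 147 3) (.both (.ref 109 3) (.play 261 (.both (.ref 139 67) (.both (.play 196 (.ref 185 195)) (.play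 324 (.ref 66 259)))))))))) (.both (.ref 148 2) (.both (.play 260 (.both (.play 69 (.both (.play 131 (.both (.play 261 (.both (.ref 184 2) (.ref 180 68))) (.play 132 (.ref 1 67)))) (.play 136 (.ref 0 68)))) (.both (.ref 147 3) (.both (.ref 109 3) (.both (.play 69 (.both (.ref 182 66) (.play 136 (.ref 0 68)))) (.play 261 (.both (.play 196 (.ref 173 66)) (.ref 180 68)))))))) (.both (.ref 116 3) (.both (.play 69 (.ref 178 4)) (.play 199 (.ref 162 5)))))))) (.both (.play 135 (.both (.play 261 (.both (.ref 158 2) (.both (.play 260 (.both (.play 196 (.both (.play 325 (.both (.play 132 (.ref 4 68)) (.play 264 (.both (.play 197 (.ref 3 196)) (.ref 170 258))))) (.play 195 (.ref 3 195)))) (.both (.play 196 (.both (.play 325 (.both (.play 132 (.ref 4 68)) (.play 324 (.ref 176 259)))) (.play 195 (.ref 3 195)))) (.both (.play 324 (.both (.play 325 (.both (.play 132 (.both (.play 133 (.both (.play 134 (.ref 152 67)) (.play 197 (.ref 7 68)))) (.play 196 (.ref 4 68)))) (.play 264 (.ref 1 260)))) (.play 323 (.ref 1 259)))) (.both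 (.play 324 (.both (.play 196 (.both (.play 197 (.ref 175 132)) (.play 195 (.ref 3 195)))) (.play 323 (.ref 1 259)))) (.ref 174 193)))))) (.both (.play 264 (.both (.play 201 (.both (.play 196 (.both (.play 260 (.ref 173 66)) (.play 197 (.ref 3 196)))) (.play 200 (.ref 2 197)))) (.both (.play 328 (.ref 165 69)) (.play 328 (.ref 12 195))))) (.both (.play 264 (.both (.play 196 (.both (.play 260 (.both (.play 325 (.both (.play 132 (.ref 4 68)) (.ref 170 258))) (.play 195 (.ref 3 195)))) (.play 197 (.ref 3 196)))) (.play 328 (.ref 165 69)))) (.both (.play 264 (.both (.play 328 (.ref 165 69)) (.both (.play 325 (.ref 118 196)) (.play 328 (.ref 25 259))))) (.play 264 (.both (.ref 124 68) (.play 328 (.ref 165 69)))))))))) (.both (.ref 159 2) (.both (.play 264 (.both (.play 261 (.both (.play 200 (.both (.play 199 (.both (.play 7 (.ref 4 7)) (.play 260 (.ref 2 196)))) (.play 201 (.ref 2 197)))) (.both (.play 200 (.both (.play 199 (.both (.play 7 (.ref 4 7)) (.ref 168 70))) (.play 201 (.ref 2 197)))) (.play 196 (.ref 102 195)))))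 (.both (.play 199 (.both (.play 200 (.both (.play 7 (.ref 4 7)) (.play 201 (.both (.ref 167 68) (.play 202 (.ref 1 198)))))) (.play 328 (.ref 4 71)))) (.both (.play 261 (.both (.play 328 (.ref 165 69)) (.play 196 (.ref 102 195)))) (.both (.ref 166 67) (.play 328 (.both (.play 261 (.ref 165 69)) (.play 199 (.ref 4 71))))))))) (.both (.ref 115 4) (.both (.play 199 (.ref 162 5)) (.play 199 (.ref 104 70)))))))) (.both (.play 135 (.both (.play 69 (.ref 164 1)) (.both (.play 199 (.ref 162 5)) (.ref 111 67)))) (.both (.play 135 (.both (.play 199 (.ref 162 5)) (.play 69 (.ref 25 66)))) (.both (.play 135 (.both (.ref 159 2) (.both (.ref 148 2) (.both (.play 69 (.ref 25 66)) (.both (.play 69 (.ref 136 67)) (.play 199 (.both (.play 134 (.both (.play 132 (.both (.play 133 (.ref 135 67)) (.both (.play 69 (.ref 134 67)) (.play 133 (.ref 133 67))))) (.play 327 (.ref 7 70)))) (.play 326 (.ref 6 70))))))))) (.both (.play 261 (.both (.play 260 (.both (.ref 132 3) (.play 327 (.ref 25 258)))) (.both (.play 260 (.both (.ref 132 3)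 (.both (.play 324 (.ref 129 67)) (.play 324 (.ref 118 195))))) (.both (.ref 125 68) (.both (.play 264 (.both (.play 328 (.ref 12 195)) (.both (.play 200 (.ref 122 195)) (.ref 72 197)))) (.play 264 (.both (.ref 120 196) (.both (.play 325 (.ref 118 196)) (.play 328 (.ref 25 259)))))))))) (.both (.play 135 (.both (.play 199 (.both (.play 134 (.both (.play 69 (.both (.play 132 (.both (.play 200 (.both (.play 201 (.both (.play 7 (.both (.play 8 (.ref 2 4)) (.play 264 (.ref 4 7)))) (.play 202 (.ref 3 134)))) (.play 133 (.ref 0 132)))) (.play 131 (.ref 1 67)))) (.play 67 (.ref 0 67)))) (.play 327 (.ref 7 70)))) (.play 326 (.ref 6 70)))) (.both (.ref 116 3) (.both (.ref 115 4) (.both (.play 69 (.ref 25 66)) (.ref 111 67)))))) (.play 135 (.both (.play 260 (.both (.ref 109 3) (.play 199 (.ref 107 68)))) (.both (.play 69 (.ref 25 66)) (.play 199 (.ref 104 70))))))))))))))))))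
 (.seq (.one (.both (.play 131 (.both (.play 195 (.ref 95 2)) (.play 64 (.ref 0 64)))) (.play 133 (.ref 0 65))))
 (.one (.both (.play 0 (.ref 0 0)) (.play 69 (.ref 3 1))))))))
 (.seq (.seq (.seq (.one (.play 195 (.both (.play 259 (.ref 98 2)) (.play 196 (.ref 0 128)))))
 (.seq (.one (.both (.play 5 (.ref 2 1)) (.play 64 (.ref 0 64))))
 (.one (.play 68 (.both (.play 4 (.ref 6 3)) (.play 129 (.ref 218 64)))))))
 (.seq (.one (.both (.play 257 (.ref 6 1)) (.play 132 (.ref 160 128))))
 (.seq (.one (.play 259 (.both (.play 66 (.ref 99 2)) (.play 260 (.ref 0 192)))))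
 (.one (.both (.ref 44 0) (.play 258 (.ref 4 1)))))))
 (.seq (.seq (.one (.play 258 (.both (.play 67 (.ref 5 2)) (.play 321 (.both (.play 322 (.both (.play 129 (.both (.play 65 (.ref 7 65)) (.play 131 (.both (.play 196 (.ref 216 128)) (.play 386 (.ref 5 130)))))) (.play 385 (.ref 6 129)))) (.play 257 (.ref 6 65)))))))
 (.seq (.one (.play 256 (.both (.play 1 (.ref 5 0)) (.ref 28 0))))
 (.one (.both (.play 64 (.ref 7 0)) (.play 2 (.ref 5 1))))))
 (.seq (.one (.both (.play 0 (.ref 7 0)) (.play 321 (.ref 225 64))))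
 (.seq (.one (.both (.play 0 (.ref 7 0)) (.ref 103 64)))
 (.one (.play 68 (.both (.play 3 (.ref 0 0)) (.play 69 (.ref 3 1))))))))))
 (.seq (.seq (.seq (.seq (.one (.both (.play 0 (.ref 0 0)) (.ref 228 1)))
 (.seq (.one (.play 259 (.both (.play 68 (.ref 5 3)) (.play 323 (.both (.play 130 (.both (.play 66 (.ref 7 66)) (.play 129 (.ref 229 128)))) (.both (.play 130 (.ref 227 66)) (.both (.play 130 (.ref 226 66)) (.ref 224 131))))))))
 (.one (.play 69 (.both (.play 2 (.ref 3 1)) (.ref 23 64))))))
 (.seq (.one (.both (.play 0 (.ref 3 0)) (.ref 231 0)))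
 (.seq (.one (.both (.play 1 (.ref 3 1)) (.play 133 (.ref 25 64))))
 (.one (.both (.play 0 (.ref 3 0)) (.play 4 (.ref 86 0)))))))
 (.seq (.seq (.one (.play 64 (.both (.play 65 (.ref 7 0)) (.play 128 (.ref 4 0)))))
 (.seq (.one (.play 65 (.both (.play 64 (.ref 2 0)) (.play 132 (.ref 0 65)))))
 (.one (.play 130 (.both (.play 198 (.both (.ref 172 0) (.play 131 (.ref 3 130)))) (.play 129 (.ref 3 129)))))))
 (.seq (.one (.play 195 (.both (.play 194 (.both (.ref 237 0) (.both (.play 133 (.ref 86 129)) (.play 133 (.both (.play 130 (.both (.play 129 (.ref 3 129)) (.play 198 (.both (.play 131 (.ref 0 130)) (.ref 151 131))))) (.play 134 (.ref 2 130))))))) (.play 259 (.ref 6 3)))))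
 (.seq (.one (.play 257 (.both (.play 0 (.ref 7 0)) (.play 256 (.ref 15 0)))))
 (.one (.both (.play 0 (.ref 7 0)) (.play 322 (.ref 4 65))))))))
 (.seq (.seq (.seq (.one (.both (.play 131 (.both (.play 195 (.ref 240 2)) (.play 64 (.ref 0 64)))) (.play 133 (.ref 0 65))))
 (.seq (.one (.both (.play 1 (.ref 10 0)) (.play 130 (.ref 1 65))))
 (.one (.play 129 (.both (.play 69 (.ref 242 0)) (.play 128 (.ref 1 64)))))))
 (.seq (.one (.play 69 (.both (.play 133 (.ref 12 0)) (.both (.ref 243 1) (.play 130 (.ref 66 65))))))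
 (.seq (.one (.play 260 (.both (.play 131 (.both (.play 67 (.ref 4 3)) (.play 132 (.ref 86 128)))) (.play 261 (.ref 0 193)))))
 (.one (.play 68 (.both (.play 1 (.ref 3 0)) (.play 4 (.ref 71 0))))))))
 (.seq (.seq (.one (.both (.play 0 (.ref 3 0)) (.ref 246 1)))
 (.seq (.one (.play 257 (.both (.play 66 (.ref 5 1)) (.play 320 (.ref 6 64)))))
 (.one (.play 256 (.both (.play 192 (.ref 6 0)) (.ref 248 0))))))
 (.seq (.seq (.one (.both (.play 3 (.ref 2 0)) (.play 131 (.ref 0 64))))
 (.one (.play 4 (.both (.play 64 (.ref 250 0)) (.play 5 (.ref 2 1))))))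
 (.seq (.one (.play 132 (.both (.ref 251 0) (.play 133 (.ref 0 65)))))
 (.one (.play 68 (.both (.play 0 (.ref 3 0)) (.ref 252 0))))))))))
 (.seq (.seq (.seq (.seq (.seq (.one (.both (.play 0 (.ref 3 0)) (.play 132 (.ref 0 65))))
 (.seq (.one (.play 1 (.both (.play 65 (.ref 254 0)) (.play 2 (.ref 3 1)))))
 (.one (.both (.play 0 (.ref 4 0)) (.play 321 (.ref 7 64))))))
 (.seq (.one (.play 66 (.both (.play 2 (.ref 7 2)) (.play 132 (.ref 169 64)))))
 (.seq (.one (.play 65 (.both (.play 1 (.ref 134 0)) (.play 66 (.ref 2 1)))))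
 (.one (.play 5 (.both (.play 69 (.both (.play 1 (.ref 10 0)) (.play 6 (.ref 2 2)))) (.play 4 (.ref 2 1))))))))
 (.seq (.seq (.one (.play 68 (.both (.play 65 (.ref 3 0)) (.play 69 (.ref 3 1)))))
 (.seq (.one (.both (.play 0 (.ref 0 0)) (.ref 260 1)))
 (.one (.both (.play 0 (.ref 4 0)) (.play 385 (.ref 7 128))))))
 (.seq (.one (.both (.play 65 (.ref 3 0)) (.play 2 (.ref 0 0))))
 (.seq (.one (.play 67 (.both (.play 258 (.ref 126 2)) (.play 68 (.ref 2 64)))))
 (.one (.play 259 (.both (.play 130 (.ref 4 2)) (.play 260 (.ref 229 192)))))))))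
 (.seq (.seq (.seq (.one (.play 65 (.both (.play 4 (.ref 2 1)) (.ref 23 64))))
 (.seq (.one (.both (.ref 266 0) (.play 6 (.ref 2 2))))
 (.one (.play 130 (.both (.play 66 (.both (.play 1 (.both (.play 65 (.both (.play 0 (.ref 3 0)) (.play 133 (.both (.play 197 (.ref 240 4)) (.play 132 (.ref 0 65)))))) (.play 2 (.ref 3 1)))) (.play 129 (.ref 1 65)))) (.play 131 (.ref 1 66)))))))
 (.seq (.one (.play 68 (.both (.ref 268 0) (.both (.play 134 (.ref 241 2)) (.both (.play 134 (.ref 25 65)) (.play 134 (.both (.play 263 (.both (.ref 166 66) (.both (.play 130 (.both (.play 131 (.ref 1 66)) (.play 260 (.both (.play 196 (.ref 173 66)) (.both (.play 199 (.ref 267 194)) (.play 196 (.ref 247 195))))))) (.both (.play 260 (.both (.play 196 (.ref 173 66)) (.both (.play 196 (.ref 185 195)) (.play 327 (.ref 25 258))))) (.both (.ref 265 68) (.play 264 (.both (.play 198 (.both (.play 327 (.ref 4 70)) (.play 197 (.ref 30 196)))) (.both (.play 327 (.both (.play 198 (.ref 4 70)) (.play 328 (.both (.ref 264 133) (.play 329 (.ref 0 261))))))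 (.ref 72 197))))))))) (.play 135 (.ref 0 67)))))))))
 (.seq (.one (.both (.play 257 (.both (.play 193 (.ref 45 0)) (.play 258 (.ref 0 257)))) (.play 389 (.ref 4 132))))
 (.one (.play 257 (.both (.play 64 (.ref 7 0)) (.play 256 (.ref 15 0))))))))
 (.seq (.seq (.one (.both (.ref 271 0) (.play 258 (.ref 4 1))))
 (.seq (.one (.both (.ref 137 0) (.play 128 (.ref 3 128))))
 (.one (.both (.play 256 (.ref 6 0)) (.play 132 (.ref 2 128))))))
 (.seq (.seq (.one (.play 194 (.both (.play 192 (.ref 274 0)) (.play 258 (.ref 4 1)))))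
 (.one (.play 1 (.both (.play 67 (.ref 155 0)) (.play 4 (.ref 0 1))))))
 (.seq (.one (.play 193 (.both (.play 257 (.ref 81 0)) (.play 196 (.ref 3 128)))))
 (.one (.both (.play 257 (.ref 7 0)) (.play 258 (.ref 4 1)))))))))
 (.seq (.seq (.seq (.seq (.one (.play 129 (.both (.play 1 (.ref 4 1)) (.play 257 (.ref 278 64)))))
 (.seq (.one (.play 192 (.both (.play 193 (.ref 262 0)) (.play 256 (.ref 4 64)))))
 (.one (.play 391 (.both (.play 197 (.both (.play 263 (.both (.play 327 (.both (.play 262 (.both (.play 260 (.both (.play 133 (.both (.play 69 (.both (.play 5 (.ref 4 5)) (.play 261 (.both (.play 324 (.ref 6 68)) (.play 328 (.ref 0 260)))))) (.play 326 (.ref 7 133)))) (.play 259 (.ref 1 195)))) (.play 455 (.ref 7 198)))) (.play 454 (.ref 6 198)))) (.play 264 (.ref 0 196)))) (.both (.play 263 (.both (.play 195 (.both (.play 454 (.both (.play 130 (.both (.play 194 (.both (.play 257 (.both (.play 193 (.both (.play 261 (.both (.ref 280 133) (.play 260 (.ref 0 193)))) (.play 256 (.ref 1 192)))) (.play 258 (.ref 1 193))))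 (.play 129 (.ref 3 129)))) (.play 131 (.ref 3 130)))) (.play 327 (.ref 6 198)))) (.both (.play 130 (.ref 102 129)) (.both (.play 130 (.both (.play 194 (.both (.play 129 (.ref 3 129)) (.play 261 (.both (.play 454 (.both (.ref 280 133) (.play 327 (.ref 6 198)))) (.ref 97 193))))) (.play 131 (.ref 3 130)))) (.ref 23 194))))) (.play 264 (.ref 0 196)))) (.both (.ref 268 129) (.both (.play 263 (.ref 241 131)) (.play 263 (.ref 25 194))))))) (.both (.play 197 (.both (.ref 213 128) (.both (.ref 268 129) (.both (.play 260 (.both (.play 324 (.both (.play 388 (.ref 45 131)) (.both (.play 388 (.ref 145 131)) (.both (.play 325 (.both (.play 326 (.both (.ref 279 132) (.play 323 (.ref 0 323)))) (.both (.play 389 (.both (.play 261 (.ref 278 196)) (.play 392 (.ref 3 324)))) (.play 326 (.ref 229 323))))) (.play 325 (.both (.play 389 (.both (.play 388 (.ref 144 195)) (.play 392 (.ref 3 324)))) (.both (.ref 277 196) (.both (.ref 276 322) (.play 326 (.ref 229 323)))))))))) (.play 259 (.ref 1 195)))) (.both (.play 260 (.both (.play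 326 (.both (.play 324 (.both (.play 388 (.ref 145 131)) (.both (.play 388 (.both (.play 133 (.ref 5 132)) (.ref 275 195))) (.play 325 (.ref 229 323))))) (.both (.play 262 (.ref 240 133)) (.play 262 (.both (.play 389 (.both (.play 388 (.both (.play 324 (.ref 273 195)) (.both (.play 327 (.ref 86 323)) (.play 324 (.ref 247 323))))) (.play 453 (.ref 6 197)))) (.play 455 (.ref 4 198))))))) (.play 259 (.ref 1 195)))) (.play 326 (.both (.play 325 (.both (.play 261 (.ref 99 133)) (.play 392 (.ref 113 323)))) (.both (.play 262 (.ref 240 133)) (.play 262 (.ref 272 197)))))))))) (.both (.play 197 (.both (.ref 213 128) (.both (.play 260 (.both (.play 263 (.both (.play 327 (.both (.play 456 (.both (.play 455 (.ref 270 131)) (.play 392 (.ref 4 199)))) (.play 454 (.ref 6 198)))) (.play 264 (.ref 0 196)))) (.play 259 (.ref 1 195)))) (.play 263 (.ref 136 195))))) (.both (.ref 269 129) (.both (.play 197 (.both (.play 259 (.both (.play 195 (.both (.play 130 (.both (.play 194 (.both (.play 129 (.ref 3 129)) (.play 262 (.both (.play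 326 (.both (.play 389 (.both (.play 323 (.both (.play 387 (.ref 7 130)) (.play 324 (.ref 263 323)))) (.play 453 (.ref 6 197)))) (.play 133 (.ref 7 133)))) (.play 261 (.ref 0 194)))))) (.play 131 (.ref 3 130)))) (.play 258 (.ref 1 194)))) (.play 260 (.ref 1 195)))) (.both (.play 263 (.ref 92 131)) (.both (.play 263 (.both (.play 454 (.both (.play 326 (.both (.play 260 (.both (.play 325 (.both (.play 261 (.ref 262 133)) (.play 324 (.ref 261 323)))) (.play 259 (.ref 1 195)))) (.play 262 (.ref 5 198)))) (.play 327 (.ref 6 198)))) (.play 264 (.ref 0 196)))) (.both (.play 263 (.ref 25 194)) (.play 263 (.both (.play 327 (.both (.play 392 (.both (.play 259 (.both (.play 195 (.both (.play 258 (.ref 1 194)) (.play 389 (.both (.ref 237 195) (.both (.play 328 (.ref 86 324)) (.ref 259 324)))))) (.play 260 (.ref 1 195)))) (.play 456 (.ref 4 199)))) (.play 454 (.ref 6 198)))) (.play 264 (.ref 0 196))))))))) (.both (.play 326 (.both (.play 262 (.both (.play 197 (.both (.play 133 (.ref 7 133)) (.play 261 (.both (.ref 258 194)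 (.play 454 (.ref 7 197)))))) (.both (.ref 257 131) (.ref 249 197)))) (.both (.play 262 (.both (.ref 257 131) (.play 455 (.ref 4 198)))) (.both (.play 392 (.both (.play 389 (.both (.play 325 (.both (.play 453 (.both (.play 261 (.both (.play 260 (.ref 7 196)) (.play 454 (.ref 256 197)))) (.play 452 (.ref 1 388)))) (.play 324 (.ref 3 324)))) (.both (.play 456 (.both (.ref 255 323) (.play 457 (.ref 0 389)))) (.play 456 (.ref 25 387))))) (.both (.play 393 (.ref 233 324)) (.both (.play 393 (.both (.ref 252 325) (.both (.play 454 (.ref 118 325)) (.play 457 (.ref 25 388))))) (.both (.ref 253 325) (.play 393 (.both (.play 325 (.ref 3 325)) (.play 454 (.ref 118 325))))))))) (.play 262 (.both (.ref 249 197) (.play 455 (.ref 4 198)))))))) (.both (.play 389 (.both (.play 388 (.both (.ref 132 131) (.play 327 (.both (.play 454 (.both (.play 263 (.ref 6 198)) (.play 455 (.ref 169 387)))) (.play 328 (.ref 2 324)))))) (.both (.play 392 (.both (.play 456 (.both (.play 327 (.both (.play 263 (.ref 4 199)) (.ref 11 323))) (.play 457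 (.ref 0 389)))) (.both (.ref 245 196) (.play 325 (.ref 247 324))))) (.both (.play 392 (.both (.play 453 (.both (.play 324 (.both (.play 388 (.both (.play 260 (.ref 4 196)) (.play 323 (.ref 3 323)))) (.play 325 (.ref 3 324)))) (.play 452 (.ref 1 388)))) (.both (.play 325 (.ref 247 324)) (.play 453 (.ref 118 324))))) (.both (.play 392 (.both (.play 456 (.both (.play 263 (.both (.play 264 (.both (.play 197 (.ref 0 196)) (.play 328 (.ref 7 199)))) (.play 327 (.ref 4 199)))) (.play 457 (.ref 0 389)))) (.play 325 (.ref 232 324)))) (.both (.play 392 (.both (.ref 245 196) (.both (.play 453 (.ref 118 324)) (.play 453 (.ref 66 388))))) (.ref 244 323))))))) (.both (.play 263 (.both (.play 197 (.ref 241 131)) (.both (.play 197 (.ref 92 131)) (.both (.play 327 (.both (.play 264 (.both (.play 197 (.ref 0 196)) (.play 456 (.both (.play 392 (.ref 4 199)) (.play 455 (.both (.play 519 (.both (.play 328 (.ref 5 263)) (.ref 239 326))) (.play 520 (.ref 4 263)))))))) (.play 454 (.ref 6 198)))) (.play 327 (.ref 104 198)))))) (.play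 326 (.both (.play 262 (.both (.ref 238 194) (.play 455 (.ref 4 198)))) (.both (.play 262 (.both (.ref 238 194) (.both (.ref 230 195) (.both (.ref 223 196) (.ref 44 197))))) (.both (.play 392 (.both (.play 389 (.both (.play 456 (.both (.play 327 (.both (.play 263 (.ref 4 199)) (.ref 236 323))) (.play 457 (.ref 0 389)))) (.both (.play 324 (.both (.play 456 (.both (.play 328 (.both (.ref 235 199) (.play 329 (.ref 2 325)))) (.play 457 (.ref 0 389)))) (.play 325 (.ref 3 324)))) (.both (.play 456 (.ref 12 323)) (.play 324 (.both (.play 388 (.ref 234 323)) (.play 325 (.ref 3 324)))))))) (.both (.play 393 (.ref 233 324)) (.both (.play 393 (.both (.ref 231 325) (.both (.ref 80 326) (.play 457 (.ref 25 388))))) (.both (.play 393 (.ref 185 325)) (.play 393 (.ref 232 325))))))) (.both (.play 262 (.both (.ref 230 195) (.play 455 (.ref 4 198)))) (.both (.play 262 (.both (.ref 223 196) (.play 455 (.ref 4 198)))) (.play 262 (.ref 222 197))))))))))))))))))))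
 (.seq (.one (.play 131 (.both (.play 259 (.both (.ref 235 2) (.play 260 (.ref 0 192)))) (.play 132 (.ref 2 128)))))
 (.seq (.one (.both (.play 258 (.both (.play 65 (.ref 4 1)) (.play 257 (.ref 1 193)))) (.play 128 (.ref 3 128))))
 (.one (.play 64 (.both (.play 3 (.ref 2 0)) (.ref 8 64)))))))
 (.seq (.seq (.one (.both (.ref 284 0) (.play 5 (.ref 2 1))))
 (.seq (.one (.both (.play 1 (.ref 6 0)) (.play 322 (.ref 4 65))))
 (.one (.both (.play 129 (.ref 286 0)) (.play 260 (.ref 3 192))))))
 (.seq (.one (.both (.play 0 (.ref 3 0)) (.play 129 (.both (.play 130 (.both (.play 194 (.both (.play 258 (.ref 7 1)) (.play 197 (.ref 3 129)))) (.play 69 (.ref 1 65)))) (.play 128 (.ref 1 64))))))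
 (.seq (.one (.both (.play 66 (.ref 3 0)) (.play 2 (.ref 0 0))))
 (.one (.both (.play 68 (.ref 169 0)) (.play 64 (.ref 1 0))))))))
 (.seq (.seq (.seq (.one (.both (.play 2 (.ref 1 0)) (.play 66 (.ref 2 0))))
 (.seq (.one (.both (.play 192 (.ref 6 0)) (.ref 28 1)))
 (.one (.play 131 (.both (.play 3 (.both (.play 4 (.ref 2 0)) (.play 195 (.ref 292 2)))) (.play 132 (.ref 0 64)))))))
 (.seq (.one (.play 129 (.both (.play 65 (.ref 5 1)) (.play 128 (.ref 3 128)))))
 (.seq (.one (.both (.play 1 (.ref 155 0)) (.play 70 (.ref 3 2))))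
 (.one (.play 261 (.both (.play 4 (.both (.play 195 (.both (.play 131 (.ref 5 3)) (.play 194 (.ref 113 192)))) (.play 5 (.ref 2 1)))) (.both (.play 4 (.both (.play 195 (.both (.play 131 (.ref 5 3)) (.play 194 (.ref 295 192)))) (.play 5 (.ref 2 1)))) (.both (.play 4 (.both (.play 5 (.ref 2 1)) (.play 258 (.both (.play 197 (.ref 267 192)) (.both (.ref 78 194) (.play 325 (.ref 25 256))))))) (.play 258 (.both (.play 322 (.both (.play 131 (.both (.ref 294 65) (.play 195 (.ref 6 66)))) (.play 321 (.ref 1 257)))) (.play 197 (.ref 285 193))))))))))))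
 (.seq (.seq (.one (.both (.play 1 (.ref 3 1)) (.ref 208 64)))
 (.seq (.one (.play 2 (.both (.play 66 (.ref 297 0)) (.play 3 (.ref 3 2)))))
 (.one (.play 67 (.both (.ref 298 0) (.play 134 (.ref 0 67)))))))
 (.seq (.seq (.one (.both (.play 1 (.ref 10 0)) (.ref 23 64)))
 (.one (.play 67 (.both (.play 65 (.ref 300 0)) (.play 6 (.ref 2 2))))))
 (.seq (.one (.play 195 (.both (.play 259 (.ref 6 3)) (.play 128 (.ref 0 128)))))
 (.one (.play 196 (.both (.play 68 (.both (.ref 302 0) (.play 69 (.ref 2 65)))) (.play 197 (.ref 0 129))))))))))))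
 (.seq (.seq (.seq (.seq (.seq (.seq (.one (.both (.ref 72 1) (.play 128 (.ref 1 64))))
 (.seq (.one (.both (.play 1 (.ref 3 0)) (.play 129 (.ref 66 64))))
 (.one (.play 65 (.both (.play 1 (.ref 10 0)) (.play 5 (.ref 2 1)))))))
 (.seq (.one (.play 132 (.both (.play 196 (.both (.play 260 (.ref 45 3)) (.both (.play 260 (.ref 145 3)) (.play 197 (.both (.ref 277 68) (.both (.play 195 (.both (.play 194 (.both (.ref 306 128) (.play 261 (.ref 0 194)))) (.play 198 (.ref 0 195)))) (.play 198 (.ref 229 195)))))))) (.play 131 (.ref 1 67)))))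
 (.seq (.one (.play 67 (.both (.play 68 (.ref 0 0)) (.play 131 (.ref 6 2)))))
 (.one (.both (.ref 11 0) (.play 129 (.ref 1 65)))))))
 (.seq (.seq (.one (.play 130 (.both (.play 66 (.ref 309 0)) (.play 131 (.ref 1 66)))))
 (.seq (.one (.both (.play 66 (.ref 126 1)) (.play 256 (.ref 1 192))))
 (.one (.play 0 (.both (.play 64 (.ref 4 0)) (.ref 293 130))))))
 (.seq (.one (.play 391 (.both (.play 197 (.both (.play 259 (.both (.play 195 (.both (.play 130 (.both (.play 194 (.both (.play 323 (.both (.ref 312 2) (.play 387 (.ref 7 130)))) (.play 129 (.ref 3 129)))) (.play 131 (.ref 3 130)))) (.play 258 (.ref 1 194)))) (.play 260 (.ref 1 195)))) (.both (.ref 96 129) (.both (.play 263 (.ref 215 131)) (.both (.ref 94 132) (.ref 9 194)))))) (.both (.play 197 (.both (.play 259 (.both (.play 195 (.both (.play 130 (.both (.play 194 (.both (.ref 312 2) (.play 129 (.ref 3 129)))) (.play 131 (.ref 3 130)))) (.play 258 (.ref 1 194)))) (.play 260 (.ref 1 195)))) (.both (.ref 268 129) (.both (.play 263 (.ref 241 131)) (.both (.ref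 94 132) (.ref 9 194)))))) (.both (.play 262 (.both (.play 197 (.both (.play 263 (.both (.play 260 (.both (.play 327 (.both (.play 261 (.both (.play 324 (.ref 311 67)) (.play 328 (.ref 0 260)))) (.play 455 (.ref 7 198)))) (.play 259 (.ref 1 195)))) (.play 264 (.ref 0 196)))) (.both (.ref 310 129) (.play 263 (.ref 169 195))))) (.both (.play 326 (.both (.ref 257 131) (.play 135 (.ref 5 134)))) (.play 326 (.ref 202 134))))) (.both (.play 197 (.both (.ref 307 128) (.both (.play 388 (.both (.play 259 (.both (.play 195 (.both (.play 389 (.both (.play 452 (.both (.play 387 (.both (.play 130 (.both (.play 194 (.both (.play 129 (.ref 3 129)) (.ref 308 194))) (.play 131 (.ref 3 130)))) (.play 323 (.ref 4 195)))) (.play 451 (.ref 1 387)))) (.ref 78 324))) (.play 258 (.ref 1 194)))) (.play 260 (.ref 1 195)))) (.both (.ref 195 130) (.both (.ref 146 131) (.both (.ref 194 131) (.ref 192 194)))))) (.both (.ref 268 129) (.both (.play 260 (.both (.play 135 (.both (.play 326 (.both (.play 324 (.both (.play 388 (.ref 145 131)) (.both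 (.play 388 (.both (.play 133 (.ref 5 132)) (.play 389 (.both (.play 453 (.ref 4 196)) (.play 327 (.ref 86 323)))))) (.play 325 (.ref 229 323))))) (.play 262 (.ref 5 134)))) (.play 136 (.ref 2 132)))) (.play 259 (.ref 1 195)))) (.ref 296 131)))))) (.both (.play 197 (.both (.ref 307 128) (.both (.ref 199 129) (.both (.play 389 (.both (.play 259 (.both (.play 195 (.both (.play 130 (.both (.play 194 (.both (.play 129 (.ref 3 129)) (.play 323 (.both (.play 387 (.ref 7 130)) (.play 324 (.both (.play 325 (.ref 112 322)) (.play 388 (.ref 3 323)))))))) (.play 131 (.ref 3 130)))) (.play 258 (.ref 1 194)))) (.play 260 (.ref 1 195)))) (.both (.play 259 (.both (.play 195 (.both (.play 130 (.both (.play 194 (.both (.play 129 (.ref 3 129)) (.play 323 (.both (.play 387 (.ref 7 130)) (.play 388 (.ref 305 323)))))) (.play 131 (.ref 3 130)))) (.play 258 (.ref 1 194)))) (.play 260 (.ref 1 195)))) (.both (.play 260 (.both (.play 259 (.ref 1 195)) (.play 392 (.both (.play 325 (.both (.play 453 (.both (.play 261 (.ref 7 196)) (.play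 452 (.ref 1 388)))) (.play 324 (.ref 3 324)))) (.both (.play 325 (.ref 185 324)) (.play 453 (.ref 304 324))))))) (.play 264 (.both (.play 392 (.both (.play 452 (.both (.play 388 (.both (.play 325 (.both (.play 261 (.ref 6 196)) (.ref 246 325))) (.play 451 (.ref 1 387)))) (.play 453 (.ref 1 388)))) (.both (.ref 303 260) (.both (.play 452 (.both (.ref 72 325) (.play 453 (.ref 1 388)))) (.play 456 (.ref 25 387)))))) (.play 263 (.ref 0 196)))))))) (.both (.play 388 (.both (.ref 195 130) (.both (.play 259 (.both (.play 327 (.both (.play 195 (.both (.play 263 (.both (.play 135 (.both (.play 136 (.ref 2 132)) (.play 326 (.ref 6 134)))) (.play 264 (.ref 0 196)))) (.play 258 (.ref 1 194)))) (.both (.play 389 (.both (.ref 184 130) (.play 328 (.ref 2 324)))) (.play 389 (.ref 267 322))))) (.play 260 (.ref 1 195)))) (.both (.play 263 (.both (.play 135 (.both (.play 327 (.both (.play 326 (.ref 6 134)) (.ref 301 322))) (.play 136 (.ref 2 132)))) (.play 264 (.ref 0 196)))) (.both (.ref 146 131) (.play 263 (.both (.ref 194 131)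 (.play 264 (.ref 0 196))))))))) (.ref 293 132)))))) (.both (.play 197 (.both (.play 260 (.both (.play 263 (.both (.ref 299 128) (.play 264 (.ref 0 196)))) (.play 259 (.ref 1 195)))) (.both (.ref 268 129) (.both (.play 263 (.ref 241 131)) (.both (.play 260 (.both (.play 263 (.both (.play 135 (.both (.play 324 (.both (.play 388 (.ref 145 131)) (.both (.play 326 (.both (.play 327 (.ref 6 134)) (.play 325 (.ref 261 323)))) (.play 326 (.both (.play 388 (.ref 45 131)) (.play 327 (.ref 6 134))))))) (.play 136 (.ref 2 132)))) (.play 264 (.ref 0 196)))) (.play 259 (.ref 1 195)))) (.ref 94 132)))))) (.both (.ref 200 129) (.both (.play 197 (.both (.play 263 (.ref 164 129)) (.both (.play 263 (.ref 241 131)) (.both (.ref 296 131) (.ref 293 132))))) (.both (.ref 269 129) (.both (.play 262 (.both (.play 326 (.ref 202 134)) (.play 260 (.both (.play 259 (.ref 291 195)) (.both (.play 197 (.ref 290 195)) (.both (.play 263 (.both (.play 195 (.ref 289 195)) (.both (.play 197 (.ref 169 195)) (.both (.play 261 (.ref 288 195)) (.play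 264 (.both (.play 197 (.ref 0 196)) (.play 265 (.both (.play 329 (.both (.play 328 (.both (.play 392 (.both (.play 456 (.ref 7 199)) (.play 389 (.ref 2 325)))) (.play 261 (.ref 0 261)))) (.play 330 (.ref 0 262)))) (.play 266 (.ref 3 198)))))))))) (.play 261 (.both (.play 259 (.ref 2 195)) (.play 263 (.ref 288 195)))))))))) (.play 326 (.both (.play 392 (.both (.play 393 (.both (.play 327 (.ref 287 134)) (.play 325 (.ref 3 325)))) (.both (.play 393 (.both (.play 327 (.ref 287 134)) (.both (.play 329 (.ref 285 325)) (.ref 246 326)))) (.both (.play 389 (.both (.play 324 (.both (.play 388 (.ref 283 195)) (.play 325 (.ref 3 324)))) (.both (.play 324 (.both (.ref 282 197) (.play 325 (.ref 3 324)))) (.play 328 (.both (.play 456 (.both (.play 327 (.both (.play 263 (.ref 4 199)) (.play 388 (.ref 2 324)))) (.play 457 (.ref 0 389)))) (.play 329 (.ref 2 325))))))) (.both (.play 393 (.ref 247 325)) (.ref 253 325)))))) (.both (.play 262 (.ref 202 134)) (.play 262 (.both (.play 389 (.both (.ref 62 196) (.play 453 (.ref 6 197))))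 (.play 455 (.ref 4 198)))))))))))))))))))
 (.seq (.one (.both (.play 256 (.ref 6 0)) (.play 132 (.ref 1 128))))
 (.one (.play 192 (.both (.play 256 (.ref 6 0)) (.play 259 (.ref 0 192)))))))))
 (.seq (.seq (.seq (.one (.play 192 (.both (.play 256 (.ref 6 0)) (.play 131 (.ref 2 128)))))
 (.seq (.one (.both (.play 0 (.ref 3 0)) (.play 5 (.ref 2 1))))
 (.one (.both (.play 258 (.ref 4 1)) (.play 195 (.ref 317 128))))))
 (.seq (.one (.play 258 (.both (.play 194 (.ref 4 1)) (.play 257 (.ref 318 64)))))
 (.seq (.one (.play 194 (.both (.play 258 (.ref 4 1)) (.play 195 (.ref 1 192)))))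
 (.one (.both (.play 258 (.ref 4 1)) (.play 196 (.ref 185 128)))))))
 (.seq (.seq (.one (.play 193 (.both (.play 257 (.ref 6 1)) (.play 129 (.ref 30 128)))))
 (.seq (.one (.both (.ref 322 0) (.play 259 (.ref 4 2))))
 (.one (.both (.play 3 (.ref 5 2)) (.play 259 (.ref 323 64))))))
 (.seq (.one (.play 196 (.both (.play 260 (.ref 4 3)) (.play 129 (.ref 263 128)))))
 (.seq (.one (.both (.play 0 (.ref 7 0)) (.ref 271 64)))
 (.one (.play 64 (.both (.play 256 (.ref 5 0)) (.play 132 (.ref 3 64))))))))))
 (.seq (.seq (.seq (.seq (.one (.play 257 (.both (.play 64 (.ref 7 0)) (.play 256 (.ref 1 192)))))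
 (.seq (.one (.both (.play 64 (.ref 5 0)) (.play 320 (.ref 5 64))))
 (.one (.play 195 (.both (.play 259 (.ref 329 3)) (.play 194 (.ref 68 128)))))))
 (.seq (.one (.play 325 (.both (.play 6 (.both (.play 7 (.ref 2 3)) (.play 195 (.both (.ref 330 64) (.both (.play 259 (.both (.play 323 (.ref 329 67)) (.both (.play 323 (.both (.play 387 (.ref 5 131)) (.play 258 (.both (.play 198 (.ref 1 194)) (.play 324 (.ref 295 256)))))) (.play 198 (.both (.play 199 (.both (.play 131 (.ref 3 131)) (.ref 8 195))) (.play 258 (.ref 1 194))))))) (.both (.play 262 (.both (.play 323 (.both (.play 259 (.ref 329 67)) (.play 324 (.both (.play 263 (.both (.play 264 (.ref 3 196)) (.play 326 (.ref 2 259)))) (.play 322 (.ref 2 258)))))) (.play 194 (.ref 0 194)))) (.play 262 (.ref 229 194)))))))) (.play 389 (.ref 7 132)))))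
 (.seq (.one (.both (.play 192 (.both (.play 256 (.ref 6 0)) (.play 195 (.ref 2 128)))) (.play 258 (.ref 4 1))))
 (.one (.both (.play 2 (.ref 5 1)) (.play 320 (.ref 6 64)))))))
 (.seq (.seq (.one (.both (.play 129 (.ref 333 0)) (.play 196 (.ref 1 192))))
 (.seq (.one (.both (.play 1 (.ref 6 0)) (.play 320 (.ref 6 64))))
 (.one (.play 259 (.both (.play 194 (.both (.play 258 (.both (.play 321 (.both (.play 257 (.both (.play 325 (.both (.play 197 (.both (.play 133 (.both (.play 68 (.both (.play 69 (.both (.play 4 (.ref 7 4)) (.play 66 (.both (.play 130 (.ref 6 65)) (.play 67 (.ref 0 66)))))) (.play 132 (.ref 7 68)))) (.play 70 (.ref 5 69)))) (.play 389 (.ref 17 196)))) (.play 324 (.ref 0 257)))) (.play 320 (.ref 1 256)))) (.play 322 (.ref 1 257)))) (.play 193 (.ref 3 193)))) (.play 195 (.ref 3 194)))) (.both (.play 194 (.both (.play 258 (.both (.play 324 (.both (.play 325 (.both (.play 197 (.both (.play 133 (.ref 335 68)) (.play 389 (.both (.play 390 (.ref 4 197)) (.play 453 (.ref 278 260)))))) (.play 257 (.ref 0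 257)))) (.play 323 (.ref 1 259)))) (.play 193 (.ref 3 193)))) (.play 195 (.ref 3 194)))) (.both (.play 194 (.ref 102 193)) (.ref 23 258))))))))
 (.seq (.one (.play 261 (.both (.ref 336 0) (.both (.play 390 (.both (.play 389 (.both (.play 388 (.both (.play 387 (.both (.play 451 (.both (.play 452 (.ref 334 195)) (.play 450 (.ref 1 386)))) (.both (.play 453 (.both (.play 452 (.both (.play 324 (.ref 202 196)) (.play 391 (.ref 160 387)))) (.play 386 (.ref 0 386)))) (.both (.play 386 (.ref 163 320)) (.ref 24 385))))) (.both (.play 199 (.both (.play 455 (.both (.play 452 (.both (.play 451 (.ref 334 195)) (.both (.play 324 (.both (.play 197 (.ref 5 196)) (.play 517 (.both (.play 453 (.ref 4 260)) (.play 516 (.ref 332 323)))))) (.play 451 (.ref 70 385))))) (.both (.ref 228 388) (.ref 260 388)))) (.play 200 (.ref 2 196)))) (.both (.play 199 (.both (.play 200 (.ref 2 196)) (.play 455 (.ref 229 387)))) (.play 387 (.ref 25 385)))))) (.both (.play 325 (.both (.ref 331 193) (.play 197 (.ref 4 197)))) (.both (.play 388 (.both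 (.play 197 (.both (.play 452 (.both (.play 324 (.ref 5 196)) (.play 451 (.ref 70 385)))) (.play 325 (.ref 4 197)))) (.both (.play 197 (.both (.play 325 (.ref 4 197)) (.play 387 (.ref 25 385)))) (.play 455 (.ref 229 387))))) (.both (.play 325 (.both (.ref 331 193) (.both (.play 455 (.both (.play 456 (.both (.play 199 (.both (.play 200 (.ref 2 196)) (.play 453 (.both (.play 452 (.both (.play 516 (.ref 6 260)) (.play 392 (.ref 71 388)))) (.both (.ref 328 260) (.play 392 (.both (.play 391 (.both (.play 324 (.ref 3 324)) (.play 452 (.ref 2 388)))) (.play 393 (.ref 2 389))))))))) (.play 457 (.ref 3 389)))) (.both (.play 388 (.both (.play 452 (.both (.play 391 (.both (.ref 327 260) (.play 451 (.ref 1 387)))) (.both (.play 516 (.ref 76 260)) (.play 391 (.both (.play 392 (.both (.play 324 (.ref 3 324)) (.play 453 (.ref 2 388)))) (.play 451 (.ref 1 387))))))) (.play 387 (.ref 0 387)))) (.both (.play 456 (.ref 113 387)) (.play 388 (.ref 261 387)))))) (.play 518 (.ref 98 261))))) (.play 325 (.ref 99 197))))))) (.both (.play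 326 (.ref 95 197)) (.both (.play 326 (.both (.play 199 (.ref 5 198)) (.ref 271 261))) (.play 326 (.ref 326 197)))))) (.both (.play 199 (.both (.ref 213 192) (.play 200 (.ref 2 196)))) (.both (.play 199 (.both (.play 326 (.both (.ref 310 193) (.play 390 (.ref 5 198)))) (.play 200 (.ref 2 196)))) (.both (.play 452 (.both (.play 323 (.both (.play 259 (.both (.play 194 (.both (.play 258 (.both (.play 193 (.ref 3 193)) (.play 451 (.both (.play 387 (.ref 7 194)) (.play 199 (.both (.play 390 (.both (.play 326 (.ref 5 198)) (.play 453 (.ref 285 386)))) (.play 200 (.ref 2 196)))))))) (.play 195 (.ref 3 194)))) (.play 322 (.ref 1 258)))) (.play 324 (.ref 1 259)))) (.both (.play 453 (.both (.play 199 (.both (.play 390 (.both (.play 326 (.ref 5 198)) (.play 451 (.ref 267 385)))) (.play 200 (.ref 2 196)))) (.both (.play 199 (.both (.play 390 (.both (.play 326 (.ref 5 198)) (.play 451 (.both (.play 391 (.ref 2 387)) (.play 515 (.ref 66 450)))))) (.play 200 (.ref 2 196)))) (.both (.play 199 (.both (.play 390 (.both (.play 326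 (.ref 5 198)) (.play 451 (.ref 285 386)))) (.play 200 (.ref 2 196)))) (.both (.play 199 (.both (.play 200 (.ref 2 196)) (.ref 244 386))) (.both (.play 455 (.both (.play 519 (.both (.play 390 (.both (.play 326 (.ref 4 262)) (.play 391 (.both (.play 583 (.both (.play 582 (.both (.play 516 (.both (.ref 325 388) (.play 515 (.ref 1 451)))) (.play 646 (.ref 6 390)))) (.play 647 (.ref 7 390)))) (.play 392 (.ref 2 388)))))) (.play 520 (.ref 0 452)))) (.both (.play 519 (.both (.play 390 (.both (.play 326 (.ref 4 262)) (.ref 259 387))) (.play 520 (.ref 0 452)))) (.ref 243 387)))) (.play 455 (.both (.ref 120 387) (.ref 243 387))))))))) (.both (.ref 195 194) (.both (.play 324 (.both (.play 388 (.ref 324 194)) (.play 323 (.ref 1 259)))) (.both (.play 324 (.both (.play 388 (.both (.play 197 (.ref 5 196)) (.play 453 (.ref 321 259)))) (.play 323 (.ref 1 259)))) (.play 324 (.both (.play 388 (.both (.play 453 (.both (.play 451 (.both (.play 390 (.both (.ref 50 196) (.play 391 (.ref 2 387)))) (.play 515 (.ref 6 259)))) (.play 517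 (.ref 4 260)))) (.play 197 (.ref 5 196)))) (.play 323 (.ref 1 259)))))))))) (.both (.play 199 (.both (.play 259 (.both (.play 194 (.ref 102 193)) (.both (.play 326 (.both (.play 390 (.ref 5 198)) (.ref 24 257))) (.both (.play 326 (.both (.ref 11 193) (.play 390 (.ref 5 198)))) (.play 390 (.both (.play 323 (.both (.play 195 (.both (.play 194 (.ref 3 194)) (.play 387 (.both (.play 450 (.both (.play 386 (.ref 6 194)) (.play 451 (.both (.ref 320 194) (.play 514 (.ref 6 258)))))) (.both (.ref 319 194) (.both (.play 452 (.both (.play 388 (.ref 4 195)) (.play 451 (.both (.play 453 (.both (.ref 316 258) (.play 391 (.ref 2 387)))) (.play 516 (.ref 4 259)))))) (.both (.play 388 (.both (.play 389 (.both (.ref 315 194) (.play 455 (.ref 0 387)))) (.play 452 (.ref 4 195)))) (.both (.play 450 (.both (.play 386 (.ref 6 194)) (.play 451 (.both (.play 514 (.ref 6 258)) (.play 452 (.both (.play 516 (.ref 4 259)) (.play 453 (.ref 71 386)))))))) (.play 450 (.both (.play 386 (.ref 6 194)) (.play 451 (.both (.play 389 (.both (.play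 325 (.ref 99 197)) (.play 388 (.ref 1 386)))) (.play 514 (.ref 6 258)))))))))))))) (.play 322 (.ref 1 258)))) (.play 326 (.ref 5 198)))))))) (.play 200 (.ref 2 196)))) (.play 199 (.both (.play 390 (.both (.play 324 (.both (.play 389 (.both (.play 197 (.both (.play 388 (.both (.play 452 (.ref 5 196)) (.play 455 (.ref 229 387)))) (.play 325 (.ref 4 197)))) (.both (.play 388 (.both (.play 452 (.both (.play 197 (.ref 5 196)) (.play 451 (.ref 314 259)))) (.play 455 (.ref 261 387)))) (.both (.ref 279 196) (.play 388 (.both (.play 453 (.both (.play 325 (.both (.play 452 (.both (.play 451 (.ref 274 259)) (.play 516 (.ref 6 260)))) (.play 518 (.ref 4 261)))) (.both (.play 517 (.ref 81 260)) (.play 517 (.ref 98 260))))) (.both (.play 455 (.ref 261 387)) (.play 455 (.ref 229 387))))))))) (.play 323 (.ref 1 259)))) (.play 326 (.ref 5 198)))) (.play 200 (.ref 2 196))))))))))))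
 (.seq (.one (.play 193 (.both (.play 257 (.ref 6 1)) (.play 192 (.ref 2 128)))))
 (.one (.play 194 (.both (.ref 338 0) (.play 258 (.ref 6 2)))))))))
 (.seq (.seq (.seq (.one (.play 193 (.both (.play 257 (.ref 76 1)) (.play 192 (.ref 1 128)))))
 (.seq (.one (.both (.play 64 (.ref 2 0)) (.ref 23 64)))
 (.one (.play 131 (.both (.play 258 (.ref 6 2)) (.play 132 (.ref 2 128)))))))
 (.seq (.one (.both (.ref 342 1) (.play 128 (.ref 3 128))))
 (.seq (.one (.play 64 (.both (.play 65 (.ref 1 0)) (.ref 180 1))))
 (.one (.both (.play 197 (.both (.play 261 (.ref 179 2)) (.play 258 (.ref 1 193)))) (.play 256 (.ref 1 192)))))))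
 (.seq (.seq (.one (.play 261 (.both (.play 129 (.both (.ref 184 0) (.play 130 (.ref 1 65)))) (.both (.play 322 (.ref 345 65)) (.ref 344 65)))))
 (.seq (.one (.play 65 (.both (.play 1 (.both (.play 64 (.ref 1 0)) (.play 129 (.ref 144 0)))) (.play 66 (.ref 1 1)))))
 (.one (.play 195 (.both (.play 196 (.both (.play 260 (.ref 4 3)) (.play 259 (.ref 2 192)))) (.play 194 (.ref 6 2)))))))
 (.seq (.seq (.one (.both (.play 1 (.ref 4 1)) (.play 320 (.ref 6 64))))
 (.one (.play 454 (.both (.play 261 (.both (.ref 336 0) (.both (.play 327 (.both (.play 452 (.both (.play 453 (.both (.play 451 (.both (.play 390 (.both (.play 389 (.both (.play 325 (.ref 349 196)) (.play 450 (.ref 2 386)))) (.play 391 (.ref 2 387)))) (.both (.ref 347 258) (.play 390 (.ref 267 385))))) (.both (.ref 346 194) (.both (.play 199 (.both (.play 200 (.ref 2 196)) (.ref 348 196))) (.play 451 (.both (.play 515 (.both (.play 516 (.both (.play 389 (.both (.play 325 (.ref 6 260)) (.play 450 (.both (.play 390 (.ref 2 386)) (.play 449 (.ref 169 448)))))) (.play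 455 (.ref 1 451)))) (.play 514 (.ref 1 450)))) (.both (.ref 347 258) (.play 515 (.both (.play 323 (.both (.play 387 (.both (.play 322 (.both (.play 258 (.ref 7 258)) (.play 259 (.ref 1 258)))) (.play 386 (.ref 3 386)))) (.play 324 (.ref 1 259)))) (.play 514 (.ref 1 450))))))))))) (.both (.play 199 (.both (.play 391 (.both (.play 455 (.both (.ref 28 199) (.both (.ref 106 260) (.ref 301 386)))) (.play 390 (.ref 6 198)))) (.play 200 (.ref 2 196)))) (.both (.ref 108 195) (.play 199 (.both (.play 391 (.both (.play 455 (.both (.play 453 (.both (.play 388 (.ref 203 195)) (.play 392 (.ref 2 388)))) (.both (.ref 28 199) (.ref 106 260)))) (.play 390 (.ref 6 198)))) (.play 200 (.ref 2 196)))))))) (.play 328 (.ref 0 260)))) (.both (.play 327 (.both (.play 452 (.both (.play 453 (.both (.play 323 (.both (.play 259 (.both (.play 451 (.both (.ref 198 193) (.both (.play 387 (.ref 144 258)) (.play 515 (.both (.play 455 (.both (.ref 342 260) (.play 516 (.ref 1 451)))) (.play 514 (.ref 1 450))))))) (.play 322 (.ref 1 258)))) (.play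 324 (.ref 1 259)))) (.both (.ref 346 194) (.both (.play 455 (.both (.ref 189 194) (.both (.ref 344 259) (.ref 342 260)))) (.both (.play 323 (.both (.play 259 (.both (.play 451 (.both (.play 387 (.ref 144 258)) (.play 518 (.ref 25 449)))) (.play 322 (.ref 1 258)))) (.play 324 (.ref 1 259)))) (.play 455 (.both (.ref 342 260) (.play 516 (.ref 66 451))))))))) (.both (.play 455 (.both (.ref 187 194) (.both (.play 391 (.both (.play 199 (.both (.play 200 (.ref 2 196)) (.ref 301 386))) (.play 518 (.ref 6 262)))) (.both (.play 391 (.both (.play 199 (.both (.play 200 (.ref 2 196)) (.ref 28 199))) (.play 518 (.ref 6 262)))) (.ref 182 258))))) (.both (.ref 108 195) (.play 324 (.both (.play 388 (.both (.play 197 (.ref 5 196)) (.play 453 (.both (.play 455 (.ref 343 259)) (.play 517 (.ref 4 260)))))) (.play 323 (.ref 1 259)))))))) (.play 328 (.ref 0 260)))) (.play 199 (.both (.play 200 (.ref 2 196)) (.play 327 (.both (.play 391 (.ref 55 198)) (.play 328 (.ref 0 260)))))))))) (.both (.play 261 (.both (.ref 336 0) (.both (.play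 327 (.both (.play 324 (.both (.play 199 (.both (.play 390 (.both (.play 388 (.both (.play 389 (.both (.play 325 (.both (.play 197 (.ref 4 197)) (.play 387 (.both (.play 386 (.ref 341 321)) (.play 455 (.ref 0 387)))))) (.both (.ref 279 196) (.play 387 (.ref 25 385))))) (.both (.play 452 (.ref 324 194)) (.both (.play 452 (.ref 45 195)) (.both (.play 452 (.ref 37 196)) (.play 389 (.both (.play 387 (.both (.ref 340 258) (.play 455 (.ref 0 387)))) (.both (.play 387 (.ref 83 258)) (.play 453 (.both (.play 325 (.both (.ref 339 258) (.play 518 (.ref 4 261)))) (.both (.play 517 (.ref 81 260)) (.play 517 (.ref 98 260))))))))))))) (.play 326 (.ref 5 198)))) (.play 200 (.ref 2 196)))) (.play 323 (.ref 1 259)))) (.play 328 (.ref 0 260)))) (.both (.play 327 (.ref 92 195)) (.play 327 (.ref 25 258)))))) (.both (.ref 337 0) (.both (.ref 313 64) (.both (.ref 281 64) (.both (.play 327 (.both (.play 328 (.both (.play 329 (.both (.play 392 (.both (.play 393 (.both (.play 326 (.both (.play 265 (.both (.play 201 (.both (.play 200 (.both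 (.play 202 (.both (.play 138 (.ref 5 137)) (.play 199 (.ref 1 198)))) (.play 136 (.ref 7 136)))) (.play 137 (.ref 6 136)))) (.play 266 (.ref 2 262)))) (.play 325 (.ref 0 325)))) (.both (.play 394 (.both (.play 391 (.both (.ref 221 199) (.play 455 (.ref 1 390)))) (.play 395 (.ref 3 327)))) (.play 394 (.ref 216 326))))) (.both (.play 456 (.both (.play 391 (.both (.play 199 (.ref 4 199)) (.play 455 (.ref 220 261)))) (.play 520 (.ref 7 263)))) (.both (.play 456 (.both (.play 393 (.both (.ref 219 197) (.both (.play 265 (.both (.play 201 (.ref 6 200)) (.play 394 (.both (.play 395 (.ref 3 327)) (.play 455 (.ref 69 389)))))) (.play 394 (.ref 216 326))))) (.play 520 (.ref 7 263)))) (.both (.play 456 (.both (.play 391 (.both (.play 393 (.both (.ref 219 197) (.both (.play 265 (.both (.play 201 (.ref 6 200)) (.play 394 (.both (.ref 217 263) (.play 395 (.ref 3 327)))))) (.play 394 (.ref 216 326))))) (.play 199 (.ref 4 199)))) (.play 520 (.ref 7 263)))) (.play 456 (.both (.play 391 (.both (.play 199 (.ref 4 199)) (.play 455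 (.both (.play 518 (.ref 6 262)) (.play 519 (.both (.play 326 (.ref 7 262)) (.play 583 (.ref 5 327)))))))) (.play 520 (.ref 7 263))))))))) (.play 330 (.ref 3 262)))) (.play 261 (.ref 0 260)))) (.both (.play 261 (.ref 92 195)) (.both (.play 261 (.ref 215 195)) (.both (.play 261 (.ref 90 196)) (.play 390 (.ref 89 198))))))) (.both (.ref 214 192) (.both (.play 261 (.both (.play 327 (.both (.play 199 (.both (.play 259 (.both (.play 194 (.both (.play 258 (.both (.play 321 (.both (.play 257 (.both (.play 325 (.both (.ref 100 197) (.play 324 (.ref 0 257)))) (.play 320 (.ref 1 256)))) (.play 322 (.ref 1 257)))) (.play 193 (.ref 3 193)))) (.play 195 (.ref 3 194)))) (.both (.play 194 (.ref 102 193)) (.both (.play 194 (.both (.play 258 (.both (.play 193 (.ref 3 193)) (.play 325 (.both (.ref 100 197) (.ref 97 257))))) (.play 195 (.ref 3 194)))) (.ref 23 258))))) (.play 200 (.ref 2 196)))) (.play 328 (.ref 0 260)))) (.both (.ref 96 193) (.both (.play 327 (.ref 92 195)) (.both (.ref 94 196) (.play 327 (.ref 25 258))))))) (.both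 (.play 327 (.both (.play 261 (.ref 92 195)) (.both (.play 261 (.ref 90 196)) (.both (.play 390 (.ref 89 198)) (.play 261 (.ref 25 258)))))) (.play 390 (.both (.play 391 (.both (.play 327 (.both (.play 199 (.ref 6 198)) (.play 392 (.both (.play 389 (.both (.play 328 (.both (.play 453 (.ref 87 260)) (.play 329 (.ref 2 325)))) (.both (.play 452 (.ref 14 323)) (.play 328 (.ref 86 324))))) (.both (.play 393 (.both (.play 330 (.both (.play 394 (.both (.play 328 (.both (.play 389 (.both (.ref 85 261) (.play 388 (.ref 2 324)))) (.play 395 (.ref 3 327)))) (.play 331 (.ref 2 327)))) (.play 329 (.ref 2 326)))) (.both (.play 329 (.both (.play 457 (.both (.play 456 (.both (.ref 84 263) (.play 389 (.ref 0 389)))) (.play 458 (.ref 0 390)))) (.play 330 (.ref 2 326)))) (.both (.play 457 (.ref 83 261)) (.play 394 (.both (.play 330 (.ref 71 326)) (.ref 80 327))))))) (.both (.ref 79 325) (.play 453 (.ref 68 387)))))))) (.both (.play 327 (.ref 77 198)) (.play 392 (.both (.play 389 (.both (.play 452 (.ref 14 323)) (.both (.play 456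 (.ref 12 323)) (.both (.play 453 (.both (.play 456 (.both (.play 325 (.both (.play 324 (.ref 3 324)) (.play 517 (.both (.play 516 (.ref 32 324)) (.ref 75 325))))) (.play 457 (.ref 0 389)))) (.play 452 (.ref 1 388)))) (.play 456 (.ref 25 387)))))) (.both (.play 389 (.both (.play 456 (.ref 12 323)) (.both (.play 324 (.both (.play 388 (.both (.play 323 (.ref 3 323)) (.play 452 (.both (.play 455 (.both (.ref 73 325) (.play 387 (.ref 0 387)))) (.play 451 (.ref 1 387)))))) (.play 325 (.ref 3 324)))) (.ref 72 325)))) (.both (.play 453 (.ref 70 387)) (.both (.play 453 (.ref 68 387)) (.play 393 (.ref 66 389)))))))))) (.both (.play 326 (.both (.play 199 (.ref 5 198)) (.ref 63 260))) (.both (.play 326 (.ref 45 197)) (.both (.ref 64 197) (.both (.play 326 (.ref 37 198)) (.play 326 (.both (.ref 63 260) (.both (.play 517 (.ref 55 261)) (.both (.ref 44 261) (.play 518 (.ref 36 262))))))))))))))))))))))))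
 (.seq (.one (.play 195 (.both (.play 259 (.ref 7 2)) (.play 196 (.ref 289 128)))))
 (.one (.both (.ref 266 0) (.play 1 (.ref 3 1))))))))))
 (.seq (.seq (.seq (.seq (.seq (.one (.play 2 (.both (.play 66 (.ref 352 0)) (.play 3 (.ref 3 2)))))
 (.seq (.one (.play 3 (.both (.play 67 (.both (.play 66 (.both (.play 5 (.ref 2 2)) (.play 133 (.ref 25 64)))) (.play 2 (.ref 3 2)))) (.play 4 (.ref 3 3)))))
 (.one (.play 256 (.both (.play 65 (.ref 18 0)) (.play 321 (.ref 4 64)))))))
 (.seq (.one (.play 193 (.both (.ref 355 1) (.play 192 (.ref 1 128)))))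
 (.seq (.one (.both (.play 1 (.ref 6 0)) (.play 257 (.ref 6 64))))
 (.one (.both (.play 66 (.ref 357 1)) (.play 385 (.ref 7 128)))))))
 (.seq (.seq (.one (.play 257 (.both (.play 66 (.ref 357 1)) (.play 64 (.ref 4 64)))))
 (.seq (.one (.play 64 (.both (.play 3 (.ref 2 0)) (.play 132 (.ref 0 64)))))
 (.one (.both (.play 65 (.ref 357 0)) (.play 384 (.ref 5 128))))))
 (.seq (.one (.play 257 (.both (.play 193 (.both (.play 259 (.both (.play 323 (.ref 361 3)) (.both (.play 323 (.both (.play 131 (.both (.play 68 (.ref 5 67)) (.play 192 (.ref 2 128)))) (.play 387 (.ref 5 131)))) (.ref 360 128)))) (.play 256 (.ref 1 192)))) (.play 258 (.ref 1 193)))))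
 (.seq (.one (.both (.play 0 (.ref 3 0)) (.play 258 (.ref 7 1))))
 (.one (.play 64 (.both (.play 1 (.ref 5 0)) (.play 257 (.ref 49 0)))))))))
 (.seq (.seq (.seq (.one (.play 65 (.both (.ref 364 0) (.play 129 (.ref 5 64)))))
 (.seq (.one (.play 320 (.both (.play 321 (.both (.ref 47 0) (.play 384 (.ref 6 128)))) (.play 256 (.ref 6 64)))))
 (.one (.play 65 (.both (.ref 47 0) (.play 258 (.ref 4 65)))))))
 (.seq (.one (.both (.ref 367 0) (.play 386 (.ref 4 129))))
 (.seq (.one (.play 1 (.both (.play 256 (.ref 15 0)) (.play 194 (.ref 4 1)))))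
 (.one (.both (.ref 369 0) (.play 322 (.ref 4 65)))))))
 (.seq (.seq (.one (.play 129 (.both (.ref 52 0) (.play 322 (.ref 4 129)))))
 (.seq (.one (.play 386 (.both (.ref 371 0) (.play 450 (.ref 4 193)))))
 (.one (.play 129 (.both (.ref 52 0) (.play 320 (.ref 6 128)))))))
 (.seq (.seq (.one (.play 384 (.both (.ref 373 0) (.play 448 (.ref 6 192)))))
 (.one (.play 256 (.both (.play 192 (.ref 6 0)) (.play 257 (.both (.play 64 (.ref 227 0)) (.play 320 (.ref 6 64))))))))
 (.seq (.one (.play 257 (.both (.play 64 (.ref 7 0)) (.play 320 (.ref 55 64)))))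
 (.one (.play 64 (.both (.play 0 (.ref 7 0)) (.ref 376 64)))))))))
 (.seq (.seq (.seq (.seq (.one (.play 65 (.both (.ref 47 0) (.play 256 (.ref 6 64)))))
 (.seq (.one (.both (.ref 378 0) (.play 384 (.ref 6 128))))
 (.one (.play 66 (.both (.play 65 (.both (.play 2 (.ref 5 1)) (.play 320 (.ref 15 64)))) (.play 130 (.ref 5 65)))))))
 (.seq (.one (.play 128 (.both (.play 129 (.both (.ref 380 0) (.play 64 (.ref 7 64)))) (.play 192 (.ref 7 128)))))
 (.seq (.one (.both (.play 0 (.ref 4 0)) (.play 448 (.ref 5 192))))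
 (.one (.both (.play 1 (.ref 6 0)) (.play 449 (.ref 7 192)))))))
 (.seq (.seq (.one (.play 256 (.both (.play 192 (.ref 383 0)) (.play 320 (.ref 6 64)))))
 (.seq (.one (.play 66 (.both (.play 65 (.both (.ref 384 0) (.play 2 (.ref 5 1)))) (.play 130 (.ref 5 65)))))
 (.one (.play 386 (.both (.play 129 (.both (.ref 385 0) (.play 322 (.ref 4 129)))) (.play 450 (.ref 4 193)))))))
 (.seq (.one (.both (.play 192 (.ref 6 0)) (.play 194 (.ref 4 1))))
 (.seq (.one (.play 256 (.both (.play 1 (.ref 387 0)) (.play 320 (.ref 6 64)))))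
 (.one (.play 258 (.both (.ref 388 0) (.play 322 (.ref 4 65)))))))))
 (.seq (.seq (.seq (.one (.play 256 (.both (.play 1 (.ref 292 0)) (.play 320 (.ref 6 64)))))
 (.seq (.one (.both (.play 320 (.ref 379 0)) (.both (.play 128 (.ref 227 64)) (.ref 390 64))))
 (.one (.play 193 (.both (.play 257 (.ref 171 0)) (.play 192 (.ref 2 128)))))))
 (.seq (.one (.play 132 (.both (.ref 392 0) (.play 133 (.ref 2 66)))))
 (.seq (.one (.play 258 (.both (.play 260 (.both (.play 66 (.both (.play 2 (.ref 7 2)) (.play 194 (.both (.ref 393 64) (.play 193 (.ref 216 192)))))) (.play 324 (.ref 4 67)))) (.play 322 (.ref 6 66)))))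
 (.one (.play 64 (.both (.play 257 (.ref 227 0)) (.play 130 (.ref 3 64))))))))
 (.seq (.seq (.one (.play 64 (.both (.play 65 (.ref 46 0)) (.play 257 (.ref 4 64)))))
 (.seq (.one (.both (.ref 396 0) (.play 385 (.ref 4 128))))
 (.one (.both (.play 192 (.ref 4 0)) (.play 65 (.ref 7 0))))))
 (.seq (.seq (.one (.both (.play 0 (.ref 398 0)) (.play 321 (.ref 7 64))))
 (.one (.both (.ref 53 0) (.play 192 (.ref 3 192)))))
 (.seq (.one (.play 196 (.both (.play 260 (.ref 4 3)) (.play 129 (.ref 216 128)))))
 (.one (.play 194 (.both (.ref 401 0) (.play 258 (.ref 6 2))))))))))))))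
 (.seq (.seq (.seq (.seq (.seq (.seq (.seq (.seq (.one (.play 65 (.both (.play 64 (.ref 1 0)) (.play 258 (.ref 7 1)))))
 (.seq (.one (.play 67 (.both (.play 65 (.both (.play 1 (.ref 7 1)) (.ref 403 64))) (.play 3 (.ref 5 2)))))
 (.one (.play 65 (.both (.play 66 (.ref 46 1)) (.play 256 (.ref 6 64)))))))
 (.seq (.one (.both (.ref 405 0) (.play 384 (.ref 6 128))))
 (.seq (.one (.play 65 (.both (.play 67 (.both (.play 3 (.ref 5 2)) (.ref 403 64))) (.play 1 (.ref 7 1)))))
 (.one (.play 193 (.both (.play 0 (.ref 4 0)) (.play 129 (.ref 5 128))))))))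
 (.seq (.seq (.one (.play 128 (.both (.play 129 (.both (.ref 396 1) (.play 64 (.ref 7 64)))) (.play 192 (.ref 7 128)))))
 (.seq (.one (.play 193 (.both (.ref 409 0) (.both (.ref 58 64) (.both (.play 128 (.both (.play 129 (.both (.play 64 (.ref 7 64)) (.ref 408 65))) (.play 192 (.ref 7 128)))) (.play 194 (.ref 46 129)))))))
 (.one (.play 449 (.both (.ref 410 0) (.both (.play 258 (.ref 18 193)) (.play 514 (.ref 17 256))))))))
 (.seq (.one (.play 196 (.both (.play 260 (.ref 4 3)) (.play 129 (.ref 261 128)))))
 (.seq (.one (.both (.play 256 (.ref 335 0)) (.play 2 (.ref 5 1))))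
 (.one (.play 257 (.both (.play 256 (.ref 15 0)) (.play 321 (.ref 5 65)))))))))
 (.seq (.seq (.seq (.one (.both (.play 2 (.ref 5 1)) (.play 321 (.both (.play 130 (.ref 6 65)) (.ref 414 128)))))
 (.seq (.one (.both (.play 66 (.ref 122 0)) (.play 132 (.ref 5 4))))
 (.one (.play 67 (.both (.play 0 (.ref 0 0)) (.play 258 (.ref 5 2)))))))
 (.seq (.one (.both (.play 67 (.both (.play 3 (.ref 5 2)) (.ref 417 64))) (.play 1 (.ref 7 1))))
 (.seq (.one (.play 193 (.both (.play 257 (.ref 18 1)) (.play 192 (.ref 1 128)))))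
 (.one (.play 133 (.both (.play 130 (.both (.play 197 (.both (.play 66 (.both (.play 194 (.both (.play 261 (.both (.play 195 (.both (.play 259 (.ref 256 2)) (.play 196 (.both (.ref 419 65) (.play 262 (.ref 0 194)))))) (.play 325 (.ref 7 68)))) (.play 193 (.ref 1 129)))) (.play 65 (.ref 3 65)))) (.play 198 (.ref 0 130)))) (.both (.play 65 (.ref 102 64)) (.both (.play 197 (.ref 12 64)) (.play 197 (.ref 25 128)))))) (.play 134 (.ref 2 67))))))))
 (.seq (.seq (.one (.play 257 (.both (.play 64 (.ref 7 0)) (.play 320 (.ref 6 64)))))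
 (.seq (.one (.play 256 (.both (.play 192 (.ref 6 0)) (.ref 421 0))))
 (.one (.play 258 (.both (.play 194 (.ref 4 1)) (.play 257 (.both (.ref 422 64) (.play 322 (.ref 4 65)))))))))
 (.seq (.one (.play 257 (.both (.play 256 (.ref 15 0)) (.play 2 (.ref 5 1)))))
 (.seq (.one (.play 193 (.both (.ref 424 0) (.play 258 (.ref 4 1)))))
 (.one (.play 199 (.both (.play 196 (.both (.ref 362 2) (.both (.play 132 (.both (.play 260 (.both (.play 325 (.both (.ref 359 4) (.both (.play 261 (.ref 256 68)) (.ref 425 131)))) (.play 259 (.ref 1 195)))) (.play 131 (.ref 3 131)))) (.both (.ref 354 128) (.both (.ref 353 129) (.play 131 (.ref 102 130))))))) (.play 200 (.ref 2 133))))))))))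
 (.seq (.seq (.seq (.seq (.one (.play 193 (.both (.play 0 (.ref 4 0)) (.play 65 (.ref 5 1)))))
 (.seq (.one (.play 65 (.both (.play 258 (.ref 399 1)) (.play 64 (.ref 3 64)))))
 (.one (.play 65 (.both (.play 1 (.ref 4 1)) (.play 320 (.ref 329 64)))))))
 (.seq (.one (.both (.play 0 (.ref 4 0)) (.play 256 (.ref 4 64))))
 (.seq (.one (.both (.play 64 (.ref 430 0)) (.play 385 (.ref 7 128))))
 (.one (.play 129 (.both (.play 322 (.ref 431 1)) (.play 128 (.ref 3 128))))))))
 (.seq (.seq (.one (.both (.play 5 (.ref 2 2)) (.ref 24 64)))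
 (.seq (.one (.play 3 (.both (.play 67 (.both (.play 66 (.ref 433 0)) (.play 2 (.ref 3 2)))) (.play 4 (.ref 3 3)))))
 (.one (.play 65 (.both (.play 1 (.ref 10 0)) (.play 133 (.ref 0 65)))))))
 (.seq (.one (.play 66 (.both (.play 132 (.both (.ref 435 0) (.play 131 (.ref 1 67)))) (.play 5 (.ref 2 2)))))
 (.seq (.one (.both (.play 1 (.ref 102 0)) (.play 5 (.ref 2 2))))
 (.one (.play 67 (.both (.play 66 (.ref 437 0)) (.both (.ref 436 0) (.ref 23 66)))))))))
 (.seq (.seq (.seq (.one (.play 199 (.both (.play 196 (.both (.play 263 (.both (.play 70 (.both (.play 6 (.ref 4 6)) (.ref 438 128))) (.play 264 (.ref 0 196)))) (.both (.play 263 (.both (.play 261 (.both (.play 70 (.both (.play 6 (.ref 4 6)) (.ref 434 128))) (.both (.play 70 (.both (.ref 432 3) (.play 6 (.ref 4 6)))) (.both (.ref 429 5) (.ref 428 67))))) (.play 264 (.ref 0 196)))) (.both (.play 263 (.both (.play 132 (.both (.play 70 (.both (.play 6 (.ref 4 6)) (.play 260 (.both (.play 325 (.both (.play 261 (.ref 256 68)) (.both (.ref 427 68) (.ref 425 131)))) (.play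 259 (.ref 1 195)))))) (.play 131 (.ref 3 131)))) (.play 264 (.ref 0 196)))) (.both (.play 263 (.both (.ref 353 129) (.play 264 (.ref 0 196)))) (.play 131 (.ref 102 130))))))) (.play 200 (.ref 2 133)))))
 (.seq (.one (.play 193 (.both (.play 257 (.ref 5 1)) (.play 192 (.ref 291 128)))))
 (.one (.play 195 (.both (.ref 440 0) (.play 259 (.ref 7 2)))))))
 (.seq (.one (.both (.play 1 (.ref 6 0)) (.play 320 (.ref 329 64))))
 (.seq (.one (.play 257 (.both (.play 0 (.ref 7 0)) (.ref 28 1))))
 (.one (.play 256 (.both (.play 192 (.ref 6 0)) (.play 257 (.both (.play 320 (.ref 6 64)) (.ref 443 64)))))))))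
 (.seq (.seq (.one (.play 196 (.both (.play 260 (.ref 4 3)) (.play 129 (.ref 229 128)))))
 (.seq (.one (.play 256 (.both (.play 192 (.ref 6 0)) (.play 257 (.both (.play 320 (.ref 6 64)) (.play 196 (.both (.play 321 (.both (.play 64 (.ref 7 64)) (.ref 224 129))) (.play 195 (.ref 3 128)))))))))
 (.one (.play 66 (.both (.play 64 (.both (.play 0 (.ref 7 0)) (.play 321 (.ref 36 65)))) (.play 2 (.ref 5 1)))))))
 (.seq (.seq (.one (.play 65 (.both (.play 0 (.ref 7 0)) (.play 256 (.ref 6 64)))))
 (.one (.play 64 (.both (.ref 448 0) (.play 128 (.ref 7 64))))))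
 (.seq (.one (.both (.play 260 (.ref 4 3)) (.play 128 (.ref 0 128))))
 (.one (.play 131 (.both (.play 4 (.ref 5 3)) (.play 132 (.ref 2 128)))))))))))
 (.seq (.seq (.seq (.seq (.seq (.one (.play 259 (.both (.ref 451 0) (.play 260 (.ref 0 192)))))
 (.seq (.one (.play 67 (.both (.play 68 (.ref 3 0)) (.play 4 (.ref 2 0)))))
 (.one (.both (.play 259 (.ref 37 3)) (.play 130 (.ref 2 64))))))
 (.seq (.one (.play 195 (.both (.play 131 (.ref 454 0)) (.play 196 (.ref 3 128)))))
 (.seq (.one (.play 193 (.both (.play 256 (.ref 6 0)) (.play 258 (.both (.play 257 (.ref 240 0)) (.play 194 (.ref 4 1)))))))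
 (.one (.play 194 (.both (.play 258 (.ref 4 1)) (.play 195 (.ref 2 128))))))))
 (.seq (.seq (.one (.both (.play 256 (.ref 6 0)) (.ref 457 0)))
 (.seq (.one (.play 129 (.both (.ref 405 0) (.play 386 (.ref 4 129)))))
 (.one (.play 322 (.both (.ref 459 0) (.play 323 (.ref 2 256)))))))
 (.seq (.one (.play 192 (.both (.play 256 (.ref 6 0)) (.play 385 (.ref 7 128)))))
 (.seq (.one (.play 257 (.both (.ref 28 1) (.ref 239 64))))
 (.one (.both (.ref 52 0) (.play 384 (.ref 6 128))))))))
 (.seq (.seq (.seq (.one (.play 257 (.both (.play 2 (.ref 5 1)) (.play 322 (.ref 17 64)))))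
 (.seq (.one (.play 132 (.both (.ref 464 0) (.play 133 (.ref 0 65)))))
 (.one (.play 194 (.both (.play 258 (.ref 99 1)) (.play 192 (.ref 2 128)))))))
 (.seq (.one (.both (.play 1 (.ref 6 0)) (.play 128 (.ref 5 64))))
 (.seq (.one (.both (.play 65 (.ref 467 0)) (.play 384 (.ref 5 128))))
 (.one (.play 259 (.both (.play 129 (.ref 468 0)) (.play 260 (.ref 0 192))))))))
 (.seq (.seq (.one (.play 256 (.both (.play 258 (.both (.play 1 (.ref 387 0)) (.play 322 (.ref 4 65)))) (.play 320 (.ref 6 64)))))
 (.seq (.one (.both (.play 2 (.ref 6 1)) (.ref 31 64)))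
 (.one (.both (.play 259 (.ref 18 3)) (.play 192 (.ref 2 128))))))
 (.seq (.one (.play 132 (.both (.play 131 (.both (.play 195 (.ref 472 0)) (.play 64 (.ref 0 64)))) (.play 133 (.ref 0 65)))))
 (.seq (.one (.play 68 (.both (.play 69 (.both (.play 2 (.ref 0 1)) (.play 132 (.ref 2 65)))) (.play 67 (.ref 2 64)))))
 (.one (.play 259 (.both (.play 2 (.ref 4 2)) (.play 260 (.ref 229 192))))))))))
 (.seq (.seq (.seq (.seq (.one (.play 324 (.both (.play 196 (.both (.play 132 (.ref 468 3)) (.ref 473 130))) (.both (.play 322 (.both (.play 325 (.both (.ref 452 130) (.both (.ref 474 194) (.play 389 (.ref 25 320))))) (.both (.ref 475 129) (.both (.play 386 (.both (.play 131 (.ref 6 130)) (.play 325 (.both (.ref 474 194) (.play 385 (.ref 1 321)))))) (.play 131 (.ref 206 130)))))) (.both (.play 196 (.both (.play 387 (.both (.play 132 (.ref 5 131)) (.play 386 (.both (.play 388 (.both (.play 452 (.ref 4 195)) (.play 325 (.ref 160 321)))) (.play 450 (.ref 6 194)))))) (.both (.ref 473 130) (.ref 465 130)))) (.play 388 (.ref 99 131)))))))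
 (.seq (.one (.play 194 (.both (.play 258 (.ref 4 1)) (.play 192 (.ref 2 128)))))
 (.one (.both (.play 0 (.ref 4 0)) (.play 321 (.ref 81 64))))))
 (.seq (.one (.both (.play 2 (.ref 4 2)) (.play 260 (.ref 0 192))))
 (.seq (.one (.play 131 (.both (.play 196 (.both (.play 260 (.ref 479 1)) (.play 129 (.ref 3 128)))) (.play 132 (.ref 2 128)))))
 (.one (.both (.play 258 (.ref 77 2)) (.play 132 (.ref 2 128)))))))
 (.seq (.seq (.one (.play 195 (.both (.play 131 (.ref 481 0)) (.both (.ref 480 0) (.ref 80 128)))))
 (.seq (.one (.play 259 (.both (.play 4 (.ref 5 3)) (.play 260 (.ref 0 192)))))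
 (.one (.both (.ref 483 0) (.play 132 (.ref 2 128))))))
 (.seq (.one (.both (.play 2 (.ref 6 1)) (.play 256 (.ref 1 192))))
 (.seq (.one (.play 257 (.both (.play 193 (.ref 485 0)) (.play 258 (.ref 314 65)))))
 (.one (.play 195 (.both (.play 4 (.ref 6 3)) (.play 256 (.ref 2 192)))))))))
 (.seq (.seq (.seq (.one (.play 257 (.both (.play 66 (.ref 5 1)) (.play 322 (.ref 17 64)))))
 (.seq (.one (.play 66 (.both (.play 2 (.ref 5 1)) (.ref 488 64))))
 (.one (.play 65 (.both (.ref 47 0) (.play 1 (.ref 4 1)))))))
 (.seq (.one (.play 390 (.both (.play 454 (.both (.play 262 (.both (.play 327 (.both (.play 198 (.both (.ref 409 5) (.both (.ref 58 69) (.both (.play 263 (.both (.ref 490 69) (.play 199 (.ref 5 198)))) (.play 199 (.ref 46 134)))))) (.both (.play 263 (.both (.play 199 (.ref 5 198)) (.play 393 (.both (.play 392 (.both (.play 456 (.both (.ref 477 261) (.play 520 (.ref 7 263)))) (.play 325 (.ref 0 325)))) (.play 394 (.ref 0 326)))))) (.play 393 (.both (.play 265 (.both (.play 392 (.both (.play 456 (.both (.ref 477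 261) (.play 520 (.ref 5 264)))) (.play 325 (.ref 0 325)))) (.play 266 (.ref 2 262)))) (.play 394 (.ref 0 326))))))) (.both (.play 198 (.both (.play 133 (.both (.play 134 (.both (.play 327 (.ref 397 6)) (.play 69 (.ref 7 69)))) (.play 197 (.ref 7 133)))) (.both (.ref 58 69) (.both (.play 133 (.both (.play 134 (.both (.play 69 (.ref 7 69)) (.play 327 (.both (.ref 408 70) (.play 391 (.ref 4 134)))))) (.play 197 (.ref 7 133)))) (.play 199 (.ref 46 134)))))) (.both (.play 455 (.ref 397 134)) (.both (.play 263 (.both (.play 199 (.ref 5 198)) (.play 455 (.both (.play 453 (.both (.play 452 (.both (.play 392 (.both (.play 456 (.ref 150 261)) (.play 391 (.ref 2 388)))) (.both (.play 387 (.ref 102 386)) (.play 391 (.ref 86 387))))) (.play 517 (.ref 6 261)))) (.play 519 (.ref 4 262)))))) (.play 455 (.both (.play 391 (.both (.play 198 (.ref 4 198)) (.play 453 (.ref 220 260)))) (.play 519 (.ref 4 262))))))))) (.both (.play 262 (.both (.play 199 (.both (.play 198 (.both (.play 133 (.both (.play 134 (.both (.play 69 (.ref 7 69))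 (.ref 28 134))) (.play 197 (.ref 7 133)))) (.play 135 (.ref 5 134)))) (.play 263 (.ref 5 198)))) (.both (.play 455 (.both (.play 198 (.both (.ref 58 69) (.play 391 (.ref 4 198)))) (.play 519 (.ref 4 262)))) (.both (.play 455 (.ref 397 134)) (.both (.ref 489 197) (.play 519 (.both (.play 518 (.both (.play 327 (.ref 45 261)) (.play 583 (.ref 4 326)))) (.play 455 (.ref 4 262))))))))) (.both (.ref 476 131) (.both (.play 327 (.both (.play 263 (.ref 361 134)) (.both (.ref 469 134) (.play 393 (.both (.play 392 (.both (.play 391 (.both (.play 457 (.both (.play 265 (.both (.play 266 (.ref 2 262)) (.ref 27 264))) (.play 458 (.ref 0 390)))) (.play 453 (.ref 1 389)))) (.play 325 (.ref 0 325)))) (.play 394 (.ref 0 326))))))) (.both (.play 327 (.both (.play 393 (.both (.play 392 (.both (.play 391 (.both (.play 263 (.both (.play 199 (.ref 6 198)) (.play 456 (.both (.play 520 (.ref 7 263)) (.play 457 (.both (.play 521 (.both (.play 522 (.ref 105 326)) (.play 585 (.ref 7 328)))) (.play 458 (.ref 0 390)))))))) (.play 453 (.ref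 1 389)))) (.play 325 (.ref 0 325)))) (.play 394 (.ref 0 326)))) (.both (.ref 465 261) (.both (.play 393 (.both (.play 392 (.both (.play 391 (.both (.play 518 (.both (.play 519 (.both (.play 457 (.both (.play 521 (.both (.play 520 (.both (.ref 487 261) (.play 584 (.ref 6 328)))) (.play 585 (.ref 7 328)))) (.play 458 (.ref 0 390)))) (.play 583 (.ref 4 326)))) (.play 582 (.ref 5 326)))) (.play 453 (.ref 1 389)))) (.play 325 (.ref 0 325)))) (.play 394 (.ref 0 326)))) (.play 518 (.ref 37 262)))))) (.play 455 (.both (.play 456 (.both (.ref 486 260) (.both (.play 453 (.both (.play 517 (.ref 485 260)) (.play 392 (.ref 484 261)))) (.ref 482 262)))) (.both (.play 519 (.both (.play 520 (.both (.play 453 (.both (.play 456 (.both (.ref 451 261) (.play 517 (.both (.play 518 (.ref 274 325)) (.play 516 (.ref 1 452)))))) (.play 452 (.ref 0 452)))) (.both (.play 521 (.both (.play 518 (.both (.ref 137 325) (.play 457 (.both (.play 393 (.both (.ref 149 326) (.play 584 (.ref 6 328)))) (.play 458 (.ref 2 454)))))) (.play 522 (.ref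 3 454)))) (.play 453 (.ref 229 452))))) (.play 583 (.ref 81 326)))) (.both (.play 519 (.ref 99 262)) (.play 519 (.ref 478 262)))))))))))) (.both (.play 454 (.both (.play 327 (.both (.play 393 (.both (.play 392 (.both (.play 265 (.both (.play 456 (.both (.play 262 (.both (.ref 410 5) (.ref 477 261))) (.play 520 (.ref 5 264)))) (.play 266 (.ref 2 262)))) (.play 325 (.ref 0 325)))) (.play 394 (.ref 0 326)))) (.play 389 (.ref 1 325)))) (.both (.ref 476 131) (.both (.play 518 (.both (.play 519 (.both (.play 262 (.both (.play 199 (.both (.play 198 (.both (.play 197 (.both (.play 133 (.ref 7 133)) (.ref 384 133))) (.play 135 (.ref 5 134)))) (.play 263 (.ref 5 198)))) (.play 455 (.ref 4 262)))) (.play 583 (.ref 4 326)))) (.both (.play 581 (.both (.play 582 (.both (.play 389 (.both (.play 453 (.both (.play 262 (.ref 471 196)) (.play 646 (.ref 7 389)))) (.play 325 (.ref 7 325)))) (.play 645 (.ref 6 389)))) (.play 517 (.ref 6 325)))) (.both (.ref 470 261) (.both (.play 581 (.ref 55 325)) (.ref 375 325)))))) (.both (.play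 327 (.both (.ref 469 134) (.play 389 (.ref 1 325)))) (.both (.play 327 (.both (.play 518 (.both (.ref 389 261) (.play 263 (.ref 5 262)))) (.play 389 (.ref 1 325)))) (.both (.play 327 (.both (.play 393 (.both (.play 265 (.both (.play 392 (.both (.play 456 (.both (.ref 466 261) (.play 520 (.ref 5 264)))) (.play 325 (.ref 0 325)))) (.play 266 (.ref 2 262)))) (.play 394 (.ref 0 326)))) (.play 389 (.ref 1 325)))) (.play 327 (.both (.ref 465 261) (.play 389 (.ref 1 325))))))))))) (.both (.play 389 (.both (.play 262 (.both (.play 198 (.ref 463 69)) (.both (.play 198 (.ref 406 69)) (.both (.play 198 (.both (.ref 52 69) (.both (.ref 378 69) (.both (.ref 405 69) (.play 199 (.both (.play 197 (.both (.play 133 (.ref 7 133)) (.play 454 (.both (.play 263 (.ref 5 198)) (.ref 462 261))))) (.play 135 (.ref 5 134)))))))) (.play 454 (.both (.ref 402 259) (.both (.play 455 (.both (.play 519 (.ref 4 262)) (.play 456 (.ref 295 387)))) (.both (.ref 462 261) (.play 518 (.both (.play 517 (.ref 15 261)) (.both (.play 582 (.both (.ref 461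 261) (.play 325 (.ref 7 325)))) (.both (.play 582 (.ref 326 325)) (.ref 239 325))))))))))))) (.both (.play 262 (.both (.play 198 (.ref 406 69)) (.both (.ref 460 69) (.both (.play 198 (.ref 458 197)) (.play 454 (.both (.play 517 (.both (.play 453 (.ref 6 261)) (.ref 456 325))) (.both (.play 455 (.both (.ref 455 261) (.play 519 (.ref 4 262)))) (.play 455 (.both (.ref 455 261) (.both (.play 453 (.both (.play 517 (.ref 6 261)) (.play 392 (.both (.play 391 (.ref 2 325)) (.ref 453 389))))) (.both (.play 517 (.both (.play 453 (.ref 6 261)) (.play 518 (.both (.play 581 (.ref 6 325)) (.play 582 (.both (.play 325 (.ref 7 325)) (.play 391 (.both (.play 392 (.ref 2 325)) (.play 646 (.ref 5 390)))))))))) (.both (.play 453 (.both (.play 517 (.ref 6 261)) (.play 456 (.both (.ref 452 261) (.play 457 (.ref 3 389)))))) (.ref 446 261))))))))))))) (.both (.ref 426 192) (.both (.ref 439 192) (.both (.play 391 (.both (.play 388 (.both (.play 455 (.both (.play 262 (.both (.play 198 (.ref 4 198)) (.play 454 (.ref 450 259)))) (.play 456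 (.ref 0 388)))) (.both (.play 323 (.both (.ref 221 196) (.play 324 (.ref 3 323)))) (.play 323 (.ref 102 322))))) (.play 392 (.ref 2 325)))) (.ref 420 258))))))) (.both (.play 389 (.both (.play 262 (.both (.play 454 (.both (.play 199 (.both (.play 198 (.both (.ref 449 69) (.play 135 (.ref 5 134)))) (.play 263 (.ref 5 198)))) (.both (.play 455 (.ref 397 134)) (.ref 445 259)))) (.both (.play 198 (.ref 406 69)) (.both (.play 198 (.ref 379 69)) (.both (.play 198 (.both (.ref 447 133) (.play 453 (.ref 6 197)))) (.play 454 (.both (.play 455 (.both (.play 453 (.both (.play 388 (.both (.play 263 (.both (.play 199 (.ref 5 198)) (.play 452 (.both (.ref 419 323) (.play 451 (.ref 86 386)))))) (.play 387 (.ref 0 387)))) (.play 517 (.ref 6 261)))) (.both (.play 453 (.both (.play 517 (.ref 6 261)) (.play 388 (.ref 216 387)))) (.both (.ref 446 261) (.play 388 (.ref 229 387)))))) (.both (.ref 402 259) (.both (.ref 445 259) (.ref 444 261)))))))))) (.play 327 (.ref 1 325)))) (.both (.play 327 (.both (.play 263 (.both (.play 199 (.both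 (.play 391 (.both (.play 136 (.ref 5 135)) (.play 392 (.both (.play 456 (.ref 4 199)) (.play 393 (.ref 169 325)))))) (.play 135 (.ref 6 134)))) (.both (.play 199 (.ref 77 134)) (.both (.play 199 (.ref 442 134)) (.play 393 (.both (.play 392 (.both (.ref 441 261) (.play 325 (.ref 0 325)))) (.play 394 (.ref 0 326)))))))) (.play 389 (.ref 1 325)))) (.both (.play 389 (.both (.ref 439 192) (.play 327 (.ref 1 325)))) (.both (.play 389 (.both (.ref 426 192) (.play 327 (.ref 1 325)))) (.both (.play 327 (.both (.play 393 (.both (.play 265 (.both (.play 457 (.both (.play 458 (.both (.play 391 (.both (.play 455 (.both (.play 262 (.ref 256 198)) (.play 456 (.ref 3 390)))) (.play 392 (.ref 0 390)))) (.play 522 (.ref 4 265)))) (.both (.play 520 (.both (.play 521 (.both (.play 585 (.both (.play 586 (.ref 270 261)) (.play 392 (.ref 7 328)))) (.play 584 (.ref 6 328)))) (.play 456 (.ref 6 264)))) (.both (.play 520 (.ref 55 264)) (.ref 423 264))))) (.play 266 (.ref 2 262)))) (.play 394 (.ref 0 326)))) (.play 389 (.ref 1 325)))) (.play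 389 (.both (.ref 420 258) (.play 327 (.ref 1 325))))))))))))))
 (.seq (.one (.play 196 (.both (.play 257 (.both (.ref 33 0) (.both (.ref 424 64) (.ref 224 65)))) (.play 197 (.ref 0 129)))))
 (.one (.play 196 (.both (.play 68 (.both (.ref 22 0) (.play 69 (.ref 2 65)))) (.play 197 (.ref 0 129))))))))
 (.seq (.seq (.one (.both (.ref 493 0) (.play 192 (.ref 1 128))))
 (.seq (.one (.play 196 (.both (.ref 34 0) (.play 197 (.ref 0 129)))))
 (.one (.play 192 (.both (.play 1 (.ref 458 0)) (.play 130 (.ref 1 128)))))))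
 (.seq (.seq (.one (.play 321 (.both (.play 66 (.both (.play 65 (.both (.play 64 (.both (.play 0 (.ref 7 0)) (.play 260 (.both (.play 320 (.both (.play 258 (.both (.play 1 (.ref 4 1)) (.play 259 (.ref 1 256)))) (.play 384 (.ref 6 128)))) (.play 261 (.ref 0 193)))))) (.play 2 (.ref 5 1)))) (.play 130 (.ref 5 65)))) (.both (.play 130 (.ref 18 65)) (.ref 43 128)))))
 (.one (.both (.ref 411 0) (.play 384 (.ref 1 320)))))
 (.seq (.one (.play 257 (.both (.play 258 (.ref 49 1)) (.play 256 (.ref 1 192)))))
 (.one (.both (.ref 499 0) (.play 128 (.ref 3 128)))))))))))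
 (.seq (.seq (.seq (.seq (.seq (.seq (.one (.play 192 (.both (.play 256 (.ref 6 0)) (.play 130 (.ref 1 128)))))
 (.seq (.one (.play 129 (.both (.ref 52 0) (.play 386 (.ref 4 129)))))
 (.one (.play 322 (.both (.ref 502 0) (.play 256 (.ref 3 256)))))))
 (.seq (.one (.both (.play 0 (.ref 3 0)) (.play 128 (.ref 1 64))))
 (.seq (.one (.play 130 (.both (.play 66 (.both (.ref 435 0) (.play 129 (.ref 1 65)))) (.play 131 (.ref 1 66)))))
 (.one (.play 193 (.both (.play 0 (.ref 4 0)) (.play 384 (.ref 18 128))))))))
 (.seq (.seq (.one (.play 64 (.both (.play 65 (.both (.play 0 (.ref 7 0)) (.ref 506 1))) (.play 128 (.ref 7 64)))))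
 (.seq (.one (.play 65 (.both (.play 1 (.ref 10 0)) (.play 64 (.ref 0 64)))))
 (.one (.play 69 (.both (.play 67 (.both (.play 66 (.both (.play 130 (.both (.play 131 (.both (.ref 508 0) (.play 70 (.ref 1 66)))) (.play 129 (.ref 1 65)))) (.play 133 (.ref 0 66)))) (.play 3 (.ref 7 3)))) (.play 5 (.ref 5 4)))))))
 (.seq (.one (.play 257 (.both (.play 66 (.ref 45 0)) (.both (.play 66 (.ref 37 1)) (.play 258 (.ref 332 64))))))
 (.seq (.one (.play 257 (.both (.play 64 (.ref 326 0)) (.both (.play 64 (.ref 227 0)) (.play 258 (.ref 332 64))))))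
 (.one (.play 193 (.both (.play 2 (.ref 6 1)) (.play 192 (.ref 3 192)))))))))
 (.seq (.seq (.seq (.one (.play 67 (.both (.play 66 (.both (.play 257 (.both (.play 259 (.both (.ref 512 0) (.play 323 (.ref 4 66)))) (.play 321 (.ref 6 65)))) (.play 3 (.ref 5 2)))) (.play 131 (.ref 5 66)))))
 (.seq (.one (.play 130 (.both (.ref 513 0) (.both (.ref 58 1) (.ref 47 65)))))
 (.one (.play 259 (.both (.play 257 (.both (.play 195 (.both (.play 2 (.ref 4 2)) (.play 196 (.ref 86 192)))) (.play 321 (.ref 6 65)))) (.play 323 (.ref 4 66)))))))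
 (.seq (.one (.play 65 (.both (.play 66 (.both (.ref 515 0) (.play 1 (.ref 7 1)))) (.play 129 (.ref 7 65)))))
 (.seq (.one (.play 130 (.both (.ref 516 0) (.both (.ref 58 1) (.play 131 (.ref 46 66))))))
 (.one (.play 129 (.both (.play 65 (.ref 49 1)) (.play 128 (.ref 3 128))))))))
 (.seq (.seq (.one (.both (.ref 518 0) (.play 197 (.ref 1 193))))
 (.seq (.one (.play 194 (.both (.play 196 (.both (.play 193 (.both (.play 257 (.both (.play 258 (.ref 519 0)) (.play 256 (.ref 1 192)))) (.play 260 (.ref 0 193)))) (.play 132 (.ref 5 131)))) (.play 130 (.ref 7 130)))))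
 (.one (.play 196 (.both (.play 67 (.both (.play 258 (.both (.play 257 (.both (.play 194 (.both (.play 3 (.ref 6 2)) (.play 197 (.ref 1 193)))) (.play 256 (.ref 2 192)))) (.play 322 (.ref 6 66)))) (.both (.play 260 (.ref 49 3)) (.play 258 (.both (.play 260 (.both (.play 324 (.ref 4 67)) (.play 197 (.ref 86 193)))) (.play 322 (.ref 6 66))))))) (.play 132 (.ref 5 131)))))))
 (.seq (.one (.play 1 (.both (.play 65 (.both (.play 0 (.ref 3 0)) (.play 5 (.ref 71 1)))) (.play 2 (.ref 3 1)))))
 (.seq (.one (.play 196 (.both (.play 194 (.both (.play 258 (.ref 6 2)) (.ref 522 128))) (.play 260 (.ref 4 3)))))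
 (.one (.play 131 (.both (.play 322 (.ref 406 2)) (.both (.play 324 (.ref 397 3)) (.ref 523 128))))))))))
 (.seq (.seq (.seq (.seq (.one (.play 259 (.both (.play 195 (.both (.ref 524 0) (.both (.ref 516 65) (.ref 47 130)))) (.both (.play 195 (.both (.ref 524 0) (.both (.ref 521 64) (.both (.ref 513 65) (.play 196 (.ref 46 131)))))) (.both (.ref 520 64) (.both (.ref 517 65) (.both (.ref 514 65) (.ref 52 130))))))))
 (.seq (.one (.both (.play 1 (.ref 1 0)) (.play 67 (.ref 2 0))))
 (.one (.both (.play 1 (.ref 3 0)) (.play 129 (.ref 1 64))))))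
 (.seq (.one (.play 1 (.both (.play 0 (.ref 3 0)) (.play 69 (.ref 527 1)))))
 (.seq (.one (.play 129 (.both (.ref 528 0) (.play 128 (.ref 1 64)))))
 (.one (.both (.play 1 (.ref 10 0)) (.ref 8 65))))))
 (.seq (.seq (.one (.both (.play 67 (.ref 256 3)) (.play 192 (.ref 2 128))))
 (.seq (.one (.play 260 (.both (.play 132 (.ref 531 0)) (.play 261 (.ref 0 193)))))
 (.one (.play 257 (.both (.play 193 (.both (.play 131 (.both (.ref 532 0) (.play 130 (.ref 3 130)))) (.play 256 (.ref 1 192)))) (.play 258 (.ref 1 193)))))))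
 (.seq (.one (.both (.play 0 (.ref 7 0)) (.play 321 (.ref 7 64))))
 (.seq (.one (.play 257 (.both (.play 64 (.ref 534 0)) (.play 2 (.ref 5 1)))))
 (.one (.play 1 (.both (.play 0 (.ref 3 0)) (.play 130 (.ref 7 1)))))))))
 (.seq (.seq (.seq (.one (.play 65 (.both (.play 1 (.ref 7 1)) (.play 64 (.ref 0 64)))))
 (.seq (.one (.play 321 (.both (.play 257 (.both (.play 195 (.both (.play 196 (.both (.play 326 (.both (.play 198 (.both (.play 132 (.both (.play 68 (.both (.play 67 (.both (.play 131 (.both (.ref 537 1) (.play 324 (.ref 7 67)))) (.play 3 (.ref 7 3)))) (.play 4 (.ref 6 3)))) (.both (.play 68 (.both (.play 67 (.both (.play 69 (.both (.play 66 (.both (.ref 536 1) (.play 65 (.ref 0 65)))) (.play 5 (.ref 5 4)))) (.play 3 (.ref 7 3)))) (.play 4 (.ref 6 3)))) (.both (.play 68 (.both (.play 4 (.ref 6 3)) (.play 69 (.ref 18 4)))) (.ref 535 67))))) (.play 199 (.ref 2 195)))) (.play 327 (.ref 0 259)))) (.play 256 (.ref 2 192)))) (.play 194 (.ref 3 194)))) (.play 320 (.ref 1 256)))) (.play 322 (.ref 1 257)))))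
 (.one (.both (.play 64 (.ref 227 0)) (.play 2 (.ref 5 1))))))
 (.seq (.one (.play 193 (.both (.play 2 (.ref 6 1)) (.play 320 (.ref 6 64)))))
 (.seq (.one (.play 259 (.both (.play 4 (.ref 5 3)) (.play 260 (.ref 450 64)))))
 (.one (.play 261 (.both (.play 197 (.both (.ref 502 4) (.both (.play 134 (.ref 468 5)) (.both (.ref 541 130) (.play 390 (.ref 99 133)))))) (.both (.play 197 (.both (.ref 459 4) (.both (.play 134 (.ref 468 5)) (.both (.play 133 (.both (.play 132 (.both (.play 196 (.both (.ref 540 67) (.play 389 (.ref 7 132)))) (.play 68 (.ref 7 68)))) (.play 390 (.ref 4 133)))) (.play 389 (.ref 539 132)))))) (.play 386 (.both (.play 322 (.both (.ref 121 256) (.play 385 (.ref 1 321)))) (.play 387 (.ref 1 322)))))))))))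
 (.seq (.seq (.one (.both (.play 0 (.ref 7 0)) (.play 322 (.ref 17 64))))
 (.seq (.one (.play 131 (.both (.play 3 (.both (.play 4 (.ref 2 0)) (.play 195 (.both (.play 260 (.both (.play 196 (.ref 4 3)) (.play 259 (.both (.play 324 (.ref 4 67)) (.play 192 (.ref 3 192)))))) (.play 194 (.ref 6 2)))))) (.play 132 (.ref 0 64)))))
 (.one (.play 258 (.both (.play 194 (.ref 7 1)) (.play 259 (.ref 267 192)))))))
 (.seq (.seq (.one (.play 130 (.both (.play 66 (.both (.play 1 (.both (.play 65 (.both (.play 0 (.ref 3 0)) (.play 260 (.both (.ref 545 0) (.play 324 (.ref 6 68)))))) (.play 2 (.ref 3 1)))) (.play 129 (.ref 1 65)))) (.play 131 (.ref 1 66)))))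
 (.one (.play 256 (.both (.play 192 (.ref 6 0)) (.play 257 (.ref 314 64))))))
 (.seq (.one (.both (.ref 547 0) (.play 258 (.ref 4 1))))
 (.one (.both (.play 258 (.ref 4 1)) (.play 196 (.ref 247 128))))))))))
 (.seq (.seq (.seq (.seq (.seq (.one (.both (.play 196 (.ref 273 0)) (.play 258 (.ref 4 1))))
 (.seq (.one (.play 196 (.both (.play 260 (.ref 4 3)) (.play 256 (.ref 2 192)))))
 (.one (.both (.ref 38 0) (.play 128 (.ref 1 64))))))
 (.seq (.one (.both (.play 67 (.both (.play 68 (.ref 0 0)) (.play 258 (.ref 6 2)))) (.play 132 (.ref 2 128))))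
 (.seq (.one (.both (.ref 197 0) (.play 129 (.ref 1 65))))
 (.one (.play 131 (.both (.play 3 (.both (.play 4 (.ref 2 0)) (.play 195 (.ref 6 2)))) (.play 132 (.ref 0 64))))))))
 (.seq (.seq (.one (.play 194 (.both (.play 257 (.both (.play 193 (.both (.play 2 (.ref 6 1)) (.play 260 (.ref 30 192)))) (.play 321 (.ref 6 65)))) (.play 1 (.ref 7 1)))))
 (.seq (.one (.play 66 (.both (.play 133 (.both (.play 129 (.ref 14 0)) (.play 134 (.ref 0 66)))) (.play 6 (.ref 2 2)))))
 (.one (.play 260 (.both (.play 196 (.ref 4 3)) (.play 259 (.ref 450 64)))))))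
 (.seq (.one (.both (.ref 551 2) (.both (.ref 28 5) (.both (.ref 558 66) (.ref 557 192)))))
 (.seq (.one (.play 67 (.both (.play 68 (.ref 0 0)) (.play 131 (.both (.ref 558 0) (.play 258 (.ref 6 2)))))))
 (.one (.both (.play 2 (.ref 4 2)) (.play 196 (.ref 2 192))))))))
 (.seq (.seq (.seq (.one (.play 131 (.both (.play 195 (.both (.play 260 (.both (.play 196 (.ref 561 1)) (.play 324 (.ref 4 67)))) (.play 322 (.ref 6 66)))) (.play 132 (.ref 0 64)))))
 (.seq (.one (.play 64 (.both (.play 65 (.ref 95 0)) (.play 128 (.ref 7 64)))))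
 (.one (.play 321 (.both (.play 129 (.both (.ref 563 0) (.play 322 (.ref 4 129)))) (.both (.play 385 (.ref 240 128)) (.play 129 (.ref 17 128))))))))
 (.seq (.one (.both (.play 192 (.ref 4 0)) (.play 194 (.ref 6 1))))
 (.seq (.one (.play 131 (.both (.play 3 (.both (.play 4 (.ref 2 0)) (.play 194 (.ref 565 1)))) (.play 132 (.ref 0 64)))))
 (.one (.play 260 (.both (.play 196 (.both (.play 3 (.both (.play 4 (.ref 2 0)) (.play 195 (.ref 4 3)))) (.play 197 (.ref 2 193)))) (.both (.play 324 (.ref 179 65)) (.ref 72 193))))))))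
 (.seq (.seq (.one (.play 260 (.both (.play 196 (.ref 4 3)) (.play 259 (.ref 0 192)))))
 (.seq (.one (.play 193 (.both (.play 257 (.both (.play 129 (.ref 7 0)) (.play 192 (.ref 3 192)))) (.play 194 (.ref 3 193)))))
 (.one (.play 131 (.both (.play 67 (.ref 6 2)) (.play 132 (.ref 2 128)))))))
 (.seq (.seq (.one (.play 257 (.both (.play 130 (.ref 6 1)) (.play 196 (.ref 66 192)))))
 (.one (.play 193 (.both (.play 194 (.ref 6 1)) (.play 260 (.both (.play 192 (.ref 3 192)) (.ref 72 193)))))))
 (.seq (.one (.play 132 (.both (.play 67 (.both (.play 68 (.both (.play 3 (.ref 7 3)) (.play 65 (.both (.play 193 (.ref 283 64)) (.play 66 (.ref 0 65)))))) (.play 131 (.ref 7 67)))) (.play 69 (.ref 5 68)))))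
 (.one (.both (.play 2 (.ref 7 2)) (.play 65 (.ref 0 64)))))))))
 (.seq (.seq (.seq (.seq (.one (.play 66 (.both (.play 67 (.ref 574 0)) (.play 130 (.ref 7 66)))))
 (.seq (.one (.play 129 (.both (.play 64 (.both (.play 0 (.ref 7 0)) (.play 131 (.both (.play 130 (.ref 3 64)) (.play 67 (.ref 7 67)))))) (.play 322 (.ref 4 65)))))
 (.one (.play 129 (.both (.play 257 (.both (.play 193 (.both (.play 320 (.ref 463 0)) (.play 386 (.ref 4 129)))) (.play 256 (.ref 3 256)))) (.both (.play 196 (.both (.play 257 (.both (.ref 576 64) (.play 256 (.ref 3 256)))) (.play 133 (.ref 5 132)))) (.play 196 (.both (.ref 575 65) (.play 133 (.ref 5 132))))))))))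
 (.seq (.one (.both (.ref 47 0) (.play 66 (.ref 46 1))))
 (.seq (.one (.both (.play 64 (.ref 7 0)) (.play 322 (.ref 17 64))))
 (.one (.both (.play 0 (.ref 7 0)) (.play 321 (.ref 579 64)))))))
 (.seq (.seq (.one (.play 390 (.both (.play 323 (.both (.play 262 (.both (.ref 577 2) (.both (.play 198 (.both (.play 135 (.ref 5 134)) (.ref 121 257))) (.both (.play 261 (.ref 531 130)) (.play 198 (.both (.play 197 (.ref 580 133)) (.play 135 (.ref 5 134)))))))) (.both (.play 262 (.both (.ref 573 66) (.both (.play 198 (.both (.play 261 (.both (.play 454 (.both (.play 134 (.both (.play 388 (.both (.play 259 (.both (.play 452 (.both (.play 131 (.both (.play 133 (.ref 574 67)) (.play 195 (.ref 4 131)))) (.play 516 (.ref 7 259)))) (.play 258 (.ref 3 258)))) (.play 387 (.ref 1 323)))) (.play 70 (.ref 6 69)))) (.play 518 (.ref 7 261)))) (.play 322 (.ref 2 258)))) (.play 135 (.ref 5 134)))) (.both (.play 261 (.ref 531 130)) (.play 198 (.both (.play 135 (.ref 5 134)) (.play 261 (.both (.play 454 (.ref 534 197)) (.play 322 (.ref 2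 258)))))))))) (.both (.play 258 (.ref 102 257)) (.ref 23 322))))) (.both (.play 392 (.both (.play 323 (.both (.play 262 (.both (.play 198 (.both (.play 259 (.both (.play 131 (.both (.play 195 (.both (.play 67 (.ref 578 2)) (.play 388 (.ref 4 131)))) (.both (.ref 576 66) (.ref 575 67)))) (.play 258 (.ref 3 258)))) (.play 135 (.ref 5 134)))) (.both (.play 198 (.both (.play 133 (.both (.play 134 (.both (.ref 487 66) (.play 69 (.ref 7 69)))) (.play 197 (.ref 7 133)))) (.play 135 (.ref 5 134)))) (.ref 121 257)))) (.both (.play 258 (.ref 102 257)) (.ref 23 322)))) (.play 393 (.ref 0 325)))) (.both (.play 262 (.both (.play 323 (.both (.ref 577 2) (.both (.play 198 (.both (.play 133 (.both (.play 134 (.both (.play 69 (.ref 7 69)) (.play 258 (.ref 102 257)))) (.play 197 (.ref 7 133)))) (.play 135 (.ref 5 134)))) (.both (.ref 573 66) (.ref 23 322))))) (.both (.play 519 (.both (.play 198 (.both (.play 133 (.both (.play 134 (.both (.play 69 (.ref 7 69)) (.play 132 (.both (.play 131 (.ref 0 131)) (.ref 566 261))))) (.play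 197 (.ref 7 133)))) (.play 135 (.ref 5 134)))) (.both (.play 518 (.both (.play 520 (.both (.play 198 (.both (.play 133 (.both (.play 134 (.both (.play 69 (.ref 7 69)) (.play 392 (.both (.play 517 (.both (.ref 342 325) (.play 580 (.ref 14 451)))) (.play 393 (.ref 0 325)))))) (.play 197 (.ref 7 133)))) (.play 135 (.ref 5 134)))) (.both (.play 198 (.both (.play 133 (.both (.play 197 (.ref 7 133)) (.play 517 (.both (.play 584 (.ref 12 451)) (.play 581 (.ref 118 452)))))) (.play 135 (.ref 5 134)))) (.both (.play 198 (.both (.play 133 (.both (.play 197 (.ref 7 133)) (.play 521 (.both (.play 585 (.both (.play 392 (.both (.play 393 (.ref 0 325)) (.play 456 (.ref 4 328)))) (.play 586 (.ref 0 518)))) (.both (.play 457 (.ref 267 452)) (.play 585 (.ref 25 516))))))) (.play 135 (.ref 5 134)))) (.both (.play 198 (.both (.play 135 (.ref 5 134)) (.play 521 (.both (.play 585 (.both (.play 457 (.both (.play 393 (.both (.play 392 (.ref 7 328)) (.ref 302 389))) (.play 458 (.ref 2 454)))) (.play 586 (.ref 0 518)))) (.both (.play 582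 (.ref 118 453)) (.play 585 (.ref 25 516))))))) (.both (.play 198 (.both (.play 135 (.ref 5 134)) (.ref 560 325))) (.ref 562 261))))))) (.both (.play 198 (.both (.play 135 (.ref 5 134)) (.play 517 (.both (.ref 572 260) (.both (.play 454 (.ref 15 261)) (.both (.ref 571 324) (.play 520 (.both (.play 580 (.ref 14 451)) (.ref 72 453))))))))) (.both (.play 198 (.both (.play 135 (.ref 5 134)) (.play 517 (.both (.ref 572 260) (.both (.play 454 (.both (.play 453 (.ref 6 261)) (.play 583 (.ref 4 326)))) (.both (.play 520 (.both (.play 456 (.ref 553 325)) (.both (.play 584 (.ref 12 451)) (.ref 72 453)))) (.ref 265 324))))))) (.both (.play 198 (.both (.play 135 (.ref 5 134)) (.play 517 (.both (.ref 265 324) (.both (.ref 571 324) (.both (.play 520 (.both (.play 584 (.both (.play 583 (.both (.ref 570 325) (.play 516 (.ref 0 516)))) (.play 585 (.ref 0 517)))) (.both (.play 581 (.ref 118 452)) (.play 581 (.ref 66 516))))) (.play 454 (.ref 206 325)))))))) (.both (.play 520 (.both (.play 198 (.both (.play 135 (.ref 5 134)) (.play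 392 (.both (.ref 567 261) (.play 393 (.ref 0 325)))))) (.both (.play 198 (.both (.play 135 (.ref 5 134)) (.play 454 (.both (.play 583 (.ref 4 326)) (.play 521 (.both (.play 453 (.ref 3 453)) (.play 582 (.ref 304 453)))))))) (.play 583 (.both (.ref 308 325) (.play 454 (.ref 4 326))))))) (.play 454 (.ref 16 261)))))))) (.both (.play 198 (.both (.play 133 (.both (.play 134 (.both (.play 69 (.ref 7 69)) (.play 392 (.ref 90 261)))) (.play 197 (.ref 7 133)))) (.play 135 (.ref 5 134)))) (.play 454 (.ref 17 261)))))) (.play 519 (.both (.play 392 (.both (.play 518 (.both (.play 323 (.both (.play 258 (.ref 102 257)) (.both (.play 259 (.both (.play 258 (.ref 3 258)) (.play 264 (.both (.play 520 (.both (.play 456 (.both (.play 517 (.both (.ref 569 259) (.play 457 (.ref 2 453)))) (.play 583 (.ref 6 327)))) (.both (.play 517 (.both (.ref 569 259) (.play 581 (.ref 66 516)))) (.play 456 (.ref 54 263))))) (.play 265 (.ref 2 261)))))) (.ref 23 322)))) (.both (.play 323 (.both (.play 258 (.ref 102 257)) (.both (.play 259 (.both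 (.play 258 (.ref 3 258)) (.play 264 (.both (.play 517 (.both (.play 520 (.both (.ref 569 259) (.play 456 (.both (.ref 568 325) (.play 457 (.ref 2 453)))))) (.both (.play 454 (.ref 15 261)) (.play 581 (.both (.play 520 (.ref 345 324)) (.play 454 (.ref 6 325))))))) (.play 265 (.ref 2 261)))))) (.ref 23 322)))) (.both (.play 323 (.both (.play 583 (.both (.play 520 (.both (.play 259 (.both (.play 258 (.ref 3 258)) (.play 265 (.both (.play 264 (.ref 2 261)) (.play 521 (.both (.ref 72 454) (.both (.play 581 (.both (.play 517 (.ref 290 516)) (.play 582 (.ref 1 517)))) (.play 582 (.ref 176 517))))))))) (.play 456 (.ref 6 327)))) (.play 454 (.ref 4 326)))) (.ref 23 322))) (.both (.play 454 (.ref 16 261)) (.play 520 (.both (.ref 567 261) (.both (.play 521 (.both (.play 454 (.ref 144 325)) (.ref 72 454))) (.play 583 (.both (.play 454 (.ref 4 326)) (.play 456 (.ref 6 327)))))))))))) (.play 393 (.ref 0 325)))) (.both (.play 454 (.ref 17 261)) (.both (.play 392 (.ref 90 261)) (.ref 566 261)))))))) (.both (.play 519 (.both (.play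 265 (.both (.ref 564 133) (.play 264 (.ref 2 261)))) (.both (.play 392 (.both (.ref 564 133) (.play 393 (.ref 0 325)))) (.both (.play 518 (.both (.play 520 (.both (.play 392 (.both (.play 264 (.both (.play 456 (.ref 559 259)) (.play 265 (.ref 2 261)))) (.play 393 (.ref 0 325)))) (.both (.play 392 (.both (.play 264 (.both (.play 265 (.ref 2 261)) (.play 456 (.both (.play 583 (.ref 6 327)) (.ref 557 451))))) (.play 393 (.ref 0 325)))) (.both (.ref 562 261) (.both (.play 392 (.both (.play 456 (.both (.play 457 (.both (.play 521 (.ref 561 262)) (.play 517 (.ref 2 453)))) (.play 583 (.ref 6 327)))) (.play 393 (.ref 0 325)))) (.both (.ref 560 325) (.play 521 (.both (.play 582 (.ref 118 453)) (.both (.ref 72 454) (.play 585 (.ref 25 516))))))))))) (.both (.ref 556 260) (.play 454 (.ref 240 261))))) (.both (.play 518 (.both (.play 392 (.both (.play 264 (.both (.play 456 (.both (.play 520 (.ref 559 259)) (.play 455 (.ref 6 263)))) (.play 265 (.ref 2 261)))) (.play 393 (.ref 0 325)))) (.both (.ref 556 260) (.both (.play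 454 (.both (.play 261 (.ref 7 261)) (.ref 388 261))) (.play 454 (.both (.play 261 (.ref 7 261)) (.play 455 (.both (.ref 555 261) (.play 262 (.ref 4 262)))))))))) (.play 392 (.ref 90 261))))))) (.play 518 (.both (.play 516 (.both (.play 515 (.both (.play 387 (.both (.play 323 (.ref 554 257)) (.play 388 (.ref 1 323)))) (.play 517 (.both (.play 579 (.both (.play 519 (.both (.play 456 (.both (.play 520 (.ref 553 325)) (.play 455 (.ref 2 452)))) (.play 580 (.ref 1 515)))) (.play 578 (.ref 1 514)))) (.both (.play 582 (.ref 164 448)) (.both (.ref 174 448) (.both (.ref 205 451) (.play 582 (.ref 25 513))))))))) (.both (.play 517 (.both (.play 515 (.both (.play 451 (.both (.play 579 (.both (.play 387 (.both (.play 323 (.ref 552 258)) (.both (.play 323 (.both (.play 386 (.ref 1 322)) (.play 580 (.ref 4 323)))) (.play 644 (.both (.play 580 (.ref 4 387)) (.ref 425 450)))))) (.play 578 (.ref 1 514)))) (.play 450 (.ref 3 450)))) (.both (.play 582 (.ref 12 449)) (.play 582 (.ref 25 513))))) (.both (.play 392 (.both (.play 264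 (.both (.play 519 (.both (.ref 348 261) (.play 583 (.ref 25 514)))) (.play 265 (.ref 2 261)))) (.play 393 (.ref 0 325)))) (.both (.play 392 (.both (.play 264 (.both (.play 519 (.both (.ref 348 261) (.play 583 (.ref 12 450)))) (.play 265 (.ref 2 261)))) (.play 393 (.ref 0 325)))) (.both (.play 392 (.both (.play 264 (.both (.play 519 (.both (.play 456 (.both (.play 455 (.ref 6 263)) (.play 579 (.ref 14 450)))) (.both (.ref 348 261) (.ref 243 451)))) (.play 265 (.ref 2 261)))) (.play 393 (.ref 0 325)))) (.play 519 (.both (.play 456 (.both (.play 520 (.both (.play 583 (.both (.play 392 (.ref 6 327)) (.play 584 (.ref 0 516)))) (.play 457 (.ref 2 453)))) (.play 455 (.ref 2 452)))) (.both (.ref 243 451) (.play 580 (.both (.play 452 (.both (.play 451 (.ref 3 451)) (.play 644 (.both (.ref 424 451) (.both (.play 645 (.both (.play 643 (.both (.play 707 (.ref 6 451)) (.play 583 (.both (.play 584 (.ref 0 516)) (.play 582 (.ref 19 579)))))) (.play 709 (.ref 4 452)))) (.ref 224 452)))))) (.play 579 (.ref 1 515)))))))))))) (.both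 (.ref 195 258) (.both (.play 392 (.both (.play 264 (.both (.play 519 (.both (.play 517 (.both (.play 452 (.ref 203 259)) (.both (.play 452 (.ref 173 322)) (.play 580 (.ref 66 515))))) (.both (.play 456 (.both (.play 457 (.both (.play 517 (.ref 204 258)) (.play 521 (.ref 4 264)))) (.play 455 (.ref 6 263)))) (.both (.play 456 (.both (.play 521 (.both (.play 457 (.ref 4 264)) (.play 520 (.both (.play 581 (.both (.play 517 (.both (.play 452 (.both (.play 388 (.ref 4 324)) (.play 453 (.ref 3 452)))) (.play 580 (.ref 1 516)))) (.play 582 (.ref 1 517)))) (.play 585 (.ref 4 328)))))) (.play 455 (.ref 6 263)))) (.both (.play 456 (.both (.play 520 (.both (.ref 551 261) (.play 583 (.ref 6 327)))) (.play 455 (.ref 6 263)))) (.play 456 (.ref 55 263))))))) (.play 265 (.ref 2 261)))) (.play 393 (.ref 0 325)))) (.both (.play 388 (.both (.play 452 (.both (.play 261 (.ref 5 260)) (.play 517 (.ref 550 323)))) (.play 387 (.ref 1 323)))) (.both (.play 388 (.both (.play 452 (.both (.play 261 (.ref 5 260)) (.play 517 (.ref 549 323))))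 (.play 387 (.ref 1 323)))) (.play 392 (.both (.play 388 (.both (.play 452 (.both (.play 261 (.ref 5 260)) (.play 517 (.ref 548 323)))) (.play 387 (.ref 1 323)))) (.play 393 (.ref 0 325))))))))))) (.both (.play 519 (.both (.play 387 (.both (.play 323 (.both (.play 258 (.both (.play 322 (.both (.play 257 (.ref 3 257)) (.play 392 (.ref 90 261)))) (.play 259 (.ref 3 258)))) (.play 386 (.ref 1 322)))) (.play 388 (.ref 1 323)))) (.both (.play 454 (.ref 240 261)) (.play 454 (.both (.play 261 (.ref 7 261)) (.ref 544 261)))))) (.both (.play 454 (.both (.ref 546 257) (.play 261 (.ref 7 261)))) (.both (.play 454 (.both (.ref 546 257) (.both (.play 519 (.both (.ref 544 261) (.play 583 (.ref 4 326)))) (.play 583 (.ref 17 325))))) (.play 454 (.ref 543 261)))))))))))))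
 (.seq (.one (.play 195 (.both (.play 259 (.ref 4 2)) (.play 196 (.ref 3 128)))))
 (.one (.play 258 (.both (.play 194 (.both (.play 3 (.ref 6 2)) (.play 193 (.both (.ref 582 65) (.play 192 (.ref 2 128)))))) (.play 322 (.ref 6 66)))))))
 (.seq (.one (.both (.play 2 (.ref 5 1)) (.play 67 (.ref 1 64))))
 (.seq (.one (.play 1 (.both (.play 0 (.ref 3 0)) (.play 69 (.both (.play 2 (.ref 3 1)) (.play 5 (.ref 2 2)))))))
 (.one (.both (.play 69 (.both (.play 5 (.ref 2 2)) (.play 130 (.ref 2 65)))) (.play 128 (.ref 1 64))))))))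
 (.seq (.seq (.seq (.one (.play 65 (.both (.play 194 (.both (.play 258 (.ref 256 1)) (.ref 419 64))) (.play 64 (.ref 3 64)))))
 (.seq (.one (.play 193 (.both (.ref 587 0) (.play 192 (.ref 1 128)))))
 (.one (.play 129 (.both (.play 132 (.both (.ref 588 0) (.both (.play 193 (.ref 586 64)) (.ref 585 64)))) (.play 128 (.ref 0 128)))))))
 (.seq (.one (.both (.play 3 (.ref 2 0)) (.play 68 (.ref 2 1))))
 (.seq (.one (.play 64 (.both (.play 0 (.ref 4 0)) (.play 1 (.ref 5 0)))))
 (.one (.play 129 (.both (.play 130 (.both (.play 323 (.both (.play 68 (.both (.play 322 (.both (.play 131 (.both (.ref 591 3) (.play 386 (.ref 6 130)))) (.both (.play 258 (.both (.play 67 (.both (.play 131 (.ref 6 66)) (.ref 338 128))) (.play 65 (.ref 7 65)))) (.play 258 (.ref 534 65))))) (.play 132 (.ref 6 67)))) (.play 387 (.ref 7 130)))) (.play 197 (.ref 3 129)))) (.play 128 (.ref 3 128))))))))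
 (.seq (.seq (.one (.play 129 (.both (.play 130 (.both (.ref 419 0) (.play 69 (.ref 2 65)))) (.play 128 (.ref 1 64)))))
 (.seq (.one (.play 129 (.both (.play 193 (.both (.ref 477 0) (.play 257 (.ref 5 1)))) (.play 128 (.ref 1 64)))))
 (.one (.play 65 (.both (.play 66 (.both (.play 259 (.both (.play 4 (.both (.play 68 (.ref 6 3)) (.ref 594 64))) (.play 323 (.ref 7 66)))) (.play 133 (.ref 3 65)))) (.play 64 (.ref 3 64)))))))
 (.seq (.seq (.one (.play 65 (.both (.play 258 (.ref 256 1)) (.play 64 (.ref 3 64)))))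
 (.one (.both (.ref 596 0) (.play 133 (.ref 2 129)))))
 (.seq (.one (.play 193 (.both (.play 194 (.ref 597 0)) (.play 192 (.ref 1 128)))))
 (.one (.both (.play 67 (.ref 335 2)) (.play 132 (.ref 2 128))))))))))))
 (.seq (.seq (.seq (.seq (.seq (.seq (.seq (.one (.both (.play 3 (.ref 5 2)) (.ref 582 64)))
 (.seq (.one (.both (.ref 338 0) (.play 259 (.ref 7 2))))
 (.one (.play 65 (.both (.play 1 (.ref 4 1)) (.play 320 (.ref 15 64)))))))
 (.seq (.one (.play 258 (.both (.play 194 (.both (.play 3 (.ref 6 2)) (.ref 401 64))) (.play 322 (.ref 6 66)))))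
 (.seq (.one (.both (.play 68 (.ref 6 3)) (.play 323 (.both (.ref 603 64) (.play 387 (.ref 5 131))))))
 (.one (.both (.ref 537 0) (.play 321 (.ref 6 65)))))))
 (.seq (.seq (.one (.play 194 (.both (.play 193 (.both (.play 196 (.both (.play 132 (.ref 599 1)) (.both (.ref 595 64) (.both (.ref 585 128) (.play 133 (.ref 590 129)))))) (.play 192 (.ref 0 192)))) (.both (.play 196 (.both (.play 323 (.both (.play 68 (.both (.play 258 (.both (.play 131 (.both (.play 67 (.ref 349 2)) (.both (.ref 591 3) (.play 322 (.both (.play 321 (.both (.play 130 (.ref 605 64)) (.play 320 (.ref 2 256)))) (.play 386 (.ref 6 130))))))) (.play 257 (.ref 86 192)))) (.play 132 (.ref 6 67)))) (.both (.play 68 (.ref 604 64)) (.play 387 (.ref 91 130))))) (.both (.play 258 (.both (.play 133 (.both (.play 131 (.both (.play 67 (.ref 349 2)) (.play 132 (.ref 1 130)))) (.play 197 (.ref 2 130)))) (.both (.play 257 (.both (.play 321 (.both (.play 385 (.both (.play 322 (.both (.play 131 (.ref 126 66)) (.play 130 (.ref 6 129)))) (.play 449 (.ref 5 193))))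 (.play 320 (.ref 1 256)))) (.play 256 (.ref 2 192)))) (.play 257 (.ref 86 192))))) (.both (.play 323 (.both (.play 132 (.both (.play 131 (.both (.ref 602 2) (.play 133 (.ref 1 130)))) (.play 68 (.ref 6 67)))) (.play 387 (.ref 91 130)))) (.both (.play 197 (.both (.play 258 (.both (.play 130 (.both (.play 323 (.both (.play 322 (.both (.play 131 (.ref 335 66)) (.ref 338 128))) (.play 387 (.ref 7 130)))) (.play 129 (.ref 3 129)))) (.play 257 (.ref 2 193)))) (.play 133 (.ref 2 130)))) (.both (.play 133 (.both (.play 132 (.both (.play 323 (.ref 126 67)) (.play 131 (.ref 1 130)))) (.play 197 (.ref 2 130)))) (.play 258 (.both (.play 197 (.both (.play 130 (.both (.play 322 (.both (.play 323 (.ref 601 128)) (.both (.ref 414 129) (.play 386 (.both (.play 387 (.both (.play 323 (.ref 7 130)) (.play 451 (.ref 4 194)))) (.play 450 (.ref 5 194))))))) (.play 129 (.ref 3 129)))) (.play 133 (.ref 2 130)))) (.both (.play 257 (.both (.play 321 (.both (.play 385 (.both (.play 322 (.both (.play 130 (.ref 6 129)) (.play 386 (.both (.play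 387 (.both (.play 323 (.ref 600 129)) (.play 451 (.ref 4 194)))) (.play 450 (.ref 5 194)))))) (.play 449 (.ref 5 193)))) (.play 320 (.ref 1 256)))) (.play 256 (.ref 2 192)))) (.play 257 (.ref 86 192))))))))))) (.both (.play 193 (.both (.play 196 (.both (.play 132 (.ref 599 1)) (.both (.ref 598 64) (.play 133 (.ref 590 129))))) (.play 192 (.ref 0 192)))) (.both (.play 193 (.both (.play 196 (.both (.play 132 (.ref 599 1)) (.both (.ref 593 128) (.play 133 (.ref 590 129))))) (.play 192 (.ref 0 192)))) (.both (.play 193 (.both (.play 196 (.both (.ref 592 0) (.both (.ref 598 64) (.both (.ref 588 64) (.both (.ref 595 64) (.ref 593 128)))))) (.play 192 (.ref 0 192)))) (.both (.play 193 (.both (.play 196 (.both (.ref 592 0) (.both (.ref 264 65) (.both (.ref 585 128) (.play 133 (.ref 590 129)))))) (.play 192 (.ref 0 192)))) (.both (.ref 589 64) (.play 193 (.both (.play 323 (.both (.play 131 (.both (.play 322 (.both (.play 258 (.both (.play 67 (.ref 6 66)) (.play 321 (.both (.play 385 (.ref 442 129)) (.play 320 (.ref 2 256))))))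 (.play 386 (.ref 6 130)))) (.play 132 (.ref 584 66)))) (.both (.play 387 (.both (.ref 583 128) (.both (.ref 271 194) (.ref 103 194)))) (.both (.play 387 (.both (.ref 583 128) (.play 130 (.ref 7 130)))) (.play 387 (.ref 227 130)))))) (.play 192 (.ref 0 192)))))))))))))
 (.seq (.one (.play 65 (.both (.play 129 (.ref 586 0)) (.play 64 (.ref 0 64)))))
 (.one (.play 66 (.both (.ref 607 0) (.play 2 (.ref 7 2)))))))
 (.seq (.one (.play 68 (.both (.ref 608 0) (.play 4 (.ref 5 3)))))
 (.seq (.one (.play 259 (.both (.ref 609 0) (.both (.play 66 (.ref 227 2)) (.play 68 (.ref 18 3))))))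
 (.one (.play 257 (.both (.play 130 (.ref 6 1)) (.play 256 (.ref 1 192)))))))))
 (.seq (.seq (.seq (.one (.play 70 (.both (.play 6 (.ref 2 3)) (.play 131 (.both (.play 259 (.both (.play 261 (.both (.play 262 (.both (.play 258 (.both (.ref 611 65) (.both (.play 193 (.ref 102 192)) (.play 194 (.ref 10 193))))) (.both (.play 195 (.ref 30 194)) (.ref 78 195)))) (.play 325 (.ref 4 68)))) (.play 323 (.ref 6 67)))) (.play 130 (.ref 2 66)))))))
 (.seq (.one (.both (.play 129 (.ref 7 0)) (.play 128 (.ref 4 0))))
 (.one (.play 68 (.both (.play 1 (.ref 3 0)) (.ref 78 1))))))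
 (.seq (.one (.play 67 (.both (.play 3 (.ref 6 2)) (.play 68 (.ref 2 64)))))
 (.seq (.one (.both (.play 1 (.ref 4 1)) (.play 320 (.ref 5 64))))
 (.one (.play 257 (.both (.play 66 (.ref 616 1)) (.play 256 (.ref 1 192))))))))
 (.seq (.seq (.one (.play 192 (.both (.play 256 (.ref 77 0)) (.play 194 (.ref 2 128)))))
 (.seq (.one (.both (.ref 617 0) (.play 197 (.ref 3 129))))
 (.one (.play 129 (.both (.play 130 (.ref 619 0)) (.play 128 (.ref 3 128)))))))
 (.seq (.one (.play 256 (.both (.play 192 (.ref 6 0)) (.play 257 (.both (.play 320 (.ref 6 64)) (.play 321 (.ref 36 65)))))))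
 (.seq (.one (.both (.ref 57 0) (.both (.ref 28 1) (.both (.play 320 (.ref 55 64)) (.ref 621 64)))))
 (.one (.both (.play 321 (.both (.play 68 (.both (.play 129 (.both (.ref 52 0) (.both (.play 322 (.ref 49 65)) (.play 385 (.ref 622 128))))) (.play 132 (.ref 6 67)))) (.play 320 (.ref 1 256)))) (.play 197 (.ref 2 193)))))))))
 (.seq (.seq (.seq (.seq (.one (.play 195 (.both (.ref 338 0) (.play 259 (.ref 4 2)))))
 (.seq (.one (.play 257 (.both (.play 64 (.ref 7 0)) (.play 322 (.ref 4 65)))))
 (.one (.play 258 (.both (.ref 625 0) (.play 194 (.ref 4 1)))))))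
 (.seq (.one (.play 64 (.both (.play 0 (.ref 7 0)) (.ref 626 64))))
 (.seq (.one (.play 259 (.both (.play 257 (.both (.play 195 (.ref 114 0)) (.play 321 (.ref 6 65)))) (.play 323 (.ref 4 66)))))
 (.one (.play 320 (.both (.play 129 (.ref 406 0)) (.play 322 (.ref 2 256))))))))
 (.seq (.seq (.one (.play 260 (.both (.play 198 (.ref 623 2)) (.both (.play 258 (.both (.play 324 (.both (.play 388 (.ref 431 67)) (.play 257 (.ref 0 257)))) (.both (.ref 24 256) (.ref 23 257)))) (.play 198 (.ref 86 194))))))
 (.seq (.one (.play 194 (.both (.play 257 (.both (.play 68 (.both (.play 130 (.both (.play 66 (.ref 616 1)) (.play 69 (.ref 2 65)))) (.play 4 (.ref 6 3)))) (.play 256 (.ref 1 192)))) (.play 133 (.ref 2 129)))))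
 (.one (.both (.ref 615 1) (.play 192 (.ref 1 128))))))
 (.seq (.one (.play 65 (.both (.play 257 (.both (.play 66 (.ref 18 1)) (.ref 501 64))) (.play 64 (.ref 3 64)))))
 (.seq (.one (.play 259 (.both (.play 195 (.both (.play 2 (.ref 4 2)) (.ref 338 64))) (.play 323 (.ref 4 66)))))
 (.one (.play 130 (.both (.play 132 (.ref 632 0)) (.play 66 (.ref 5 65)))))))))
 (.seq (.seq (.seq (.one (.play 68 (.both (.play 69 (.ref 3 1)) (.play 128 (.ref 1 64)))))
 (.seq (.one (.play 325 (.both (.play 195 (.both (.play 259 (.both (.ref 630 0) (.both (.play 323 (.both (.ref 629 2) (.both (.play 131 (.both (.play 322 (.ref 379 2)) (.both (.play 132 (.both (.play 68 (.ref 5 67)) (.play 196 (.both (.ref 636 130) (.play 387 (.ref 5 131)))))) (.play 132 (.both (.play 68 (.ref 5 67)) (.play 196 (.both (.play 198 (.ref 30 130)) (.play 387 (.ref 5 131))))))))) (.both (.play 387 (.both (.ref 635 66) (.ref 628 129))) (.both (.play 322 (.both (.play 387 (.both (.ref 635 66) (.play 450 (.ref 55 194)))) (.play 324 (.ref 2 258)))) (.both (.ref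 618 130) (.ref 466 130))))))) (.both (.play 323 (.both (.ref 629 2) (.both (.play 322 (.both (.play 131 (.ref 406 2)) (.play 260 (.ref 1 258)))) (.both (.play 387 (.both (.ref 634 129) (.both (.play 196 (.ref 45 130)) (.play 196 (.ref 37 131))))) (.play 322 (.ref 291 258)))))) (.both (.play 198 (.both (.play 260 (.both (.play 134 (.both (.play 196 (.both (.ref 518 2) (.play 135 (.ref 2 131)))) (.play 70 (.ref 6 69)))) (.play 199 (.ref 2 195)))) (.both (.play 196 (.ref 632 66)) (.play 260 (.ref 86 194))))) (.both (.play 198 (.both (.play 260 (.ref 623 2)) (.both (.play 134 (.both (.play 196 (.both (.play 131 (.both (.play 132 (.both (.play 68 (.ref 616 3)) (.play 199 (.ref 3 131)))) (.play 130 (.ref 3 130)))) (.play 135 (.ref 2 131)))) (.play 70 (.ref 6 69)))) (.both (.ref 631 66) (.both (.play 134 (.both (.play 196 (.both (.ref 633 66) (.play 135 (.ref 2 131)))) (.play 70 (.ref 6 69)))) (.both (.play 260 (.both (.play 323 (.both (.play 134 (.both (.play 196 (.both (.ref 596 66) (.play 135 (.ref 2 131)))) (.play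 70 (.ref 6 69)))) (.play 322 (.ref 1 258)))) (.play 199 (.ref 2 195)))) (.play 199 (.both (.play 196 (.both (.play 131 (.ref 10 130)) (.play 135 (.ref 2 132)))) (.play 260 (.ref 2 195)))))))))) (.play 198 (.both (.play 196 (.ref 632 66)) (.both (.ref 631 66) (.play 260 (.ref 86 194))))))))))) (.both (.play 259 (.both (.ref 630 0) (.both (.play 323 (.both (.ref 629 2) (.both (.play 387 (.both (.play 386 (.both (.play 131 (.both (.play 452 (.both (.play 451 (.both (.ref 52 2) (.play 516 (.ref 4 259)))) (.play 388 (.ref 4 195)))) (.play 322 (.ref 6 130)))) (.play 450 (.ref 6 194)))) (.both (.play 386 (.ref 379 66)) (.both (.play 194 (.ref 227 130)) (.play 386 (.both (.play 322 (.both (.play 131 (.ref 6 130)) (.play 452 (.both (.play 451 (.both (.play 258 (.ref 534 194)) (.play 516 (.ref 4 259)))) (.play 388 (.ref 4 195)))))) (.play 450 (.ref 6 194)))))))) (.both (.play 387 (.both (.play 388 (.ref 368 66)) (.both (.ref 628 129) (.play 194 (.ref 326 130))))) (.both (.play 324 (.both (.play 387 (.both (.play 194 (.ref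 326 130)) (.both (.ref 627 130) (.ref 624 193)))) (.play 322 (.ref 2 258)))) (.both (.ref 618 130) (.ref 466 130))))))) (.both (.play 260 (.both (.play 198 (.ref 623 2)) (.play 194 (.ref 3 194)))) (.play 260 (.ref 234 194)))))) (.both (.play 196 (.both (.play 198 (.both (.play 131 (.both (.play 132 (.both (.play 68 (.ref 430 4)) (.play 199 (.ref 3 131)))) (.play 130 (.ref 3 130)))) (.ref 615 67))) (.play 194 (.ref 0 194)))) (.both (.play 196 (.both (.play 198 (.both (.ref 620 2) (.ref 615 67))) (.play 194 (.ref 0 194)))) (.both (.play 194 (.both (.play 259 (.both (.play 323 (.both (.play 322 (.both (.play 131 (.ref 379 2)) (.play 324 (.ref 2 258)))) (.both (.play 322 (.both (.play 130 (.ref 399 66)) (.play 324 (.ref 2 258)))) (.both (.play 387 (.ref 326 130)) (.ref 618 130))))) (.play 260 (.ref 3 194)))) (.play 196 (.ref 0 194)))) (.play 196 (.both (.play 198 (.both (.play 259 (.both (.play 260 (.both (.ref 617 66) (.play 199 (.ref 2 195)))) (.play 258 (.ref 1 194)))) (.ref 615 67))) (.play 194 (.ref 0 194))))))))))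 (.both (.play 389 (.both (.play 198 (.both (.play 134 (.ref 5 133)) (.play 388 (.both (.play 390 (.both (.play 323 (.both (.play 387 (.both (.play 450 (.both (.play 386 (.both (.play 259 (.both (.play 195 (.ref 6 194)) (.play 260 (.ref 86 194)))) (.play 449 (.ref 1 385)))) (.play 451 (.ref 1 386)))) (.play 322 (.ref 3 322)))) (.both (.play 322 (.ref 263 322)) (.ref 614 323)))) (.play 454 (.ref 4 197)))) (.play 452 (.ref 6 196)))))) (.both (.play 198 (.ref 18 133)) (.play 452 (.ref 55 196))))) (.both (.play 389 (.both (.play 196 (.both (.play 388 (.both (.play 390 (.both (.play 195 (.both (.play 323 (.both (.play 324 (.both (.play 131 (.ref 613 131)) (.play 391 (.ref 3 323)))) (.both (.play 387 (.ref 173 193)) (.play 324 (.ref 216 322))))) (.play 194 (.ref 0 194)))) (.play 454 (.ref 4 197)))) (.play 452 (.ref 6 196)))) (.play 132 (.ref 7 132)))) (.both (.play 196 (.ref 326 132)) (.both (.play 196 (.ref 227 132)) (.play 452 (.ref 55 196)))))) (.both (.play 389 (.both (.play 198 (.both (.play 196 (.both (.ref 612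 129) (.play 132 (.ref 7 132)))) (.play 134 (.ref 5 133)))) (.both (.play 198 (.ref 18 133)) (.play 452 (.ref 55 196))))) (.both (.play 389 (.both (.ref 609 130) (.both (.play 196 (.ref 326 132)) (.play 198 (.ref 18 133))))) (.both (.ref 610 130) (.both (.play 389 (.both (.play 198 (.both (.play 196 (.both (.play 195 (.both (.play 390 (.both (.play 388 (.both (.play 131 (.both (.play 130 (.ref 3 130)) (.play 259 (.both (.play 323 (.both (.play 322 (.both (.play 386 (.ref 6 130)) (.play 387 (.ref 3 322)))) (.play 324 (.ref 4 131)))) (.play 258 (.ref 1 194)))))) (.play 452 (.ref 6 196)))) (.play 454 (.ref 4 197)))) (.play 194 (.ref 0 194)))) (.play 132 (.ref 7 132)))) (.play 134 (.ref 5 133)))) (.both (.play 198 (.ref 18 133)) (.play 452 (.ref 55 196))))) (.play 389 (.both (.play 198 (.both (.play 196 (.both (.play 195 (.both (.play 388 (.both (.play 390 (.both (.play 131 (.both (.play 130 (.ref 3 130)) (.play 324 (.both (.play 260 (.ref 7 131)) (.play 323 (.ref 216 322)))))) (.play 454 (.ref 4 197)))) (.play 452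 (.ref 6 196)))) (.play 194 (.ref 0 194)))) (.play 132 (.ref 7 132)))) (.play 134 (.ref 5 133)))) (.both (.play 196 (.ref 326 132)) (.play 198 (.ref 18 133))))))))))))))
 (.one (.play 64 (.both (.play 0 (.ref 7 0)) (.play 3 (.ref 1 0)))))))
 (.seq (.one (.play 66 (.both (.play 2 (.ref 5 1)) (.play 321 (.both (.ref 638 64) (.play 130 (.ref 5 65)))))))
 (.seq (.one (.both (.play 4 (.ref 71 0)) (.play 128 (.ref 1 64))))
 (.one (.play 256 (.both (.play 192 (.ref 6 0)) (.play 257 (.both (.play 66 (.ref 18 1)) (.play 320 (.ref 6 64))))))))))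
 (.seq (.seq (.one (.play 64 (.both (.play 0 (.ref 7 0)) (.play 321 (.both (.play 128 (.ref 7 64)) (.play 130 (.ref 18 65)))))))
 (.seq (.one (.play 321 (.both (.play 320 (.ref 379 0)) (.both (.ref 642 64) (.ref 641 128)))))
 (.one (.both (.play 0 (.ref 7 0)) (.play 131 (.ref 3 64))))))
 (.seq (.seq (.one (.play 64 (.both (.play 65 (.ref 644 0)) (.play 128 (.ref 7 64)))))
 (.one (.play 130 (.both (.ref 645 0) (.play 66 (.ref 5 65))))))
 (.seq (.one (.play 257 (.both (.play 64 (.ref 7 0)) (.ref 224 65))))
 (.one (.play 64 (.both (.play 0 (.ref 7 0)) (.ref 647 64))))))))))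
 (.seq (.seq (.seq (.seq (.seq (.one (.play 1 (.both (.play 0 (.ref 0 0)) (.ref 271 2))))
 (.seq (.one (.play 130 (.both (.play 385 (.both (.ref 645 0) (.play 194 (.ref 5 129)))) (.play 66 (.ref 5 65)))))
 (.one (.play 67 (.both (.play 3 (.ref 0 0)) (.play 66 (.ref 3 0)))))))
 (.seq (.one (.play 64 (.both (.play 0 (.ref 7 0)) (.play 66 (.both (.play 2 (.ref 5 1)) (.ref 651 64))))))
 (.seq (.one (.both (.play 66 (.ref 46 1)) (.play 320 (.ref 15 64))))
 (.one (.both (.ref 396 1) (.play 320 (.ref 6 128)))))))
 (.seq (.seq (.one (.play 384 (.both (.play 129 (.ref 654 0)) (.play 448 (.ref 6 192)))))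
 (.seq (.one (.play 385 (.both (.ref 655 0) (.both (.play 384 (.ref 379 64)) (.ref 648 128)))))
 (.one (.play 64 (.both (.play 0 (.ref 7 0)) (.play 130 (.both (.play 66 (.ref 18 1)) (.play 131 (.ref 3 64)))))))))
 (.seq (.one (.play 130 (.both (.play 66 (.ref 18 1)) (.play 131 (.ref 1 128)))))
 (.seq (.one (.play 131 (.both (.play 322 (.ref 379 2)) (.both (.play 322 (.both (.play 258 (.both (.play 257 (.both (.ref 658 66) (.play 256 (.ref 0 256)))) (.play 67 (.ref 6 66)))) (.play 386 (.ref 6 130)))) (.ref 657 66)))))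
 (.one (.play 193 (.both (.ref 633 0) (.play 192 (.ref 1 128)))))))))
 (.seq (.seq (.seq (.one (.play 257 (.both (.play 0 (.ref 7 0)) (.ref 424 64))))
 (.seq (.one (.play 257 (.both (.play 129 (.ref 91 0)) (.play 2 (.ref 6 1)))))
 (.one (.play 128 (.both (.play 0 (.ref 4 0)) (.play 256 (.ref 5 0)))))))
 (.seq (.one (.both (.play 129 (.ref 6 0)) (.play 128 (.ref 5 0))))
 (.seq (.one (.play 193 (.both (.play 257 (.ref 664 1)) (.play 192 (.ref 2 128)))))
 (.one (.play 64 (.both (.play 0 (.ref 4 0)) (.play 129 (.ref 7 64))))))))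
 (.seq (.seq (.one (.play 66 (.both (.play 2 (.ref 7 2)) (.ref 392 64))))
 (.seq (.one (.both (.play 129 (.ref 7 0)) (.play 2 (.ref 6 1))))
 (.one (.play 259 (.both (.ref 603 0) (.play 323 (.ref 225 66)))))))
 (.seq (.seq (.one (.play 194 (.both (.play 65 (.both (.play 1 (.ref 7 1)) (.play 132 (.ref 216 64)))) (.play 321 (.ref 6 65)))))
 (.one (.play 194 (.both (.play 1 (.ref 4 1)) (.play 195 (.ref 2 128))))))
 (.seq (.one (.play 1 (.both (.play 256 (.ref 6 0)) (.play 194 (.ref 4 1)))))
 (.one (.both (.play 193 (.ref 74 1)) (.play 128 (.ref 1 64)))))))))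
 (.seq (.seq (.seq (.seq (.one (.play 321 (.both (.play 193 (.both (.play 194 (.ref 357 1)) (.play 385 (.ref 7 128)))) (.play 256 (.ref 4 64)))))
 (.seq (.one (.both (.play 2 (.ref 5 1)) (.play 321 (.ref 7 64))))
 (.one (.play 194 (.both (.play 258 (.ref 6 2)) (.play 193 (.ref 86 128)))))))
 (.seq (.one (.play 197 (.both (.ref 676 0) (.play 261 (.ref 4 4)))))
 (.seq (.one (.play 258 (.both (.play 194 (.both (.play 3 (.ref 6 2)) (.play 193 (.ref 216 192)))) (.play 322 (.ref 6 66)))))
 (.one (.both (.ref 678 0) (.play 324 (.ref 4 67)))))))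
 (.seq (.seq (.one (.play 193 (.both (.play 0 (.ref 4 0)) (.play 2 (.ref 88 1)))))
 (.seq (.one (.both (.play 0 (.ref 7 0)) (.play 132 (.ref 3 64))))
 (.one (.play 65 (.both (.play 64 (.ref 681 0)) (.play 258 (.ref 4 65)))))))
 (.seq (.one (.play 192 (.both (.play 256 (.ref 77 0)) (.play 132 (.ref 1 128)))))
 (.seq (.one (.play 256 (.both (.play 192 (.ref 6 0)) (.play 257 (.ref 458 64)))))
 (.one (.play 129 (.both (.ref 52 0) (.both (.play 128 (.ref 326 64)) (.play 66 (.both (.play 130 (.ref 5 65)) (.ref 684 128)))))))))))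
 (.seq (.seq (.seq (.one (.play 193 (.both (.ref 685 0) (.both (.ref 683 128) (.both (.play 192 (.both (.play 385 (.ref 543 128)) (.play 260 (.ref 3 192)))) (.play 260 (.ref 504 192)))))))
 (.seq (.one (.play 258 (.both (.play 194 (.ref 4 1)) (.play 257 (.ref 222 64)))))
 (.one (.play 65 (.both (.play 5 (.ref 1 1)) (.play 64 (.ref 0 64)))))))
 (.seq (.one (.play 64 (.both (.play 65 (.ref 46 0)) (.play 321 (.ref 4 64)))))
 (.seq (.one (.play 259 (.both (.play 323 (.both (.play 195 (.both (.play 131 (.both (.ref 52 2) (.both (.play 324 (.ref 49 67)) (.ref 624 129)))) (.both (.ref 685 2) (.both (.play 387 (.both (.play 131 (.both (.ref 689 3) (.ref 47 66))) (.both (.play 386 (.ref 379 66)) (.ref 501 194)))) (.both (.play 131 (.both (.play 130 (.both (.play 194 (.both (.play 132 (.both (.play 68 (.ref 5 67)) (.ref 688 128))) (.play 387 (.ref 7 130)))) (.play 66 (.ref 7 66)))) (.play 324 (.ref 49 67)))) (.both (.play 324 (.both (.play 388 (.ref 256 131)) (.play 322 (.ref 341 257)))) (.play 387 (.both (.play 452 (.ref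 17 194)) (.both (.ref 501 194) (.both (.ref 687 194) (.play 452 (.both (.play 388 (.ref 4 195)) (.play 324 (.ref 673 258)))))))))))))) (.both (.ref 686 2) (.both (.play 387 (.both (.play 386 (.both (.play 195 (.both (.play 194 (.ref 681 130)) (.play 450 (.ref 6 194)))) (.play 324 (.ref 1 322)))) (.both (.play 324 (.both (.play 262 (.ref 597 130)) (.play 386 (.ref 1 322)))) (.both (.play 452 (.both (.play 451 (.both (.ref 682 130) (.play 516 (.ref 4 259)))) (.both (.play 388 (.ref 478 195)) (.both (.ref 680 195) (.play 451 (.ref 222 258)))))) (.both (.play 452 (.both (.play 451 (.ref 679 192)) (.both (.play 388 (.both (.play 389 (.both (.play 197 (.ref 6 196)) (.play 386 (.ref 2 322)))) (.play 195 (.ref 4 195)))) (.ref 674 195)))) (.play 452 (.both (.play 324 (.both (.play 262 (.both (.play 388 (.both (.play 197 (.ref 5 196)) (.play 451 (.both (.ref 677 256) (.play 515 (.ref 6 259)))))) (.play 263 (.ref 2 259)))) (.play 386 (.ref 1 322)))) (.both (.play 324 (.both (.play 388 (.ref 675 195)) (.play 386 (.ref 1 322))))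 (.both (.ref 674 195) (.play 324 (.ref 673 258))))))))))) (.play 262 (.ref 586 194)))))) (.play 258 (.ref 0 258)))))
 (.one (.both (.ref 537 0) (.play 322 (.ref 5 66)))))))
 (.seq (.seq (.one (.play 66 (.both (.play 2 (.ref 7 2)) (.play 65 (.ref 134 64)))))
 (.seq (.one (.play 129 (.both (.ref 692 0) (.play 130 (.ref 0 129)))))
 (.one (.play 65 (.both (.ref 591 0) (.play 129 (.ref 4 65)))))))
 (.seq (.seq (.one (.play 323 (.both (.play 131 (.both (.ref 490 2) (.both (.ref 694 3) (.play 132 (.both (.ref 693 64) (.play 68 (.ref 4 68))))))) (.both (.play 132 (.ref 616 67)) (.play 387 (.ref 691 129))))))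
 (.one (.both (.ref 666 0) (.play 385 (.ref 7 128)))))
 (.seq (.one (.play 261 (.both (.play 260 (.both (.play 197 (.both (.play 390 (.both (.play 196 (.both (.play 195 (.both (.play 131 (.both (.play 324 (.ref 696 3)) (.both (.play 130 (.ref 113 128)) (.play 388 (.both (.play 198 (.both (.play 130 (.ref 3 130)) (.play 389 (.both (.play 453 (.ref 6 197)) (.play 387 (.ref 2 323)))))) (.play 324 (.ref 7 131))))))) (.play 194 (.ref 0 194)))) (.both (.play 195 (.ref 216 194)) (.play 263 (.both (.ref 594 195) (.play 264 (.ref 3 196))))))) (.play 454 (.ref 7 197)))) (.both (.play 196 (.both (.ref 695 1) (.both (.play 263 (.ref 619 67)) (.play 263 (.ref 30 195))))) (.play 133 (.ref 478 69))))) (.play 259 (.ref 0 259)))) (.both (.ref 690 1) (.both (.play 390 (.both (.play 198 (.both (.ref 655 5) (.both (.play 389 (.ref 379 69)) (.both (.play 133 (.both (.play 134 (.both (.play 69 (.ref 7 69)) (.ref 672 69))) (.play 197 (.ref 7 133)))) (.both (.play 133 (.both (.play 134 (.both (.play 69 (.ref 7 69)) (.play 135 (.both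 (.play 389 (.both (.play 200 (.both (.ref 671 69) (.play 136 (.ref 0 133)))) (.play 453 (.ref 6 197)))) (.play 71 (.ref 5 70)))))) (.play 197 (.ref 7 133)))) (.play 389 (.both (.play 197 (.both (.play 388 (.both (.ref 670 131) (.play 387 (.ref 2 323)))) (.play 133 (.ref 7 133)))) (.play 453 (.ref 6 197))))))))) (.both (.ref 669 195) (.both (.play 454 (.ref 226 197)) (.both (.play 454 (.ref 326 197)) (.ref 661 197)))))) (.both (.play 260 (.both (.play 390 (.both (.play 198 (.both (.ref 655 5) (.both (.play 389 (.ref 379 69)) (.both (.play 133 (.both (.play 134 (.both (.play 69 (.ref 7 69)) (.play 263 (.both (.play 135 (.both (.play 71 (.ref 5 70)) (.play 200 (.both (.play 136 (.ref 0 133)) (.play 264 (.ref 2 197)))))) (.play 70 (.ref 4 70)))))) (.play 197 (.ref 7 133)))) (.play 389 (.both (.play 197 (.both (.play 133 (.ref 7 133)) (.ref 665 195))) (.play 453 (.ref 6 197)))))))) (.both (.ref 669 195) (.both (.play 454 (.ref 226 197)) (.both (.play 454 (.ref 326 197)) (.ref 661 197)))))) (.play 259 (.ref 0 259))))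 (.both (.play 260 (.both (.play 263 (.both (.play 324 (.both (.play 196 (.both (.play 132 (.both (.ref 52 3) (.both (.play 325 (.ref 49 68)) (.play 390 (.both (.play 133 (.both (.play 69 (.ref 5 68)) (.play 325 (.both (.play 389 (.ref 4 132)) (.play 197 (.ref 4 133)))))) (.both (.play 133 (.both (.play 69 (.ref 5 68)) (.play 454 (.both (.play 453 (.both (.play 389 (.ref 668 196)) (.play 517 (.ref 6 261)))) (.play 518 (.ref 5 262)))))) (.play 454 (.ref 91 197)))))))) (.play 195 (.ref 3 195)))) (.play 323 (.ref 1 259)))) (.both (.play 324 (.ref 586 195)) (.ref 585 195)))) (.play 259 (.ref 0 259)))) (.both (.play 260 (.both (.play 197 (.both (.play 133 (.both (.play 325 (.both (.play 324 (.both (.play 132 (.both (.play 68 (.ref 7 68)) (.play 196 (.ref 601 130)))) (.play 388 (.ref 6 132)))) (.both (.play 324 (.both (.play 134 (.both (.ref 667 66) (.play 70 (.ref 5 69)))) (.play 388 (.ref 6 132)))) (.both (.play 134 (.both (.play 70 (.ref 5 69)) (.play 389 (.both (.play 388 (.ref 15 132)) (.play 198 (.ref 6 133))))))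 (.play 134 (.both (.play 70 (.ref 5 69)) (.play 389 (.both (.play 196 (.ref 534 132)) (.play 198 (.ref 6 133)))))))))) (.play 69 (.ref 4 69)))) (.both (.play 133 (.ref 478 69)) (.both (.play 390 (.ref 431 69)) (.play 390 (.both (.play 389 (.both (.ref 665 195) (.both (.play 388 (.both (.play 453 (.both (.ref 663 196) (.play 198 (.ref 6 197)))) (.play 387 (.ref 2 323)))) (.ref 662 196)))) (.play 454 (.ref 7 197)))))))) (.play 259 (.ref 0 259)))) (.both (.play 390 (.both (.play 260 (.both (.play 197 (.both (.play 133 (.ref 430 69)) (.both (.ref 666 69) (.play 389 (.both (.ref 665 195) (.both (.play 453 (.both (.play 388 (.both (.ref 663 196) (.play 387 (.ref 2 323)))) (.play 198 (.ref 6 197)))) (.ref 662 196))))))) (.play 259 (.ref 0 259)))) (.both (.play 260 (.both (.play 454 (.both (.ref 583 195) (.play 518 (.ref 225 261)))) (.play 259 (.ref 0 259)))) (.both (.play 260 (.both (.ref 661 197) (.play 259 (.ref 0 259)))) (.play 454 (.ref 226 197)))))) (.both (.play 260 (.both (.play 263 (.both (.ref 660 131) (.both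 (.play 324 (.ref 586 195)) (.ref 585 195)))) (.play 259 (.ref 0 259)))) (.ref 589 131)))))))))))
 (.one (.play 257 (.both (.play 66 (.ref 6 1)) (.play 321 (.ref 7 64))))))))))))
 (.seq (.seq (.seq (.seq (.seq (.seq (.one (.play 64 (.both (.play 0 (.ref 7 0)) (.play 131 (.ref 0 64)))))
 (.seq (.one (.both (.ref 699 0) (.play 2 (.ref 5 1))))
 (.one (.play 258 (.both (.play 65 (.both (.play 66 (.ref 700 0)) (.play 1 (.ref 4 1)))) (.both (.play 322 (.ref 256 65)) (.ref 698 65)))))))
 (.seq (.one (.play 193 (.both (.play 196 (.both (.play 132 (.both (.play 68 (.both (.play 67 (.both (.play 257 (.both (.play 129 (.both (.ref 701 0) (.play 128 (.ref 3 128)))) (.play 256 (.ref 1 192)))) (.play 3 (.ref 7 3)))) (.play 4 (.ref 6 3)))) (.play 133 (.ref 2 129)))) (.both (.ref 598 64) (.play 133 (.ref 590 129))))) (.play 192 (.ref 0 192)))))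
 (.seq (.one (.play 257 (.both (.play 132 (.ref 599 1)) (.play 256 (.ref 1 192)))))
 (.one (.both (.play 64 (.ref 5 0)) (.play 129 (.ref 6 0)))))))
 (.seq (.seq (.one (.play 129 (.both (.play 65 (.both (.play 192 (.ref 467 0)) (.play 257 (.ref 6 64)))) (.both (.play 192 (.ref 468 0)) (.both (.play 257 (.ref 335 64)) (.play 384 (.ref 704 128)))))))
 (.seq (.one (.both (.play 130 (.ref 468 1)) (.play 195 (.ref 1 192))))
 (.one (.play 320 (.both (.play 65 (.both (.play 66 (.ref 584 0)) (.play 256 (.ref 6 64)))) (.play 384 (.ref 6 128)))))))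
 (.seq (.one (.play 66 (.both (.play 65 (.ref 584 0)) (.play 130 (.ref 5 65)))))
 (.seq (.one (.play 384 (.both (.play 129 (.both (.ref 367 0) (.play 320 (.ref 6 128)))) (.play 448 (.ref 6 192)))))
 (.one (.play 133 (.both (.play 130 (.both (.play 197 (.both (.play 196 (.ref 450 1)) (.play 198 (.ref 0 130)))) (.both (.ref 217 2) (.play 65 (.ref 102 64))))) (.play 134 (.ref 2 67)))))))))
 (.seq (.seq (.seq (.one (.play 196 (.both (.play 3 (.ref 4 3)) (.ref 676 64))))
 (.seq (.one (.both (.play 4 (.ref 2 0)) (.play 131 (.ref 6 2))))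
 (.one (.both (.play 258 (.both (.ref 518 0) (.play 197 (.ref 2 193)))) (.play 256 (.ref 1 192))))))
 (.seq (.one (.play 129 (.both (.play 65 (.both (.play 1 (.ref 6 0)) (.ref 658 0))) (.both (.play 320 (.ref 126 64)) (.play 384 (.both (.play 130 (.both (.play 321 (.both (.play 66 (.ref 5 65)) (.play 385 (.ref 26 192)))) (.play 131 (.ref 1 128)))) (.play 320 (.ref 5 128))))))))
 (.seq (.one (.both (.play 320 (.ref 379 0)) (.both (.play 322 (.ref 368 0)) (.play 386 (.ref 17 128)))))
 (.one (.play 259 (.both (.play 195 (.both (.play 2 (.ref 4 2)) (.play 196 (.both (.play 193 (.both (.play 132 (.ref 2 129)) (.play 260 (.ref 169 192)))) (.play 197 (.ref 2 130)))))) (.play 323 (.ref 4 66))))))))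
 (.seq (.seq (.one (.play 256 (.both (.play 65 (.ref 335 0)) (.play 449 (.ref 7 192)))))
 (.seq (.one (.play 192 (.both (.ref 717 0) (.play 128 (.ref 7 128)))))
 (.one (.play 385 (.both (.ref 718 0) (.both (.play 384 (.ref 15 128)) (.play 192 (.ref 326 128))))))))
 (.seq (.one (.play 259 (.both (.play 195 (.both (.play 2 (.ref 4 2)) (.play 257 (.both (.play 321 (.ref 6 65)) (.play 196 (.both (.play 197 (.ref 2 130)) (.play 256 (.ref 2 192)))))))) (.play 323 (.ref 4 66)))))
 (.seq (.one (.play 192 (.both (.play 130 (.both (.play 129 (.both (.ref 717 0) (.play 66 (.ref 5 65)))) (.play 194 (.ref 5 129)))) (.play 128 (.ref 7 128)))))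
 (.one (.play 193 (.both (.ref 721 0) (.both (.play 384 (.ref 379 64)) (.both (.play 384 (.ref 406 64)) (.play 192 (.ref 326 128))))))))))))
 (.seq (.seq (.seq (.seq (.one (.play 257 (.both (.play 193 (.both (.play 0 (.ref 4 0)) (.play 194 (.ref 1 192)))) (.play 321 (.ref 4 64)))))
 (.seq (.one (.play 322 (.both (.play 321 (.both (.ref 47 0) (.play 386 (.ref 4 129)))) (.play 258 (.ref 4 65)))))
 (.one (.play 65 (.both (.ref 665 0) (.play 64 (.ref 0 64)))))))
 (.seq (.one (.play 66 (.both (.play 2 (.ref 7 2)) (.play 130 (.both (.ref 725 64) (.play 323 (.ref 7 66)))))))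
 (.seq (.one (.play 258 (.both (.play 196 (.both (.ref 726 0) (.play 197 (.ref 1 194)))) (.play 322 (.ref 6 66)))))
 (.one (.play 258 (.both (.play 196 (.both (.play 260 (.both (.play 257 (.both (.play 193 (.both (.play 321 (.both (.play 66 (.both (.play 2 (.ref 7 2)) (.play 130 (.ref 704 65)))) (.play 320 (.ref 1 256)))) (.play 192 (.ref 3 192)))) (.play 256 (.ref 2 192)))) (.play 324 (.ref 4 67)))) (.play 197 (.ref 1 194)))) (.play 322 (.ref 6 66))))))))
 (.seq (.seq (.one (.play 128 (.both (.play 385 (.both (.play 66 (.both (.play 65 (.both (.play 2 (.ref 5 1)) (.play 68 (.both (.play 67 (.ref 1 64)) (.play 448 (.ref 55 192)))))) (.play 130 (.ref 5 65)))) (.play 192 (.ref 7 128)))) (.play 64 (.ref 7 64)))))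
 (.seq (.one (.play 320 (.both (.play 258 (.both (.ref 405 0) (.play 259 (.ref 1 256)))) (.play 384 (.ref 6 128)))))
 (.one (.both (.ref 58 0) (.play 320 (.ref 458 128))))))
 (.seq (.one (.play 259 (.both (.play 196 (.ref 6 3)) (.play 260 (.ref 0 192)))))
 (.seq (.one (.both (.play 64 (.ref 326 0)) (.play 322 (.ref 4 65))))
 (.one (.play 192 (.both (.play 1 (.ref 6 0)) (.play 385 (.ref 534 128)))))))))
 (.seq (.seq (.seq (.one (.play 256 (.both (.ref 734 0) (.play 320 (.ref 6 64)))))
 (.seq (.one (.both (.play 5 (.ref 2 1)) (.play 128 (.ref 1 64))))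
 (.one (.play 262 (.both (.play 260 (.both (.play 324 (.both (.play 388 (.both (.ref 722 3) (.both (.play 196 (.both (.ref 721 3) (.both (.play 389 (.ref 397 68)) (.play 195 (.ref 227 131))))) (.both (.play 196 (.both (.play 387 (.ref 379 67)) (.both (.play 389 (.ref 368 67)) (.play 389 (.both (.play 390 (.both (.play 387 (.both (.play 451 (.ref 6 195)) (.play 322 (.both (.play 386 (.both (.play 449 (.both (.play 385 (.ref 736 320)) (.play 450 (.ref 1 385)))) (.play 321 (.ref 3 321)))) (.play 323 (.ref 3 322)))))) (.play 391 (.ref 2 324)))) (.play 453 (.ref 4 196))))))) (.both (.play 452 (.both (.play 451 (.both (.play 196 (.both (.play 389 (.both (.play 391 (.both (.ref 396 68) (.play 390 (.ref 2 324)))) (.play 453 (.ref 4 196)))) (.play 387 (.ref 6 195)))) (.play 515 (.ref 6 259)))) (.both (.play 453 (.both (.play 196 (.both (.ref 735 131) (.play 389 (.ref 4 196)))) (.play 517 (.ref 4 260)))) (.both (.ref 720 194) (.both (.ref 470 195) (.both (.play 517 (.both (.play 516 (.ref 733 259)) (.play 453 (.ref 4 260))))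 (.ref 375 259))))))) (.both (.play 452 (.ref 715 131)) (.play 452 (.both (.play 259 (.ref 326 195)) (.both (.play 259 (.ref 227 195)) (.play 451 (.both (.play 453 (.both (.play 454 (.both (.play 391 (.both (.ref 732 259) (.play 390 (.ref 2 387)))) (.both (.play 390 (.ref 122 385)) (.play 387 (.ref 30 386))))) (.play 517 (.ref 4 260)))) (.play 515 (.ref 6 259))))))))))))) (.both (.play 196 (.both (.play 132 (.ref 731 3)) (.both (.play 388 (.both (.play 195 (.both (.play 259 (.both (.play 325 (.both (.play 258 (.both (.play 133 (.both (.play 132 (.ref 413 67)) (.play 197 (.ref 5 132)))) (.play 257 (.ref 0 257)))) (.play 326 (.ref 3 259)))) (.play 452 (.ref 7 195)))) (.play 131 (.ref 7 131)))) (.both (.play 387 (.ref 379 67)) (.both (.ref 730 67) (.both (.ref 729 67) (.ref 727 129)))))) (.both (.play 388 (.both (.play 387 (.ref 406 67)) (.both (.ref 723 132) (.play 451 (.ref 55 195))))) (.both (.play 388 (.both (.play 387 (.ref 379 67)) (.both (.play 387 (.ref 406 67)) (.play 195 (.ref 227 131))))) (.both (.play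 388 (.both (.ref 729 67) (.both (.play 195 (.both (.play 259 (.both (.play 325 (.both (.ref 689 68) (.play 326 (.ref 3 259)))) (.play 452 (.ref 7 195)))) (.play 131 (.ref 7 131)))) (.both (.play 195 (.ref 227 131)) (.ref 723 132))))) (.both (.play 388 (.both (.ref 728 129) (.both (.ref 727 129) (.both (.ref 724 131) (.play 453 (.ref 17 195)))))) (.play 388 (.both (.play 195 (.ref 326 131)) (.ref 723 132)))))))))) (.both (.play 388 (.both (.ref 722 3) (.both (.play 196 (.both (.play 387 (.ref 379 67)) (.both (.ref 58 67) (.play 387 (.both (.play 451 (.ref 6 195)) (.play 389 (.both (.play 453 (.ref 4 196)) (.play 390 (.ref 590 323))))))))) (.both (.play 452 (.both (.play 453 (.ref 368 131)) (.both (.ref 720 194) (.play 259 (.ref 326 195))))) (.both (.play 452 (.both (.play 195 (.both (.play 196 (.both (.play 389 (.both (.play 390 (.both (.play 387 (.both (.ref 512 130) (.play 326 (.ref 2 323)))) (.play 391 (.ref 2 324)))) (.play 453 (.ref 4 196)))) (.play 131 (.ref 7 131)))) (.play 259 (.ref 7 195)))) (.both (.play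 453 (.ref 368 131)) (.both (.ref 716 194) (.ref 377 195))))) (.both (.play 452 (.both (.ref 719 131) (.both (.ref 716 194) (.both (.ref 470 195) (.play 515 (.ref 55 259)))))) (.both (.play 452 (.ref 715 131)) (.play 452 (.both (.play 259 (.both (.play 451 (.both (.play 453 (.both (.play 454 (.both (.play 390 (.both (.play 326 (.ref 18 198)) (.play 391 (.ref 2 387)))) (.play 387 (.ref 30 386)))) (.play 517 (.ref 4 260)))) (.play 515 (.ref 6 259)))) (.play 195 (.ref 7 195)))) (.both (.play 259 (.ref 326 195)) (.both (.play 259 (.ref 227 195)) (.play 515 (.ref 55 259))))))))))))) (.both (.play 326 (.both (.ref 714 70) (.play 325 (.ref 152 259)))) (.both (.play 326 (.both (.ref 714 70) (.play 325 (.ref 101 259)))) (.play 326 (.both (.ref 714 70) (.play 325 (.ref 341 259)))))))))) (.play 261 (.ref 0 260)))) (.both (.play 261 (.both (.play 325 (.both (.ref 686 4) (.both (.play 264 (.ref 713 68)) (.both (.play 264 (.both (.play 326 (.both (.play 389 (.both (.play 197 (.both (.play 453 (.both (.play 133 (.both (.play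 134 (.both (.play 132 (.both (.play 68 (.ref 7 68)) (.play 135 (.both (.play 72 (.both (.play 71 (.ref 2 68)) (.play 136 (.ref 712 69)))) (.both (.play 71 (.both (.play 72 (.ref 2 68)) (.play 199 (.ref 4 71)))) (.play 200 (.both (.play 199 (.ref 0 132)) (.play 391 (.ref 126 135))))))))) (.play 70 (.ref 5 69)))) (.play 69 (.ref 4 69)))) (.play 517 (.ref 5 261)))) (.play 196 (.ref 3 196)))) (.play 388 (.ref 1 324)))) (.play 265 (.ref 2 261)))) (.play 324 (.ref 1 260)))) (.both (.play 389 (.both (.play 388 (.both (.play 452 (.ref 77 196)) (.both (.play 197 (.ref 458 196)) (.ref 710 257)))) (.both (.play 453 (.both (.play 454 (.both (.ref 711 194) (.play 518 (.ref 4 261)))) (.both (.play 454 (.both (.ref 680 197) (.play 518 (.ref 4 261)))) (.ref 44 260)))) (.both (.play 388 (.both (.play 452 (.ref 77 196)) (.play 326 (.ref 1 324)))) (.both (.ref 496 196) (.play 388 (.both (.ref 710 257) (.play 326 (.ref 1 324))))))))) (.play 264 (.both (.play 326 (.both (.play 389 (.both (.play 453 (.both (.play 454 (.both (.play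 390 (.both (.play 199 (.ref 5 198)) (.ref 677 258))) (.play 518 (.ref 4 261)))) (.play 517 (.ref 5 261)))) (.play 388 (.ref 1 324)))) (.play 265 (.ref 2 261)))) (.play 324 (.ref 1 260))))))))) (.play 260 (.ref 0 260)))) (.both (.ref 690 2) (.both (.play 391 (.both (.play 199 (.both (.ref 709 6) (.play 200 (.ref 584 134)))) (.both (.play 455 (.both (.ref 708 134) (.both (.play 264 (.ref 18 199)) (.ref 103 262)))) (.both (.play 455 (.both (.ref 707 134) (.both (.ref 271 262) (.ref 103 262)))) (.both (.play 455 (.both (.ref 707 134) (.both (.play 264 (.ref 18 199)) (.ref 424 262)))) (.both (.play 455 (.both (.play 264 (.both (.ref 612 195) (.play 200 (.ref 5 199)))) (.both (.ref 271 262) (.both (.play 519 (.ref 225 262)) (.ref 424 262))))) (.ref 669 196))))))) (.both (.play 261 (.both (.play 200 (.both (.play 199 (.ref 706 6)) (.both (.ref 705 7) (.both (.play 264 (.ref 599 69)) (.play 201 (.both (.play 264 (.ref 2 197)) (.play 199 (.ref 1 198)))))))) (.play 260 (.ref 0 260)))) (.both (.play 261 (.both (.play 264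 (.both (.ref 703 68) (.both (.ref 598 132) (.play 201 (.ref 590 197))))) (.play 260 (.ref 0 260)))) (.ref 702 68)))))))))))
 (.seq (.one (.play 65 (.both (.play 64 (.ref 326 0)) (.both (.play 66 (.ref 45 0)) (.ref 652 0)))))
 (.seq (.one (.play 321 (.both (.play 320 (.ref 379 0)) (.both (.ref 507 0) (.ref 641 128)))))
 (.one (.play 66 (.both (.play 67 (.ref 3 0)) (.play 257 (.ref 5 1))))))))
 (.seq (.seq (.one (.play 256 (.both (.play 192 (.ref 6 0)) (.play 257 (.both (.play 320 (.ref 6 64)) (.ref 224 65))))))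
 (.seq (.one (.both (.play 0 (.ref 7 0)) (.ref 741 64)))
 (.one (.play 68 (.both (.play 4 (.ref 5 3)) (.play 129 (.ref 160 64)))))))
 (.seq (.seq (.one (.both (.ref 743 0) (.play 2 (.ref 7 2))))
 (.one (.play 1 (.both (.play 0 (.ref 3 0)) (.play 193 (.ref 387 0))))))
 (.seq (.one (.both (.play 129 (.ref 14 0)) (.play 6 (.ref 2 2))))
 (.one (.both (.ref 615 0) (.play 196 (.ref 0 128))))))))))
 (.seq (.seq (.seq (.seq (.seq (.one (.both (.play 132 (.ref 747 1)) (.play 128 (.ref 0 128))))
 (.seq (.one (.play 65 (.both (.play 66 (.ref 415 0)) (.play 1 (.ref 4 1)))))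
 (.one (.play 129 (.both (.play 258 (.both (.ref 749 0) (.both (.play 322 (.ref 256 65)) (.play 322 (.both (.play 386 (.ref 7 129)) (.play 323 (.ref 3 257))))))) (.play 128 (.ref 3 128)))))))
 (.seq (.one (.play 257 (.both (.ref 750 0) (.play 256 (.ref 1 192)))))
 (.seq (.one (.play 129 (.both (.play 193 (.both (.play 257 (.ref 675 0)) (.play 194 (.ref 3 128)))) (.play 68 (.ref 1 64)))))
 (.one (.play 129 (.both (.ref 752 1) (.play 128 (.ref 1 64))))))))
 (.seq (.seq (.one (.both (.play 64 (.ref 2 0)) (.play 71 (.ref 3 3))))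
 (.seq (.one (.play 129 (.both (.play 65 (.both (.play 4 (.both (.play 3 (.ref 754 0)) (.play 5 (.ref 2 1)))) (.play 128 (.ref 1 64)))) (.play 130 (.ref 1 65)))))
 (.one (.play 66 (.both (.play 129 (.ref 14 0)) (.both (.ref 755 0) (.play 2 (.ref 10 1))))))))
 (.seq (.one (.play 195 (.both (.play 259 (.both (.ref 128 2) (.both (.ref 750 2) (.both (.ref 528 130) (.ref 752 131))))) (.both (.ref 751 2) (.both (.ref 756 128) (.both (.ref 529 130) (.ref 753 130)))))))
 (.seq (.one (.both (.play 4 (.ref 2 0)) (.play 258 (.ref 5 2))))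
 (.one (.play 1 (.both (.play 0 (.ref 3 0)) (.play 69 (.both (.play 2 (.ref 3 1)) (.play 6 (.ref 71 2)))))))))))
 (.seq (.seq (.seq (.one (.play 69 (.both (.play 5 (.ref 4 5)) (.ref 266 128))))
 (.seq (.one (.play 66 (.both (.ref 11 0) (.play 5 (.ref 2 2)))))
 (.one (.play 197 (.both (.play 196 (.both (.play 134 (.both (.play 70 (.both (.play 6 (.ref 4 6)) (.play 261 (.both (.play 325 (.ref 329 69)) (.both (.play 195 (.both (.ref 761 128) (.both (.ref 266 129) (.ref 23 194)))) (.play 325 (.both (.play 389 (.ref 5 133)) (.play 260 (.both (.play 259 (.ref 1 195)) (.play 326 (.ref 3 260))))))))))) (.play 391 (.ref 7 134)))) (.both (.play 134 (.both (.play 131 (.both (.play 195 (.both (.ref 760 1) (.play 130 (.ref 3 130)))) (.play 132 (.ref 3 131)))) (.play 391 (.ref 7 134)))) (.both (.play 259 (.ref 14 130)) (.play 391 (.both (.play 390 (.both (.play 389 (.both (.play 132 (.both (.play 325 (.both (.play 324 (.both (.play 260 (.ref 4 132)) (.play 323 (.ref 112 322)))) (.play 261 (.ref 7 132)))) (.play 131 (.ref 3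 131)))) (.play 388 (.ref 2 324)))) (.play 454 (.ref 6 198)))) (.play 134 (.ref 7 134)))))))) (.both (.ref 757 1) (.both (.play 134 (.both (.play 70 (.both (.play 6 (.ref 4 6)) (.ref 330 66))) (.play 391 (.ref 7 134)))) (.both (.play 391 (.both (.play 200 (.both (.play 390 (.both (.play 260 (.both (.play 196 (.both (.play 131 (.both (.play 195 (.both (.play 130 (.ref 3 130)) (.play 388 (.both (.play 324 (.ref 7 131)) (.play 389 (.ref 2 324)))))) (.play 132 (.ref 3 131)))) (.play 259 (.ref 1 195)))) (.play 261 (.ref 1 196)))) (.play 454 (.ref 6 198)))) (.play 136 (.ref 5 135)))) (.play 134 (.ref 7 134)))) (.both (.play 200 (.both (.play 260 (.ref 14 131)) (.play 136 (.ref 758 133)))) (.play 200 (.both (.ref 759 132) (.both (.play 133 (.both (.play 132 (.ref 3 132)) (.play 136 (.ref 758 133)))) (.play 391 (.ref 95 134))))))))))))))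
 (.seq (.one (.play 66 (.both (.play 130 (.both (.play 64 (.ref 644 0)) (.play 321 (.ref 5 65)))) (.play 2 (.ref 5 1)))))
 (.seq (.one (.play 129 (.both (.ref 367 0) (.both (.ref 396 1) (.ref 763 64)))))
 (.one (.play 65 (.both (.play 129 (.both (.play 69 (.both (.ref 73 2) (.play 130 (.ref 2 65)))) (.play 128 (.ref 1 64)))) (.play 64 (.ref 0 64))))))))
 (.seq (.seq (.one (.play 132 (.both (.play 68 (.both (.ref 765 0) (.play 4 (.ref 5 3)))) (.play 133 (.ref 3 66)))))
 (.seq (.one (.both (.ref 766 0) (.play 2 (.ref 7 2))))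
 (.one (.play 65 (.both (.play 66 (.ref 46 1)) (.play 320 (.ref 6 64)))))))
 (.seq (.seq (.one (.play 449 (.both (.play 448 (.both (.play 193 (.both (.ref 371 0) (.both (.play 129 (.both (.play 256 (.both (.ref 768 0) (.play 192 (.ref 7 192)))) (.play 322 (.ref 4 129)))) (.ref 47 128)))) (.play 512 (.ref 6 256)))) (.both (.ref 366 192) (.both (.ref 642 192) (.ref 641 256))))))
 (.one (.play 64 (.both (.play 0 (.ref 7 0)) (.play 130 (.both (.play 131 (.ref 3 64)) (.play 321 (.ref 225 64))))))))
 (.seq (.one (.play 194 (.both (.play 258 (.both (.play 259 (.both (.play 196 (.both (.play 195 (.both (.play 132 (.ref 599 1)) (.play 256 (.ref 2 192)))) (.play 197 (.ref 2 193)))) (.play 320 (.ref 1 256)))) (.play 449 (.ref 5 193)))) (.play 130 (.ref 5 129)))))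
 (.one (.play 129 (.both (.ref 52 0) (.both (.ref 385 0) (.ref 47 64))))))))))
 (.seq (.seq (.seq (.seq (.one (.play 195 (.both (.ref 772 2) (.both (.ref 771 2) (.both (.play 194 (.ref 767 128)) (.both (.ref 657 130) (.ref 770 130)))))))
 (.seq (.one (.play 66 (.both (.play 64 (.both (.play 0 (.ref 7 0)) (.play 67 (.ref 640 0)))) (.play 2 (.ref 5 1)))))
 (.one (.play 448 (.both (.play 193 (.both (.ref 371 0) (.play 384 (.ref 6 192)))) (.play 512 (.ref 6 256)))))))
 (.seq (.one (.play 449 (.both (.ref 775 0) (.both (.play 448 (.ref 379 128)) (.ref 642 192)))))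
 (.seq (.one (.play 64 (.both (.play 257 (.ref 7 0)) (.play 3 (.both (.play 67 (.ref 0 0)) (.play 4 (.ref 1 0)))))))
 (.one (.play 64 (.both (.play 0 (.ref 7 0)) (.play 66 (.both (.play 2 (.ref 5 1)) (.ref 777 64)))))))))
 (.seq (.seq (.one (.play 66 (.both (.play 2 (.ref 5 1)) (.play 130 (.both (.play 131 (.ref 504 64)) (.play 321 (.ref 5 65)))))))
 (.seq (.one (.play 66 (.both (.play 64 (.both (.play 0 (.ref 7 0)) (.ref 651 64))) (.play 2 (.ref 5 1)))))
 (.one (.play 65 (.both (.play 1 (.ref 6 0)) (.play 66 (.ref 46 1)))))))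
 (.seq (.one (.both (.play 321 (.both (.ref 47 0) (.play 130 (.ref 5 65)))) (.play 2 (.ref 5 1))))
 (.seq (.one (.play 129 (.both (.ref 367 0) (.both (.ref 396 1) (.play 130 (.ref 782 64))))))
 (.one (.play 130 (.both (.play 131 (.both (.play 322 (.both (.play 321 (.both (.ref 405 2) (.play 320 (.ref 0 320)))) (.play 386 (.ref 6 130)))) (.play 66 (.ref 7 66)))) (.play 194 (.ref 7 130)))))))))
 (.seq (.seq (.seq (.one (.play 195 (.both (.ref 784 0) (.both (.play 131 (.both (.play 322 (.ref 406 2)) (.play 324 (.ref 4 131)))) (.both (.ref 367 66) (.play 194 (.both (.play 130 (.ref 7 130)) (.play 260 (.both (.play 261 (.ref 3 194)) (.play 451 (.both (.play 258 (.ref 7 194)) (.ref 488 258))))))))))))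
 (.seq (.one (.both (.play 320 (.ref 379 0)) (.play 322 (.ref 4 129))))
 (.one (.play 65 (.both (.play 1 (.ref 4 1)) (.play 256 (.ref 6 64)))))))
 (.seq (.one (.play 196 (.both (.play 260 (.both (.play 322 (.both (.play 321 (.both (.play 131 (.both (.ref 787 2) (.play 386 (.ref 6 130)))) (.play 320 (.ref 0 320)))) (.play 261 (.ref 1 258)))) (.play 451 (.ref 5 195)))) (.play 132 (.ref 5 131)))))
 (.seq (.one (.play 194 (.both (.play 257 (.ref 311 0)) (.play 133 (.ref 2 129)))))
 (.one (.play 193 (.both (.ref 789 0) (.play 192 (.ref 1 128))))))))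
 (.seq (.seq (.one (.both (.play 1 (.ref 1 0)) (.play 66 (.ref 2 0))))
 (.seq (.one (.play 68 (.both (.play 4 (.ref 5 3)) (.play 129 (.ref 791 64)))))
 (.one (.play 129 (.both (.ref 792 1) (.play 128 (.ref 3 128)))))))
 (.seq (.seq (.one (.play 257 (.both (.play 258 (.both (.play 321 (.both (.ref 518 0) (.play 320 (.ref 1 256)))) (.play 197 (.ref 2 193)))) (.play 256 (.ref 1 192)))))
 (.one (.play 68 (.both (.ref 794 0) (.play 132 (.ref 6 67))))))
 (.seq (.one (.play 193 (.both (.play 257 (.ref 5 1)) (.play 192 (.ref 1 128)))))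
 (.one (.play 66 (.both (.play 2 (.ref 4 2)) (.ref 796 64))))))))))))))
 (.seq (.seq (.seq (.seq (.seq (.seq (.seq (.seq (.seq (.one (.play 132 (.both (.play 193 (.both (.ref 596 0) (.play 192 (.ref 2 128)))) (.play 68 (.ref 2 65)))))
 (.seq (.one (.play 193 (.both (.ref 501 0) (.play 257 (.ref 5 1)))))
 (.one (.play 131 (.both (.play 130 (.both (.play 66 (.ref 335 1)) (.play 129 (.ref 1 128)))) (.play 195 (.ref 2 128)))))))
 (.seq (.one (.play 129 (.both (.ref 340 0) (.play 128 (.ref 2 64)))))
 (.seq (.one (.play 66 (.both (.play 2 (.ref 5 1)) (.play 67 (.ref 0 64)))))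
 (.one (.both (.play 0 (.ref 7 0)) (.ref 802 0))))))
 (.seq (.seq (.one (.play 65 (.both (.play 64 (.ref 803 0)) (.play 1 (.ref 4 1)))))
 (.seq (.one (.both (.ref 743 0) (.play 323 (.ref 7 66))))
 (.one (.play 66 (.both (.play 130 (.ref 805 0)) (.play 2 (.ref 7 2)))))))
 (.seq (.one (.play 65 (.both (.play 1 (.ref 4 1)) (.play 64 (.ref 3 64)))))
 (.seq (.one (.both (.ref 807 0) (.play 133 (.ref 2 129))))
 (.one (.play 323 (.both (.play 322 (.both (.play 260 (.both (.play 196 (.both (.play 131 (.both (.play 132 (.both (.ref 405 3) (.play 67 (.ref 7 67)))) (.play 195 (.ref 7 131)))) (.both (.play 387 (.both (.play 195 (.both (.play 259 (.both (.play 261 (.both (.ref 537 129) (.play 262 (.ref 3 195)))) (.play 452 (.ref 7 195)))) (.play 131 (.ref 7 131)))) (.play 451 (.ref 6 195)))) (.play 387 (.ref 335 131))))) (.both (.play 196 (.both (.play 195 (.both (.play 261 (.both (.play 197 (.both (.play 194 (.both (.play 258 (.both (.play 259 (.ref 808 65)) (.play 257 (.ref 1 193)))) (.play 193 (.ref 0 193)))) (.play 133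 (.ref 5 132)))) (.play 262 (.ref 3 195)))) (.play 131 (.ref 7 131)))) (.play 387 (.ref 335 131)))) (.both (.play 261 (.ref 706 67)) (.both (.play 196 (.both (.ref 806 129) (.play 387 (.ref 335 131)))) (.play 261 (.both (.ref 535 195) (.play 262 (.ref 1 259))))))))) (.play 321 (.ref 0 321)))) (.both (.play 325 (.both (.ref 800 131) (.both (.play 452 (.both (.play 261 (.both (.play 260 (.both (.ref 490 131) (.play 262 (.ref 1 259)))) (.play 197 (.ref 6 196)))) (.both (.play 261 (.ref 126 196)) (.play 516 (.ref 91 259))))) (.both (.play 262 (.both (.play 260 (.both (.ref 804 131) (.play 261 (.ref 1 259)))) (.play 326 (.ref 2 259)))) (.both (.play 452 (.both (.play 197 (.both (.play 387 (.both (.play 259 (.both (.play 195 (.ref 4 195)) (.play 258 (.ref 113 256)))) (.both (.play 259 (.both (.play 195 (.ref 4 195)) (.ref 801 257))) (.play 386 (.ref 86 321))))) (.play 261 (.ref 6 196)))) (.both (.play 516 (.ref 91 259)) (.play 516 (.ref 18 260))))) (.ref 798 194)))))) (.both (.play 322 (.both (.play 325 (.both (.play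 258 (.both (.play 259 (.both (.play 195 (.ref 478 131)) (.play 326 (.ref 3 258)))) (.play 257 (.ref 3 257)))) (.both (.play 261 (.ref 599 130)) (.play 262 (.ref 590 258))))) (.play 321 (.ref 0 321)))) (.both (.play 325 (.both (.play 322 (.both (.play 261 (.ref 599 130)) (.play 321 (.ref 0 321)))) (.both (.play 322 (.both (.play 386 (.ref 713 129)) (.play 321 (.ref 0 321)))) (.both (.ref 800 131) (.play 322 (.both (.play 262 (.ref 590 258)) (.play 321 (.ref 0 321)))))))) (.both (.play 325 (.both (.play 322 (.both (.play 386 (.both (.play 258 (.both (.play 259 (.both (.play 195 (.ref 616 130)) (.both (.play 195 (.ref 478 131)) (.ref 799 257)))) (.play 257 (.ref 3 257)))) (.play 385 (.ref 1 321)))) (.play 321 (.ref 0 321)))) (.both (.ref 798 194) (.both (.ref 607 257) (.play 322 (.both (.ref 585 257) (.play 321 (.ref 0 321)))))))) (.both (.play 452 (.both (.play 322 (.both (.play 325 (.both (.ref 795 129) (.both (.play 197 (.both (.play 258 (.both (.play 259 (.both (.ref 666 131) (.play 326 (.ref 3 258)))) (.play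 257 (.ref 3 257)))) (.play 261 (.ref 6 196)))) (.both (.play 386 (.both (.play 387 (.both (.ref 797 193) (.play 326 (.ref 2 322)))) (.play 385 (.ref 1 321)))) (.play 386 (.both (.play 197 (.both (.play 258 (.both (.play 259 (.both (.play 195 (.ref 398 195)) (.play 450 (.both (.play 449 (.both (.play 513 (.ref 6 257)) (.play 451 (.ref 2 385)))) (.play 514 (.ref 5 258)))))) (.play 257 (.ref 3 257)))) (.play 261 (.ref 6 196)))) (.play 385 (.ref 1 321)))))))) (.play 321 (.ref 0 321)))) (.both (.play 322 (.both (.play 325 (.both (.ref 795 129) (.both (.play 516 (.both (.ref 794 129) (.play 580 (.ref 5 324)))) (.play 516 (.ref 18 260))))) (.play 321 (.ref 0 321)))) (.both (.play 322 (.both (.play 259 (.ref 399 195)) (.play 321 (.ref 0 321)))) (.both (.play 322 (.both (.play 516 (.both (.play 259 (.ref 7 259)) (.play 325 (.ref 18 260)))) (.play 321 (.ref 0 321)))) (.play 516 (.ref 226 259))))))) (.both (.play 322 (.both (.play 325 (.both (.play 261 (.both (.play 197 (.both (.play 196 (.both (.play 386 (.both (.ref 793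 129) (.play 385 (.ref 1 321)))) (.play 132 (.ref 7 132)))) (.play 133 (.ref 6 132)))) (.play 262 (.ref 2 258)))) (.both (.ref 790 193) (.play 262 (.ref 590 258))))) (.play 321 (.ref 0 321)))) (.play 322 (.both (.play 325 (.both (.ref 790 193) (.both (.ref 264 194) (.play 262 (.ref 590 258))))) (.play 321 (.ref 0 321)))))))))))))))))
 (.seq (.seq (.seq (.one (.play 193 (.both (.play 192 (.ref 4 0)) (.play 129 (.ref 7 0)))))
 (.seq (.one (.play 1 (.both (.play 0 (.ref 3 0)) (.ref 810 1))))
 (.one (.play 192 (.both (.play 256 (.ref 383 0)) (.play 128 (.ref 7 128)))))))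
 (.seq (.one (.play 386 (.both (.play 385 (.both (.ref 812 0) (.play 450 (.ref 4 193)))) (.play 322 (.ref 4 129)))))
 (.seq (.one (.play 321 (.both (.ref 813 0) (.play 130 (.ref 5 65)))))
 (.one (.play 66 (.both (.ref 814 0) (.play 2 (.ref 5 1))))))))
 (.seq (.seq (.one (.play 64 (.both (.play 0 (.ref 7 0)) (.play 66 (.both (.play 2 (.ref 5 1)) (.play 321 (.ref 123 64)))))))
 (.seq (.one (.play 129 (.both (.play 320 (.ref 406 0)) (.both (.play 128 (.ref 326 64)) (.ref 816 64)))))
 (.one (.play 257 (.both (.play 66 (.ref 704 1)) (.play 256 (.ref 1 192)))))))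
 (.seq (.one (.play 129 (.both (.ref 818 0) (.play 128 (.ref 3 128)))))
 (.seq (.one (.play 194 (.both (.play 133 (.both (.ref 819 1) (.play 134 (.ref 2 130)))) (.both (.play 129 (.ref 102 128)) (.play 133 (.ref 86 129))))))
 (.one (.play 67 (.both (.play 3 (.ref 712 0)) (.play 68 (.ref 1 64))))))))))
 (.seq (.seq (.seq (.seq (.one (.play 67 (.both (.ref 793 0) (.play 3 (.ref 7 3)))))
 (.seq (.one (.play 132 (.both (.play 68 (.both (.ref 822 0) (.play 4 (.ref 6 3)))) (.play 133 (.ref 2 129)))))
 (.one (.play 129 (.both (.ref 419 0) (.play 128 (.ref 2 64)))))))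
 (.seq (.one (.play 67 (.both (.play 3 (.ref 5 2)) (.play 68 (.ref 176 64)))))
 (.seq (.one (.both (.play 0 (.ref 7 0)) (.play 320 (.ref 6 64))))
 (.one (.play 1 (.both (.play 65 (.ref 152 0)) (.play 2 (.ref 0 1))))))))
 (.seq (.seq (.one (.play 130 (.both (.play 66 (.both (.ref 419 1) (.play 65 (.ref 0 65)))) (.both (.play 129 (.ref 341 64)) (.ref 827 64)))))
 (.seq (.one (.play 129 (.both (.play 257 (.ref 311 0)) (.play 128 (.ref 0 128)))))
 (.one (.play 258 (.both (.play 194 (.ref 5 2)) (.play 193 (.ref 673 64)))))))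
 (.seq (.one (.both (.play 1 (.ref 4 1)) (.play 128 (.ref 1 64))))
 (.seq (.one (.play 259 (.both (.play 258 (.both (.play 194 (.both (.play 3 (.ref 6 2)) (.play 193 (.ref 67 128)))) (.play 322 (.ref 6 66)))) (.play 323 (.ref 5 67)))))
 (.one (.both (.play 2 (.ref 7 2)) (.play 258 (.both (.play 322 (.ref 6 66)) (.play 257 (.ref 67 192))))))))))
 (.seq (.seq (.seq (.one (.play 131 (.both (.ref 490 2) (.both (.ref 602 2) (.play 130 (.ref 833 64))))))
 (.seq (.one (.play 66 (.both (.play 2 (.ref 7 2)) (.play 65 (.ref 216 64)))))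
 (.one (.play 131 (.both (.ref 671 0) (.play 130 (.ref 3 64)))))))
 (.seq (.one (.play 129 (.both (.play 0 (.ref 7 0)) (.play 256 (.ref 335 0)))))
 (.seq (.one (.play 69 (.both (.play 194 (.both (.ref 393 0) (.play 258 (.ref 6 2)))) (.play 68 (.ref 3 2)))))
 (.one (.play 258 (.both (.play 3 (.ref 5 2)) (.play 257 (.both (.play 321 (.ref 6 65)) (.play 196 (.ref 86 192))))))))))
 (.seq (.seq (.one (.play 130 (.both (.ref 839 0) (.play 2 (.ref 4 2)))))
 (.seq (.one (.play 131 (.both (.ref 802 0) (.play 130 (.ref 3 64)))))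
 (.one (.both (.play 0 (.ref 7 0)) (.ref 841 0)))))
 (.seq (.seq (.one (.play 194 (.both (.play 193 (.both (.play 257 (.ref 171 0)) (.play 132 (.ref 86 128)))) (.play 258 (.ref 6 2)))))
 (.one (.both (.play 129 (.ref 831 0)) (.play 132 (.ref 0 65)))))
 (.seq (.one (.both (.play 5 (.ref 267 0)) (.play 133 (.ref 0 66))))
 (.one (.both (.play 5 (.ref 122 0)) (.play 133 (.ref 0 66))))))))))
 (.seq (.seq (.seq (.seq (.seq (.one (.play 68 (.both (.play 69 (.ref 846 0)) (.both (.play 69 (.ref 845 0)) (.both (.play 130 (.both (.play 65 (.both (.play 1 (.ref 363 0)) (.play 129 (.both (.play 196 (.both (.play 4 (.ref 712 1)) (.play 197 (.ref 3 129)))) (.play 128 (.ref 1 64)))))) (.play 2 (.ref 4 2)))) (.play 69 (.ref 844 1)))))))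
 (.seq (.one (.play 66 (.both (.ref 688 0) (.play 259 (.ref 7 2)))))
 (.one (.both (.play 66 (.both (.play 2 (.ref 7 2)) (.ref 848 64))) (.play 4 (.ref 5 3))))))
 (.seq (.one (.play 131 (.both (.play 259 (.ref 849 0)) (.play 3 (.ref 4 3)))))
 (.seq (.one (.play 3 (.both (.play 4 (.ref 2 0)) (.play 131 (.both (.play 195 (.ref 6 2)) (.play 132 (.ref 0 64)))))))
 (.one (.play 66 (.both (.play 1 (.ref 102 0)) (.ref 851 2)))))))
 (.seq (.seq (.one (.play 132 (.both (.play 131 (.both (.play 130 (.both (.play 259 (.both (.ref 615 1) (.play 323 (.ref 7 130)))) (.play 197 (.ref 0 129)))) (.play 192 (.ref 2 128)))) (.play 133 (.ref 2 129)))))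
 (.seq (.one (.play 129 (.both (.play 130 (.both (.play 258 (.ref 534 1)) (.play 69 (.ref 1 65)))) (.play 128 (.ref 1 64)))))
 (.one (.play 4 (.both (.play 65 (.ref 86 0)) (.play 71 (.ref 3 3)))))))
 (.seq (.one (.play 3 (.both (.play 130 (.both (.play 66 (.both (.ref 855 0) (.play 129 (.ref 1 65)))) (.play 131 (.ref 1 66)))) (.play 2 (.ref 3 2)))))
 (.seq (.one (.play 324 (.both (.play 197 (.both (.play 196 (.both (.play 198 (.both (.play 199 (.both (.play 135 (.both (.play 262 (.both (.play 132 (.both (.play 133 (.both (.play 69 (.both (.play 71 (.both (.play 7 (.ref 6 6)) (.play 72 (.ref 291 68)))) (.play 5 (.ref 4 5)))) (.play 200 (.ref 3 132)))) (.play 131 (.ref 3 131)))) (.play 326 (.ref 5 134)))) (.play 136 (.ref 2 132)))) (.play 263 (.ref 0 196)))) (.both (.play 195 (.both (.ref 856 128) (.both (.play 134 (.ref 122 129)) (.both (.play 134 (.ref 267 129)) (.ref 259 130))))) (.both (.ref 852 129) (.both (.play 263 (.both (.play 195 (.ref 163 129)) (.play 199 (.ref 0 196)))) (.both (.play 263 (.both (.play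 195 (.ref 845 129)) (.play 199 (.ref 0 196)))) (.play 199 (.ref 846 130)))))))) (.both (.play 198 (.both (.play 199 (.both (.play 135 (.both (.play 262 (.both (.play 195 (.both (.play 71 (.both (.play 7 (.ref 6 6)) (.play 258 (.ref 14 129)))) (.play 134 (.ref 2 131)))) (.play 326 (.ref 5 134)))) (.play 136 (.ref 2 132)))) (.play 263 (.ref 0 196)))) (.both (.play 195 (.both (.play 131 (.both (.play 260 (.both (.play 259 (.both (.play 67 (.ref 4 67)) (.play 258 (.ref 1 194)))) (.play 388 (.ref 7 131)))) (.play 130 (.ref 3 130)))) (.ref 851 131))) (.both (.play 195 (.both (.play 134 (.ref 267 129)) (.both (.ref 854 130) (.play 134 (.both (.play 133 (.both (.play 194 (.ref 2 130)) (.play 326 (.both (.play 388 (.both (.play 260 (.ref 5 132)) (.play 387 (.ref 86 322)))) (.play 262 (.ref 7 133)))))) (.play 135 (.ref 2 131))))))) (.both (.play 199 (.both (.play 260 (.both (.ref 839 130) (.play 259 (.ref 1 195)))) (.play 263 (.ref 0 196)))) (.both (.play 199 (.ref 845 130)) (.play 199 (.both (.play 135 (.both (.play 326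 (.both (.play 195 (.both (.play 131 (.both (.play 130 (.ref 3 130)) (.play 388 (.both (.play 260 (.ref 7 131)) (.play 387 (.ref 86 322)))))) (.play 134 (.ref 2 131)))) (.play 262 (.ref 5 134)))) (.play 136 (.ref 2 132)))) (.play 263 (.ref 0 196)))))))))) (.both (.ref 850 129) (.both (.ref 840 130) (.ref 847 130)))))) (.both (.play 196 (.both (.play 132 (.both (.play 198 (.both (.play 199 (.both (.ref 853 3) (.play 131 (.ref 3 131)))) (.both (.play 199 (.both (.ref 853 3) (.play 263 (.ref 0 196)))) (.both (.ref 852 129) (.play 199 (.ref 254 131)))))) (.play 260 (.ref 4 132)))) (.both (.play 261 (.both (.ref 396 69) (.both (.ref 841 132) (.ref 836 132)))) (.play 132 (.ref 613 132))))) (.both (.play 261 (.both (.ref 768 68) (.both (.ref 396 69) (.both (.play 388 (.both (.play 387 (.both (.play 326 (.both (.play 198 (.both (.play 262 (.both (.ref 743 131) (.play 263 (.ref 1 260)))) (.play 134 (.ref 5 133)))) (.play 327 (.ref 2 323)))) (.both (.play 386 (.ref 341 321)) (.play 326 (.ref 86 322))))) (.play 452 (.ref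 6 196)))) (.ref 672 132))))) (.both (.play 196 (.both (.play 261 (.both (.ref 396 69) (.both (.play 388 (.ref 335 132)) (.ref 843 194)))) (.both (.ref 840 130) (.both (.play 132 (.ref 613 132)) (.ref 837 132))))) (.both (.play 261 (.both (.ref 367 68) (.both (.ref 672 132) (.play 388 (.both (.play 196 (.ref 842 132)) (.play 452 (.ref 6 196))))))) (.both (.play 196 (.both (.ref 850 129) (.both (.play 261 (.both (.ref 766 130) (.play 388 (.ref 335 132)))) (.both (.play 261 (.ref 767 130)) (.ref 837 132))))) (.both (.play 196 (.both (.ref 847 130) (.both (.play 261 (.both (.ref 841 132) (.ref 843 194))) (.both (.play 132 (.ref 613 132)) (.play 261 (.ref 842 132)))))) (.play 196 (.both (.ref 840 130) (.both (.play 261 (.both (.play 388 (.ref 335 132)) (.both (.ref 836 132) (.ref 838 194)))) (.both (.play 261 (.both (.play 132 (.ref 7 132)) (.ref 838 194))) (.both (.ref 837 132) (.play 261 (.both (.play 132 (.ref 7 132)) (.ref 836 132)))))))))))))))) (.both (.play 323 (.both (.play 388 (.both (.play 452 (.both (.play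 197 (.both (.play 260 (.both (.ref 591 132) (.ref 835 193))) (.play 261 (.ref 6 196)))) (.both (.play 197 (.both (.play 516 (.both (.play 515 (.both (.play 260 (.both (.ref 591 132) (.play 451 (.ref 6 259)))) (.play 579 (.ref 6 323)))) (.play 580 (.ref 5 324)))) (.play 261 (.ref 6 196)))) (.play 516 (.ref 91 259))))) (.both (.play 452 (.both (.play 197 (.both (.play 260 (.both (.ref 591 132) (.play 259 (.ref 833 193)))) (.play 261 (.ref 6 196)))) (.both (.play 197 (.both (.play 261 (.ref 6 196)) (.ref 832 257))) (.play 516 (.ref 91 259))))) (.both (.play 452 (.both (.play 387 (.both (.play 326 (.ref 808 194)) (.both (.play 386 (.ref 341 321)) (.play 326 (.ref 86 322))))) (.both (.play 516 (.ref 91 259)) (.play 516 (.ref 18 260))))) (.both (.play 387 (.both (.play 451 (.ref 311 194)) (.play 326 (.ref 86 322)))) (.play 452 (.both (.play 326 (.both (.play 387 (.both (.ref 807 194) (.play 386 (.ref 2 322)))) (.both (.play 197 (.both (.play 259 (.both (.play 260 (.ref 681 195)) (.play 258 (.ref 3 258)))) (.play 261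 (.ref 6 196)))) (.play 387 (.ref 86 322))))) (.both (.play 516 (.ref 91 259)) (.play 516 (.ref 18 260)))))))))) (.play 322 (.ref 0 322)))) (.both (.play 388 (.both (.play 452 (.both (.play 260 (.both (.ref 490 131) (.both (.play 197 (.both (.ref 591 132) (.play 261 (.ref 6 196)))) (.play 261 (.both (.ref 693 193) (.play 197 (.ref 6 196))))))) (.both (.play 261 (.ref 126 196)) (.play 516 (.ref 691 258))))) (.both (.play 452 (.both (.play 261 (.both (.play 262 (.both (.ref 834 129) (.play 263 (.ref 1 260)))) (.play 197 (.ref 6 196)))) (.both (.play 261 (.ref 126 196)) (.ref 832 257)))) (.both (.play 261 (.both (.play 197 (.both (.play 323 (.both (.play 196 (.both (.play 262 (.both (.play 198 (.both (.play 195 (.both (.play 259 (.ref 831 130)) (.play 194 (.ref 0 194)))) (.play 134 (.ref 5 133)))) (.play 263 (.ref 3 196)))) (.play 132 (.ref 7 132)))) (.play 322 (.ref 0 322)))) (.play 133 (.ref 6 132)))) (.both (.play 197 (.ref 335 132)) (.play 387 (.both (.play 323 (.both (.ref 830 258) (.play 322 (.ref 0 322))))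 (.both (.play 386 (.ref 341 321)) (.ref 827 321))))))) (.both (.play 387 (.both (.ref 829 194) (.both (.play 386 (.ref 341 321)) (.play 386 (.both (.play 385 (.ref 2 321)) (.play 322 (.both (.play 321 (.ref 3 321)) (.play 323 (.ref 0 322))))))))) (.play 261 (.both (.play 452 (.ref 126 196)) (.ref 828 257)))))))) (.both (.ref 702 130) (.both (.play 323 (.both (.play 326 (.both (.play 259 (.both (.play 260 (.both (.ref 797 130) (.play 327 (.ref 3 259)))) (.play 258 (.ref 3 258)))) (.both (.ref 823 130) (.play 263 (.ref 590 259))))) (.play 322 (.ref 0 322)))) (.both (.play 323 (.both (.play 326 (.both (.play 388 (.both (.play 387 (.both (.play 451 (.both (.play 263 (.both (.play 515 (.both (.play 516 (.both (.play 261 (.both (.ref 804 132) (.play 452 (.ref 5 260)))) (.play 580 (.ref 4 323)))) (.play 579 (.ref 5 323)))) (.play 262 (.ref 2 259)))) (.play 450 (.ref 1 386)))) (.play 386 (.ref 2 322)))) (.both (.play 262 (.both (.play 198 (.both (.play 197 (.both (.play 196 (.both (.play 199 (.both (.play 132 (.both (.play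 131 (.ref 3 131)) (.play 260 (.ref 4 132)))) (.play 135 (.ref 5 134)))) (.both (.play 261 (.ref 826 132)) (.play 261 (.both (.ref 825 132) (.play 452 (.ref 6 196))))))) (.play 133 (.ref 7 133)))) (.play 134 (.ref 6 133)))) (.play 263 (.ref 2 259)))) (.ref 824 258)))) (.both (.ref 593 258) (.play 263 (.ref 590 259))))) (.play 322 (.ref 0 322)))) (.both (.play 323 (.both (.play 326 (.both (.play 387 (.both (.play 262 (.both (.play 198 (.both (.play 134 (.ref 6 133)) (.ref 587 194))) (.play 263 (.ref 2 259)))) (.play 386 (.ref 1 322)))) (.both (.ref 598 194) (.play 263 (.ref 590 259))))) (.play 322 (.ref 0 322)))) (.play 323 (.both (.play 326 (.both (.ref 823 130) (.both (.play 259 (.both (.play 260 (.both (.play 196 (.both (.play 388 (.both (.play 195 (.ref 534 131)) (.both (.play 197 (.both (.play 133 (.ref 5 132)) (.ref 698 195))) (.play 195 (.both (.play 131 (.ref 7 131)) (.play 197 (.both (.ref 821 131) (.play 133 (.ref 5 132))))))))) (.play 132 (.ref 4 132)))) (.play 327 (.ref 3 259)))) (.play 258 (.ref 3 258))))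 (.both (.ref 585 258) (.play 263 (.ref 590 259)))))) (.play 322 (.ref 0 322)))))))))))))
 (.one (.play 65 (.both (.play 1 (.ref 613 1)) (.play 64 (.ref 0 64)))))))))
 (.seq (.seq (.seq (.one (.play 258 (.both (.play 194 (.both (.play 193 (.both (.play 66 (.both (.play 132 (.both (.ref 858 0) (.play 133 (.ref 3 66)))) (.play 2 (.ref 7 2)))) (.play 192 (.ref 0 192)))) (.play 3 (.ref 6 2)))) (.play 322 (.ref 6 66)))))
 (.seq (.one (.play 259 (.both (.play 195 (.both (.play 4 (.ref 6 3)) (.play 133 (.both (.play 258 (.both (.ref 829 65) (.both (.play 257 (.ref 341 192)) (.ref 827 192)))) (.play 134 (.ref 1 131)))))) (.play 323 (.ref 6 67)))))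
 (.one (.both (.play 66 (.ref 584 0)) (.play 321 (.ref 7 64))))))
 (.seq (.one (.play 129 (.both (.play 322 (.ref 696 1)) (.play 128 (.ref 3 128)))))
 (.seq (.one (.both (.play 1 (.ref 3 1)) (.ref 24 64)))
 (.one (.play 67 (.both (.play 0 (.ref 0 0)) (.play 65 (.both (.play 64 (.ref 1 0)) (.play 66 (.ref 0 65))))))))))
 (.seq (.seq (.one (.play 66 (.both (.play 129 (.ref 14 0)) (.play 133 (.ref 0 66)))))
 (.seq (.one (.both (.play 2 (.ref 7 2)) (.ref 338 64)))
 (.one (.play 257 (.both (.play 2 (.ref 5 1)) (.play 321 (.ref 534 64)))))))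
 (.seq (.one (.play 66 (.both (.ref 867 0) (.play 67 (.ref 1 64)))))
 (.seq (.one (.play 196 (.both (.ref 772 3) (.both (.ref 374 3) (.both (.ref 860 128) (.play 195 (.ref 326 131)))))))
 (.one (.play 263 (.both (.ref 869 3) (.both (.play 199 (.both (.ref 374 6) (.both (.ref 771 6) (.both (.play 390 (.both (.play 326 (.both (.play 135 (.ref 6 134)) (.play 325 (.both (.ref 868 198) (.play 324 (.ref 0 324)))))) (.play 454 (.ref 6 198)))) (.play 200 (.ref 45 134)))))) (.both (.ref 773 4) (.both (.play 262 (.both (.ref 762 64) (.both (.play 261 (.both (.ref 757 65) (.both (.play 260 (.both (.ref 751 67) (.both (.ref 11 194) (.ref 864 259)))) (.both (.play 264 (.both (.ref 620 68) (.both (.play 197 (.both (.play 325 (.both (.play 200 (.both (.play 134 (.both (.ref 364 69) (.both (.play 198 (.ref 616 69)) (.play 198 (.both (.play 389 (.ref 5 133)) (.play 326 (.ref 4 134))))))) (.play 201 (.ref 2 197)))) (.play 324 (.ref 1 260)))) (.play 196 (.ref 3 196)))) (.both (.play 197 (.both (.play 196 (.ref 3 196)) (.play 265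 (.both (.play 198 (.ref 3 197)) (.play 326 (.ref 1 262)))))) (.play 325 (.both (.play 265 (.ref 640 198)) (.play 324 (.ref 1 260)))))))) (.both (.play 260 (.both (.play 326 (.both (.play 325 (.both (.play 264 (.both (.play 198 (.both (.play 390 (.both (.play 389 (.both (.play 197 (.ref 866 131)) (.play 453 (.ref 6 197)))) (.both (.play 454 (.ref 534 197)) (.play 454 (.both (.play 453 (.ref 15 197)) (.play 518 (.ref 7 261))))))) (.play 134 (.ref 4 134)))) (.play 265 (.ref 1 262)))) (.play 324 (.ref 0 324)))) (.play 259 (.ref 0 259)))) (.both (.ref 865 193) (.both (.ref 753 195) (.ref 24 258))))) (.both (.play 260 (.both (.play 326 (.both (.play 264 (.both (.ref 428 132) (.play 265 (.ref 1 262)))) (.play 259 (.ref 0 259)))) (.both (.ref 756 193) (.both (.ref 865 193) (.both (.play 326 (.both (.play 264 (.both (.play 196 (.ref 10 195)) (.play 265 (.ref 1 262)))) (.play 259 (.ref 0 259)))) (.play 196 (.both (.play 195 (.ref 3 195)) (.play 264 (.both (.play 197 (.ref 3 196)) (.play 265 (.ref 640 198))))))))))) (.both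 (.play 260 (.both (.ref 11 194) (.both (.ref 529 195) (.ref 864 259)))) (.both (.play 264 (.both (.play 196 (.both (.play 260 (.ref 863 194)) (.play 197 (.ref 3 196)))) (.both (.ref 759 196) (.play 265 (.ref 640 198))))) (.play 260 (.both (.ref 11 194) (.both (.play 324 (.both (.play 325 (.both (.play 389 (.both (.play 453 (.ref 534 196)) (.play 390 (.ref 3 324)))) (.play 264 (.ref 1 260)))) (.play 323 (.ref 1 259)))) (.ref 24 258)))))))))))) (.both (.play 326 (.both (.play 261 (.both (.play 325 (.both (.play 260 (.both (.ref 862 67) (.play 259 (.ref 0 259)))) (.play 324 (.ref 0 324)))) (.both (.play 325 (.both (.play 264 (.both (.ref 596 132) (.play 265 (.ref 1 262)))) (.play 324 (.ref 0 324)))) (.both (.play 264 (.both (.ref 508 195) (.play 265 (.ref 1 262)))) (.play 264 (.both (.play 324 (.both (.play 260 (.ref 134 259)) (.play 325 (.ref 0 324)))) (.play 265 (.ref 1 262)))))))) (.both (.play 455 (.ref 861 198)) (.play 455 (.both (.play 454 (.both (.ref 725 260) (.play 518 (.ref 6 262)))) (.play 519 (.ref 7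 262))))))) (.both (.play 455 (.ref 326 198)) (.play 455 (.both (.play 198 (.ref 7 198)) (.play 326 (.ref 861 198))))))))) (.both (.play 199 (.both (.play 390 (.ref 406 70)) (.both (.ref 860 131) (.both (.play 390 (.both (.play 200 (.both (.play 264 (.both (.play 198 (.both (.ref 765 132) (.play 265 (.ref 3 198)))) (.play 455 (.ref 5 199)))) (.play 136 (.ref 5 135)))) (.play 454 (.ref 6 198)))) (.ref 779 134))))) (.both (.ref 659 68) (.both (.play 199 (.both (.play 390 (.ref 406 70)) (.both (.ref 859 132) (.play 198 (.ref 767 132))))) (.both (.play 199 (.both (.play 390 (.ref 379 70)) (.both (.play 390 (.ref 406 70)) (.play 200 (.both (.play 198 (.both (.play 134 (.ref 7 134)) (.ref 777 198))) (.play 136 (.ref 5 135))))))) (.both (.ref 817 70) (.ref 738 134)))))))))))))))))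
 (.seq (.seq (.seq (.seq (.one (.play 321 (.both (.play 192 (.both (.play 256 (.ref 6 0)) (.ref 443 128))) (.play 130 (.ref 5 65)))))
 (.seq (.one (.play 257 (.both (.play 256 (.ref 15 0)) (.both (.ref 871 0) (.ref 488 64)))))
 (.one (.both (.play 0 (.ref 7 0)) (.ref 328 64)))))
 (.seq (.one (.play 130 (.both (.play 129 (.both (.play 64 (.both (.play 65 (.ref 826 0)) (.play 128 (.ref 7 64)))) (.play 66 (.ref 5 65)))) (.play 194 (.ref 5 129)))))
 (.seq (.one (.play 455 (.both (.play 391 (.both (.play 327 (.both (.play 263 (.both (.play 262 (.both (.play 199 (.both (.play 328 (.both (.play 261 (.both (.ref 874 6) (.play 260 (.ref 0 260)))) (.play 329 (.ref 3 262)))) (.play 392 (.ref 4 199)))) (.play 198 (.ref 7 198)))) (.both (.ref 859 196) (.both (.play 262 (.both (.play 198 (.ref 7 198)) (.play 328 (.both (.play 454 (.both (.play 261 (.both (.play 260 (.ref 0 260)) (.play 453 (.both (.ref 819 260) (.play 392 (.ref 86 388)))))) (.play 518 (.ref 6 262)))) (.play 329 (.ref 3 262)))))) (.ref 369 198))))) (.both (.ref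 869 67) (.both (.ref 785 68) (.both (.play 519 (.both (.ref 775 70) (.both (.ref 610 324) (.both (.play 582 (.both (.play 583 (.both (.play 390 (.both (.play 326 (.ref 7 326)) (.play 389 (.both (.play 388 (.ref 0 388)) (.ref 103 390))))) (.play 646 (.ref 6 390)))) (.play 518 (.ref 6 326)))) (.ref 641 326))))) (.both (.play 519 (.both (.ref 775 70) (.both (.play 518 (.ref 379 198)) (.ref 648 262)))) (.both (.ref 769 70) (.both (.play 519 (.both (.play 326 (.both (.play 518 (.both (.play 517 (.both (.play 390 (.both (.play 389 (.both (.play 329 (.both (.play 392 (.both (.play 325 (.both (.play 261 (.both (.play 197 (.both (.play 196 (.ref 873 132)) (.play 133 (.ref 4 133)))) (.play 454 (.ref 7 261)))) (.play 324 (.ref 0 324)))) (.play 393 (.ref 2 326)))) (.play 328 (.ref 1 326)))) (.play 388 (.ref 0 388)))) (.both (.ref 670 260) (.both (.play 389 (.both (.play 329 (.both (.play 581 (.ref 664 325)) (.play 328 (.ref 1 326)))) (.play 388 (.ref 0 388)))) (.play 389 (.both (.play 329 (.both (.play 392 (.both (.play 325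 (.both (.play 324 (.ref 0 324)) (.play 453 (.both (.play 581 (.ref 5 325)) (.play 452 (.ref 1 388)))))) (.play 393 (.ref 2 326)))) (.play 328 (.ref 1 326)))) (.play 388 (.ref 0 388)))))))) (.play 516 (.ref 2 452)))) (.play 582 (.ref 6 326)))) (.play 262 (.ref 7 262)))) (.both (.play 326 (.ref 326 262)) (.both (.ref 642 262) (.ref 641 326))))) (.both (.play 263 (.both (.play 454 (.ref 379 134)) (.both (.ref 367 134) (.both (.ref 369 198) (.play 262 (.both (.play 198 (.ref 7 198)) (.play 328 (.both (.play 329 (.ref 3 262)) (.ref 872 262))))))))) (.both (.ref 643 198) (.ref 739 198))))))))))) (.both (.ref 870 64) (.both (.ref 857 66) (.both (.play 327 (.both (.play 519 (.both (.ref 775 70) (.both (.play 328 (.both (.play 583 (.both (.play 390 (.both (.play 389 (.both (.ref 717 198) (.play 388 (.ref 0 388)))) (.play 326 (.ref 7 326)))) (.play 392 (.ref 5 327)))) (.play 264 (.ref 5 263)))) (.both (.play 518 (.ref 406 198)) (.both (.play 328 (.both (.play 264 (.ref 5 263)) (.play 583 (.both (.play 390 (.both (.play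 326 (.ref 7 326)) (.ref 649 388))) (.play 392 (.ref 5 327)))))) (.play 328 (.ref 45 262))))))) (.both (.ref 776 70) (.both (.play 263 (.both (.play 454 (.ref 406 134)) (.both (.ref 367 134) (.play 454 (.both (.play 264 (.both (.play 262 (.both (.play 198 (.ref 7 198)) (.ref 820 259))) (.play 200 (.ref 5 199)))) (.play 518 (.ref 6 262))))))) (.both (.ref 817 134) (.both (.play 519 (.both (.ref 709 134) (.both (.play 518 (.ref 406 198)) (.both (.ref 815 262) (.ref 489 262))))) (.both (.ref 783 134) (.play 519 (.both (.play 328 (.both (.play 518 (.both (.play 326 (.both (.play 517 (.both (.play 325 (.both (.play 388 (.ref 14 259)) (.both (.play 392 (.both (.play 389 (.both (.ref 811 260) (.play 388 (.ref 1 324)))) (.play 393 (.ref 0 325)))) (.play 392 (.ref 169 324))))) (.play 516 (.ref 2 452)))) (.play 262 (.ref 7 262)))) (.play 582 (.ref 6 326)))) (.play 264 (.ref 5 263)))) (.both (.play 326 (.ref 326 262)) (.both (.play 328 (.ref 45 262)) (.play 328 (.ref 782 262))))))))))))) (.both (.ref 809 67) (.both (.play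 327 (.both (.play 263 (.both (.ref 788 68) (.both (.ref 784 68) (.both (.play 198 (.both (.play 199 (.both (.play 390 (.both (.play 328 (.both (.play 389 (.both (.play 264 (.both (.ref 787 70) (.play 519 (.ref 5 263)))) (.play 388 (.ref 0 388)))) (.play 329 (.ref 1 326)))) (.play 454 (.ref 6 198)))) (.play 134 (.ref 7 134)))) (.play 262 (.ref 7 198)))) (.ref 657 198))))) (.both (.play 263 (.both (.ref 788 68) (.both (.play 199 (.ref 786 70)) (.both (.play 264 (.both (.play 328 (.both (.play 329 (.both (.play 266 (.both (.play 265 (.both (.play 201 (.both (.play 137 (.both (.play 202 (.ref 599 71)) (.play 73 (.ref 4 73)))) (.play 392 (.ref 5 200)))) (.play 326 (.ref 2 262)))) (.play 267 (.ref 2 263)))) (.play 390 (.ref 1 326)))) (.play 519 (.ref 5 263)))) (.play 200 (.ref 5 199)))) (.ref 396 135))))) (.both (.ref 785 68) (.both (.play 263 (.both (.play 262 (.both (.play 328 (.both (.play 264 (.both (.play 261 (.both (.play 325 (.both (.play 326 (.both (.play 389 (.both (.ref 596 132) (.play 388 (.ref 1 324))))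 (.play 265 (.ref 2 261)))) (.play 324 (.ref 1 260)))) (.play 260 (.ref 0 260)))) (.play 200 (.ref 5 199)))) (.play 329 (.ref 3 262)))) (.play 198 (.ref 7 198)))) (.both (.ref 367 134) (.ref 396 135)))) (.both (.ref 783 134) (.both (.ref 764 134) (.both (.play 263 (.both (.ref 367 134) (.both (.ref 396 135) (.ref 778 198)))) (.play 519 (.both (.ref 648 262) (.both (.ref 774 262) (.both (.ref 489 262) (.ref 639 262))))))))))))) (.both (.play 327 (.both (.play 263 (.both (.play 262 (.both (.play 328 (.both (.play 454 (.both (.play 326 (.both (.play 199 (.both (.play 261 (.both (.ref 781 70) (.play 260 (.ref 0 260)))) (.play 390 (.ref 6 198)))) (.play 519 (.ref 7 262)))) (.play 518 (.ref 6 262)))) (.play 329 (.ref 3 262)))) (.play 198 (.ref 7 198)))) (.both (.play 264 (.both (.play 454 (.both (.play 199 (.both (.play 328 (.both (.ref 490 70) (.play 519 (.ref 5 263)))) (.play 390 (.ref 6 198)))) (.play 518 (.ref 6 262)))) (.play 200 (.ref 5 199)))) (.both (.ref 780 198) (.both (.ref 770 198) (.both (.ref 779 198) (.ref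 778 198))))))) (.both (.ref 776 70) (.both (.play 519 (.both (.ref 775 70) (.both (.play 518 (.ref 406 198)) (.ref 639 262)))) (.both (.ref 656 134) (.both (.play 263 (.both (.ref 367 134) (.both (.ref 396 135) (.ref 657 198)))) (.both (.play 263 (.both (.ref 367 134) (.both (.ref 396 135) (.ref 652 198)))) (.play 519 (.both (.play 326 (.ref 326 262)) (.both (.play 328 (.ref 45 262)) (.both (.ref 774 262) (.ref 639 262)))))))))))) (.both (.play 327 (.both (.ref 773 68) (.both (.ref 769 70) (.both (.play 519 (.both (.play 518 (.both (.play 263 (.both (.ref 371 70) (.both (.play 390 (.both (.play 199 (.both (.ref 378 70) (.play 392 (.ref 4 199)))) (.play 328 (.ref 584 262)))) (.play 264 (.ref 46 199))))) (.play 582 (.ref 6 326)))) (.both (.ref 639 262) (.both (.play 582 (.both (.play 583 (.both (.play 390 (.both (.play 328 (.ref 584 262)) (.play 326 (.ref 7 326)))) (.play 646 (.ref 6 390)))) (.play 518 (.ref 6 326)))) (.ref 741 326))))) (.both (.play 263 (.both (.ref 367 134) (.both (.ref 396 135) (.play 262 (.ref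 767 196))))) (.both (.ref 764 134) (.both (.play 519 (.both (.ref 409 134) (.both (.play 326 (.ref 326 262)) (.ref 741 326)))) (.play 519 (.both (.play 328 (.both (.play 390 (.both (.play 389 (.both (.play 326 (.both (.play 262 (.ref 7 262)) (.play 518 (.both (.play 517 (.both (.play 453 (.both (.play 392 (.both (.play 325 (.ref 169 324)) (.play 452 (.ref 1 388)))) (.play 581 (.ref 5 325)))) (.play 516 (.ref 2 452)))) (.play 582 (.ref 6 326)))))) (.play 388 (.ref 0 388)))) (.play 329 (.ref 1 326)))) (.play 264 (.ref 5 263)))) (.both (.play 326 (.ref 326 262)) (.both (.play 328 (.ref 45 262)) (.ref 639 262)))))))))))) (.both (.play 327 (.both (.play 326 (.both (.ref 762 128) (.both (.play 325 (.both (.ref 757 129) (.both (.play 324 (.both (.ref 751 131) (.play 392 (.ref 0 324)))) (.both (.play 328 (.both (.ref 620 132) (.play 264 (.both (.play 200 (.ref 357 135)) (.play 265 (.ref 2 261)))))) (.play 392 (.ref 748 196)))))) (.both (.play 328 (.both (.play 264 (.ref 361 135)) (.both (.play 325 (.both (.play 392 (.ref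 747 197)) (.both (.play 388 (.ref 14 259)) (.play 392 (.ref 169 324))))) (.both (.play 264 (.both (.play 325 (.ref 746 259)) (.play 519 (.ref 5 263)))) (.play 325 (.both (.play 388 (.ref 14 259)) (.both (.play 392 (.both (.play 519 (.both (.play 518 (.both (.play 516 (.both (.play 389 (.both (.ref 745 260) (.play 388 (.ref 1 324)))) (.play 517 (.ref 2 452)))) (.play 582 (.ref 6 326)))) (.play 583 (.ref 5 327)))) (.play 393 (.ref 0 325)))) (.play 392 (.ref 169 324))))))))) (.both (.play 519 (.both (.play 262 (.ref 7 262)) (.play 328 (.ref 45 262)))) (.play 519 (.ref 742 262))))))) (.both (.play 263 (.both (.ref 396 135) (.both (.play 262 (.both (.play 328 (.both (.ref 711 196) (.play 329 (.ref 3 262)))) (.play 198 (.ref 7 198)))) (.ref 652 198)))) (.both (.play 263 (.both (.play 518 (.ref 654 134)) (.both (.play 264 (.both (.play 328 (.both (.play 392 (.ref 744 197)) (.play 519 (.ref 5 263)))) (.play 200 (.ref 5 199)))) (.both (.play 264 (.ref 45 198)) (.play 518 (.both (.play 519 (.both (.ref 506 199) (.play 582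 (.ref 6 326)))) (.play 454 (.ref 6 262)))))))) (.both (.play 519 (.both (.ref 409 134) (.both (.ref 655 134) (.both (.play 518 (.ref 379 198)) (.play 326 (.ref 742 262)))))) (.both (.play 263 (.both (.ref 367 134) (.both (.ref 396 135) (.play 262 (.both (.play 198 (.ref 7 198)) (.play 264 (.both (.play 200 (.ref 5 199)) (.ref 740 262)))))))) (.both (.ref 739 198) (.ref 738 198)))))))) (.both (.ref 737 128) (.both (.ref 697 129) (.both (.play 327 (.both (.ref 659 132) (.both (.play 263 (.both (.ref 367 134) (.both (.ref 369 198) (.ref 657 198)))) (.both (.ref 656 134) (.both (.play 519 (.both (.ref 655 134) (.both (.play 263 (.ref 653 198)) (.both (.ref 639 262) (.ref 641 326))))) (.both (.play 263 (.both (.ref 367 134) (.both (.ref 369 198) (.ref 652 198)))) (.both (.play 519 (.both (.ref 650 198) (.both (.play 328 (.both (.play 264 (.ref 5 263)) (.play 583 (.both (.play 390 (.both (.play 329 (.ref 1 326)) (.ref 649 388))) (.play 392 (.ref 5 327)))))) (.both (.ref 648 262) (.play 328 (.both (.play 329 (.ref 552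 262)) (.play 264 (.ref 5 263)))))))) (.both (.play 519 (.both (.play 518 (.ref 379 198)) (.both (.ref 646 198) (.play 328 (.ref 45 262))))) (.both (.ref 643 198) (.play 519 (.both (.play 326 (.ref 326 262)) (.both (.play 328 (.ref 45 262)) (.both (.play 326 (.both (.play 262 (.ref 7 262)) (.play 328 (.both (.play 329 (.ref 640 262)) (.play 264 (.ref 5 263)))))) (.ref 639 262)))))))))))))) (.both (.ref 637 194) (.ref 606 196))))))))))))))) (.both (.play 457 (.both (.ref 581 131) (.both (.ref 542 132) (.ref 8 455)))) (.both (.play 457 (.both (.ref 581 131) (.both (.ref 538 197) (.both (.play 390 (.ref 102 389)) (.play 391 (.ref 10 390)))))) (.both (.play 457 (.both (.ref 542 132) (.both (.ref 533 261) (.both (.play 390 (.ref 102 389)) (.play 391 (.ref 10 390)))))) (.both (.play 457 (.both (.ref 538 197) (.both (.ref 533 261) (.ref 8 455)))) (.both (.play 457 (.both (.play 390 (.ref 102 389)) (.ref 8 455))) (.play 457 (.ref 530 390))))))))))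
 (.one (.both (.play 1 (.both (.play 65 (.ref 504 0)) (.play 2 (.ref 3 1)))) (.play 130 (.ref 1 65)))))))
 (.seq (.seq (.one (.both (.ref 47 0) (.ref 28 65)))
 (.seq (.one (.both (.play 256 (.ref 15 0)) (.ref 28 1)))
 (.one (.both (.ref 47 0) (.play 320 (.ref 15 64))))))
 (.seq (.one (.play 257 (.both (.play 321 (.ref 879 0)) (.both (.play 1 (.ref 878 0)) (.play 321 (.ref 877 0))))))
 (.seq (.one (.play 68 (.both (.ref 246 1) (.ref 8 64))))
 (.one (.both (.play 5 (.ref 2 1)) (.ref 23 64)))))))
 (.seq (.seq (.seq (.one (.play 66 (.both (.ref 121 0) (.ref 23 65))))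
 (.seq (.one (.play 196 (.both (.play 198 (.both (.play 262 (.ref 4 5)) (.play 195 (.both (.ref 883 128) (.both (.play 194 (.ref 882 129)) (.play 131 (.both (.play 130 (.ref 3 130)) (.play 199 (.both (.play 132 (.ref 3 131)) (.ref 881 132)))))))))) (.play 260 (.ref 6 4)))))
 (.one (.both (.ref 23 0) (.ref 8 1)))))
 (.seq (.one (.play 66 (.both (.play 65 (.ref 530 0)) (.both (.play 70 (.ref 300 1)) (.play 65 (.ref 885 64))))))
 (.seq (.one (.play 4 (.both (.play 65 (.ref 1 0)) (.play 69 (.ref 0 1)))))
 (.one (.play 69 (.both (.play 65 (.both (.play 64 (.ref 1 0)) (.ref 887 1))) (.play 68 (.ref 0 1))))))))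
 (.seq (.seq (.one (.play 66 (.both (.play 2 (.ref 10 1)) (.play 65 (.ref 885 64)))))
 (.seq (.one (.play 67 (.both (.ref 889 0) (.both (.ref 886 0) (.both (.play 130 (.ref 876 1)) (.both (.play 66 (.both (.play 2 (.ref 10 1)) (.ref 211 65))) (.ref 23 66)))))))
 (.one (.play 195 (.both (.play 259 (.ref 126 3)) (.play 128 (.ref 0 128)))))))
 (.seq (.seq (.one (.play 196 (.both (.ref 891 0) (.play 197 (.ref 0 129)))))
 (.one (.play 68 (.both (.play 1 (.ref 3 0)) (.play 133 (.ref 0 65))))))
 (.seq (.one (.play 66 (.both (.play 2 (.ref 10 1)) (.ref 24 64))))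
 (.one (.play 131 (.both (.play 324 (.both (.play 67 (.ref 430 3)) (.play 388 (.ref 5 132)))) (.play 130 (.ref 295 128))))))))))))
 (.seq (.seq (.seq (.seq (.seq (.seq (.one (.play 259 (.both (.play 323 (.ref 431 2)) (.play 260 (.ref 0 192)))))
 (.seq (.one (.play 257 (.both (.play 256 (.ref 15 0)) (.play 321 (.ref 36 65)))))
 (.one (.play 257 (.both (.play 321 (.both (.ref 56 1) (.play 320 (.ref 15 64)))) (.both (.ref 28 1) (.both (.play 321 (.ref 878 64)) (.ref 897 64))))))))
 (.seq (.one (.play 129 (.both (.play 65 (.ref 578 0)) (.ref 898 128))))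
 (.seq (.one (.both (.ref 899 0) (.play 320 (.ref 1 256))))
 (.one (.both (.play 321 (.ref 900 0)) (.play 192 (.ref 3 192)))))))
 (.seq (.seq (.one (.play 129 (.both (.ref 396 1) (.ref 47 64))))
 (.seq (.one (.play 385 (.both (.play 257 (.both (.play 449 (.both (.play 450 (.both (.play 193 (.both (.ref 902 0) (.play 386 (.ref 4 193)))) (.play 514 (.ref 4 257)))) (.both (.ref 897 256) (.ref 424 256)))) (.play 256 (.ref 3 256)))) (.play 384 (.ref 1 320)))))
 (.one (.both (.ref 903 0) (.both (.play 325 (.ref 530 256)) (.play 325 (.ref 885 320)))))))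
 (.seq (.one (.play 193 (.both (.ref 902 0) (.both (.play 129 (.ref 578 64)) (.both (.play 129 (.both (.ref 47 64) (.ref 408 65))) (.play 194 (.ref 46 129)))))))
 (.seq (.one (.play 449 (.both (.ref 905 0) (.play 513 (.ref 878 256)))))
 (.one (.both (.ref 906 0) (.play 256 (.ref 3 256))))))))
 (.seq (.seq (.seq (.one (.both (.play 257 (.ref 907 0)) (.play 384 (.ref 1 320))))
 (.seq (.one (.play 386 (.both (.play 322 (.ref 908 1)) (.both (.play 258 (.both (.play 322 (.ref 907 1)) (.both (.play 322 (.both (.ref 899 65) (.play 257 (.ref 3 257)))) (.play 326 (.ref 527 258))))) (.play 387 (.ref 70 320))))))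
 (.one (.play 1 (.both (.play 64 (.ref 1 0)) (.play 68 (.ref 0 1)))))))
 (.seq (.one (.play 65 (.both (.ref 910 0) (.play 66 (.ref 1 1)))))
 (.seq (.one (.both (.ref 911 0) (.play 70 (.ref 0 2))))
 (.one (.play 1 (.both (.play 133 (.both (.play 65 (.ref 254 0)) (.play 134 (.ref 0 66)))) (.play 2 (.ref 3 1))))))))
 (.seq (.seq (.one (.both (.play 4 (.ref 71 0)) (.ref 8 64)))
 (.seq (.one (.play 3 (.both (.play 4 (.ref 2 0)) (.play 70 (.ref 3 2)))))
 (.one (.play 68 (.both (.play 4 (.ref 71 0)) (.both (.play 69 (.both (.ref 915 0) (.ref 8 65))) (.both (.play 69 (.ref 914 1)) (.ref 881 1))))))))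
 (.seq (.one (.play 197 (.both (.play 261 (.ref 4 4)) (.play 194 (.both (.play 193 (.ref 300 128)) (.ref 916 130))))))
 (.seq (.one (.both (.ref 917 0) (.play 259 (.ref 6 3))))
 (.one (.play 3 (.both (.play 64 (.ref 2 0)) (.play 2 (.ref 3 2))))))))))
 (.seq (.seq (.seq (.seq (.one (.play 67 (.both (.ref 883 0) (.both (.play 66 (.ref 300 1)) (.both (.play 66 (.both (.ref 919 1) (.ref 23 65))) (.play 3 (.ref 10 2)))))))
 (.seq (.one (.both (.play 6 (.ref 5 5)) (.play 262 (.both (.play 263 (.both (.play 260 (.both (.play 324 (.ref 6 68)) (.ref 920 192))) (.both (.ref 322 67) (.both (.play 260 (.both (.play 324 (.ref 6 68)) (.ref 881 196))) (.play 196 (.ref 113 194)))))) (.play 326 (.ref 4 69))))))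
 (.one (.play 257 (.both (.ref 905 0) (.play 256 (.ref 3 256)))))))
 (.seq (.one (.play 389 (.both (.play 453 (.both (.ref 922 4) (.both (.ref 39 196) (.both (.play 517 (.ref 921 256)) (.play 516 (.both (.play 261 (.both (.play 452 (.ref 6 260)) (.play 260 (.ref 3 260)))) (.play 517 (.ref 918 321)))))))) (.play 388 (.ref 1 324)))))
 (.seq (.one (.both (.play 65 (.ref 46 0)) (.ref 28 64)))
 (.one (.play 257 (.both (.play 321 (.ref 653 0)) (.both (.play 1 (.ref 878 0)) (.play 321 (.ref 924 1)))))))))
 (.seq (.seq (.one (.play 257 (.both (.play 256 (.ref 15 0)) (.play 321 (.ref 924 1)))))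
 (.seq (.one (.play 258 (.both (.play 256 (.both (.play 192 (.ref 6 0)) (.play 257 (.ref 206 64)))) (.play 194 (.ref 4 1)))))
 (.one (.play 257 (.both (.play 321 (.both (.play 194 (.both (.play 258 (.ref 4 1)) (.play 130 (.ref 18 65)))) (.play 320 (.ref 15 64)))) (.both (.ref 28 1) (.both (.ref 927 64) (.both (.ref 926 64) (.ref 925 64)))))))))
 (.seq (.one (.play 257 (.both (.play 321 (.ref 879 0)) (.ref 28 1))))
 (.seq (.one (.play 192 (.both (.play 256 (.ref 6 0)) (.play 128 (.ref 534 64)))))
 (.one (.play 257 (.both (.play 256 (.ref 15 0)) (.both (.play 321 (.both (.ref 930 0) (.ref 28 65))) (.both (.ref 929 64) (.both (.play 320 (.both (.play 256 (.ref 6 64)) (.play 322 (.both (.play 258 (.ref 4 65)) (.play 321 (.ref 206 128)))))) (.ref 880 64)))))))))))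
 (.seq (.seq (.seq (.one (.play 257 (.both (.play 2 (.ref 5 1)) (.ref 927 64))))
 (.seq (.one (.play 66 (.both (.play 2 (.ref 7 2)) (.play 65 (.ref 261 64)))))
 (.one (.both (.ref 933 0) (.ref 927 66)))))
 (.seq (.one (.play 66 (.both (.ref 563 0) (.play 130 (.ref 5 65)))))
 (.seq (.one (.both (.ref 905 2) (.both (.ref 935 130) (.both (.ref 933 192) (.play 325 (.ref 10 258))))))
 (.one (.play 1 (.both (.play 129 (.both (.play 65 (.ref 504 0)) (.play 130 (.ref 1 65)))) (.play 2 (.ref 3 1))))))))
 (.seq (.seq (.one (.play 66 (.both (.ref 937 0) (.play 6 (.ref 2 2)))))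
 (.seq (.one (.play 196 (.both (.play 260 (.ref 4 3)) (.play 132 (.ref 86 128)))))
 (.one (.play 65 (.both (.play 321 (.both (.play 64 (.both (.play 1 (.ref 5 0)) (.play 257 (.ref 4 64)))) (.play 385 (.ref 4 128)))) (.play 129 (.ref 5 64)))))))
 (.seq (.seq (.one (.play 65 (.both (.play 0 (.ref 7 0)) (.play 258 (.ref 4 65)))))
 (.one (.play 64 (.both (.play 322 (.both (.ref 941 0) (.play 386 (.ref 4 129)))) (.play 128 (.ref 7 64))))))
 (.seq (.one (.both (.ref 935 4) (.both (.ref 942 4) (.both (.ref 940 5) (.play 324 (.both (.play 323 (.both (.play 132 (.both (.play 326 (.both (.play 259 (.both (.play 130 (.both (.play 131 (.both (.ref 536 65) (.play 198 (.ref 0 130)))) (.both (.play 131 (.ref 912 128)) (.play 387 (.both (.play 195 (.ref 123 130)) (.play 386 (.ref 1 322))))))) (.play 258 (.ref 3 258)))) (.play 390 (.ref 4 133)))) (.play 68 (.ref 7 68)))) (.both (.ref 939 130) (.ref 938 256)))) (.play 388 (.ref 6 132))))))))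
 (.one (.play 129 (.both (.play 65 (.ref 578 0)) (.ref 28 129))))))))))
 (.seq (.seq (.seq (.seq (.seq (.one (.play 133 (.both (.play 1 (.both (.play 0 (.ref 3 0)) (.ref 893 1))) (.play 132 (.ref 0 65)))))
 (.seq (.one (.play 66 (.both (.play 65 (.ref 300 0)) (.ref 8 66))))
 (.one (.play 65 (.both (.play 1 (.ref 10 0)) (.play 5 (.ref 71 1)))))))
 (.seq (.one (.play 66 (.both (.ref 947 0) (.ref 23 65))))
 (.seq (.one (.play 3 (.both (.play 4 (.ref 86 0)) (.play 2 (.ref 3 2)))))
 (.one (.both (.play 5 (.ref 71 1)) (.ref 23 64))))))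
 (.seq (.seq (.one (.play 66 (.both (.ref 947 0) (.both (.play 65 (.ref 950 0)) (.play 70 (.ref 300 1))))))
 (.seq (.one (.play 67 (.both (.ref 948 0) (.both (.ref 951 0) (.both (.ref 937 1) (.both (.play 66 (.both (.ref 949 1) (.ref 23 65))) (.play 3 (.ref 10 2))))))))
 (.one (.play 67 (.both (.ref 170 0) (.play 66 (.ref 1 2)))))))
 (.seq (.one (.play 68 (.both (.ref 890 0) (.both (.ref 946 1) (.both (.play 72 (.both (.ref 953 66) (.both (.ref 8 68) (.play 73 (.ref 885 68))))) (.play 72 (.ref 885 67)))))))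
 (.seq (.one (.play 258 (.both (.play 386 (.both (.play 322 (.both (.ref 906 1) (.play 385 (.ref 1 321)))) (.both (.play 322 (.ref 900 65)) (.play 326 (.ref 527 258))))) (.both (.play 322 (.ref 901 65)) (.play 259 (.ref 113 256))))))
 (.one (.play 193 (.both (.play 256 (.ref 6 0)) (.play 257 (.ref 5 1)))))))))
 (.seq (.seq (.seq (.one (.play 196 (.both (.play 260 (.ref 4 3)) (.play 197 (.ref 113 128)))))
 (.seq (.one (.play 194 (.both (.play 258 (.ref 6 2)) (.play 193 (.ref 152 128)))))
 (.one (.play 66 (.both (.play 2 (.ref 7 2)) (.play 65 (.ref 155 64)))))))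
 (.seq (.one (.play 66 (.both (.play 65 (.ref 160 0)) (.play 259 (.ref 7 2)))))
 (.seq (.one (.play 66 (.both (.play 2 (.ref 7 2)) (.ref 960 64))))
 (.one (.play 67 (.both (.play 68 (.both (.ref 961 0) (.play 4 (.ref 5 3)))) (.play 3 (.ref 4 3))))))))
 (.seq (.seq (.one (.play 131 (.both (.ref 962 0) (.both (.play 323 (.both (.ref 959 64) (.ref 927 130))) (.play 324 (.ref 256 67))))))
 (.seq (.one (.both (.play 0 (.ref 3 0)) (.play 64 (.ref 0 64))))
 (.one (.both (.play 65 (.ref 964 0)) (.play 2 (.ref 3 1))))))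
 (.seq (.seq (.one (.play 385 (.both (.play 449 (.both (.ref 922 0) (.both (.play 258 (.ref 361 129)) (.play 257 (.both (.play 256 (.ref 3 256)) (.ref 897 256)))))) (.play 384 (.ref 1 320)))))
 (.one (.play 322 (.both (.ref 966 1) (.both (.play 257 (.ref 965 256)) (.ref 258 320))))))
 (.seq (.one (.play 323 (.both (.ref 967 0) (.both (.play 322 (.both (.play 258 (.both (.play 386 (.both (.play 194 (.ref 49 130)) (.play 385 (.ref 1 321)))) (.play 257 (.ref 3 257)))) (.both (.ref 508 256) (.ref 258 320)))) (.both (.ref 963 128) (.play 259 (.both (.play 386 (.both (.play 195 (.ref 349 130)) (.play 385 (.ref 2 321)))) (.both (.play 452 (.ref 256 195)) (.play 385 (.both (.play 451 (.both (.play 452 (.both (.ref 958 256) (.play 516 (.ref 7 259)))) (.both (.play 516 (.both (.play 452 (.both (.play 259 (.ref 4 259)) (.ref 957 321))) (.both (.play 452 (.ref 256 259)) (.play 515 (.ref 74 323))))) (.both (.play 514 (.both (.play 450 (.ref 6 258)) (.ref 956 322))) (.ref 898 258))))) (.play 386 (.ref 2 321))))))))))))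
 (.one (.both (.ref 968 0) (.play 326 (.ref 1 323)))))))))
 (.seq (.seq (.seq (.seq (.one (.play 322 (.both (.play 64 (.both (.play 0 (.ref 7 0)) (.ref 625 64))) (.play 258 (.ref 4 65)))))
 (.seq (.one (.play 321 (.both (.ref 47 0) (.play 385 (.ref 878 128)))))
 (.one (.play 129 (.both (.play 65 (.ref 879 0)) (.both (.ref 47 64) (.ref 735 64)))))))
 (.seq (.one (.play 385 (.both (.ref 972 0) (.both (.play 129 (.ref 879 64)) (.both (.ref 971 128) (.ref 931 192))))))
 (.seq (.one (.play 65 (.both (.play 2 (.ref 5 1)) (.play 256 (.ref 6 64)))))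
 (.one (.play 66 (.both (.play 320 (.both (.ref 974 0) (.play 384 (.ref 6 128)))) (.play 130 (.ref 5 65))))))))
 (.seq (.seq (.one (.play 260 (.both (.play 321 (.both (.play 322 (.both (.ref 966 0) (.play 261 (.ref 2 257)))) (.both (.ref 692 192) (.play 322 (.ref 86 256))))) (.play 196 (.ref 5 195)))))
 (.seq (.one (.play 259 (.both (.ref 976 0) (.both (.ref 905 2) (.both (.play 194 (.both (.play 450 (.both (.ref 448 130) (.play 514 (.ref 6 258)))) (.play 258 (.ref 7 194)))) (.ref 975 130))))))
 (.one (.play 451 (.both (.ref 977 0) (.both (.ref 973 130) (.both (.play 260 (.ref 468 131)) (.play 515 (.both (.ref 970 258) (.play 260 (.ref 5 259)))))))))))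
 (.seq (.one (.both (.play 193 (.ref 6 0)) (.play 64 (.ref 5 0))))
 (.seq (.one (.both (.play 1 (.ref 979 0)) (.play 320 (.ref 5 64))))
 (.one (.play 196 (.both (.play 260 (.ref 6 4)) (.play 199 (.both (.ref 920 128) (.play 200 (.ref 914 132)))))))))))
 (.seq (.seq (.seq (.one (.both (.ref 981 0) (.play 262 (.ref 4 5))))
 (.seq (.one (.play 67 (.both (.ref 894 0) (.both (.play 66 (.ref 300 1)) (.both (.play 66 (.both (.play 2 (.ref 10 1)) (.ref 97 65))) (.ref 23 66))))))
 (.one (.play 68 (.both (.ref 983 0) (.play 4 (.ref 7 4)))))))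
 (.seq (.one (.play 321 (.both (.play 66 (.ref 46 1)) (.play 385 (.ref 878 128)))))
 (.seq (.one (.play 257 (.both (.play 0 (.ref 7 0)) (.play 66 (.ref 5 1)))))
 (.one (.both (.play 64 (.ref 526 0)) (.play 5 (.ref 1 1)))))))
 (.seq (.seq (.one (.play 68 (.both (.play 4 (.ref 71 0)) (.ref 65 65))))
 (.seq (.one (.play 67 (.both (.play 68 (.ref 0 0)) (.play 6 (.ref 1 2)))))
 (.one (.play 68 (.both (.play 69 (.both (.play 5 (.ref 71 1)) (.ref 989 64))) (.both (.play 69 (.ref 914 1)) (.both (.ref 988 1) (.ref 8 64))))))))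
 (.seq (.seq (.one (.both (.play 0 (.ref 0 0)) (.play 69 (.both (.play 4 (.ref 0 1)) (.play 66 (.ref 3 1))))))
 (.one (.play 66 (.both (.play 1 (.ref 216 0)) (.play 259 (.ref 7 2))))))
 (.seq (.one (.both (.play 1 (.ref 1 0)) (.play 5 (.ref 1 1))))
 (.one (.both (.play 64 (.ref 2 0)) (.play 5 (.ref 993 1))))))))))))
 (.seq (.seq (.seq (.seq (.seq (.seq (.seq (.one (.play 196 (.both (.play 195 (.both (.play 198 (.both (.play 262 (.ref 4 5)) (.ref 883 128))) (.both (.ref 939 2) (.both (.play 198 (.both (.play 262 (.ref 4 5)) (.ref 916 131))) (.play 134 (.ref 994 130)))))) (.play 260 (.ref 6 4)))))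
 (.seq (.one (.play 193 (.both (.play 257 (.ref 49 0)) (.play 129 (.ref 5 128)))))
 (.one (.play 129 (.both (.play 65 (.ref 877 0)) (.both (.play 65 (.ref 924 1)) (.play 385 (.ref 578 64))))))))
 (.seq (.one (.play 129 (.both (.play 65 (.ref 924 1)) (.ref 47 64))))
 (.seq (.one (.play 193 (.both (.ref 998 0) (.both (.ref 997 0) (.both (.ref 935 64) (.both (.play 129 (.both (.ref 47 64) (.ref 996 65))) (.play 194 (.ref 46 129))))))))
 (.one (.play 257 (.both (.play 2 (.ref 5 1)) (.ref 931 64)))))))
 (.seq (.seq (.one (.play 257 (.both (.ref 506 0) (.play 321 (.ref 4 64)))))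
 (.seq (.one (.play 385 (.both (.play 129 (.both (.play 65 (.ref 924 1)) (.both (.play 130 (.ref 46 65)) (.ref 1001 65)))) (.both (.play 129 (.ref 924 65)) (.both (.ref 985 128) (.ref 928 192))))))
 (.one (.both (.play 4 (.ref 2 1)) (.play 128 (.ref 1 64))))))
 (.seq (.one (.both (.play 0 (.ref 3 0)) (.play 4 (.ref 2 1))))
 (.seq (.one (.play 197 (.both (.play 195 (.both (.play 194 (.both (.play 258 (.ref 129 1)) (.both (.ref 937 128) (.both (.play 129 (.both (.play 133 (.both (.play 193 (.ref 1004 128)) (.play 134 (.ref 2 130)))) (.play 130 (.ref 3 129)))) (.play 257 (.both (.play 133 (.both (.play 193 (.ref 1003 128)) (.play 134 (.ref 2 130)))) (.play 258 (.ref 1 193)))))))) (.play 259 (.ref 6 3)))) (.play 261 (.ref 4 4)))))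
 (.one (.play 257 (.both (.play 1 (.ref 878 0)) (.both (.ref 44 64) (.play 321 (.ref 36 65))))))))))
 (.seq (.seq (.seq (.one (.play 1 (.both (.play 65 (.ref 1004 0)) (.play 2 (.ref 3 1)))))
 (.seq (.one (.both (.ref 611 0) (.play 133 (.ref 2 129))))
 (.one (.play 131 (.both (.play 258 (.both (.ref 745 2) (.both (.play 259 (.ref 1008 65)) (.play 259 (.both (.ref 1007 192) (.play 198 (.ref 2 194))))))) (.play 130 (.ref 1 66)))))))
 (.seq (.one (.play 197 (.both (.play 198 (.ref 982 0)) (.both (.ref 249 4) (.ref 42 5)))))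
 (.seq (.one (.play 65 (.both (.play 193 (.both (.play 194 (.both (.play 258 (.ref 256 1)) (.play 133 (.ref 1 129)))) (.play 192 (.ref 1 128)))) (.play 64 (.ref 3 64)))))
 (.one (.play 132 (.both (.play 130 (.both (.play 129 (.both (.ref 1011 0) (.play 128 (.ref 0 128)))) (.play 66 (.ref 7 66)))) (.play 68 (.ref 5 67))))))))
 (.seq (.seq (.one (.play 129 (.both (.play 65 (.ref 879 0)) (.play 130 (.ref 46 65)))))
 (.seq (.one (.play 65 (.both (.play 192 (.both (.play 256 (.ref 335 0)) (.play 128 (.ref 7 128)))) (.play 66 (.ref 46 1)))))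
 (.one (.play 64 (.both (.play 66 (.both (.play 65 (.ref 95 0)) (.play 130 (.ref 5 65)))) (.play 128 (.ref 7 64)))))))
 (.seq (.one (.play 129 (.both (.play 65 (.ref 879 0)) (.both (.play 65 (.ref 653 0)) (.play 385 (.ref 578 64))))))
 (.seq (.one (.play 193 (.both (.ref 1013 0) (.both (.ref 1016 0) (.both (.ref 1015 64) (.both (.ref 1014 64) (.ref 47 128)))))))
 (.one (.play 193 (.both (.ref 1013 0) (.play 386 (.ref 4 193))))))))))
 (.seq (.seq (.seq (.seq (.one (.play 321 (.both (.play 65 (.ref 578 0)) (.both (.ref 985 64) (.ref 971 64)))))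
 (.seq (.one (.play 65 (.both (.ref 47 0) (.ref 1001 1))))
 (.one (.both (.play 257 (.both (.ref 1017 0) (.ref 28 257))) (.both (.play 577 (.ref 879 256)) (.both (.ref 971 256) (.both (.play 577 (.both (.ref 47 256) (.ref 928 384))) (.both (.play 512 (.both (.play 577 (.ref 877 256)) (.play 576 (.ref 6 320)))) (.play 577 (.ref 878 320))))))))))
 (.seq (.one (.play 68 (.both (.play 4 (.ref 71 0)) (.play 69 (.ref 885 64)))))
 (.seq (.one (.play 132 (.both (.play 4 (.both (.play 3 (.ref 2 0)) (.play 68 (.ref 143 1)))) (.play 131 (.ref 0 64)))))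
 (.one (.play 69 (.both (.play 129 (.ref 876 0)) (.ref 1023 2)))))))
 (.seq (.seq (.one (.play 67 (.both (.play 0 (.ref 0 0)) (.play 6 (.ref 176 2)))))
 (.seq (.one (.play 68 (.both (.ref 1025 0) (.play 69 (.ref 0 1)))))
 (.one (.play 68 (.both (.play 69 (.both (.play 5 (.ref 71 1)) (.play 131 (.both (.play 132 (.ref 0 64)) (.play 130 (.ref 176 65)))))) (.both (.ref 1023 1) (.both (.ref 1022 1) (.both (.play 69 (.both (.play 65 (.ref 914 1)) (.both (.play 70 (.ref 950 1)) (.play 70 (.ref 885 65))))) (.ref 8 64)))))))))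
 (.seq (.one (.play 69 (.both (.play 68 (.both (.ref 952 0) (.ref 8 68))) (.both (.ref 946 2) (.both (.play 68 (.ref 300 3)) (.both (.play 133 (.both (.play 68 (.ref 530 3)) (.play 132 (.ref 1 68)))) (.both (.play 73 (.both (.play 5 (.ref 10 4)) (.ref 1027 6))) (.play 68 (.ref 885 67)))))))))
 (.seq (.one (.play 65 (.both (.play 69 (.both (.ref 910 0) (.play 70 (.ref 0 2)))) (.play 66 (.ref 1 1)))))
 (.one (.play 193 (.both (.play 257 (.ref 901 0)) (.play 194 (.ref 3 193)))))))))
 (.seq (.seq (.seq (.one (.play 67 (.both (.play 258 (.ref 126 2)) (.ref 957 64))))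
 (.seq (.one (.play 196 (.both (.play 195 (.ref 918 0)) (.both (.ref 422 3) (.ref 626 3)))))
 (.one (.play 196 (.both (.play 259 (.both (.play 260 (.ref 49 3)) (.play 323 (.ref 7 66)))) (.play 197 (.ref 295 128)))))))
 (.seq (.one (.play 194 (.both (.play 258 (.ref 6 2)) (.play 193 (.ref 994 128)))))
 (.seq (.one (.play 65 (.both (.ref 591 0) (.play 129 (.ref 5 64)))))
 (.one (.play 129 (.both (.ref 1035 1) (.play 384 (.ref 6 128))))))))
 (.seq (.seq (.one (.play 64 (.both (.play 65 (.both (.play 0 (.ref 7 0)) (.play 1 (.ref 6 0)))) (.play 128 (.ref 7 64)))))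
 (.seq (.one (.play 129 (.both (.ref 1037 0) (.play 386 (.ref 4 129)))))
 (.one (.play 257 (.both (.play 193 (.both (.play 385 (.both (.ref 902 0) (.play 384 (.ref 1 320)))) (.both (.ref 499 128) (.both (.play 386 (.ref 478 129)) (.play 385 (.both (.ref 898 192) (.play 384 (.ref 1 320)))))))) (.play 256 (.ref 3 256)))))))
 (.seq (.seq (.one (.play 194 (.both (.play 196 (.both (.play 260 (.ref 4 3)) (.play 193 (.ref 86 128)))) (.play 258 (.ref 6 2)))))
 (.one (.play 392 (.both (.play 455 (.both (.play 263 (.both (.ref 905 6) (.ref 1040 260))) (.both (.play 519 (.both (.play 518 (.both (.play 264 (.both (.ref 974 198) (.play 328 (.ref 5 263)))) (.play 582 (.ref 6 326)))) (.both (.play 328 (.ref 18 263)) (.ref 897 326)))) (.both (.play 519 (.ref 89 263)) (.ref 1010 322))))) (.both (.play 390 (.both (.play 389 (.both (.play 388 (.both (.play 387 (.both (.play 450 (.both (.play 386 (.ref 908 65)) (.play 451 (.ref 1 386)))) (.play 326 (.ref 2 323)))) (.both (.play 387 (.both (.ref 889 320) (.play 326 (.ref 2 323))))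 (.ref 23 387)))) (.both (.ref 909 66) (.both (.ref 1039 68) (.both (.play 454 (.both (.ref 895 194) (.both (.play 263 (.ref 442 198)) (.play 388 (.both (.play 387 (.both (.play 326 (.ref 2 323)) (.ref 911 385))) (.play 324 (.ref 10 323))))))) (.both (.ref 952 321) (.ref 883 322))))))) (.both (.play 455 (.both (.play 454 (.both (.ref 1036 134) (.play 453 (.ref 160 388)))) (.both (.play 519 (.ref 18 263)) (.ref 1010 322)))) (.both (.play 325 (.both (.play 326 (.both (.play 264 (.both (.play 200 (.ref 442 135)) (.play 265 (.ref 2 261)))) (.play 393 (.ref 3 325)))) (.play 389 (.ref 152 324)))) (.play 389 (.both (.ref 266 323) (.both (.ref 121 323) (.play 393 (.ref 300 324))))))))) (.both (.play 456 (.both (.play 264 (.both (.ref 705 71) (.ref 957 261))) (.both (.ref 1033 261) (.play 520 (.ref 534 263))))) (.both (.play 456 (.both (.play 457 (.both (.ref 1038 135) (.play 458 (.ref 113 389)))) (.both (.play 520 (.ref 534 263)) (.ref 1032 324)))) (.both (.play 455 (.both (.play 454 (.both (.ref 1036 134) (.play 453 (.both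 (.play 452 (.ref 2 388)) (.play 393 (.ref 526 389)))))) (.both (.play 519 (.both (.play 263 (.both (.play 199 (.ref 49 135)) (.play 518 (.ref 15 262)))) (.play 583 (.ref 5 327)))) (.play 519 (.ref 18 263))))) (.both (.play 456 (.both (.play 520 (.both (.play 584 (.both (.ref 718 199) (.ref 28 328))) (.both (.play 521 (.ref 982 323)) (.both (.ref 271 327) (.ref 929 327))))) (.both (.ref 1031 197) (.both (.play 519 (.both (.play 455 (.both (.play 264 (.ref 6 263)) (.ref 1034 324))) (.both (.play 455 (.ref 126 263)) (.play 520 (.ref 26 327))))) (.both (.ref 1033 261) (.both (.play 520 (.both (.play 264 (.ref 878 263)) (.both (.ref 271 327) (.ref 103 327)))) (.ref 1032 324))))))) (.both (.play 456 (.both (.ref 1031 197) (.play 520 (.ref 534 263)))) (.play 520 (.both (.play 519 (.both (.play 518 (.both (.play 517 (.both (.ref 1030 259) (.both (.play 453 (.both (.play 582 (.both (.play 581 (.both (.play 389 (.ref 49 325)) (.play 521 (.ref 1 517)))) (.both (.play 389 (.both (.play 325 (.ref 4 325)) (.play 646 (.ref 398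 389)))) (.both (.play 454 (.both (.play 389 (.ref 256 325)) (.play 521 (.ref 3 453)))) (.play 521 (.both (.play 454 (.ref 3 453)) (.play 581 (.ref 1 517)))))))) (.play 452 (.ref 3 452)))) (.both (.play 581 (.both (.play 454 (.both (.play 453 (.ref 175 389)) (.both (.play 645 (.ref 980 389)) (.both (.play 582 (.both (.play 645 (.ref 126 389)) (.play 521 (.ref 1 517)))) (.play 521 (.both (.play 453 (.ref 3 453)) (.play 582 (.ref 1 517)))))))) (.play 580 (.ref 1 516)))) (.both (.ref 890 449) (.ref 889 450)))))) (.both (.play 517 (.both (.play 581 (.both (.play 453 (.both (.play 452 (.both (.play 388 (.ref 696 260)) (.play 451 (.ref 112 450)))) (.both (.ref 683 388) (.play 520 (.ref 504 452))))) (.both (.play 645 (.both (.play 453 (.both (.ref 942 324) (.both (.ref 940 325) (.play 452 (.both (.play 454 (.both (.play 390 (.ref 5 389)) (.play 451 (.ref 169 450)))) (.play 388 (.ref 7 388))))))) (.both (.play 454 (.ref 361 325)) (.both (.play 454 (.ref 468 325)) (.ref 1006 452))))) (.play 580 (.ref 70 514))))) (.both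 (.play 580 (.ref 876 451)) (.both (.ref 913 451) (.ref 1029 515))))) (.both (.play 521 (.both (.play 454 (.ref 901 261)) (.play 522 (.ref 914 454)))) (.both (.ref 1028 448) (.both (.ref 886 451) (.both (.play 521 (.both (.play 522 (.both (.play 523 (.ref 914 455)) (.ref 23 517))) (.both (.ref 1027 454) (.both (.play 517 (.both (.play 516 (.ref 885 515)) (.both (.ref 23 516) (.ref 1026 516)))) (.play 517 (.ref 885 516)))))) (.both (.ref 1024 452) (.play 521 (.both (.play 517 (.ref 530 452)) (.both (.play 522 (.both (.play 458 (.ref 71 454)) (.ref 953 516))) (.both (.play 522 (.ref 914 454)) (.ref 1022 454))))))))))))) (.both (.play 455 (.both (.ref 981 322) (.play 583 (.ref 5 327)))) (.both (.play 455 (.ref 982 322)) (.play 455 (.ref 74 327)))))) (.both (.play 456 (.both (.play 263 (.ref 7 263)) (.ref 1005 324))) (.both (.play 456 (.ref 534 263)) (.play 456 (.both (.play 519 (.ref 918 324)) (.both (.ref 271 327) (.ref 103 327))))))))))))))))))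
 (.seq (.one (.play 195 (.both (.play 259 (.both (.play 260 (.ref 679 0)) (.play 323 (.ref 7 66)))) (.play 196 (.ref 0 128)))))
 (.one (.play 65 (.both (.play 64 (.ref 2 0)) (.play 128 (.ref 1 64)))))))))))
 (.seq (.seq (.seq (.seq (.seq (.one (.both (.play 67 (.ref 2 0)) (.play 5 (.ref 1 1))))
 (.seq (.one (.both (.play 64 (.ref 2 0)) (.play 5 (.ref 1044 1))))
 (.one (.both (.play 3 (.ref 67 0)) (.play 68 (.ref 2 1))))))
 (.seq (.one (.play 256 (.both (.play 192 (.ref 5 0)) (.play 257 (.ref 26 64)))))
 (.seq (.one (.play 194 (.both (.play 195 (.both (.play 193 (.both (.play 257 (.ref 6 1)) (.play 196 (.ref 30 128)))) (.play 259 (.ref 4 2)))) (.both (.ref 29 1) (.ref 1047 1)))))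
 (.one (.play 65 (.both (.play 1 (.ref 6 0)) (.play 258 (.ref 4 65))))))))
 (.seq (.seq (.one (.play 131 (.both (.play 195 (.ref 26 2)) (.play 132 (.ref 0 64)))))
 (.seq (.one (.play 129 (.both (.play 65 (.ref 478 1)) (.play 128 (.ref 3 128)))))
 (.one (.play 194 (.both (.ref 1051 0) (.play 261 (.ref 3 193)))))))
 (.seq (.one (.play 193 (.both (.ref 1052 0) (.play 192 (.ref 3 192)))))
 (.seq (.one (.both (.play 67 (.ref 295 0)) (.both (.ref 276 0) (.both (.play 4 (.ref 169 1)) (.play 70 (.ref 263 2))))))
 (.one (.play 131 (.both (.play 259 (.both (.play 67 (.ref 335 2)) (.play 260 (.ref 0 192)))) (.play 132 (.ref 2 128)))))))))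
 (.seq (.seq (.seq (.one (.play 194 (.both (.play 258 (.ref 77 2)) (.play 193 (.ref 69 128)))))
 (.seq (.one (.play 192 (.both (.play 128 (.ref 696 0)) (.play 260 (.ref 3 192)))))
 (.one (.play 323 (.both (.ref 1057 2) (.both (.ref 1056 128) (.play 262 (.ref 504 194))))))))
 (.seq (.one (.play 257 (.both (.play 321 (.ref 361 1)) (.play 256 (.ref 1 192)))))
 (.seq (.one (.play 193 (.both (.ref 1051 0) (.play 260 (.ref 216 192)))))
 (.one (.play 321 (.both (.play 324 (.both (.ref 966 0) (.both (.ref 945 256) (.ref 888 320)))) (.play 320 (.ref 2 256))))))))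
 (.seq (.seq (.one (.play 3 (.both (.play 64 (.ref 2 0)) (.play 70 (.ref 30 2)))))
 (.seq (.one (.play 4 (.both (.ref 1062 0) (.play 5 (.ref 2 1)))))
 (.one (.play 65 (.both (.ref 1063 0) (.ref 23 64))))))
 (.seq (.seq (.one (.play 66 (.both (.ref 947 0) (.both (.play 2 (.ref 10 1)) (.ref 1063 1)))))
 (.one (.play 320 (.both (.play 66 (.both (.play 2 (.ref 5 1)) (.ref 248 64))) (.play 256 (.ref 6 64))))))
 (.seq (.one (.play 259 (.both (.ref 1066 2) (.both (.play 324 (.both (.play 68 (.both (.play 4 (.ref 5 3)) (.ref 41 67))) (.play 260 (.ref 4 67)))) (.ref 1040 64)))))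
 (.one (.play 324 (.both (.ref 1039 0) (.ref 896 129)))))))))
 (.seq (.seq (.seq (.seq (.one (.play 326 (.both (.play 325 (.both (.play 324 (.both (.play 323 (.both (.play 259 (.both (.play 387 (.both (.play 195 (.both (.ref 902 2) (.both (.ref 48 66) (.play 196 (.both (.play 132 (.ref 5 131)) (.play 451 (.both (.play 260 (.ref 5 195)) (.ref 897 258)))))))) (.play 386 (.ref 1 322)))) (.play 258 (.ref 3 258)))) (.both (.ref 951 256) (.both (.ref 947 257) (.play 322 (.ref 950 257)))))) (.play 327 (.ref 0 324)))) (.play 390 (.ref 3 325)))) (.both (.play 265 (.both (.play 458 (.both (.ref 1049 136) (.play 390 (.ref 254 325)))) (.both (.play 456 (.ref 126 200)) (.ref 1048 263)))) (.both (.play 394 (.both (.ref 896 199) (.play 327 (.ref 3 326)))) (.play 327 (.ref 1054 324)))))))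
 (.seq (.one (.play 257 (.both (.ref 28 1) (.ref 271 64))))
 (.one (.play 391 (.both (.play 393 (.both (.ref 1069 0) (.both (.ref 909 68) (.both (.ref 955 68) (.both (.ref 1068 70) (.play 457 (.both (.play 521 (.both (.play 585 (.both (.ref 717 200) (.both (.play 584 (.ref 15 328)) (.ref 271 392)))) (.both (.play 586 (.both (.play 456 (.both (.play 265 (.ref 335 200)) (.play 585 (.ref 278 392)))) (.play 522 (.ref 4 329)))) (.both (.play 522 (.ref 982 324)) (.both (.play 584 (.both (.play 520 (.ref 6 328)) (.play 585 (.ref 918 389)))) (.ref 1070 328)))))) (.both (.play 458 (.both (.play 522 (.ref 99 265)) (.play 390 (.ref 0 390)))) (.play 458 (.ref 261 390)))))))))) (.both (.play 393 (.both (.ref 1069 0) (.both (.ref 1068 70) (.both (.play 326 (.both (.ref 1052 133) (.play 390 (.ref 152 325)))) (.play 390 (.both (.ref 1042 262) (.play 389 (.ref 2 325)))))))) (.both (.ref 968 4) (.both (.play 390 (.both (.play 326 (.both (.play 262 (.both (.play 198 (.both (.ref 367 69) (.both (.ref 396 70) (.play 454 (.ref 578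 133))))) (.both (.ref 1067 195) (.both (.play 455 (.ref 99 198)) (.play 455 (.ref 478 198)))))) (.both (.ref 1058 131) (.play 325 (.ref 113 323))))) (.both (.play 389 (.both (.play 453 (.ref 129 196)) (.play 329 (.ref 2 325)))) (.both (.play 389 (.both (.ref 890 321) (.play 329 (.ref 2 325)))) (.both (.play 389 (.both (.ref 1065 322) (.play 329 (.ref 2 325)))) (.both (.ref 938 323) (.play 389 (.both (.ref 1064 323) (.play 329 (.ref 2 325)))))))))) (.both (.play 390 (.both (.play 393 (.both (.ref 923 65) (.both (.play 265 (.both (.play 201 (.both (.play 137 (.ref 6 136)) (.ref 568 198))) (.both (.play 456 (.ref 126 200)) (.ref 1048 263)))) (.ref 945 325)))) (.play 389 (.ref 2 325)))) (.both (.ref 1061 69) (.both (.play 327 (.both (.play 326 (.both (.ref 1055 134) (.ref 894 259))) (.both (.play 263 (.both (.ref 962 132) (.both (.play 199 (.ref 49 135)) (.play 455 (.both (.ref 1040 260) (.both (.ref 414 262) (.ref 75 263))))))) (.both (.ref 963 132) (.both (.ref 1060 133) (.play 393 (.both (.play 455 (.both (.play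 519 (.both (.play 582 (.both (.play 456 (.both (.play 263 (.ref 49 199)) (.ref 956 390))) (.play 518 (.ref 6 326)))) (.both (.play 583 (.both (.play 456 (.both (.play 263 (.ref 49 199)) (.play 647 (.ref 5 391)))) (.both (.ref 28 327) (.play 647 (.ref 36 391))))) (.both (.play 584 (.both (.play 520 (.ref 4 327)) (.play 583 (.ref 982 386)))) (.both (.play 518 (.ref 918 323)) (.ref 897 326)))))) (.both (.ref 683 262) (.play 454 (.ref 70 388))))) (.both (.play 326 (.both (.ref 264 198) (.play 325 (.ref 0 325)))) (.play 326 (.ref 216 325)))))))))) (.both (.play 326 (.both (.play 327 (.both (.ref 1051 133) (.both (.play 389 (.both (.play 390 (.both (.ref 1059 196) (.play 329 (.ref 1 325)))) (.play 325 (.ref 134 324)))) (.ref 983 258)))) (.both (.play 390 (.both (.ref 1058 131) (.play 389 (.ref 2 325)))) (.both (.play 327 (.both (.ref 1051 133) (.ref 1055 134))) (.play 325 (.ref 1054 323)))))) (.both (.play 390 (.both (.play 393 (.both (.ref 1053 133) (.both (.play 520 (.both (.play 456 (.both (.play 265 (.ref 5 264))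 (.ref 995 323))) (.both (.play 456 (.ref 18 264)) (.ref 1050 326)))) (.ref 945 325)))) (.play 389 (.ref 2 325)))) (.both (.play 390 (.both (.play 393 (.both (.play 265 (.both (.play 458 (.both (.ref 1049 136) (.play 457 (.ref 0 390)))) (.both (.play 456 (.ref 126 200)) (.ref 1048 263)))) (.both (.ref 1011 261) (.both (.ref 1042 262) (.ref 888 389))))) (.play 389 (.ref 2 325)))) (.both (.play 520 (.both (.play 456 (.ref 921 259)) (.both (.play 456 (.both (.play 265 (.ref 5 264)) (.ref 986 327))) (.play 393 (.both (.play 521 (.both (.play 519 (.both (.play 455 (.both (.play 583 (.ref 5 327)) (.play 518 (.both (.play 582 (.both (.play 646 (.ref 329 390)) (.play 581 (.ref 1 517)))) (.both (.ref 946 451) (.ref 913 452)))))) (.both (.play 583 (.both (.play 455 (.ref 5 327)) (.play 582 (.both (.play 581 (.ref 1046 516)) (.both (.play 519 (.ref 68 516)) (.both (.play 584 (.ref 1045 517)) (.play 522 (.both (.play 519 (.ref 1 518)) (.play 584 (.ref 1044 518)))))))))) (.both (.play 455 (.both (.play 583 (.ref 5 327)) (.play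 522 (.both (.play 454 (.ref 3 454)) (.ref 1027 455))))) (.both (.ref 1028 449) (.both (.ref 954 450) (.ref 1024 453))))))) (.both (.play 457 (.ref 918 325)) (.both (.play 457 (.both (.ref 917 325) (.play 585 (.ref 7 328)))) (.play 457 (.ref 26 328)))))) (.both (.play 454 (.both (.play 455 (.both (.play 519 (.both (.play 518 (.both (.ref 475 325) (.both (.play 327 (.ref 206 326)) (.ref 330 387)))) (.play 583 (.ref 5 327)))) (.play 394 (.ref 1 390)))) (.ref 1043 325))) (.both (.play 390 (.both (.play 389 (.ref 2 325)) (.ref 888 389))) (.play 457 (.both (.play 390 (.ref 135 325)) (.ref 456 328)))))))))) (.play 390 (.both (.play 393 (.both (.ref 1011 261) (.both (.ref 1042 262) (.ref 945 325)))) (.play 389 (.ref 2 325)))))))))))))))))))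
 (.seq (.one (.play 129 (.both (.play 65 (.ref 578 0)) (.play 384 (.ref 15 128)))))
 (.seq (.one (.play 257 (.both (.ref 1017 0) (.both (.ref 1072 64) (.both (.play 513 (.both (.ref 718 128) (.both (.play 512 (.ref 15 256)) (.play 577 (.ref 879 256))))) (.play 513 (.ref 879 192)))))))
 (.one (.play 321 (.both (.play 66 (.ref 46 1)) (.ref 931 128)))))))
 (.seq (.seq (.one (.play 257 (.both (.ref 999 0) (.play 512 (.ref 15 256)))))
 (.seq (.one (.play 129 (.both (.play 65 (.ref 1003 0)) (.play 130 (.ref 1 65)))))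
 (.one (.play 193 (.both (.ref 1051 0) (.play 192 (.ref 0 192)))))))
 (.seq (.one (.play 195 (.both (.play 259 (.ref 534 2)) (.play 196 (.ref 0 128)))))
 (.seq (.one (.play 259 (.both (.play 66 (.ref 256 2)) (.play 260 (.ref 0 192)))))
 (.one (.play 258 (.both (.play 194 (.ref 4 1)) (.play 257 (.both (.ref 239 64) (.play 322 (.ref 4 65)))))))))))
 (.seq (.seq (.seq (.one (.both (.play 65 (.both (.play 4 (.ref 2 1)) (.play 64 (.ref 0 64)))) (.play 6 (.ref 2 2))))
 (.seq (.one (.both (.play 65 (.ref 218 0)) (.play 1 (.ref 3 1))))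
 (.one (.play 194 (.both (.play 258 (.ref 6 2)) (.play 193 (.ref 69 128)))))))
 (.seq (.one (.play 193 (.both (.ref 998 0) (.both (.ref 1015 64) (.both (.ref 1020 64) (.play 449 (.both (.play 194 (.ref 46 129)) (.ref 741 256))))))))
 (.seq (.one (.play 192 (.both (.play 1 (.ref 6 0)) (.play 128 (.ref 7 128)))))
 (.one (.play 193 (.both (.play 129 (.both (.ref 378 0) (.play 130 (.ref 46 65)))) (.both (.play 129 (.ref 578 64)) (.both (.play 129 (.both (.ref 1085 64) (.play 130 (.ref 46 65)))) (.ref 47 128)))))))))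
 (.seq (.seq (.one (.play 517 (.both (.play 390 (.both (.play 326 (.both (.play 262 (.both (.ref 1018 5) (.both (.play 198 (.both (.play 133 (.both (.play 134 (.both (.play 135 (.both (.play 132 (.both (.play 131 (.ref 300 66)) (.ref 990 68))) (.play 71 (.ref 5 70)))) (.play 69 (.ref 7 69)))) (.play 197 (.ref 7 133)))) (.play 391 (.ref 4 198)))) (.ref 47 197)))) (.both (.play 262 (.both (.play 198 (.both (.ref 944 5) (.play 453 (.ref 15 197)))) (.both (.play 198 (.ref 653 133)) (.play 263 (.ref 46 198))))) (.both (.ref 935 197) (.play 327 (.both (.play 325 (.both (.play 324 (.both (.ref 1009 257) (.both (.ref 937 258) (.both (.ref 913 258) (.ref 1029 322))))) (.play 261 (.ref 7 261)))) (.play 263 (.ref 5 262)))))))) (.both (.play 516 (.both (.play 388 (.both (.play 452 (.both (.play 324 (.both (.ref 1017 67) (.play 581 (.ref 4 324)))) (.both (.play 324 (.both (.ref 998 131) (.play 581 (.ref 4 324)))) (.play 387 (.ref 289 387))))) (.both (.play 389 (.both (.play 453 (.both (.play 325 (.both (.ref 1086 68) (.play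 580 (.ref 6 324)))) (.both (.play 324 (.ref 696 196)) (.both (.play 580 (.ref 77 324)) (.play 581 (.both (.play 324 (.ref 7 324)) (.play 645 (.both (.play 644 (.ref 15 388)) (.both (.play 709 (.both (.ref 461 388) (.ref 28 453))) (.both (.play 709 (.ref 878 452)) (.ref 1070 452))))))))))) (.play 387 (.ref 0 387)))) (.both (.play 387 (.both (.play 452 (.both (.play 324 (.both (.ref 1086 67) (.play 581 (.ref 4 324)))) (.both (.play 323 (.ref 431 195)) (.play 581 (.ref 99 324))))) (.play 389 (.ref 0 387)))) (.both (.play 452 (.both (.ref 1084 131) (.both (.play 324 (.both (.ref 935 195) (.play 581 (.ref 4 324)))) (.both (.ref 1067 321) (.play 581 (.ref 99 324)))))) (.both (.play 453 (.both (.play 452 (.both (.ref 1084 131) (.play 451 (.ref 218 386)))) (.both (.play 389 (.both (.play 325 (.ref 349 260)) (.play 387 (.ref 0 387)))) (.play 452 (.ref 1082 386))))) (.play 452 (.both (.play 580 (.both (.ref 971 323) (.both (.ref 970 323) (.ref 1083 385)))) (.both (.play 580 (.both (.ref 1083 385) (.both (.ref 741 387) (.play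 644 (.both (.ref 28 388) (.both (.play 581 (.both (.play 645 (.ref 4 388)) (.play 708 (.ref 18 452)))) (.ref 932 451))))))) (.play 453 (.ref 1082 386))))))))))) (.play 515 (.ref 2 451)))) (.both (.play 326 (.both (.ref 999 69) (.play 581 (.ref 6 325)))) (.play 581 (.ref 442 325)))))) (.both (.play 453 (.both (.play 581 (.both (.play 389 (.both (.ref 902 196) (.both (.ref 1035 261) (.play 388 (.both (.play 324 (.ref 7 324)) (.play 387 (.ref 112 386))))))) (.play 645 (.both (.play 646 (.ref 982 448)) (.play 709 (.ref 5 453)))))) (.both (.play 452 (.both (.play 391 (.both (.play 581 (.both (.play 327 (.both (.play 519 (.both (.play 326 (.both (.play 262 (.ref 7 262)) (.play 390 (.ref 6 325)))) (.play 520 (.both (.play 584 (.ref 4 327)) (.play 580 (.ref 1 516)))))) (.play 263 (.ref 6 262)))) (.both (.play 645 (.ref 18 389)) (.ref 1010 448)))) (.play 392 (.ref 2 388)))) (.both (.play 391 (.ref 1081 386)) (.play 519 (.ref 216 451))))) (.both (.play 452 (.both (.play 519 (.both (.play 391 (.both (.play 327 (.both (.play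 263 (.ref 6 262)) (.play 583 (.both (.ref 47 262) (.ref 1080 390))))) (.play 392 (.ref 2 388)))) (.play 520 (.ref 3 452)))) (.ref 894 385))) (.ref 1060 259))))) (.both (.play 519 (.both (.ref 955 194) (.both (.play 453 (.both (.play 581 (.both (.play 389 (.both (.ref 902 196) (.play 580 (.ref 314 388)))) (.play 645 (.ref 18 389)))) (.both (.ref 1077 259) (.play 452 (.ref 216 451))))) (.both (.play 583 (.both (.play 584 (.both (.ref 1038 262) (.play 516 (.ref 0 516)))) (.both (.play 647 (.ref 534 390)) (.ref 1032 451)))) (.play 583 (.both (.play 647 (.ref 534 390)) (.play 584 (.ref 229 516)))))))) (.both (.play 516 (.both (.play 519 (.both (.play 580 (.ref 908 195)) (.ref 1078 388))) (.play 515 (.ref 2 451)))) (.both (.ref 1061 195) (.both (.play 516 (.both (.play 519 (.both (.ref 1053 259) (.ref 1078 388))) (.play 515 (.ref 2 451)))) (.both (.play 516 (.both (.play 519 (.both (.play 452 (.ref 901 259)) (.ref 1079 324))) (.play 515 (.ref 2 451)))) (.play 516 (.both (.play 519 (.both (.play 581 (.both (.play 645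 (.ref 468 325)) (.play 580 (.ref 176 515)))) (.both (.ref 1078 388) (.ref 888 515)))) (.play 515 (.ref 2 451)))))))))))))
 (.seq (.one (.play 456 (.both (.play 392 (.both (.play 328 (.ref 1021 7)) (.both (.ref 1073 71) (.both (.play 584 (.both (.play 328 (.both (.play 264 (.both (.ref 1072 71) (.ref 28 264))) (.both (.play 264 (.ref 877 199)) (.ref 47 263)))) (.both (.ref 971 327) (.ref 928 391)))) (.both (.play 328 (.both (.play 521 (.both (.play 454 (.both (.play 455 (.both (.ref 1039 133) (.play 522 (.ref 0 454)))) (.both (.ref 958 325) (.play 455 (.ref 169 453))))) (.play 585 (.ref 4 328)))) (.both (.ref 1072 135) (.play 521 (.ref 49 264))))) (.both (.play 328 (.both (.ref 1072 135) (.both (.ref 942 199) (.ref 898 327)))) (.both (.play 328 (.both (.ref 1072 135) (.both (.ref 970 263) (.play 521 (.ref 49 264))))) (.both (.play 584 (.both (.play 585 (.both (.play 583 (.both (.play 582 (.both (.play 646 (.ref 908 261)) (.both (.play 581 (.both (.ref 952 513) (.play 521 (.ref 71 517)))) (.play 581 (.ref 950 516)))))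 (.play 647 (.ref 6 391)))) (.play 649 (.ref 4 392)))) (.both (.play 648 (.ref 879 327)) (.both (.ref 897 391) (.play 648 (.both (.play 712 (.ref 877 391)) (.both (.play 712 (.both (.ref 47 391) (.ref 985 455))) (.ref 28 392)))))))) (.both (.play 584 (.both (.play 328 (.ref 877 263)) (.both (.play 648 (.ref 879 327)) (.ref 928 391)))) (.ref 880 327)))))))))) (.both (.ref 1087 2) (.both (.play 392 (.both (.play 328 (.both (.ref 999 71) (.both (.play 519 (.both (.play 264 (.both (.ref 998 71) (.play 455 (.ref 6 263)))) (.play 583 (.ref 6 327)))) (.both (.ref 1072 135) (.ref 1066 263))))) (.both (.play 519 (.both (.play 455 (.both (.ref 967 132) (.both (.play 454 (.both (.play 390 (.ref 901 197)) (.play 453 (.ref 169 452)))) (.both (.play 454 (.both (.ref 1051 261) (.play 453 (.ref 169 452)))) (.both (.play 583 (.both (.play 391 (.both (.ref 537 325) (.ref 1034 388))) (.play 647 (.ref 5 391)))) (.play 521 (.both (.play 518 (.both (.ref 1059 325) (.play 517 (.ref 2 453)))) (.play 454 (.ref 169 453))))))))) (.both (.play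 518 (.both (.play 521 (.both (.play 582 (.ref 129 325)) (.play 585 (.ref 256 328)))) (.play 517 (.ref 2 453)))) (.both (.play 518 (.both (.play 521 (.both (.play 585 (.ref 256 328)) (.ref 1011 389))) (.play 517 (.ref 2 453)))) (.play 583 (.ref 442 327)))))) (.both (.play 391 (.both (.play 455 (.both (.play 454 (.both (.ref 1039 133) (.both (.play 517 (.both (.ref 1043 388) (.play 518 (.ref 1 453)))) (.ref 827 388)))) (.both (.play 454 (.both (.play 518 (.ref 908 133)) (.play 453 (.ref 86 388)))) (.both (.play 393 (.both (.ref 1077 197) (.play 454 (.ref 86 389)))) (.both (.play 454 (.both (.ref 1059 261) (.play 453 (.ref 86 388)))) (.play 327 (.both (.play 519 (.both (.ref 933 260) (.ref 338 325))) (.play 263 (.ref 4 263))))))))) (.both (.play 390 (.both (.play 393 (.both (.play 454 (.ref 129 197)) (.play 329 (.ref 126 264)))) (.play 389 (.ref 0 389)))) (.both (.play 327 (.ref 431 199)) (.play 390 (.both (.play 393 (.both (.ref 1011 261) (.play 329 (.ref 126 264)))) (.play 389 (.ref 0 389)))))))) (.both (.ref 997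 199) (.play 584 (.both (.ref 975 263) (.both (.ref 940 264) (.play 583 (.both (.play 582 (.both (.play 581 (.both (.play 517 (.ref 901 324)) (.both (.ref 1007 515) (.ref 1076 515)))) (.both (.play 585 (.both (.play 649 (.ref 4 392)) (.ref 1065 515))) (.both (.play 585 (.both (.play 649 (.ref 4 392)) (.play 645 (.ref 876 516)))) (.both (.play 585 (.both (.play 649 (.ref 4 392)) (.ref 1064 516))) (.play 585 (.both (.play 646 (.ref 129 389)) (.play 649 (.ref 4 392))))))))) (.play 647 (.ref 6 391)))))))))))) (.both (.play 584 (.both (.play 585 (.both (.play 521 (.both (.play 454 (.both (.play 582 (.both (.play 518 (.both (.play 390 (.both (.ref 1075 69) (.both (.ref 1072 197) (.both (.play 326 (.ref 879 261)) (.both (.play 326 (.ref 578 261)) (.both (.play 389 (.both (.play 326 (.ref 653 261)) (.play 325 (.ref 7 325)))) (.ref 1074 325))))))) (.both (.play 646 (.both (.ref 1075 133) (.both (.ref 985 389) (.both (.play 647 (.both (.play 710 (.ref 653 389)) (.play 711 (.ref 4 454)))) (.both (.ref 1074 389) (.both (.play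 710 (.ref 924 390)) (.play 710 (.ref 878 453)))))))) (.both (.play 519 (.both (.ref 906 197) (.play 517 (.ref 0 517)))) (.play 519 (.ref 134 517)))))) (.both (.play 583 (.both (.play 646 (.both (.play 518 (.both (.ref 898 453) (.play 517 (.ref 3 517)))) (.play 645 (.ref 1 581)))) (.play 522 (.ref 2 518)))) (.play 583 (.ref 86 517))))) (.both (.play 518 (.both (.play 582 (.both (.play 646 (.ref 1021 133)) (.both (.ref 1073 133) (.play 583 (.ref 86 517))))) (.both (.play 519 (.ref 901 261)) (.both (.play 519 (.both (.play 582 (.ref 900 261)) (.play 517 (.ref 0 517)))) (.play 519 (.ref 964 453)))))) (.both (.play 518 (.both (.play 455 (.both (.play 457 (.ref 908 133)) (.play 453 (.ref 0 453)))) (.both (.play 519 (.both (.play 582 (.ref 900 261)) (.play 517 (.ref 143 453)))) (.play 453 (.ref 289 453))))) (.play 455 (.ref 748 325)))))) (.both (.play 393 (.both (.play 329 (.ref 6 328)) (.ref 957 390))) (.play 649 (.both (.ref 957 454) (.play 713 (.ref 7 456))))))) (.both (.play 583 (.both (.play 582 (.both (.play 646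 (.ref 908 261)) (.both (.ref 1030 324) (.both (.ref 883 515) (.both (.play 581 (.both (.ref 121 515) (.both (.play 517 (.ref 10 516)) (.ref 1062 516)))) (.play 645 (.both (.play 519 (.both (.ref 1043 516) (.play 586 (.ref 30 518)))) (.play 646 (.ref 1 581))))))))) (.both (.play 647 (.both (.play 392 (.ref 6 391)) (.play 646 (.ref 68 580)))) (.play 647 (.ref 442 391))))) (.play 649 (.ref 478 392))))) (.both (.play 393 (.ref 980 328)) (.both (.ref 880 391) (.ref 1000 391))))) (.both (.ref 1071 128) (.both (.ref 1041 129) (.both (.play 584 (.both (.play 392 (.both (.ref 976 133) (.both (.ref 935 263) (.both (.ref 942 263) (.ref 940 264))))) (.both (.play 648 (.ref 1021 135)) (.both (.ref 997 263) (.both (.ref 1019 327) (.play 648 (.both (.play 712 (.ref 653 391)) (.both (.play 712 (.both (.play 457 (.ref 46 392)) (.ref 928 519))) (.play 647 (.ref 918 452)))))))))) (.both (.ref 978 133) (.both (.play 584 (.both (.ref 977 133) (.both (.play 392 (.both (.ref 998 199) (.both (.play 328 (.ref 578 263)) (.both (.ref 1020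 263) (.play 648 (.ref 653 327)))))) (.both (.ref 1016 263) (.both (.ref 973 263) (.both (.ref 1019 327) (.ref 1000 391))))))) (.both (.play 584 (.both (.play 392 (.both (.play 585 (.both (.ref 1018 135) (.play 649 (.ref 4 392)))) (.both (.ref 1017 135) (.both (.ref 944 199) (.ref 970 327))))) (.both (.play 392 (.both (.ref 1012 261) (.both (.ref 975 263) (.ref 942 263)))) (.both (.play 393 (.ref 361 264)) (.play 648 (.both (.ref 942 327) (.play 393 (.ref 5 392)))))))) (.both (.play 584 (.both (.play 392 (.both (.ref 1013 199) (.both (.play 328 (.ref 578 263)) (.both (.play 328 (.both (.ref 735 263) (.play 329 (.ref 46 264)))) (.play 648 (.ref 877 327)))))) (.both (.play 392 (.both (.ref 1012 261) (.both (.ref 935 263) (.both (.ref 942 263) (.ref 940 264))))) (.both (.play 393 (.ref 361 264)) (.play 648 (.both (.ref 942 327) (.both (.ref 971 391) (.both (.play 455 (.both (.play 391 (.ref 7 391)) (.play 712 (.both (.play 519 (.ref 7 455)) (.ref 926 519))))) (.ref 928 455))))))))) (.both (.play 584 (.both (.play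 392 (.ref 943 259)) (.both (.play 393 (.ref 468 264)) (.ref 1010 451)))) (.both (.play 584 (.both (.play 392 (.both (.ref 975 263) (.both (.ref 942 263) (.play 391 (.both (.play 583 (.both (.play 390 (.both (.play 393 (.both (.ref 1009 323) (.play 329 (.ref 5 328)))) (.play 389 (.ref 0 389)))) (.play 647 (.ref 6 391)))) (.play 327 (.ref 7 327))))))) (.both (.ref 1002 263) (.both (.ref 1006 391) (.ref 1000 391))))) (.play 584 (.both (.play 392 (.both (.ref 975 263) (.both (.ref 940 264) (.ref 1005 388)))) (.both (.ref 1002 263) (.both (.ref 880 391) (.ref 1000 391))))))))))))))))))))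
 (.one (.play 520 (.both (.ref 1088 0) (.both (.play 456 (.both (.play 519 (.both (.play 583 (.both (.play 647 (.both (.play 392 (.both (.play 328 (.both (.ref 999 71) (.play 519 (.ref 6 327)))) (.play 584 (.ref 6 391)))) (.both (.play 584 (.ref 77 391)) (.play 711 (.both (.play 519 (.ref 5 455)) (.play 775 (.both (.ref 995 578) (.both (.play 839 (.both (.ref 28 583) (.both (.play 903 (.both (.play 712 (.both (.play 713 (.both (.ref 984 642) (.both (.play 710 (.both (.play 646 (.ref 7 646)) (.play 774 (.ref 176 709)))) (.both (.play 710 (.both (.play 646 (.ref 7 646)) (.ref 988 646))) (.play 774 (.ref 70 708)))))) (.play 648 (.ref 5 647)))) (.both (.play 710 (.both (.play 646 (.ref 7 646)) (.play 776 (.both (.ref 992 708) (.both (.play 709 (.ref 991 708)) (.both (.play 712 (.both (.play 709 (.ref 169 708)) (.play 967 (.ref 5 711)))) (.play 967 (.ref 225 710)))))))) (.both (.ref 985 646) (.ref 971 646))))) (.ref 929 646)))) (.both (.play 839 (.both (.play 838 (.ref 15 582)) (.both (.play 903 (.both (.play 710 (.both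 (.play 709 (.both (.play 712 (.both (.ref 894 642) (.play 648 (.ref 5 647)))) (.both (.play 712 (.both (.play 648 (.ref 5 647)) (.play 776 (.ref 169 708)))) (.both (.play 712 (.both (.ref 990 645) (.play 648 (.ref 5 647)))) (.play 776 (.ref 261 708)))))) (.play 646 (.ref 7 646)))) (.both (.play 712 (.both (.play 648 (.ref 5 647)) (.play 774 (.both (.play 713 (.ref 987 709)) (.both (.play 710 (.both (.play 713 (.ref 176 709)) (.play 967 (.ref 7 710)))) (.both (.play 776 (.both (.play 713 (.ref 160 709)) (.play 967 (.ref 5 711)))) (.ref 986 710))))))) (.both (.ref 985 646) (.ref 971 646))))) (.ref 926 646)))) (.both (.play 839 (.ref 878 582)) (.both (.ref 931 582) (.ref 928 582)))))))))))) (.both (.play 584 (.both (.play 585 (.both (.play 392 (.ref 286 327)) (.play 582 (.both (.play 646 (.both (.play 518 (.both (.play 710 (.ref 18 454)) (.play 517 (.ref 3 517)))) (.play 645 (.ref 1 581)))) (.both (.play 581 (.ref 341 516)) (.ref 827 516)))))) (.both (.play 585 (.both (.play 649 (.ref 99 392)) (.play 518 (.both (.play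 517 (.ref 2 453)) (.ref 260 518))))) (.ref 867 391)))) (.both (.play 647 (.both (.play 455 (.both (.ref 984 386) (.play 648 (.ref 982 450)))) (.play 711 (.ref 5 455)))) (.play 647 (.ref 980 391)))))) (.play 458 (.ref 1 455)))) (.both (.play 519 (.ref 969 132)) (.both (.ref 978 133) (.both (.play 392 (.both (.ref 906 135) (.both (.play 584 (.ref 934 325)) (.play 458 (.ref 10 391))))) (.play 458 (.ref 13 391))))))) (.both (.play 519 (.both (.play 456 (.ref 969 132)) (.both (.play 518 (.both (.play 517 (.both (.ref 903 196) (.both (.ref 886 450) (.both (.play 516 (.ref 530 451)) (.play 516 (.ref 885 515)))))) (.both (.ref 955 195) (.both (.play 521 (.ref 904 197)) (.both (.ref 954 449) (.both (.play 517 (.both (.ref 952 449) (.both (.play 584 (.both (.play 516 (.both (.ref 948 449) (.play 583 (.ref 0 516)))) (.play 585 (.ref 0 517)))) (.both (.ref 946 450) (.ref 945 452))))) (.ref 886 451))))))) (.play 458 (.both (.play 456 (.ref 1 455)) (.play 521 (.ref 1 456))))))) (.both (.play 584 (.both (.play 392 (.both (.play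 456 (.ref 936 133)) (.both (.play 456 (.both (.ref 944 199) (.both (.ref 933 325) (.play 458 (.both (.play 391 (.ref 3 391)) (.play 521 (.ref 1 456))))))) (.both (.play 456 (.ref 943 259)) (.play 458 (.ref 527 392)))))) (.both (.play 456 (.both (.play 392 (.ref 936 133)) (.both (.play 392 (.ref 934 325)) (.both (.play 393 (.both (.play 392 (.both (.play 329 (.ref 5 328)) (.play 458 (.ref 3 392)))) (.play 648 (.ref 5 392)))) (.ref 932 391))))) (.both (.play 648 (.both (.play 456 (.both (.play 392 (.ref 879 327)) (.both (.play 392 (.ref 877 327)) (.ref 884 451)))) (.both (.ref 925 455) (.both (.play 712 (.both (.play 521 (.ref 5 456)) (.ref 931 519))) (.play 712 (.both (.play 521 (.ref 5 456)) (.ref 928 519))))))) (.both (.play 521 (.both (.play 648 (.ref 361 328)) (.play 458 (.ref 1 456)))) (.play 521 (.both (.play 648 (.ref 468 328)) (.play 458 (.ref 1 456))))))))) (.both (.play 521 (.both (.play 519 (.both (.play 518 (.both (.ref 923 193) (.both (.ref 913 452) (.play 585 (.ref 912 516))))) (.both (.ref 909 196)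 (.both (.play 518 (.ref 904 197)) (.both (.play 522 (.both (.play 455 (.ref 901 262)) (.ref 896 327))) (.both (.play 584 (.both (.ref 895 324) (.both (.play 648 (.ref 361 328)) (.play 518 (.both (.ref 894 451) (.both (.play 454 (.both (.play 453 (.ref 3 453)) (.play 586 (.both (.ref 893 454) (.play 585 (.ref 0 518)))))) (.play 585 (.ref 169 517)))))))) (.both (.play 518 (.both (.ref 892 389) (.both (.ref 890 450) (.ref 888 517)))) (.ref 886 452)))))))) (.play 458 (.ref 1 456)))) (.both (.play 521 (.both (.play 393 (.both (.play 329 (.both (.ref 449 200) (.both (.play 585 (.ref 877 264)) (.play 456 (.both (.play 265 (.ref 6 264)) (.play 585 (.both (.ref 28 329) (.play 649 (.ref 534 392))))))))) (.both (.play 585 (.both (.play 649 (.ref 879 328)) (.both (.play 649 (.ref 877 328)) (.both (.ref 884 388) (.ref 880 392))))) (.both (.play 584 (.ref 77 328)) (.play 584 (.ref 442 328)))))) (.play 458 (.ref 1 456)))) (.play 458 (.ref 876 391))))))))))))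
 (.seq (.seq (.one (.play 65 (.both (.play 66 (.ref 45 0)) (.both (.play 66 (.ref 37 1)) (.play 256 (.ref 458 64))))))
 (.one (.play 67 (.both (.play 69 (.both (.ref 505 0) (.play 5 (.ref 5 4)))) (.play 3 (.ref 7 3))))))
 (.seq (.one (.both (.play 64 (.ref 2 0)) (.play 68 (.ref 504 0))))
 (.one (.play 64 (.both (.play 0 (.ref 7 0)) (.play 66 (.ref 2 0))))))))))))
 (.seq (.seq (.seq (.seq (.seq (.seq (.one (.play 260 (.both (.play 196 (.ref 165 1)) (.play 259 (.ref 0 192)))))
 (.seq (.one (.play 194 (.both (.play 258 (.ref 4 1)) (.play 132 (.ref 2 128)))))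
 (.one (.play 257 (.both (.play 130 (.both (.play 132 (.both (.play 196 (.both (.play 260 (.both (.play 259 (.both (.play 195 (.both (.play 4 (.ref 6 3)) (.ref 477 64))) (.play 323 (.ref 6 67)))) (.play 324 (.ref 7 67)))) (.play 197 (.ref 0 129)))) (.play 64 (.ref 3 64)))) (.play 128 (.ref 2 64)))) (.both (.play 322 (.ref 17 64)) (.both (.play 128 (.both (.play 130 (.ref 2 64)) (.ref 239 64))) (.play 128 (.both (.play 130 (.ref 2 64)) (.ref 443 64))))))))))
 (.seq (.one (.both (.play 64 (.ref 2 0)) (.play 68 (.both (.play 0 (.ref 3 0)) (.ref 65 65)))))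
 (.seq (.one (.both (.play 0 (.ref 3 0)) (.play 69 (.ref 1 65))))
 (.one (.play 130 (.both (.play 194 (.both (.play 258 (.ref 4 1)) (.play 132 (.ref 1098 64)))) (.play 128 (.ref 2 64))))))))
 (.seq (.seq (.one (.play 196 (.both (.play 260 (.ref 4 3)) (.play 130 (.ref 0 128)))))
 (.seq (.one (.both (.play 1 (.ref 30 0)) (.play 5 (.ref 2 1))))
 (.one (.both (.play 66 (.ref 5 1)) (.play 320 (.ref 55 64))))))
 (.seq (.one (.play 67 (.both (.play 258 (.ref 5 2)) (.play 68 (.ref 1044 64)))))
 (.seq (.one (.play 195 (.both (.play 259 (.ref 4 2)) (.ref 228 128))))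
 (.one (.play 129 (.both (.play 2 (.ref 5 1)) (.play 321 (.ref 1102 64)))))))))
 (.seq (.seq (.seq (.one (.play 130 (.both (.play 3 (.ref 5 2)) (.ref 1104 64))))
 (.seq (.one (.play 131 (.both (.play 3 (.ref 6 2)) (.play 259 (.both (.play 322 (.ref 6 66)) (.play 260 (.ref 0 192)))))))
 (.one (.play 131 (.both (.play 3 (.ref 6 2)) (.play 132 (.ref 2 128)))))))
 (.seq (.one (.both (.play 196 (.both (.ref 302 0) (.play 197 (.ref 0 129)))) (.play 69 (.ref 2 65))))
 (.seq (.one (.both (.play 260 (.both (.play 196 (.ref 479 1)) (.play 259 (.ref 0 192)))) (.play 132 (.ref 2 128))))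
 (.one (.play 132 (.both (.play 131 (.ref 472 0)) (.both (.play 196 (.ref 1110 1)) (.play 196 (.ref 1109 64)))))))))
 (.seq (.seq (.one (.play 192 (.both (.play 256 (.ref 6 0)) (.ref 452 0))))
 (.seq (.one (.play 323 (.both (.play 131 (.both (.ref 52 2) (.play 322 (.ref 458 130)))) (.both (.play 388 (.both (.ref 371 2) (.both (.play 387 (.ref 397 67)) (.play 387 (.both (.play 389 (.both (.ref 547 194) (.both (.ref 1112 194) (.both (.ref 1111 194) (.play 453 (.both (.play 390 (.both (.ref 1108 195) (.both (.ref 1107 195) (.play 391 (.both (.play 454 (.both (.play 451 (.both (.ref 73 324) (.play 450 (.ref 1 386)))) (.play 455 (.ref 0 387)))) (.both (.play 392 (.ref 914 324)) (.both (.ref 988 324) (.ref 8 387)))))))) (.both (.ref 1106 195) (.both (.ref 1105 196) (.play 325 (.both (.ref 1104 259) (.both (.ref 1103 259) (.play 517 (.ref 1102 260))))))))))))) (.play 452 (.ref 4 195))))))) (.both (.play 131 (.both (.ref 52 2) (.both (.play 322 (.ref 379 2)) (.play 132 (.ref 45 66))))) (.both (.play 131 (.both (.ref 52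 2) (.both (.play 324 (.both (.play 322 (.both (.ref 378 2) (.play 325 (.ref 2 258)))) (.play 388 (.ref 4 131)))) (.play 132 (.ref 37 67))))) (.play 387 (.both (.play 325 (.both (.play 386 (.both (.play 450 (.ref 6 194)) (.play 324 (.ref 70 320)))) (.both (.play 386 (.both (.play 450 (.ref 6 194)) (.play 324 (.both (.play 322 (.ref 2 258)) (.play 385 (.ref 69 320)))))) (.both (.play 389 (.both (.play 386 (.both (.play 450 (.ref 6 194)) (.play 388 (.ref 1101 321)))) (.both (.play 453 (.both (.play 386 (.both (.play 450 (.ref 6 194)) (.ref 1100 258))) (.play 198 (.ref 5 197)))) (.play 453 (.ref 37 197))))) (.both (.play 324 (.ref 1092 258)) (.play 324 (.ref 1097 258))))))) (.both (.play 450 (.ref 55 194)) (.both (.play 452 (.both (.play 325 (.both (.play 453 (.both (.play 389 (.ref 333 196)) (.both (.play 389 (.ref 37 197)) (.play 451 (.both (.play 454 (.both (.play 390 (.both (.play 326 (.ref 26 261)) (.play 391 (.ref 2 387)))) (.play 386 (.ref 3 386)))) (.play 516 (.ref 4 259))))))) (.both (.play 324 (.both (.play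 326 (.both (.play 390 (.both (.play 454 (.both (.play 453 (.both (.ref 540 196) (.play 517 (.ref 6 261)))) (.play 518 (.ref 7 261)))) (.play 391 (.ref 0 323)))) (.play 258 (.ref 3 258)))) (.play 322 (.ref 2 258)))) (.both (.play 324 (.ref 1092 258)) (.play 451 (.both (.play 322 (.both (.play 324 (.ref 2 258)) (.play 515 (.ref 326 258)))) (.play 516 (.ref 4 259)))))))) (.play 388 (.ref 4 195)))) (.both (.play 325 (.both (.ref 1099 194) (.both (.play 452 (.both (.play 453 (.both (.play 389 (.ref 333 196)) (.both (.play 389 (.ref 37 197)) (.play 451 (.ref 548 258))))) (.play 388 (.ref 4 195)))) (.both (.ref 1096 194) (.both (.play 452 (.both (.play 388 (.ref 4 195)) (.play 451 (.both (.play 514 (.both (.play 450 (.ref 6 258)) (.play 515 (.both (.ref 1093 258) (.play 578 (.ref 6 322)))))) (.play 516 (.ref 4 259)))))) (.play 324 (.ref 1097 258))))))) (.play 325 (.both (.ref 1096 194) (.both (.play 450 (.both (.play 386 (.ref 6 194)) (.play 451 (.both (.play 453 (.both (.play 389 (.both (.play 198 (.ref 5 197)) (.ref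 1095 258))) (.both (.play 389 (.ref 37 197)) (.play 452 (.both (.ref 1094 258) (.play 516 (.ref 4 259))))))) (.play 514 (.ref 6 258)))))) (.both (.play 450 (.both (.play 386 (.ref 6 194)) (.play 451 (.both (.play 514 (.ref 6 258)) (.play 516 (.both (.play 515 (.both (.ref 1093 258) (.play 580 (.ref 4 323)))) (.play 452 (.ref 4 259)))))))) (.play 324 (.ref 1092 258)))))))))))))))))
 (.one (.play 257 (.both (.ref 161 0) (.play 321 (.ref 6 65)))))))
 (.seq (.one (.play 259 (.both (.ref 1114 0) (.play 323 (.ref 4 66)))))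
 (.seq (.one (.play 258 (.both (.ref 1115 0) (.both (.play 65 (.ref 326 1)) (.play 65 (.ref 227 1))))))
 (.one (.both (.play 257 (.ref 171 0)) (.play 197 (.ref 3 129)))))))))
 (.seq (.seq (.seq (.seq (.one (.play 129 (.both (.play 130 (.ref 1117 0)) (.play 128 (.ref 3 128)))))
 (.seq (.one (.play 193 (.both (.ref 1118 0) (.play 132 (.ref 86 128)))))
 (.one (.play 68 (.both (.play 4 (.ref 5 3)) (.ref 1119 64))))))
 (.seq (.one (.play 128 (.both (.play 192 (.both (.play 66 (.both (.play 65 (.both (.play 256 (.ref 126 0)) (.play 2 (.ref 5 1)))) (.play 130 (.ref 5 65)))) (.play 385 (.ref 7 128)))) (.play 64 (.ref 7 64)))))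
 (.seq (.one (.play 321 (.both (.ref 47 0) (.play 386 (.ref 17 128)))))
 (.one (.play 69 (.both (.play 6 (.ref 2 2)) (.play 65 (.ref 885 64))))))))
 (.seq (.seq (.one (.play 196 (.both (.play 259 (.both (.play 2 (.ref 4 2)) (.play 260 (.ref 169 192)))) (.play 133 (.ref 2 129)))))
 (.seq (.one (.both (.play 257 (.ref 485 0)) (.play 133 (.ref 2 129))))
 (.one (.play 196 (.both (.play 197 (.ref 1125 1)) (.both (.ref 1124 1) (.both (.play 3 (.ref 206 2)) (.ref 1123 128))))))))
 (.seq (.one (.both (.play 129 (.ref 14 0)) (.play 5 (.ref 2 2))))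
 (.seq (.one (.play 67 (.both (.play 66 (.ref 1127 0)) (.both (.ref 436 0) (.ref 23 66)))))
 (.one (.both (.play 65 (.ref 5 1)) (.play 321 (.ref 7 64))))))))
 (.seq (.seq (.seq (.one (.play 67 (.both (.play 259 (.ref 5 3)) (.play 128 (.ref 2 64)))))
 (.seq (.one (.play 66 (.both (.play 258 (.both (.play 260 (.both (.ref 1120 0) (.play 324 (.ref 4 67)))) (.play 322 (.ref 6 66)))) (.play 2 (.ref 7 2)))))
 (.one (.play 321 (.both (.ref 813 0) (.both (.play 320 (.ref 15 64)) (.play 386 (.ref 17 128))))))))
 (.seq (.one (.play 195 (.both (.play 67 (.both (.play 3 (.ref 5 2)) (.play 193 (.both (.play 196 (.ref 1101 128)) (.play 260 (.ref 216 192)))))) (.play 2 (.ref 4 2)))))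
 (.seq (.one (.play 259 (.both (.ref 1133 0) (.play 323 (.ref 4 66)))))
 (.one (.play 259 (.both (.play 69 (.both (.play 5 (.ref 5 4)) (.play 262 (.both (.play 198 (.both (.play 258 (.both (.play 326 (.both (.play 193 (.ref 102 192)) (.play 327 (.ref 0 259)))) (.play 197 (.ref 2 194)))) (.play 199 (.ref 2 195)))) (.both (.play 195 (.ref 30 194)) (.play 198 (.both (.play 197 (.both (.play 258 (.ref 2 194)) (.play 263 (.ref 216 195)))) (.play 199 (.ref 2 195))))))))) (.play 323 (.ref 6 67))))))))
 (.seq (.seq (.one (.play 65 (.both (.play 1 (.ref 134 0)) (.play 66 (.ref 1 1)))))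
 (.seq (.one (.play 195 (.both (.play 259 (.both (.play 197 (.both (.play 194 (.both (.play 258 (.both (.ref 518 1) (.play 257 (.ref 1 193)))) (.both (.ref 508 128) (.ref 1136 192)))) (.play 133 (.ref 5 132)))) (.play 452 (.ref 7 195)))) (.play 131 (.ref 7 131)))))
 (.one (.play 65 (.both (.play 193 (.both (.play 258 (.both (.ref 355 1) (.both (.play 194 (.ref 256 1)) (.ref 427 1)))) (.play 192 (.ref 1 128)))) (.play 64 (.ref 3 64)))))))
 (.seq (.seq (.one (.play 261 (.both (.play 325 (.both (.play 132 (.both (.play 68 (.ref 430 4)) (.play 131 (.ref 3 131)))) (.play 389 (.ref 5 133)))) (.both (.play 325 (.ref 329 69)) (.ref 434 128)))))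
 (.one (.both (.play 64 (.ref 2 0)) (.play 68 (.ref 1 64)))))
 (.seq (.one (.play 1 (.both (.play 192 (.ref 6 0)) (.play 258 (.ref 4 1)))))
 (.one (.play 195 (.both (.play 259 (.ref 4 2)) (.play 131 (.both (.play 129 (.ref 2 65)) (.play 192 (.ref 2 128)))))))))))))
 (.seq (.seq (.seq (.seq (.seq (.one (.both (.play 64 (.ref 326 0)) (.both (.play 64 (.ref 227 0)) (.play 256 (.ref 458 64)))))
 (.seq (.one (.play 386 (.both (.play 385 (.both (.ref 718 0) (.play 450 (.ref 4 193)))) (.play 322 (.ref 4 129)))))
 (.one (.play 256 (.both (.play 192 (.ref 6 0)) (.play 259 (.ref 2 192)))))))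
 (.seq (.one (.both (.ref 381 0) (.both (.play 386 (.both (.play 129 (.both (.ref 52 0) (.ref 1145 128))) (.play 450 (.ref 4 193)))) (.both (.ref 1144 64) (.play 192 (.ref 227 128))))))
 (.seq (.one (.play 64 (.both (.play 65 (.both (.play 0 (.ref 7 0)) (.play 320 (.ref 15 64)))) (.play 128 (.ref 7 64)))))
 (.one (.both (.play 193 (.both (.play 130 (.both (.play 129 (.both (.ref 1147 0) (.play 66 (.ref 5 65)))) (.play 194 (.ref 5 129)))) (.both (.ref 52 64) (.both (.ref 1014 64) (.ref 47 128))))) (.play 448 (.ref 458 256)))))))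
 (.seq (.seq (.one (.play 258 (.both (.ref 1145 0) (.play 322 (.ref 4 65)))))
 (.seq (.one (.play 64 (.both (.play 0 (.ref 7 0)) (.play 321 (.both (.play 128 (.ref 7 64)) (.ref 1149 64))))))
 (.one (.play 67 (.both (.play 131 (.ref 691 0)) (.play 3 (.ref 5 2)))))))
 (.seq (.one (.play 67 (.both (.play 3 (.ref 7 3)) (.play 131 (.both (.play 133 (.both (.play 194 (.both (.play 130 (.both (.play 129 (.ref 135 64)) (.play 193 (.ref 1 129)))) (.play 195 (.ref 1 130)))) (.play 66 (.ref 3 66)))) (.play 324 (.ref 7 67)))))))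
 (.seq (.one (.play 67 (.both (.play 65 (.both (.play 1 (.ref 7 1)) (.ref 417 64))) (.play 3 (.ref 5 2)))))
 (.one (.play 129 (.both (.play 320 (.ref 379 0)) (.play 130 (.ref 46 65)))))))))
 (.seq (.seq (.seq (.one (.play 257 (.both (.play 193 (.ref 382 0)) (.play 321 (.ref 4 64)))))
 (.seq (.one (.play 257 (.both (.play 66 (.ref 335 1)) (.play 256 (.ref 1 192)))))
 (.one (.both (.play 65 (.both (.ref 1155 1) (.play 256 (.ref 6 64)))) (.play 384 (.ref 6 128))))))
 (.seq (.one (.play 129 (.both (.play 320 (.ref 1157 0)) (.both (.play 320 (.ref 406 0)) (.play 130 (.ref 46 65))))))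
 (.seq (.one (.play 259 (.both (.play 130 (.both (.play 196 (.both (.play 260 (.ref 4 3)) (.play 132 (.both (.play 133 (.ref 2 66)) (.play 129 (.ref 169 128)))))) (.play 66 (.ref 534 2)))) (.both (.ref 377 2) (.ref 28 3)))))
 (.one (.play 194 (.both (.play 258 (.ref 6 2)) (.play 133 (.ref 70 128))))))))
 (.seq (.seq (.one (.play 257 (.both (.play 66 (.ref 5 1)) (.play 321 (.ref 534 64)))))
 (.seq (.one (.play 258 (.both (.play 256 (.both (.play 259 (.both (.play 195 (.both (.play 4 (.ref 5 3)) (.play 196 (.ref 2 192)))) (.both (.ref 180 64) (.ref 1094 64)))) (.play 320 (.ref 6 64)))) (.play 322 (.ref 4 65)))))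
 (.one (.play 321 (.both (.play 385 (.both (.ref 812 0) (.both (.play 192 (.both (.play 256 (.both (.play 1 (.ref 6 0)) (.play 259 (.both (.ref 1162 128) (.play 258 (.ref 2 192)))))) (.play 128 (.ref 7 128)))) (.play 450 (.ref 17 192))))) (.play 130 (.ref 5 65)))))))
 (.seq (.seq (.one (.play 259 (.both (.play 323 (.both (.play 260 (.both (.play 261 (.both (.play 321 (.both (.play 2 (.both (.play 66 (.ref 5 1)) (.ref 78 194))) (.play 320 (.ref 1 256)))) (.both (.play 321 (.both (.play 324 (.both (.play 2 (.both (.play 66 (.ref 5 1)) (.ref 73 194))) (.play 325 (.ref 0 257)))) (.play 320 (.ref 1 256)))) (.both (.play 262 (.both (.play 198 (.ref 71 194)) (.play 321 (.both (.play 320 (.ref 1 256)) (.ref 65 259))))) (.ref 8 257))))) (.both (.ref 1108 65) (.ref 1107 65)))) (.both (.ref 1106 65) (.both (.ref 1105 66) (.play 195 (.both (.ref 1104 129) (.both (.ref 1103 129) (.play 387 (.ref 36 131))))))))) (.both (.ref 547 64) (.both (.ref 1112 64) (.ref 1111 64))))))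
 (.one (.both (.play 129 (.ref 500 0)) (.play 133 (.ref 2 129)))))
 (.seq (.one (.play 195 (.both (.play 194 (.ref 1165 0)) (.play 259 (.ref 6 3)))))
 (.one (.play 66 (.both (.play 65 (.both (.play 2 (.ref 5 1)) (.ref 638 64))) (.play 130 (.ref 5 65))))))))))
 (.seq (.seq (.seq (.seq (.one (.play 197 (.both (.play 261 (.ref 4 4)) (.play 194 (.ref 102 128)))))
 (.seq (.one (.play 259 (.both (.play 195 (.ref 6 3)) (.play 260 (.both (.ref 1168 64) (.play 323 (.ref 6 67)))))))
 (.one (.play 5 (.both (.play 69 (.ref 5 4)) (.ref 1169 64))))))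
 (.seq (.one (.play 323 (.both (.play 322 (.both (.play 257 (.both (.play 129 (.ref 368 0)) (.play 256 (.ref 3 256)))) (.play 261 (.ref 2 257)))) (.play 387 (.ref 6 131)))))
 (.seq (.one (.play 68 (.both (.play 4 (.ref 5 3)) (.play 130 (.ref 2 64)))))
 (.one (.play 259 (.both (.play 258 (.both (.play 193 (.both (.play 321 (.both (.play 130 (.both (.ref 1172 1) (.play 66 (.ref 5 65)))) (.play 320 (.ref 1 256)))) (.play 192 (.ref 3 192)))) (.play 197 (.ref 2 193)))) (.play 323 (.ref 6 67))))))))
 (.seq (.seq (.one (.both (.play 64 (.ref 1 0)) (.play 69 (.ref 0 1))))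
 (.seq (.one (.play 69 (.both (.play 5 (.ref 5 4)) (.play 130 (.both (.play 321 (.ref 782 64)) (.play 131 (.ref 2 65)))))))
 (.one (.play 69 (.both (.play 130 (.both (.play 321 (.both (.play 320 (.ref 379 0)) (.play 66 (.ref 5 65)))) (.play 131 (.ref 2 65)))) (.play 5 (.ref 5 4)))))))
 (.seq (.one (.play 69 (.both (.play 5 (.ref 5 4)) (.play 130 (.both (.play 321 (.ref 45 64)) (.play 131 (.ref 2 65)))))))
 (.seq (.one (.play 133 (.both (.play 129 (.ref 391 0)) (.play 69 (.ref 5 68)))))
 (.one (.play 66 (.both (.play 132 (.both (.play 68 (.both (.play 65 (.both (.play 129 (.both (.play 258 (.both (.ref 811 0) (.play 322 (.ref 6 66)))) (.play 128 (.ref 1 64)))) (.play 64 (.ref 0 64)))) (.play 4 (.ref 5 3)))) (.play 133 (.ref 3 66)))) (.play 2 (.ref 7 2)))))))))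
 (.seq (.seq (.seq (.one (.play 131 (.both (.play 130 (.both (.play 196 (.both (.ref 40 3) (.play 197 (.ref 3 130)))) (.play 66 (.ref 7 66)))) (.both (.ref 1179 64) (.ref 390 66)))))
 (.seq (.one (.both (.play 66 (.ref 135 0)) (.play 260 (.ref 7 3))))
 (.one (.play 3 (.both (.play 2 (.ref 134 0)) (.play 260 (.ref 7 3)))))))
 (.seq (.one (.play 67 (.both (.play 66 (.ref 133 0)) (.play 260 (.ref 7 3)))))
 (.seq (.one (.play 64 (.both (.play 0 (.ref 7 0)) (.play 130 (.both (.ref 271 64) (.play 131 (.ref 3 64)))))))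
 (.one (.play 256 (.both (.play 192 (.ref 6 0)) (.play 257 (.ref 32 64))))))))
 (.seq (.seq (.one (.play 258 (.both (.play 1 (.both (.play 194 (.ref 4 1)) (.ref 1185 64))) (.play 322 (.ref 4 65)))))
 (.seq (.one (.play 5 (.both (.play 68 (.ref 5 4)) (.play 321 (.both (.play 322 (.ref 733 64)) (.both (.ref 1186 64) (.both (.ref 1184 64) (.play 128 (.both (.play 64 (.ref 7 64)) (.play 322 (.both (.play 195 (.both (.play 194 (.ref 3 128)) (.play 388 (.both (.play 131 (.ref 7 131)) (.ref 1100 193))))) (.play 386 (.ref 4 129)))))))))))))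
 (.one (.play 257 (.both (.play 64 (.ref 326 0)) (.play 258 (.ref 318 64)))))))
 (.seq (.seq (.one (.play 256 (.both (.play 194 (.both (.ref 1141 0) (.play 195 (.ref 1 192)))) (.play 320 (.ref 6 64)))))
 (.one (.play 192 (.both (.play 256 (.ref 6 0)) (.play 258 (.both (.play 194 (.ref 4 1)) (.play 257 (.both (.play 322 (.ref 4 65)) (.play 259 (.ref 3 192))))))))))
 (.seq (.one (.play 258 (.both (.play 257 (.both (.play 192 (.both (.play 256 (.ref 6 0)) (.play 259 (.ref 3 192)))) (.play 322 (.ref 4 65)))) (.play 194 (.ref 4 1)))))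
 (.one (.play 69 (.both (.play 258 (.both (.play 129 (.both (.play 320 (.ref 406 0)) (.both (.play 322 (.ref 49 65)) (.ref 1191 128)))) (.play 259 (.ref 133 192)))) (.play 132 (.ref 5 68))))))))))))))
 (.seq (.seq (.seq (.seq (.seq (.seq (.seq (.seq (.one (.play 69 (.both (.play 259 (.both (.play 129 (.both (.ref 52 0) (.both (.ref 380 0) (.play 385 (.ref 879 64))))) (.both (.play 258 (.ref 133 192)) (.play 258 (.ref 1174 256))))) (.play 132 (.ref 5 68)))))
 (.seq (.one (.play 69 (.both (.play 129 (.both (.ref 52 0) (.ref 1190 128))) (.play 132 (.ref 5 68)))))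
 (.one (.play 69 (.both (.play 259 (.both (.play 129 (.both (.ref 52 0) (.ref 319 128))) (.both (.play 258 (.ref 133 192)) (.play 258 (.ref 504 192))))) (.play 132 (.ref 5 68)))))))
 (.seq (.one (.play 256 (.both (.play 194 (.both (.play 258 (.ref 49 1)) (.play 195 (.ref 1 192)))) (.play 320 (.ref 6 64)))))
 (.seq (.one (.play 131 (.both (.ref 58 2) (.both (.ref 728 64) (.ref 1196 66)))))
 (.one (.play 64 (.both (.play 0 (.ref 7 0)) (.play 321 (.both (.play 66 (.ref 46 1)) (.play 128 (.ref 7 64))))))))))
 (.seq (.seq (.one (.play 258 (.both (.play 194 (.both (.play 1 (.ref 4 1)) (.play 195 (.ref 133 128)))) (.play 322 (.ref 4 65)))))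
 (.seq (.one (.play 128 (.both (.play 320 (.ref 406 0)) (.play 64 (.ref 7 64)))))
 (.one (.play 321 (.both (.play 320 (.ref 406 0)) (.play 128 (.ref 227 64)))))))
 (.seq (.one (.play 195 (.both (.play 199 (.both (.play 198 (.both (.play 261 (.both (.play 131 (.both (.play 322 (.ref 379 2)) (.play 132 (.both (.play 68 (.ref 5 67)) (.play 134 (.both (.play 325 (.ref 383 69)) (.play 133 (.ref 0 131)))))))) (.play 260 (.ref 2 195)))) (.play 135 (.ref 5 134)))) (.play 263 (.ref 5 198)))) (.both (.ref 1201 66) (.both (.play 199 (.both (.play 198 (.both (.play 387 (.both (.play 260 (.both (.ref 52 66) (.play 261 (.ref 2 195)))) (.both (.play 194 (.ref 227 130)) (.play 260 (.both (.play 196 (.ref 18 131)) (.play 261 (.ref 2 195))))))) (.play 135 (.ref 5 134)))) (.play 263 (.ref 5 198)))) (.both (.play 199 (.both (.play 198 (.both (.play 261 (.both (.play 387 (.both (.play 386 (.ref 379 66)) (.both (.play 194 (.ref 227 130)) (.ref 1190 194)))) (.play 260 (.ref 2 195)))) (.play 135 (.ref 5 134)))) (.play 263 (.ref 5 198))))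 (.both (.play 199 (.both (.play 198 (.both (.play 261 (.both (.play 387 (.both (.play 386 (.ref 406 66)) (.play 518 (.both (.play 452 (.both (.play 388 (.ref 4 195)) (.play 451 (.both (.play 516 (.ref 4 259)) (.play 453 (.ref 143 387)))))) (.play 325 (.ref 7 261)))))) (.play 260 (.ref 2 195)))) (.play 135 (.ref 5 134)))) (.play 263 (.ref 5 198)))) (.play 387 (.both (.play 194 (.both (.play 260 (.both (.play 196 (.both (.play 193 (.both (.play 257 (.both (.play 129 (.both (.play 128 (.ref 3 128)) (.play 386 (.both (.ref 810 129) (.play 450 (.ref 6 194)))))) (.play 256 (.ref 1 192)))) (.play 192 (.ref 0 192)))) (.play 132 (.ref 5 131)))) (.play 261 (.ref 3 194)))) (.play 130 (.ref 7 130)))) (.both (.play 194 (.ref 227 130)) (.both (.ref 657 130) (.play 196 (.ref 37 131)))))))))))))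
 (.seq (.one (.play 66 (.both (.play 65 (.ref 2 0)) (.ref 271 66))))
 (.one (.both (.ref 294 0) (.play 256 (.ref 1 192))))))))
 (.seq (.seq (.seq (.one (.play 257 (.both (.play 193 (.ref 1204 0)) (.play 258 (.ref 1 193)))))
 (.seq (.one (.both (.play 129 (.ref 144 0)) (.play 133 (.ref 2 129))))
 (.one (.play 195 (.both (.play 194 (.ref 1206 0)) (.play 259 (.ref 6 3)))))))
 (.seq (.one (.play 261 (.both (.ref 1205 0) (.play 262 (.ref 0 194)))))
 (.seq (.one (.both (.ref 1208 0) (.play 134 (.ref 2 130))))
 (.one (.play 196 (.both (.play 195 (.ref 1209 0)) (.play 260 (.ref 6 4))))))))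
 (.seq (.seq (.one (.play 454 (.both (.play 323 (.both (.play 259 (.both (.ref 1202 0) (.both (.play 451 (.both (.play 199 (.both (.play 387 (.both (.play 450 (.ref 379 130)) (.both (.ref 58 130) (.both (.play 450 (.ref 406 130)) (.play 450 (.both (.play 258 (.both (.play 194 (.ref 7 194)) (.play 515 (.both (.play 322 (.ref 7 258)) (.play 516 (.both (.play 517 (.both (.play 453 (.ref 6 261)) (.play 518 (.ref 3 450)))) (.play 580 (.ref 4 323)))))))) (.play 514 (.ref 6 258)))))))) (.play 263 (.ref 5 198)))) (.both (.play 199 (.both (.play 387 (.ref 391 130)) (.play 263 (.ref 5 198)))) (.both (.play 199 (.both (.play 263 (.ref 5 198)) (.ref 1210 257))) (.both (.play 199 (.both (.play 263 (.ref 5 198)) (.play 453 (.both (.play 452 (.both (.play 387 (.ref 138 258)) (.play 391 (.ref 2 387)))) (.play 517 (.ref 6 261)))))) (.ref 1207 258)))))) (.both (.play 451 (.both (.play 199 (.both (.play 135 (.both (.play 387 (.ref 391 130)) (.play 198 (.ref 5 134)))) (.play 263 (.ref 5 198)))) (.both (.play 515 (.both (.play 387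 (.ref 879 194)) (.play 517 (.both (.play 453 (.ref 6 261)) (.play 518 (.ref 107 323)))))) (.both (.ref 1210 257) (.ref 1207 258))))) (.both (.play 199 (.both (.play 198 (.both (.play 135 (.ref 5 134)) (.play 260 (.both (.play 453 (.both (.play 451 (.both (.play 387 (.ref 145 194)) (.both (.play 387 (.both (.play 258 (.ref 326 194)) (.play 196 (.ref 5 195)))) (.play 452 (.both (.ref 1205 257) (.play 391 (.ref 2 387))))))) (.play 517 (.ref 6 261)))) (.play 261 (.ref 2 195)))))) (.play 263 (.ref 5 198)))) (.both (.play 199 (.both (.play 198 (.both (.play 135 (.ref 5 134)) (.ref 1203 195))) (.play 263 (.ref 5 198)))) (.both (.play 199 (.both (.play 198 (.both (.play 135 (.ref 5 134)) (.play 261 (.both (.play 260 (.ref 2 195)) (.play 518 (.ref 579 261)))))) (.play 263 (.ref 5 198)))) (.play 517 (.both (.play 261 (.both (.play 518 (.both (.play 260 (.both (.play 194 (.both (.play 258 (.both (.play 193 (.ref 3 193)) (.play 451 (.both (.play 387 (.ref 7 194)) (.ref 1168 322))))) (.play 195 (.ref 3 194)))) (.play 322 (.ref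 1 258)))) (.play 581 (.ref 6 325)))) (.both (.play 260 (.both (.ref 255 193) (.play 322 (.ref 1 258)))) (.ref 421 261)))) (.play 453 (.ref 6 261))))))))))) (.both (.play 259 (.both (.ref 1202 0) (.both (.play 195 (.both (.play 199 (.both (.play 198 (.both (.play 260 (.both (.play 131 (.both (.play 322 (.ref 406 2)) (.both (.play 324 (.both (.play 132 (.both (.play 133 (.both (.ref 51 66) (.play 134 (.ref 0 131)))) (.play 68 (.ref 5 67)))) (.play 388 (.ref 4 131)))) (.play 324 (.ref 49 67))))) (.play 261 (.ref 2 195)))) (.play 135 (.ref 5 134)))) (.play 263 (.ref 5 198)))) (.both (.play 199 (.both (.play 198 (.both (.play 260 (.both (.play 131 (.both (.play 322 (.ref 379 2)) (.both (.play 324 (.ref 49 67)) (.play 388 (.ref 17 130))))) (.play 261 (.ref 2 195)))) (.play 135 (.ref 5 134)))) (.play 263 (.ref 5 198)))) (.both (.play 199 (.both (.play 198 (.both (.play 260 (.both (.play 131 (.both (.ref 689 3) (.both (.play 132 (.ref 782 66)) (.play 67 (.both (.play 322 (.ref 15 66)) (.play 324 (.ref 4 67))))))) (.play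 261 (.ref 2 195)))) (.play 135 (.ref 5 134)))) (.play 263 (.ref 5 198)))) (.both (.ref 1201 66) (.both (.play 199 (.both (.play 198 (.both (.play 260 (.both (.play 131 (.both (.play 132 (.ref 782 66)) (.play 324 (.ref 49 67)))) (.play 261 (.ref 2 195)))) (.play 135 (.ref 5 134)))) (.play 263 (.ref 5 198)))) (.both (.play 199 (.both (.play 198 (.both (.play 260 (.both (.play 131 (.both (.play 132 (.ref 45 66)) (.play 324 (.ref 49 67)))) (.play 261 (.ref 2 195)))) (.play 135 (.ref 5 134)))) (.play 263 (.ref 5 198)))) (.play 387 (.both (.ref 1179 128) (.both (.play 194 (.ref 227 130)) (.both (.ref 657 130) (.ref 319 194)))))))))))) (.both (.play 387 (.both (.play 195 (.both (.ref 1200 66) (.both (.play 386 (.both (.play 324 (.both (.play 388 (.both (.play 385 (.both (.play 321 (.both (.play 194 (.both (.play 130 (.ref 7 130)) (.ref 818 192))) (.play 320 (.ref 3 320)))) (.play 384 (.ref 2 320)))) (.play 452 (.ref 4 195)))) (.play 325 (.ref 1 322)))) (.play 450 (.ref 6 194)))) (.both (.ref 1196 130) (.ref 1199 130)))))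 (.both (.play 195 (.both (.ref 730 66) (.both (.ref 1189 130) (.both (.play 388 (.both (.play 324 (.both (.play 131 (.ref 4 131)) (.ref 1172 195))) (.play 452 (.ref 4 195)))) (.ref 1190 194))))) (.both (.play 195 (.both (.ref 1200 66) (.both (.play 194 (.ref 227 130)) (.ref 1190 194)))) (.both (.play 199 (.both (.play 135 (.both (.play 198 (.ref 5 134)) (.play 451 (.both (.ref 770 194) (.play 452 (.ref 318 258)))))) (.play 263 (.ref 5 198)))) (.both (.play 195 (.both (.play 194 (.ref 227 130)) (.both (.play 196 (.ref 782 130)) (.both (.ref 1199 130) (.play 196 (.ref 37 131)))))) (.play 195 (.both (.ref 1198 130) (.ref 1189 130))))))))) (.both (.play 387 (.both (.play 199 (.both (.ref 1197 64) (.play 263 (.ref 5 198)))) (.both (.play 199 (.both (.ref 1197 64) (.both (.ref 1195 66) (.both (.ref 1194 66) (.both (.ref 1193 66) (.both (.ref 1192 66) (.both (.ref 1187 130) (.play 451 (.both (.ref 1184 194) (.play 452 (.ref 318 258))))))))))) (.both (.play 199 (.both (.ref 1195 66) (.play 263 (.ref 5 198)))) (.both (.play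 199 (.both (.ref 1194 66) (.play 263 (.ref 5 198)))) (.both (.play 199 (.both (.ref 1193 66) (.play 263 (.ref 5 198)))) (.both (.play 199 (.both (.ref 1192 66) (.play 263 (.ref 5 198)))) (.both (.play 325 (.both (.play 518 (.both (.play 583 (.both (.play 195 (.both (.play 386 (.ref 379 66)) (.both (.play 582 (.both (.play 194 (.ref 227 130)) (.play 647 (.ref 4 390)))) (.ref 1190 194)))) (.play 519 (.ref 4 326)))) (.play 261 (.ref 7 261)))) (.both (.play 324 (.ref 133 258)) (.play 518 (.both (.play 324 (.ref 143 259)) (.play 261 (.ref 7 261))))))) (.both (.play 199 (.both (.play 195 (.both (.play 194 (.ref 326 130)) (.both (.play 194 (.ref 227 130)) (.ref 1189 130)))) (.play 263 (.ref 5 198)))) (.both (.play 199 (.both (.play 135 (.both (.play 198 (.ref 5 134)) (.play 325 (.both (.ref 1188 194) (.both (.play 324 (.ref 133 258)) (.both (.play 324 (.ref 504 258)) (.play 324 (.ref 1174 322)))))))) (.play 263 (.ref 5 198)))) (.play 199 (.both (.ref 1187 130) (.play 263 (.ref 5 198)))))))))))))) (.both (.play 199 (.both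 (.play 198 (.both (.play 135 (.ref 5 134)) (.play 261 (.both (.play 260 (.ref 2 195)) (.ref 1183 258))))) (.play 263 (.ref 5 198)))) (.both (.play 199 (.both (.play 198 (.both (.play 135 (.ref 5 134)) (.play 261 (.both (.play 260 (.ref 2 195)) (.play 325 (.ref 1181 258)))))) (.play 263 (.ref 5 198)))) (.both (.play 263 (.both (.play 199 (.ref 5 198)) (.play 325 (.both (.ref 1182 258) (.play 324 (.ref 2 259)))))) (.play 325 (.both (.play 324 (.ref 133 258)) (.both (.ref 1182 258) (.play 261 (.ref 1181 258))))))))))))) (.both (.play 451 (.both (.play 387 (.both (.ref 1180 128) (.both (.ref 1178 130) (.both (.ref 1177 194) (.both (.ref 1176 194) (.ref 1175 194)))))) (.both (.ref 1171 130) (.both (.ref 1170 194) (.both (.play 199 (.both (.play 517 (.both (.play 518 (.both (.play 583 (.both (.play 582 (.both (.play 515 (.both (.play 387 (.both (.ref 646 194) (.both (.play 322 (.ref 326 258)) (.play 324 (.both (.play 260 (.ref 5 259)) (.play 325 (.ref 1174 322))))))) (.play 516 (.ref 0 515)))) (.play 647 (.ref 4 390))))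 (.play 519 (.ref 4 326)))) (.play 581 (.ref 6 325)))) (.play 453 (.ref 6 261)))) (.play 263 (.ref 5 198)))) (.both (.ref 1173 194) (.ref 1166 258))))))) (.both (.play 451 (.both (.play 260 (.both (.play 387 (.both (.play 259 (.both (.play 452 (.ref 368 130)) (.play 196 (.ref 5 195)))) (.both (.play 259 (.ref 45 194)) (.play 515 (.both (.play 322 (.ref 227 258)) (.play 324 (.ref 5 259))))))) (.both (.play 199 (.both (.play 198 (.both (.play 135 (.ref 5 134)) (.play 259 (.both (.play 387 (.ref 539 194)) (.play 261 (.ref 2 195)))))) (.play 263 (.ref 5 198)))) (.both (.play 263 (.both (.play 324 (.both (.play 387 (.ref 361 131)) (.play 261 (.ref 1 259)))) (.play 199 (.ref 5 198)))) (.both (.play 261 (.both (.play 259 (.ref 554 193)) (.play 263 (.both (.play 199 (.ref 2 196)) (.play 324 (.ref 1 259)))))) (.play 263 (.both (.play 261 (.ref 14 194)) (.play 199 (.ref 5 198))))))))) (.both (.play 387 (.both (.play 199 (.both (.play 517 (.both (.play 518 (.both (.play 259 (.both (.play 450 (.ref 379 130)) (.play 260 (.both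 (.play 261 (.ref 1003 194)) (.play 196 (.ref 5 195)))))) (.play 581 (.ref 6 325)))) (.play 453 (.ref 6 261)))) (.play 263 (.ref 5 198)))) (.both (.play 515 (.both (.play 514 (.ref 406 194)) (.both (.play 322 (.both (.ref 708 194) (.play 258 (.ref 7 258)))) (.play 322 (.ref 326 258))))) (.both (.play 199 (.both (.play 263 (.ref 5 198)) (.play 517 (.both (.play 518 (.both (.play 583 (.both (.play 582 (.both (.play 515 (.both (.play 322 (.ref 326 258)) (.play 516 (.ref 0 515)))) (.play 647 (.ref 4 390)))) (.play 519 (.ref 4 326)))) (.play 581 (.ref 6 325)))) (.play 453 (.ref 6 261)))))) (.both (.play 199 (.both (.play 517 (.both (.play 518 (.both (.play 583 (.both (.play 582 (.both (.play 515 (.both (.ref 1167 194) (.play 516 (.ref 0 515)))) (.play 647 (.ref 4 390)))) (.play 519 (.ref 4 326)))) (.play 581 (.ref 6 325)))) (.play 453 (.ref 6 261)))) (.play 263 (.ref 5 198)))) (.play 199 (.both (.play 517 (.both (.play 518 (.both (.play 583 (.both (.play 582 (.both (.play 515 (.both (.ref 380 194) (.play 516 (.ref 0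 515)))) (.play 647 (.ref 4 390)))) (.play 519 (.ref 4 326)))) (.play 581 (.ref 6 325)))) (.play 453 (.ref 6 261)))) (.play 263 (.ref 5 198))))))))) (.both (.ref 1171 130) (.both (.ref 1170 194) (.both (.play 453 (.both (.play 452 (.both (.play 387 (.both (.play 515 (.both (.ref 1167 194) (.play 514 (.ref 1 450)))) (.play 386 (.ref 3 386)))) (.play 391 (.ref 2 387)))) (.play 517 (.ref 6 261)))) (.ref 1166 258))))))) (.both (.play 263 (.both (.play 324 (.both (.play 260 (.both (.play 453 (.both (.play 451 (.both (.play 387 (.ref 361 131)) (.both (.play 452 (.both (.play 387 (.both (.play 259 (.ref 202 195)) (.play 386 (.ref 3 386)))) (.play 391 (.ref 2 387)))) (.play 452 (.ref 1008 258))))) (.play 517 (.ref 6 261)))) (.play 261 (.ref 1 259)))) (.play 325 (.ref 2 259)))) (.play 199 (.ref 5 198)))) (.both (.play 263 (.both (.play 199 (.ref 5 198)) (.play 325 (.both (.play 324 (.ref 2 259)) (.ref 239 261))))) (.both (.play 263 (.both (.play 199 (.ref 5 198)) (.play 325 (.both (.play 324 (.ref 2 259)) (.play 518 (.ref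 543 261)))))) (.play 517 (.both (.play 518 (.both (.play 325 (.both (.play 324 (.both (.play 583 (.both (.play 582 (.both (.play 258 (.ref 102 257)) (.play 647 (.ref 4 390)))) (.play 519 (.ref 4 326)))) (.play 391 (.ref 0 323)))) (.play 261 (.ref 7 261)))) (.play 581 (.ref 6 325)))) (.play 453 (.ref 6 261)))))))))))) (.both (.play 455 (.both (.ref 396 134) (.both (.ref 1114 196) (.ref 1164 197)))) (.both (.play 455 (.ref 397 134)) (.both (.play 455 (.both (.ref 1164 197) (.play 519 (.ref 4 262)))) (.play 455 (.both (.play 453 (.both (.play 452 (.both (.play 392 (.both (.play 456 (.ref 484 261)) (.play 391 (.ref 2 388)))) (.both (.play 387 (.ref 102 386)) (.play 391 (.ref 86 387))))) (.play 517 (.ref 6 261)))) (.play 519 (.ref 4 262))))))))))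
 (.seq (.one (.play 454 (.both (.play 262 (.both (.play 263 (.both (.play 453 (.both (.play 198 (.both (.play 133 (.both (.play 134 (.both (.ref 689 6) (.play 69 (.ref 7 69)))) (.play 197 (.ref 7 133)))) (.play 389 (.ref 6 197)))) (.play 517 (.ref 6 261)))) (.both (.ref 814 197) (.both (.ref 1132 197) (.both (.ref 44 261) (.ref 488 261)))))) (.both (.ref 374 69) (.both (.ref 815 197) (.both (.play 263 (.ref 45 197)) (.ref 489 197)))))) (.both (.ref 1211 64) (.both (.play 262 (.both (.play 455 (.both (.play 453 (.both (.ref 373 69) (.play 456 (.ref 2 389)))) (.play 519 (.ref 4 262)))) (.both (.play 263 (.both (.play 455 (.both (.play 453 (.both (.play 389 (.both (.play 198 (.ref 6 197)) (.play 388 (.both (.ref 1161 261) (.play 387 (.ref 0 387)))))) (.play 456 (.ref 2 389)))) (.play 519 (.ref 4 262)))) (.both (.ref 814 197) (.both (.ref 1163 197) (.both (.play 455 (.both (.play 519 (.ref 4 262)) (.play 456 (.both (.play 457 (.both (.play 584 (.both (.play 520 (.both (.play 329 (.ref 5 328)) (.play 522 (.both (.play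 523 (.both (.play 585 (.ref 332 391)) (.play 458 (.ref 0 455)))) (.play 521 (.ref 0 454)))))) (.both (.play 520 (.ref 18 328)) (.ref 1050 390)))) (.play 389 (.ref 3 389)))) (.play 453 (.ref 2 389)))))) (.play 518 (.ref 36 262))))))) (.both (.ref 815 197) (.both (.play 263 (.both (.ref 1163 197) (.play 199 (.ref 5 198)))) (.play 263 (.ref 37 198))))))) (.both (.play 453 (.both (.play 262 (.ref 406 133)) (.both (.play 389 (.both (.play 388 (.both (.play 456 (.both (.play 518 (.both (.ref 781 197) (.play 582 (.both (.ref 1162 325) (.play 646 (.ref 7 389)))))) (.play 455 (.ref 3 388)))) (.both (.play 387 (.ref 218 322)) (.play 387 (.ref 169 386))))) (.both (.play 262 (.both (.play 198 (.ref 6 197)) (.play 263 (.both (.play 199 (.ref 5 198)) (.ref 1161 261))))) (.play 455 (.both (.ref 828 322) (.play 456 (.ref 2 389))))))) (.both (.play 517 (.ref 77 261)) (.play 455 (.both (.play 452 (.both (.play 515 (.both (.play 517 (.both (.play 451 (.both (.play 581 (.ref 329 325)) (.play 514 (.ref 1 450)))) (.both (.play 581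 (.ref 76 325)) (.play 451 (.both (.ref 360 386) (.play 514 (.ref 1 450))))))) (.play 516 (.ref 1 451)))) (.both (.play 581 (.both (.play 388 (.both (.ref 356 323) (.play 387 (.ref 3 387)))) (.both (.play 388 (.both (.play 517 (.ref 979 325)) (.play 387 (.ref 3 387)))) (.play 517 (.ref 76 325))))) (.both (.ref 354 384) (.both (.ref 353 385) (.play 387 (.ref 102 386))))))) (.play 456 (.ref 2 389)))))))) (.both (.play 453 (.both (.play 262 (.ref 406 133)) (.both (.ref 460 133) (.both (.play 455 (.both (.play 452 (.both (.ref 1139 256) (.both (.ref 1138 323) (.both (.ref 438 384) (.both (.ref 353 385) (.play 387 (.ref 102 386))))))) (.play 456 (.ref 2 389)))) (.play 262 (.ref 458 261)))))) (.both (.play 518 (.both (.play 263 (.both (.play 262 (.both (.ref 735 197) (.play 199 (.ref 5 198)))) (.play 327 (.ref 5 262)))) (.both (.play 519 (.ref 397 198)) (.ref 1159 323)))) (.both (.ref 1090 197) (.play 518 (.both (.play 455 (.both (.ref 1160 323) (.both (.play 581 (.both (.play 517 (.ref 6 325)) (.play 582 (.both (.play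 389 (.both (.play 325 (.ref 7 325)) (.play 646 (.both (.play 453 (.ref 7 389)) (.play 710 (.ref 36 454)))))) (.play 645 (.ref 6 389)))))) (.both (.play 456 (.ref 1092 389)) (.play 456 (.ref 1097 389)))))) (.both (.ref 1159 323) (.both (.play 517 (.both (.play 456 (.both (.ref 1142 324) (.both (.play 519 (.both (.play 520 (.ref 484 325)) (.play 583 (.ref 4 326)))) (.play 455 (.ref 1140 389))))) (.play 581 (.ref 6 325)))) (.both (.play 581 (.ref 55 325)) (.play 581 (.both (.play 517 (.ref 6 325)) (.play 582 (.both (.ref 724 325) (.play 645 (.ref 6 389))))))))))))))))))))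
 (.one (.play 131 (.both (.play 258 (.ref 442 2)) (.play 132 (.ref 2 128)))))))
 (.seq (.one (.play 196 (.both (.ref 1213 1) (.play 257 (.ref 66 192)))))
 (.seq (.one (.play 196 (.both (.play 132 (.ref 481 1)) (.both (.play 129 (.ref 247 128)) (.play 129 (.ref 185 128))))))
 (.one (.play 66 (.both (.play 129 (.ref 14 0)) (.both (.play 5 (.ref 122 0)) (.play 130 (.ref 118 1)))))))))))
 (.seq (.seq (.seq (.seq (.one (.play 67 (.both (.play 66 (.ref 2 0)) (.play 68 (.ref 2 64)))))
 (.seq (.one (.play 260 (.both (.play 259 (.both (.play 131 (.ref 202 3)) (.play 192 (.ref 0 192)))) (.play 261 (.ref 0 193)))))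
 (.one (.play 132 (.both (.play 259 (.both (.play 4 (.ref 6 3)) (.ref 1130 64))) (.play 133 (.ref 2 129)))))))
 (.seq (.one (.play 132 (.both (.play 259 (.both (.play 4 (.ref 6 3)) (.play 260 (.ref 169 192)))) (.play 133 (.ref 2 129)))))
 (.seq (.one (.play 196 (.both (.ref 1220 0) (.both (.ref 1219 0) (.both (.ref 1218 0) (.both (.play 132 (.ref 1110 1)) (.ref 303 64)))))))
 (.one (.play 196 (.both (.ref 1220 0) (.both (.play 257 (.ref 118 128)) (.play 257 (.ref 66 192)))))))))
 (.seq (.seq (.one (.play 129 (.both (.play 69 (.both (.ref 78 2) (.play 130 (.ref 1 65)))) (.play 128 (.ref 1 64)))))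
 (.seq (.one (.both (.ref 246 0) (.play 132 (.ref 0 64))))
 (.one (.play 132 (.both (.play 68 (.ref 1224 1)) (.play 131 (.ref 0 64)))))))
 (.seq (.one (.play 192 (.both (.play 256 (.ref 6 0)) (.ref 1225 128))))
 (.seq (.one (.play 66 (.both (.play 65 (.ref 882 0)) (.play 1 (.ref 3 1)))))
 (.one (.play 195 (.both (.play 259 (.ref 6 3)) (.play 130 (.both (.ref 1227 128) (.play 131 (.ref 3 130)))))))))))
 (.seq (.seq (.seq (.one (.play 193 (.both (.ref 596 0) (.play 192 (.ref 1 128)))))
 (.seq (.one (.play 196 (.both (.play 195 (.both (.play 68 (.both (.play 259 (.ref 6 3)) (.play 69 (.ref 2 65)))) (.play 128 (.ref 0 128)))) (.play 197 (.ref 0 129)))))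
 (.one (.both (.ref 541 0) (.play 130 (.ref 2 64))))))
 (.seq (.one (.play 68 (.both (.play 4 (.ref 71 0)) (.both (.play 133 (.both (.play 69 (.both (.ref 915 0) (.play 134 (.ref 0 66)))) (.play 132 (.ref 0 65)))) (.both (.ref 72 1) (.ref 1225 1))))))
 (.seq (.one (.play 66 (.both (.play 1 (.ref 102 0)) (.both (.play 5 (.ref 86 1)) (.ref 1232 2)))))
 (.one (.play 130 (.both (.play 66 (.both (.ref 1007 0) (.play 129 (.ref 1 65)))) (.play 131 (.ref 1 66))))))))
 (.seq (.seq (.one (.play 71 (.both (.play 67 (.both (.ref 1234 0) (.both (.play 130 (.ref 14 1)) (.both (.play 130 (.both (.play 66 (.both (.ref 919 1) (.play 129 (.ref 1 65)))) (.play 131 (.ref 1 66)))) (.play 3 (.ref 10 2)))))) (.both (.play 4 (.ref 30 3)) (.ref 72 4)))))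
 (.seq (.one (.play 67 (.both (.play 195 (.both (.play 259 (.both (.play 66 (.ref 7 2)) (.play 258 (.both (.play 194 (.both (.play 3 (.ref 6 2)) (.ref 29 66))) (.play 322 (.ref 6 66)))))) (.play 196 (.ref 0 128)))) (.play 68 (.ref 2 64)))))
 (.one (.play 193 (.both (.play 257 (.ref 4 0)) (.play 132 (.ref 1 128)))))))
 (.seq (.seq (.one (.play 193 (.both (.play 65 (.both (.ref 1237 1) (.play 64 (.ref 3 64)))) (.play 192 (.ref 1 128)))))
 (.one (.play 68 (.both (.play 132 (.both (.ref 1238 0) (.play 69 (.ref 2 65)))) (.play 67 (.ref 2 64))))))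
 (.seq (.one (.play 260 (.both (.play 196 (.both (.play 129 (.both (.play 257 (.both (.play 130 (.both (.play 66 (.ref 18 1)) (.play 197 (.ref 3 129)))) (.play 256 (.ref 1 192)))) (.play 128 (.ref 3 128)))) (.play 261 (.ref 0 193)))) (.play 259 (.ref 0 192)))))
 (.one (.play 196 (.both (.play 129 (.both (.play 257 (.both (.play 322 (.both (.play 321 (.both (.play 66 (.ref 46 1)) (.play 386 (.ref 4 129)))) (.play 258 (.ref 4 65)))) (.play 256 (.ref 1 192)))) (.play 128 (.ref 3 128)))) (.both (.play 129 (.both (.play 257 (.both (.ref 1237 65) (.play 256 (.ref 1 192)))) (.play 128 (.ref 3 128)))) (.both (.play 129 (.ref 247 128)) (.play 257 (.ref 118 128)))))))))))))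
 (.seq (.seq (.seq (.seq (.seq (.one (.play 195 (.both (.play 196 (.both (.ref 1241 1) (.both (.ref 1240 1) (.ref 8 192)))) (.both (.play 196 (.both (.play 131 (.both (.play 197 (.both (.play 258 (.both (.play 130 (.both (.play 67 (.ref 18 2)) (.play 129 (.ref 3 129)))) (.play 257 (.ref 1 193)))) (.both (.play 258 (.both (.play 322 (.both (.play 259 (.both (.play 67 (.ref 6 66)) (.play 198 (.ref 1 194)))) (.play 386 (.ref 5 130)))) (.play 257 (.ref 1 193)))) (.play 130 (.ref 30 129))))) (.play 132 (.ref 2 128)))) (.both (.ref 1241 1) (.both (.ref 1239 65) (.play 132 (.ref 71 128)))))) (.both (.play 196 (.both (.ref 1240 1) (.both (.play 132 (.ref 71 128)) (.ref 72 129)))) (.both (.play 259 (.both (.play 131 (.both (.play 323 (.both (.play 322 (.both (.play 258 (.ref 471 65)) (.play 386 (.ref 6 130)))) (.play 130 (.ref 7 66)))) (.play 132 (.ref 2 128)))) (.play 260 (.ref 0 192)))) (.both (.play 196 (.both (.ref 1239 65) (.both (.ref 72 129) (.ref 8 192)))) (.ref 78 128))))))))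
 (.seq (.one (.play 129 (.both (.play 258 (.ref 4 1)) (.play 196 (.both (.play 128 (.ref 3 128)) (.ref 78 129))))))
 (.one (.both (.play 257 (.both (.play 65 (.ref 5 1)) (.play 256 (.ref 1 192)))) (.play 128 (.ref 3 128))))))
 (.seq (.one (.play 194 (.both (.play 130 (.ref 1244 1)) (.both (.play 261 (.ref 12 128)) (.play 261 (.ref 25 192))))))
 (.seq (.one (.play 6 (.both (.play 66 (.ref 437 0)) (.play 7 (.ref 2 3)))))
 (.one (.play 66 (.both (.play 2 (.ref 7 2)) (.ref 1119 64)))))))
 (.seq (.seq (.one (.play 67 (.both (.play 3 (.ref 7 3)) (.play 258 (.both (.ref 1118 65) (.both (.play 257 (.ref 882 192)) (.ref 306 192)))))))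
 (.seq (.one (.play 67 (.both (.play 69 (.both (.play 5 (.ref 5 4)) (.ref 820 64))) (.play 3 (.ref 7 3)))))
 (.one (.both (.ref 1249 0) (.play 323 (.ref 6 67))))))
 (.seq (.one (.play 5 (.both (.play 133 (.both (.ref 121 0) (.play 134 (.ref 0 66)))) (.play 6 (.ref 2 2)))))
 (.seq (.one (.play 259 (.both (.play 199 (.both (.play 263 (.both (.play 327 (.both (.play 68 (.both (.play 4 (.ref 7 4)) (.play 323 (.both (.play 196 (.both (.play 132 (.ref 6 67)) (.play 264 (.ref 3 196)))) (.play 322 (.ref 1 258)))))) (.play 328 (.ref 0 260)))) (.play 200 (.ref 2 196)))) (.play 198 (.ref 2 195)))) (.both (.ref 1234 192) (.play 198 (.ref 86 194))))))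
 (.one (.play 196 (.both (.play 129 (.both (.play 132 (.both (.play 260 (.both (.ref 1172 1) (.play 261 (.ref 0 193)))) (.play 133 (.ref 2 129)))) (.play 128 (.ref 3 128)))) (.both (.play 129 (.ref 30 128)) (.ref 78 129)))))))))
 (.seq (.seq (.seq (.one (.both (.ref 1253 0) (.play 259 (.ref 4 2))))
 (.seq (.one (.play 258 (.both (.play 194 (.ref 4 1)) (.play 257 (.both (.play 321 (.both (.play 128 (.ref 326 64)) (.play 130 (.ref 5 65)))) (.play 322 (.ref 4 65)))))))
 (.one (.both (.play 5 (.ref 993 1)) (.play 64 (.ref 0 64))))))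
 (.seq (.one (.play 65 (.both (.play 4 (.ref 993 0)) (.play 132 (.ref 3 64)))))
 (.seq (.one (.play 194 (.both (.play 258 (.ref 6 2)) (.play 193 (.ref 234 128)))))
 (.one (.play 258 (.both (.play 194 (.ref 6 2)) (.play 259 (.both (.play 130 (.both (.play 129 (.ref 994 64)) (.both (.play 129 (.both (.play 128 (.ref 2 64)) (.play 132 (.ref 758 65)))) (.ref 986 66)))) (.play 322 (.ref 6 66))))))))))
 (.seq (.seq (.one (.play 1 (.both (.play 0 (.ref 3 0)) (.ref 614 1))))
 (.seq (.one (.both (.play 0 (.ref 0 0)) (.play 7 (.ref 1 3))))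
 (.one (.play 67 (.both (.play 68 (.ref 1261 0)) (.play 66 (.ref 1 2)))))))
 (.seq (.seq (.one (.play 6 (.both (.play 70 (.both (.play 7 (.ref 2 3)) (.ref 1262 64))) (.play 5 (.ref 2 2)))))
 (.one (.play 1 (.both (.play 0 (.ref 3 0)) (.play 69 (.both (.ref 1263 0) (.play 2 (.ref 3 1))))))))
 (.seq (.one (.play 134 (.both (.ref 865 0) (.play 135 (.ref 0 67)))))
 (.one (.play 132 (.both (.play 68 (.both (.play 5 (.both (.play 69 (.both (.play 6 (.ref 2 2)) (.ref 23 64))) (.play 4 (.ref 2 1)))) (.play 133 (.ref 0 65)))) (.play 131 (.ref 0 64))))))))))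
 (.seq (.seq (.seq (.seq (.one (.play 130 (.both (.play 66 (.both (.play 133 (.ref 12 0)) (.play 129 (.ref 1 65)))) (.play 131 (.ref 1 66)))))
 (.seq (.one (.play 129 (.both (.play 69 (.ref 527 1)) (.play 128 (.ref 1 64)))))
 (.one (.play 1 (.both (.play 0 (.ref 3 0)) (.ref 1268 0))))))
 (.seq (.one (.play 261 (.both (.play 260 (.both (.play 259 (.both (.play 195 (.both (.play 323 (.both (.play 131 (.both (.ref 650 2) (.both (.play 132 (.ref 37 67)) (.play 324 (.ref 49 67))))) (.play 322 (.ref 1 258)))) (.play 194 (.ref 3 194)))) (.both (.play 194 (.ref 102 193)) (.both (.play 326 (.ref 12 193)) (.play 326 (.ref 25 257)))))) (.both (.play 259 (.both (.play 322 (.both (.play 258 (.both (.play 325 (.both (.play 257 (.both (.play 197 (.both (.play 133 (.ref 5 69)) (.play 196 (.ref 2 193)))) (.play 324 (.ref 0 257)))) (.play 326 (.ref 0 258)))) (.play 321 (.ref 1 257)))) (.play 323 (.ref 1 258)))) (.both (.play 322 (.ref 14 193)) (.both (.ref 1269 194) (.ref 1264 194))))) (.both (.play 263 (.both (.play 324 (.both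 (.play 196 (.both (.play 327 (.both (.play 325 (.both (.play 197 (.both (.play 133 (.ref 5 69)) (.play 388 (.both (.play 387 (.ref 32 195)) (.play 452 (.ref 5 196)))))) (.play 389 (.ref 256 132)))) (.play 328 (.ref 0 260)))) (.play 195 (.ref 3 195)))) (.play 323 (.ref 1 259)))) (.both (.ref 243 195) (.both (.play 327 (.both (.ref 259 195) (.play 328 (.ref 0 260)))) (.play 324 (.ref 66 259)))))) (.both (.play 259 (.both (.ref 1267 192) (.both (.ref 1265 192) (.both (.ref 1223 194) (.both (.ref 1266 195) (.play 323 (.ref 66 258))))))) (.both (.play 259 (.both (.play 326 (.both (.play 258 (.both (.ref 755 192) (.play 325 (.ref 0 258)))) (.play 327 (.ref 0 259)))) (.both (.ref 1265 192) (.both (.play 195 (.ref 185 194)) (.both (.ref 1264 194) (.ref 1260 194)))))) (.both (.play 259 (.both (.play 194 (.ref 102 193)) (.both (.play 195 (.ref 185 194)) (.play 323 (.ref 66 258))))) (.both (.play 259 (.both (.play 194 (.ref 102 193)) (.both (.ref 1223 194) (.ref 1260 194)))) (.play 259 (.both (.play 322 (.ref 14 193)) (.both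 (.play 195 (.ref 185 194)) (.ref 9 257)))))))))))) (.both (.play 325 (.both (.play 197 (.both (.play 133 (.ref 5 69)) (.play 389 (.both (.play 196 (.both (.play 132 (.ref 7 132)) (.ref 992 194))) (.both (.play 196 (.both (.play 390 (.both (.play 388 (.both (.play 195 (.both (.play 260 (.both (.play 324 (.both (.play 131 (.ref 7 131)) (.play 323 (.ref 216 322)))) (.play 263 (.ref 3 195)))) (.play 194 (.ref 0 194)))) (.play 452 (.ref 6 196)))) (.play 454 (.ref 4 197)))) (.play 132 (.ref 7 132)))) (.play 454 (.ref 17 196))))))) (.play 198 (.ref 6 69)))) (.both (.play 263 (.both (.ref 166 66) (.both (.play 327 (.both (.play 198 (.ref 4 70)) (.play 328 (.ref 991 260)))) (.both (.play 198 (.ref 1254 68)) (.both (.play 260 (.both (.play 195 (.ref 102 194)) (.both (.play 199 (.ref 267 194)) (.play 196 (.ref 247 195))))) (.play 260 (.both (.play 327 (.ref 12 194)) (.both (.play 196 (.ref 247 195)) (.play 327 (.ref 25 258)))))))))) (.both (.play 325 (.both (.play 198 (.ref 6 69)) (.play 263 (.both (.play 260 (.both (.ref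 1229 131) (.both (.play 324 (.both (.play 327 (.both (.play 326 (.both (.play 391 (.both (.play 199 (.both (.play 200 (.ref 5 135)) (.ref 1047 198))) (.play 392 (.ref 0 324)))) (.play 259 (.ref 0 259)))) (.play 328 (.ref 0 260)))) (.play 323 (.ref 1 259)))) (.play 327 (.ref 12 194))))) (.both (.play 264 (.both (.play 200 (.ref 1109 132)) (.play 324 (.ref 1 260)))) (.both (.play 264 (.both (.ref 303 132) (.both (.ref 117 197) (.ref 65 261)))) (.both (.play 264 (.ref 118 196)) (.play 264 (.ref 66 260))))))))) (.both (.play 325 (.both (.play 197 (.both (.play 133 (.ref 5 69)) (.play 389 (.both (.ref 1259 194) (.both (.play 390 (.both (.play 323 (.both (.ref 1258 194) (.both (.play 388 (.both (.play 452 (.ref 6 196)) (.play 324 (.ref 216 322)))) (.both (.play 388 (.both (.play 452 (.ref 6 196)) (.ref 1257 259))) (.play 324 (.ref 1256 258)))))) (.play 454 (.ref 4 197)))) (.both (.play 454 (.ref 17 196)) (.both (.ref 687 196) (.ref 1255 196)))))))) (.play 198 (.ref 6 69)))) (.both (.play 325 (.both (.play 197 (.both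 (.play 133 (.ref 5 69)) (.play 389 (.both (.play 196 (.both (.play 390 (.both (.play 388 (.both (.play 324 (.both (.play 323 (.both (.ref 858 130) (.play 322 (.ref 0 322)))) (.both (.play 391 (.both (.play 327 (.both (.play 387 (.both (.play 451 (.ref 171 194)) (.play 326 (.ref 1 323)))) (.play 328 (.ref 2 324)))) (.play 392 (.ref 3 324)))) (.play 323 (.ref 216 322))))) (.play 452 (.ref 6 196)))) (.play 454 (.ref 4 197)))) (.play 132 (.ref 7 132)))) (.both (.play 196 (.ref 326 132)) (.both (.play 196 (.ref 227 132)) (.play 454 (.ref 17 196)))))))) (.play 198 (.ref 6 69)))) (.both (.play 198 (.both (.play 260 (.both (.ref 558 67) (.both (.play 263 (.both (.play 327 (.ref 4 70)) (.play 200 (.both (.play 199 (.ref 2 196)) (.play 264 (.ref 1101 196)))))) (.play 199 (.ref 994 195))))) (.play 325 (.ref 6 69)))) (.play 198 (.both (.play 263 (.ref 1254 68)) (.play 325 (.ref 6 69)))))))))))))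
 (.seq (.one (.play 132 (.both (.play 68 (.ref 5 4)) (.play 324 (.both (.play 325 (.both (.play 323 (.both (.play 387 (.ref 6 131)) (.play 258 (.both (.ref 1257 194) (.both (.ref 1227 256) (.play 259 (.ref 216 257))))))) (.play 389 (.ref 4 132)))) (.both (.ref 1259 129) (.both (.play 389 (.ref 17 131)) (.both (.ref 687 131) (.ref 1255 131)))))))))
 (.one (.both (.play 2 (.ref 7 2)) (.ref 676 64))))))
 (.seq (.seq (.one (.play 132 (.both (.play 68 (.ref 5 4)) (.play 324 (.both (.play 131 (.both (.play 325 (.both (.play 323 (.both (.play 130 (.both (.play 259 (.both (.play 195 (.ref 1272 64)) (.play 258 (.ref 216 257)))) (.play 129 (.ref 0 129)))) (.play 387 (.ref 6 131)))) (.play 389 (.ref 4 132)))) (.play 67 (.ref 7 67)))) (.both (.play 131 (.ref 326 67)) (.both (.play 131 (.ref 227 67)) (.play 389 (.ref 17 131)))))))))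
 (.seq (.one (.play 257 (.both (.play 66 (.ref 5 1)) (.ref 271 64))))
 (.one (.play 65 (.both (.play 67 (.ref 2 0)) (.play 132 (.ref 3 64)))))))
 (.seq (.one (.play 132 (.both (.play 68 (.ref 5 4)) (.play 324 (.both (.play 131 (.both (.play 67 (.ref 7 67)) (.play 325 (.both (.play 198 (.both (.play 323 (.both (.play 387 (.ref 6 131)) (.play 258 (.both (.ref 1275 194) (.both (.ref 1227 256) (.play 259 (.ref 216 257))))))) (.play 199 (.ref 3 131)))) (.play 389 (.ref 4 132)))))) (.both (.play 131 (.both (.play 67 (.ref 7 67)) (.play 259 (.both (.play 198 (.both (.play 199 (.ref 3 131)) (.play 258 (.ref 69 193)))) (.both (.play 325 (.both (.play 389 (.ref 4 132)) (.play 258 (.ref 991 257)))) (.both (.play 198 (.both (.ref 412 129) (.play 199 (.ref 3 131)))) (.play 198 (.both (.play 199 (.ref 3 131)) (.play 389 (.both (.play 325 (.ref 4 132)) (.play 388 (.both (.ref 1274 195) (.play 453 (.ref 4 196)))))))))))))) (.both (.play 131 (.both (.play 67 (.ref 7 67)) (.ref 687 131))) (.both (.play 131 (.both (.play 67 (.ref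 7 67)) (.play 198 (.both (.play 199 (.ref 3 131)) (.ref 872 131))))) (.play 389 (.ref 17 131))))))))))
 (.seq (.one (.play 259 (.both (.play 195 (.both (.play 4 (.both (.play 68 (.ref 4 4)) (.play 194 (.both (.ref 306 128) (.play 262 (.ref 0 194)))))) (.play 258 (.ref 1 194)))) (.play 260 (.ref 1 195)))))
 (.one (.play 66 (.both (.play 2 (.ref 7 2)) (.play 133 (.ref 295 64)))))))))
 (.seq (.seq (.seq (.one (.play 129 (.both (.ref 591 1) (.play 128 (.ref 3 128)))))
 (.seq (.one (.play 67 (.both (.play 68 (.ref 416 0)) (.play 3 (.ref 4 3)))))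
 (.one (.play 66 (.both (.play 4 (.ref 2 0)) (.play 2 (.ref 5 1)))))))
 (.seq (.one (.play 64 (.both (.play 0 (.ref 7 0)) (.ref 1281 0))))
 (.seq (.one (.both (.play 0 (.ref 3 0)) (.ref 545 0)))
 (.one (.play 66 (.both (.play 2 (.ref 7 2)) (.play 196 (.ref 1045 192))))))))
 (.seq (.seq (.one (.play 129 (.both (.play 257 (.ref 5 1)) (.play 128 (.ref 3 128)))))
 (.seq (.one (.play 68 (.both (.play 4 (.ref 7 4)) (.ref 154 192))))
 (.one (.play 65 (.both (.play 1 (.both (.play 64 (.ref 5 0)) (.play 194 (.ref 7 1)))) (.play 129 (.ref 5 64)))))))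
 (.seq (.seq (.one (.play 67 (.both (.play 3 (.ref 7 3)) (.play 131 (.both (.play 130 (.both (.play 129 (.ref 86 64)) (.play 322 (.ref 5 66)))) (.play 324 (.ref 7 67)))))))
 (.one (.play 195 (.both (.play 197 (.both (.ref 1286 0) (.both (.ref 1288 1) (.play 258 (.both (.play 322 (.both (.play 194 (.both (.play 131 (.ref 126 66)) (.play 193 (.ref 3 193)))) (.play 321 (.ref 1 257)))) (.play 198 (.ref 2 194))))))) (.both (.play 197 (.both (.ref 1288 1) (.play 198 (.ref 1045 194)))) (.both (.play 323 (.both (.ref 1057 2) (.both (.play 131 (.both (.ref 1287 3) (.play 130 (.ref 326 66)))) (.both (.play 322 (.both (.play 131 (.both (.ref 1287 3) (.play 386 (.ref 6 130)))) (.play 262 (.ref 1 258)))) (.play 262 (.ref 504 194)))))) (.play 194 (.ref 295 192))))))))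
 (.seq (.one (.play 129 (.both (.play 130 (.both (.play 257 (.ref 311 0)) (.play 197 (.ref 3 129)))) (.play 128 (.ref 3 128)))))
 (.one (.both (.play 2 (.ref 5 1)) (.play 256 (.ref 1 192)))))))))))
 (.seq (.seq (.seq (.seq (.seq (.seq (.one (.play 325 (.both (.play 324 (.both (.play 260 (.both (.play 196 (.both (.play 132 (.both (.ref 367 3) (.both (.play 133 (.both (.ref 682 3) (.play 69 (.ref 5 68)))) (.play 133 (.both (.play 69 (.ref 5 68)) (.play 195 (.ref 68 129))))))) (.both (.ref 486 130) (.play 388 (.both (.play 197 (.both (.play 195 (.both (.play 131 (.ref 7 131)) (.play 135 (.ref 2 131)))) (.play 133 (.ref 5 132)))) (.play 387 (.ref 314 195))))))) (.both (.play 259 (.both (.play 195 (.both (.play 131 (.both (.play 323 (.both (.play 132 (.both (.play 133 (.both (.ref 699 66) (.play 194 (.ref 1 130)))) (.play 68 (.ref 5 67)))) (.ref 137 130))) (.play 67 (.ref 4 67)))) (.both (.play 388 (.ref 696 67)) (.play 388 (.both (.play 196 (.both (.play 387 (.both (.play 323 (.ref 1291 130)) (.play 451 (.ref 6 195))))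 (.ref 1281 131))) (.play 452 (.ref 7 195))))))) (.play 258 (.ref 112 257)))) (.both (.play 259 (.ref 113 257)) (.play 259 (.ref 295 257)))))) (.both (.ref 1289 65) (.both (.play 262 (.both (.ref 1286 65) (.both (.play 133 (.both (.play 197 (.both (.play 261 (.both (.play 323 (.both (.play 259 (.both (.play 132 (.both (.play 68 (.ref 7 68)) (.play 131 (.both (.play 130 (.ref 0 130)) (.play 195 (.both (.play 194 (.ref 1 130)) (.play 196 (.both (.play 387 (.ref 5 131)) (.play 135 (.ref 1 131)))))))))) (.play 258 (.ref 3 258)))) (.play 322 (.ref 2 258)))) (.play 388 (.ref 6 132)))) (.play 390 (.ref 7 133)))) (.play 69 (.ref 7 69)))) (.both (.play 133 (.both (.play 197 (.both (.play 261 (.both (.play 263 (.both (.play 196 (.both (.play 132 (.both (.play 131 (.both (.play 67 (.ref 196 66)) (.play 130 (.ref 0 130)))) (.play 68 (.ref 7 68)))) (.play 195 (.ref 0 195)))) (.play 264 (.ref 1 260)))) (.play 388 (.ref 6 132)))) (.play 390 (.ref 7 133)))) (.play 69 (.ref 7 69)))) (.play 323 (.ref 122 257)))))) (.both (.play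 262 (.both (.play 133 (.both (.play 197 (.both (.play 261 (.both (.play 132 (.both (.play 135 (.both (.play 71 (.ref 5 70)) (.ref 1136 130))) (.play 68 (.ref 7 68)))) (.play 388 (.ref 6 132)))) (.play 390 (.ref 7 133)))) (.play 69 (.ref 7 69)))) (.both (.ref 1284 67) (.play 263 (.ref 994 259))))) (.both (.play 327 (.both (.play 262 (.both (.play 263 (.both (.play 133 (.both (.play 69 (.ref 7 69)) (.play 197 (.both (.play 196 (.both (.ref 1285 131) (.play 195 (.ref 0 195)))) (.play 390 (.ref 7 133)))))) (.play 264 (.ref 2 260)))) (.both (.play 133 (.both (.play 135 (.both (.play 71 (.ref 5 70)) (.play 197 (.both (.play 196 (.both (.play 195 (.ref 2 131)) (.ref 1285 131))) (.play 390 (.ref 7 133)))))) (.play 69 (.ref 7 69)))) (.play 328 (.both (.play 264 (.ref 71 260)) (.both (.play 263 (.both (.play 264 (.ref 2 260)) (.ref 151 261))) (.both (.ref 72 261) (.ref 1225 261)))))))) (.both (.ref 1290 131) (.both (.play 263 (.both (.play 260 (.both (.play 388 (.both (.play 452 (.both (.play 197 (.both (.play 196 (.ref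 700 131)) (.play 261 (.ref 5 196)))) (.both (.play 261 (.ref 18 196)) (.play 517 (.ref 17 259))))) (.play 387 (.ref 1 323)))) (.play 259 (.ref 3 259)))) (.play 264 (.ref 2 260)))) (.both (.play 260 (.ref 247 259)) (.play 328 (.both (.play 264 (.ref 71 260)) (.both (.play 393 (.both (.play 329 (.both (.play 262 (.both (.ref 915 260) (.play 261 (.ref 3 261)))) (.play 394 (.ref 0 326)))) (.play 392 (.ref 0 325)))) (.both (.ref 72 261) (.play 393 (.both (.play 329 (.both (.play 262 (.ref 247 261)) (.play 394 (.ref 0 326)))) (.play 392 (.ref 0 325))))))))))))) (.play 327 (.both (.play 259 (.both (.play 323 (.both (.play 262 (.ref 267 257)) (.play 258 (.ref 3 258)))) (.play 260 (.ref 3 259)))) (.both (.ref 1246 257) (.both (.play 263 (.ref 122 258)) (.both (.play 260 (.both (.play 259 (.ref 3 259)) (.play 328 (.both (.play 261 (.ref 3 260)) (.ref 72 261))))) (.play 264 (.both (.play 263 (.ref 2 260)) (.play 328 (.both (.play 393 (.both (.play 329 (.both (.play 261 (.ref 10 260)) (.play 394 (.ref 0 326)))) (.play 392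 (.ref 0 325)))) (.play 265 (.ref 2 261))))))))))))))))) (.both (.play 324 (.both (.ref 1289 65) (.both (.play 262 (.both (.play 133 (.both (.play 135 (.both (.play 71 (.ref 5 70)) (.play 197 (.both (.play 196 (.both (.play 260 (.both (.play 388 (.ref 5 132)) (.play 259 (.ref 295 257)))) (.play 195 (.ref 2 131)))) (.play 390 (.ref 7 133)))))) (.play 69 (.ref 7 69)))) (.play 389 (.ref 6 133)))) (.both (.play 262 (.both (.ref 1286 65) (.play 389 (.ref 6 133)))) (.both (.play 262 (.both (.play 133 (.both (.play 197 (.both (.play 135 (.both (.play 71 (.ref 5 70)) (.play 196 (.both (.play 195 (.ref 2 131)) (.play 327 (.both (.ref 1285 131) (.ref 1232 260))))))) (.play 390 (.ref 7 133)))) (.play 69 (.ref 7 69)))) (.play 389 (.ref 6 133)))) (.both (.play 262 (.both (.ref 1284 67) (.play 389 (.ref 6 133)))) (.both (.play 323 (.both (.play 386 (.both (.play 322 (.both (.play 389 (.both (.play 388 (.both (.play 327 (.ref 519 131)) (.play 321 (.ref 0 321)))) (.play 390 (.ref 0 322)))) (.play 385 (.ref 1 321)))) (.play 387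 (.ref 1 322)))) (.both (.ref 1267 256) (.both (.play 386 (.ref 14 257)) (.both (.ref 529 258) (.play 259 (.both (.play 258 (.ref 3 258)) (.play 327 (.both (.play 264 (.both (.play 328 (.both (.play 265 (.ref 2 261)) (.play 392 (.both (.ref 1262 322) (.play 393 (.ref 0 325)))))) (.play 263 (.ref 2 260)))) (.play 260 (.ref 3 259))))))))))) (.play 262 (.both (.play 389 (.ref 6 133)) (.play 323 (.both (.ref 1269 258) (.play 263 (.ref 2 259))))))))))))) (.both (.play 262 (.both (.play 133 (.both (.play 135 (.both (.play 132 (.both (.play 67 (.both (.play 131 (.both (.play 66 (.ref 3 66)) (.ref 911 129))) (.play 68 (.ref 3 67)))) (.both (.play 195 (.both (.play 131 (.both (.play 130 (.both (.play 66 (.ref 1283 65)) (.play 197 (.ref 0 130)))) (.play 194 (.ref 1 130)))) (.play 196 (.ref 1 131)))) (.both (.play 195 (.ref 14 66)) (.play 68 (.both (.play 67 (.ref 3 67)) (.play 261 (.both (.play 260 (.both (.play 196 (.ref 4 68)) (.play 327 (.ref 216 259)))) (.play 197 (.ref 7 68)))))))))) (.play 71 (.ref 5 70)))) (.play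 69 (.ref 7 69)))) (.play 389 (.ref 6 133)))) (.both (.play 262 (.both (.play 263 (.both (.ref 726 67) (.both (.play 264 (.both (.play 261 (.both (.play 197 (.both (.play 133 (.ref 534 69)) (.play 196 (.ref 3 196)))) (.play 201 (.ref 2 197)))) (.play 265 (.ref 1 261)))) (.both (.play 264 (.ref 68 259)) (.play 264 (.ref 70 259)))))) (.play 389 (.ref 6 133)))) (.both (.play 389 (.both (.play 327 (.both (.play 324 (.both (.play 260 (.both (.play 196 (.ref 99 132)) (.play 259 (.ref 3 259)))) (.both (.ref 209 257) (.play 323 (.both (.play 322 (.ref 25 320)) (.both (.ref 208 321) (.both (.play 322 (.both (.ref 97 321) (.play 390 (.ref 0 322)))) (.ref 23 322)))))))) (.both (.play 328 (.both (.play 264 (.both (.play 392 (.both (.play 324 (.both (.ref 209 257) (.play 263 (.ref 2 260)))) (.play 393 (.ref 0 325)))) (.play 265 (.ref 2 261)))) (.both (.ref 117 261) (.both (.ref 78 261) (.ref 65 325))))) (.both (.play 328 (.ref 118 260)) (.ref 79 260))))) (.both (.play 327 (.both (.play 324 (.both (.play 260 (.both (.ref 1277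 128) (.both (.ref 1280 129) (.both (.play 387 (.both (.play 323 (.both (.play 322 (.both (.play 261 (.both (.play 197 (.ref 5 133)) (.play 321 (.ref 2 257)))) (.play 390 (.ref 0 322)))) (.play 386 (.ref 1 322)))) (.play 388 (.ref 1 323)))) (.both (.play 388 (.both (.play 197 (.both (.ref 591 132) (.play 261 (.ref 5 133)))) (.play 387 (.ref 1 323)))) (.play 388 (.both (.play 196 (.both (.ref 1282 131) (.play 132 (.ref 4 132)))) (.play 387 (.ref 1 323))))))))) (.both (.play 260 (.both (.ref 1280 129) (.play 259 (.ref 3 259)))) (.both (.play 388 (.both (.play 197 (.both (.ref 1279 131) (.play 261 (.ref 5 133)))) (.play 387 (.ref 1 323)))) (.play 387 (.both (.play 323 (.both (.play 258 (.both (.play 322 (.ref 133 257)) (.play 259 (.ref 3 258)))) (.play 386 (.ref 1 322)))) (.play 388 (.ref 1 323)))))))) (.both (.play 328 (.ref 1204 132)) (.both (.play 261 (.both (.play 197 (.ref 5 133)) (.play 328 (.both (.play 260 (.ref 3 260)) (.ref 117 261))))) (.play 328 (.ref 118 260)))))) (.both (.ref 1271 129) (.both (.ref 1273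 129) (.both (.ref 1276 129) (.play 261 (.both (.play 197 (.ref 5 133)) (.play 453 (.both (.play 518 (.both (.ref 1278 194) (.play 454 (.ref 4 261)))) (.both (.play 260 (.both (.play 196 (.ref 7 196)) (.play 327 (.both (.play 324 (.ref 363 259)) (.play 328 (.ref 3 260)))))) (.play 518 (.ref 17 260))))))))))))) (.both (.play 389 (.both (.play 327 (.both (.play 324 (.both (.play 260 (.both (.ref 1277 128) (.both (.play 453 (.ref 696 132)) (.both (.play 388 (.both (.play 453 (.ref 256 196)) (.play 387 (.ref 1 323)))) (.play 388 (.both (.play 453 (.both (.play 263 (.both (.play 452 (.both (.ref 676 257) (.play 516 (.ref 18 260)))) (.play 264 (.ref 2 260)))) (.play 517 (.ref 7 260)))) (.play 387 (.ref 1 323)))))))) (.both (.ref 862 131) (.ref 505 257)))) (.both (.play 324 (.both (.ref 862 131) (.play 264 (.both (.play 263 (.ref 2 260)) (.play 328 (.both (.play 265 (.ref 2 261)) (.play 393 (.both (.play 392 (.ref 0 325)) (.ref 887 325))))))))) (.both (.play 328 (.both (.ref 1251 259) (.play 388 (.ref 1 324)))) (.both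 (.play 328 (.ref 118 260)) (.play 328 (.ref 66 324))))))) (.play 262 (.ref 6 133)))) (.both (.play 389 (.both (.ref 1276 129) (.play 262 (.ref 6 133)))) (.both (.play 389 (.both (.ref 1273 129) (.play 262 (.ref 6 133)))) (.play 389 (.both (.ref 1271 129) (.play 262 (.ref 6 133))))))))))))))
 (.seq (.one (.play 67 (.both (.play 260 (.ref 7 3)) (.play 128 (.ref 2 64)))))
 (.one (.play 196 (.both (.play 68 (.both (.ref 1293 0) (.play 69 (.ref 2 65)))) (.play 197 (.ref 0 129)))))))
 (.seq (.one (.play 66 (.both (.play 64 (.ref 2 0)) (.ref 271 66))))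
 (.seq (.one (.play 259 (.both (.ref 1295 0) (.ref 28 3))))
 (.one (.play 259 (.both (.ref 1295 0) (.play 68 (.ref 5 3))))))))
 (.seq (.seq (.one (.play 194 (.both (.play 196 (.both (.play 193 (.both (.ref 137 0) (.both (.play 197 (.both (.play 132 (.both (.play 261 (.ref 60 2)) (.play 133 (.ref 2 129)))) (.both (.play 257 (.both (.ref 78 130) (.play 256 (.ref 1 192)))) (.both (.play 133 (.ref 71 129)) (.ref 881 130))))) (.play 132 (.ref 86 128))))) (.play 260 (.ref 4 3)))) (.play 258 (.ref 6 2)))))
 (.seq (.one (.play 258 (.both (.play 194 (.ref 4 1)) (.play 257 (.ref 272 64)))))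
 (.one (.play 66 (.both (.play 64 (.ref 2 0)) (.play 68 (.ref 3 0)))))))
 (.seq (.one (.play 388 (.both (.play 454 (.both (.play 259 (.both (.play 261 (.both (.play 258 (.both (.play 322 (.both (.play 194 (.both (.play 130 (.both (.ref 58 1) (.both (.play 323 (.ref 49 66)) (.play 387 (.both (.play 323 (.ref 4 130)) (.play 390 (.both (.play 518 (.ref 45 261)) (.play 389 (.ref 2 323))))))))) (.play 193 (.ref 3 193)))) (.play 321 (.ref 1 257)))) (.both (.play 321 (.ref 14 192)) (.both (.play 193 (.both (.play 257 (.both (.play 192 (.ref 3 192)) (.play 390 (.both (.play 389 (.both (.play 323 (.both (.play 256 (.ref 0 256)) (.play 391 (.ref 3 323)))) (.play 387 (.ref 2 323)))) (.both (.play 389 (.both (.ref 464 261) (.play 387 (.ref 2 323)))) (.play 518 (.ref 45 261))))))) (.play 194 (.ref 3 193)))) (.play 321 (.both (.play 257 (.both (.play 320 (.ref 1 256)) (.play 323 (.both (.play 256 (.ref 0 256)) (.play 390 (.both (.ref 464 261) (.ref 1300 323))))))) (.play 322 (.ref 1 257)))))))) (.play 197 (.ref 5 196)))) (.play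 195 (.ref 7 195)))) (.both (.play 259 (.both (.play 195 (.ref 7 195)) (.play 261 (.both (.play 197 (.ref 5 196)) (.play 390 (.both (.ref 1099 259) (.both (.play 389 (.both (.play 518 (.both (.play 263 (.ref 5 262)) (.play 391 (.both (.play 323 (.ref 3 323)) (.play 582 (.ref 5 326)))))) (.play 387 (.ref 2 323)))) (.play 518 (.both (.play 517 (.both (.play 453 (.ref 4 260)) (.play 581 (.ref 6 325)))) (.play 263 (.ref 5 262))))))))))) (.both (.play 259 (.both (.play 195 (.ref 7 195)) (.play 453 (.ref 321 259)))) (.both (.play 259 (.both (.play 195 (.ref 7 195)) (.play 261 (.both (.play 197 (.ref 5 196)) (.play 390 (.both (.play 389 (.both (.play 391 (.both (.play 518 (.ref 18 262)) (.play 323 (.ref 3 323)))) (.play 387 (.ref 2 323)))) (.both (.play 389 (.both (.play 518 (.both (.play 263 (.ref 5 262)) (.ref 1299 325))) (.play 387 (.ref 2 323)))) (.both (.play 518 (.ref 37 262)) (.play 389 (.both (.play 387 (.ref 2 323)) (.play 391 (.both (.play 323 (.ref 3 323)) (.play 455 (.both (.play 453 (.both (.ref 85 324) (.play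 392 (.ref 2 388)))) (.play 456 (.ref 0 388)))))))))))))))) (.both (.play 259 (.both (.play 195 (.ref 7 195)) (.play 261 (.both (.play 197 (.ref 5 196)) (.play 453 (.both (.play 517 (.ref 4 260)) (.play 455 (.both (.play 391 (.ref 481 260)) (.both (.ref 80 388) (.ref 246 388)))))))))) (.play 453 (.both (.play 455 (.both (.play 391 (.ref 481 260)) (.play 387 (.ref 3 387)))) (.play 517 (.ref 4 260)))))))))) (.both (.play 259 (.both (.play 261 (.both (.play 323 (.both (.play 258 (.both (.play 322 (.both (.ref 518 65) (.play 321 (.ref 2 257)))) (.both (.ref 508 192) (.ref 258 256)))) (.play 516 (.ref 7 259)))) (.play 197 (.ref 5 196)))) (.play 195 (.ref 7 195)))) (.both (.play 259 (.ref 227 195)) (.play 454 (.both (.play 453 (.ref 321 259)) (.both (.play 453 (.ref 549 259)) (.both (.play 517 (.both (.play 518 (.both (.play 390 (.ref 333 261)) (.both (.play 390 (.ref 37 262)) (.play 516 (.ref 548 323))))) (.play 453 (.ref 4 260)))) (.both (.play 518 (.both (.play 516 (.both (.play 515 (.both (.play 455 (.both (.play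 391 (.ref 77 262)) (.play 517 (.ref 2 451)))) (.play 579 (.ref 6 323)))) (.both (.play 455 (.both (.play 391 (.both (.play 263 (.ref 6 262)) (.play 581 (.both (.play 517 (.ref 4 324)) (.play 580 (.both (.play 643 (.both (.play 579 (.ref 6 387)) (.play 644 (.both (.play 582 (.both (.play 646 (.ref 5 390)) (.play 583 (.ref 1 579)))) (.play 707 (.ref 6 451)))))) (.play 645 (.ref 4 388)))))))) (.both (.play 391 (.ref 77 262)) (.play 517 (.both (.play 581 (.ref 4 324)) (.play 456 (.ref 1044 452))))))) (.both (.ref 275 323) (.both (.play 517 (.ref 548 323)) (.both (.play 579 (.both (.play 515 (.ref 6 323)) (.play 580 (.both (.play 643 (.ref 6 387)) (.play 582 (.both (.ref 1095 387) (.both (.play 646 (.both (.play 455 (.ref 45 389)) (.both (.play 455 (.ref 37 390)) (.play 645 (.both (.play 647 (.both (.play 711 (.ref 4 454)) (.play 644 (.ref 3 579)))) (.play 709 (.ref 6 453))))))) (.both (.play 646 (.both (.play 455 (.both (.play 391 (.ref 5 390)) (.play 519 (.both (.play 710 (.ref 5 454)) (.play 581 (.ref 2 515))))))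 (.both (.play 455 (.ref 37 390)) (.ref 1100 451)))) (.play 645 (.both (.play 581 (.ref 4 388)) (.play 709 (.ref 565 452)))))))))))) (.play 517 (.both (.play 581 (.ref 4 324)) (.play 455 (.ref 1045 451)))))))))) (.both (.play 390 (.both (.play 263 (.ref 5 262)) (.ref 1298 323))) (.both (.play 390 (.ref 45 261)) (.both (.ref 64 261) (.both (.play 390 (.ref 37 262)) (.play 390 (.both (.ref 1298 323) (.both (.play 581 (.ref 55 325)) (.both (.ref 44 325) (.play 582 (.ref 36 326)))))))))))) (.play 518 (.both (.play 455 (.both (.play 453 (.both (.ref 1108 260) (.play 387 (.ref 3 387)))) (.both (.play 391 (.ref 77 262)) (.play 453 (.ref 185 387))))) (.both (.play 390 (.both (.play 263 (.ref 5 262)) (.ref 1297 323))) (.both (.play 263 (.both (.play 455 (.both (.play 391 (.ref 6 262)) (.play 453 (.ref 185 387)))) (.play 390 (.ref 5 262)))) (.both (.play 390 (.both (.play 263 (.ref 5 262)) (.ref 1296 323))) (.both (.play 390 (.ref 37 262)) (.play 390 (.both (.ref 1297 323) (.both (.ref 1296 323) (.both (.play 455 (.both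 (.play 519 (.both (.play 583 (.ref 4 326)) (.play 453 (.ref 133 387)))) (.both (.play 519 (.both (.play 583 (.ref 4 326)) (.play 453 (.ref 1224 388)))) (.both (.play 387 (.ref 289 387)) (.play 389 (.ref 229 387)))))) (.play 582 (.ref 36 326))))))))))))))))))))))
 (.seq (.one (.play 67 (.both (.play 195 (.both (.ref 271 2) (.play 196 (.ref 0 128)))) (.play 68 (.ref 2 64)))))
 (.one (.play 68 (.both (.play 67 (.both (.play 195 (.both (.play 194 (.both (.play 258 (.ref 6 2)) (.play 133 (.ref 176 129)))) (.play 259 (.ref 5 3)))) (.play 128 (.ref 2 64)))) (.play 69 (.ref 2 65)))))))))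
 (.seq (.seq (.seq (.one (.play 196 (.both (.play 195 (.both (.play 260 (.both (.play 67 (.ref 4 3)) (.play 324 (.both (.play 133 (.both (.play 69 (.ref 5 68)) (.play 194 (.ref 176 129)))) (.play 388 (.ref 7 131)))))) (.play 128 (.ref 0 128)))) (.play 197 (.ref 0 129)))))
 (.seq (.one (.play 68 (.both (.play 196 (.both (.ref 1293 0) (.play 197 (.ref 0 129)))) (.play 69 (.ref 2 65)))))
 (.one (.play 195 (.both (.play 193 (.both (.play 196 (.both (.ref 61 0) (.play 129 (.ref 3 128)))) (.play 257 (.ref 6 1)))) (.play 259 (.ref 4 2)))))))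
 (.seq (.one (.play 68 (.both (.play 4 (.both (.play 132 (.both (.play 64 (.ref 250 0)) (.play 133 (.ref 0 65)))) (.play 5 (.ref 2 1)))) (.play 128 (.ref 1 64)))))
 (.seq (.one (.play 5 (.both (.play 69 (.both (.play 6 (.ref 2 2)) (.ref 989 64))) (.play 4 (.ref 2 1)))))
 (.one (.play 4 (.both (.play 3 (.ref 2 0)) (.play 68 (.both (.play 5 (.ref 2 1)) (.ref 65 65)))))))))
 (.seq (.seq (.one (.play 132 (.both (.play 4 (.both (.play 197 (.both (.play 261 (.ref 4 4)) (.ref 1062 128))) (.play 259 (.ref 6 3)))) (.play 133 (.ref 2 129)))))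
 (.seq (.one (.play 260 (.both (.play 196 (.both (.play 131 (.both (.play 3 (.ref 4 3)) (.play 132 (.ref 2 128)))) (.play 261 (.ref 0 193)))) (.play 259 (.ref 0 192)))))
 (.one (.play 260 (.both (.play 259 (.both (.play 132 (.ref 335 3)) (.play 192 (.ref 0 192)))) (.play 261 (.ref 0 193)))))))
 (.seq (.one (.play 196 (.both (.play 260 (.ref 4 3)) (.play 130 (.ref 229 128)))))
 (.seq (.one (.play 67 (.both (.ref 1313 0) (.ref 44 2))))
 (.one (.both (.play 4 (.ref 5 3)) (.ref 1313 64))))))))
 (.seq (.seq (.seq (.seq (.one (.both (.ref 1043 0) (.play 69 (.ref 1 65))))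
 (.seq (.one (.play 65 (.both (.play 64 (.ref 2 0)) (.play 133 (.ref 3 65)))))
 (.one (.play 196 (.both (.play 260 (.ref 4 3)) (.ref 1317 64))))))
 (.seq (.one (.play 129 (.both (.play 195 (.both (.ref 1104 1) (.play 259 (.ref 5 3)))) (.play 128 (.ref 2 64)))))
 (.seq (.one (.play 258 (.both (.play 259 (.both (.play 195 (.both (.play 2 (.ref 7 2)) (.play 257 (.ref 220 64)))) (.play 323 (.ref 4 66)))) (.play 322 (.ref 5 66)))))
 (.one (.play 258 (.both (.play 194 (.both (.play 3 (.ref 6 2)) (.play 193 (.ref 69 128)))) (.play 322 (.ref 6 66))))))))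
 (.seq (.seq (.one (.play 260 (.both (.play 261 (.both (.play 197 (.both (.play 133 (.both (.play 5 (.ref 6 4)) (.play 195 (.ref 218 129)))) (.both (.play 133 (.ref 335 4)) (.play 259 (.both (.play 195 (.both (.play 323 (.both (.play 387 (.both (.play 198 (.both (.ref 1321 128) (.play 199 (.ref 1 195)))) (.play 451 (.ref 5 195)))) (.both (.play 387 (.both (.play 198 (.both (.play 386 (.both (.play 388 (.both (.play 322 (.both (.play 131 (.ref 6 130)) (.ref 1317 256))) (.play 452 (.ref 4 195)))) (.play 450 (.ref 6 194)))) (.play 199 (.ref 1 195)))) (.play 451 (.ref 5 195)))) (.both (.ref 1320 129) (.both (.play 387 (.both (.play 388 (.both (.play 324 (.both (.play 131 (.ref 7 131)) (.ref 1318 193))) (.play 452 (.ref 4 195)))) (.play 451 (.ref 5 195)))) (.both (.play 324 (.both (.play 322 (.both (.play 325 (.both (.play 386 (.ref 485 129)) (.ref 85 194))) (.play 321 (.ref 2 257)))) (.both (.play 388 (.ref 91 131)) (.ref 1319 193)))) (.play 324 (.both (.ref 1319 193) (.both (.play 388 (.both (.play 387 (.both (.ref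 1318 193) (.play 451 (.ref 5 195)))) (.play 452 (.ref 5 196)))) (.both (.play 387 (.both (.play 386 (.both (.play 450 (.ref 6 194)) (.play 325 (.ref 1316 257)))) (.play 451 (.ref 5 195)))) (.play 388 (.both (.play 387 (.both (.play 386 (.ref 220 193)) (.play 451 (.ref 5 195)))) (.play 452 (.ref 5 196)))))))))))))) (.play 193 (.ref 0 193)))) (.both (.play 193 (.ref 263 193)) (.play 198 (.ref 160 194)))))))) (.both (.play 259 (.both (.play 258 (.both (.play 197 (.both (.play 133 (.ref 335 4)) (.play 198 (.ref 2 194)))) (.play 193 (.ref 3 193)))) (.both (.play 262 (.both (.play 133 (.both (.play 197 (.ref 335 4)) (.play 323 (.both (.play 326 (.ref 165 67)) (.play 322 (.ref 1 258)))))) (.both (.play 323 (.ref 118 194)) (.both (.ref 78 195) (.play 323 (.ref 66 258)))))) (.play 258 (.both (.play 193 (.ref 3 193)) (.play 262 (.ref 885 257))))))) (.both (.play 197 (.both (.play 262 (.both (.play 133 (.ref 286 4)) (.play 195 (.ref 0 194)))) (.both (.play 133 (.ref 335 4)) (.play 262 (.both (.play 195 (.ref 0 194)) (.play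 263 (.both (.play 199 (.both (.play 259 (.both (.play 198 (.ref 1 195)) (.ref 23 258))) (.play 200 (.ref 2 196)))) (.play 264 (.ref 3 196))))))))) (.both (.play 195 (.ref 261 193)) (.play 195 (.ref 229 193))))))) (.both (.play 132 (.ref 1315 1)) (.both (.play 132 (.ref 45 3)) (.ref 1314 65))))))
 (.seq (.one (.play 257 (.both (.play 129 (.both (.play 258 (.both (.ref 591 1) (.play 197 (.ref 1 193)))) (.play 128 (.ref 3 128)))) (.play 256 (.ref 1 192)))))
 (.one (.play 195 (.both (.play 259 (.ref 81 2)) (.play 196 (.ref 0 128)))))))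
 (.seq (.one (.play 197 (.both (.play 261 (.ref 4 4)) (.ref 23 192))))
 (.seq (.one (.play 261 (.both (.play 6 (.ref 6 5)) (.play 325 (.both (.play 389 (.ref 5 133)) (.ref 24 192))))))
 (.one (.play 257 (.both (.play 258 (.both (.ref 1279 0) (.play 197 (.ref 1 193)))) (.play 256 (.ref 1 192)))))))))
 (.seq (.seq (.seq (.one (.both (.play 2 (.ref 5 1)) (.ref 444 64)))
 (.seq (.one (.play 194 (.both (.ref 1327 1) (.both (.ref 11 128) (.ref 24 192)))))
 (.one (.play 4 (.both (.play 65 (.ref 176 0)) (.play 69 (.ref 0 1)))))))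
 (.seq (.one (.play 130 (.both (.play 192 (.ref 314 0)) (.play 128 (.ref 2 64)))))
 (.seq (.one (.play 261 (.both (.play 196 (.both (.ref 1329 0) (.both (.play 194 (.both (.ref 1323 1) (.play 262 (.ref 0 194)))) (.both (.play 194 (.ref 12 128)) (.play 198 (.both (.ref 1223 130) (.both (.play 259 (.both (.play 199 (.both (.ref 1309 132) (.play 260 (.ref 1 195)))) (.play 258 (.ref 1 194)))) (.both (.play 262 (.both (.play 325 (.both (.play 259 (.both (.play 323 (.both (.play 387 (.both (.play 132 (.ref 5 131)) (.ref 1331 194))) (.both (.play 387 (.ref 37 131)) (.play 322 (.ref 291 258))))) (.play 258 (.ref 1 194)))) (.both (.play 389 (.ref 91 132)) (.play 389 (.both (.play 390 (.both (.play 388 (.both (.play 391 (.both (.play 455 (.ref 179 196)) (.play 324 (.ref 30 323)))) (.play 452 (.ref 6 196)))) (.play 454 (.ref 4 197)))) (.play 453 (.ref 5 197))))))) (.play 263 (.ref 0 195)))) (.both (.play 199 (.both (.ref 1308 131) (.both (.ref 78 132) (.both (.ref 1309 132) (.ref 8 195))))) (.play 263 (.both (.play 262 (.ref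 0 195)) (.ref 1330 195)))))))))))) (.both (.play 196 (.both (.ref 1329 0) (.both (.play 133 (.both (.play 194 (.both (.play 258 (.both (.play 130 (.both (.play 66 (.both (.play 3 (.ref 5 2)) (.play 259 (.both (.play 2 (.ref 4 2)) (.play 198 (.ref 1 194)))))) (.play 129 (.ref 3 129)))) (.play 257 (.ref 1 193)))) (.both (.ref 266 128) (.ref 121 128)))) (.play 6 (.ref 5 5)))) (.play 133 (.ref 1328 4))))) (.both (.play 133 (.both (.play 260 (.both (.play 196 (.both (.play 194 (.both (.ref 1327 1) (.play 193 (.ref 0 193)))) (.both (.play 262 (.both (.play 259 (.both (.play 198 (.both (.ref 419 130) (.play 199 (.ref 1 195)))) (.both (.play 258 (.ref 341 193)) (.play 198 (.ref 176 194))))) (.play 263 (.ref 3 195)))) (.play 194 (.ref 169 193))))) (.play 324 (.ref 6 68)))) (.play 6 (.ref 5 5)))) (.both (.play 133 (.ref 1315 2)) (.ref 64 4)))))))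
 (.one (.play 196 (.both (.ref 1258 0) (.play 260 (.ref 4 3))))))))
 (.seq (.seq (.one (.play 132 (.both (.play 68 (.both (.play 67 (.both (.play 0 (.both (.play 1 (.ref 0 0)) (.ref 85 1))) (.play 128 (.ref 2 64)))) (.play 69 (.ref 2 65)))) (.play 133 (.ref 3 65)))))
 (.seq (.one (.play 65 (.both (.play 5 (.ref 1044 1)) (.play 64 (.ref 0 64)))))
 (.one (.play 258 (.both (.play 194 (.ref 6 2)) (.play 259 (.both (.play 130 (.both (.play 129 (.ref 1045 64)) (.both (.play 129 (.both (.play 128 (.ref 2 64)) (.play 66 (.both (.play 69 (.ref 1 65)) (.play 323 (.ref 7 66)))))) (.ref 986 66)))) (.play 322 (.ref 6 66)))))))))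
 (.seq (.seq (.one (.play 129 (.both (.play 65 (.ref 6 0)) (.play 384 (.ref 5 128)))))
 (.one (.play 195 (.both (.play 193 (.both (.play 131 (.both (.ref 31 1) (.play 132 (.ref 160 128)))) (.play 257 (.ref 6 1)))) (.play 259 (.ref 4 2))))))
 (.seq (.one (.play 67 (.both (.ref 188 0) (.play 68 (.ref 1 64)))))
 (.one (.play 132 (.both (.play 68 (.ref 6 3)) (.play 323 (.both (.play 324 (.both (.play 322 (.both (.play 258 (.both (.play 325 (.both (.play 389 (.ref 179 130)) (.play 326 (.ref 3 258)))) (.both (.ref 1335 192) (.play 257 (.ref 216 256))))) (.play 386 (.ref 6 130)))) (.play 388 (.ref 4 131)))) (.play 387 (.ref 5 131)))))))))))))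
 (.seq (.seq (.seq (.seq (.seq (.one (.play 132 (.both (.play 196 (.both (.play 260 (.both (.play 68 (.ref 7 3)) (.play 261 (.ref 0 193)))) (.play 133 (.ref 2 129)))) (.play 131 (.ref 2 128)))))
 (.seq (.one (.play 65 (.both (.play 4 (.ref 1044 0)) (.play 132 (.ref 3 64)))))
 (.one (.both (.play 0 (.ref 3 0)) (.play 132 (.ref 169 64))))))
 (.seq (.one (.play 132 (.both (.play 68 (.ref 6 3)) (.play 194 (.ref 86 128)))))
 (.seq (.one (.play 194 (.both (.ref 570 1) (.play 128 (.ref 3 128)))))
 (.one (.play 256 (.both (.play 65 (.ref 6 0)) (.play 257 (.ref 1 192))))))))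
 (.seq (.seq (.one (.both (.play 0 (.ref 7 0)) (.play 130 (.ref 3 64))))
 (.seq (.one (.play 131 (.both (.play 67 (.ref 6 2)) (.play 322 (.both (.play 323 (.both (.play 321 (.both (.play 259 (.both (.ref 401 128) (.play 260 (.ref 160 256)))) (.play 385 (.ref 6 129)))) (.play 387 (.ref 4 130)))) (.play 386 (.ref 5 130)))))))
 (.one (.play 195 (.both (.ref 445 0) (.play 259 (.ref 7 2)))))))
 (.seq (.one (.play 196 (.both (.play 260 (.ref 179 1)) (.play 129 (.ref 3 128)))))
 (.seq (.one (.play 64 (.both (.play 0 (.ref 7 0)) (.play 128 (.both (.play 321 (.ref 7 64)) (.ref 1300 128))))))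
 (.one (.play 261 (.both (.play 195 (.both (.play 323 (.both (.play 134 (.both (.play 70 (.ref 6 5)) (.play 325 (.both (.play 324 (.both (.play 322 (.both (.ref 611 129) (.ref 121 256))) (.play 388 (.ref 6 132)))) (.play 389 (.ref 5 133)))))) (.both (.play 134 (.both (.play 70 (.ref 6 5)) (.play 325 (.both (.play 324 (.both (.play 388 (.ref 6 132)) (.play 322 (.ref 122 256)))) (.play 389 (.ref 5 133)))))) (.both (.play 134 (.both (.play 70 (.ref 6 5)) (.play 325 (.both (.play 324 (.both (.play 322 (.ref 1008 129)) (.play 388 (.ref 6 132)))) (.play 389 (.ref 5 133)))))) (.both (.play 134 (.both (.play 70 (.ref 6 5)) (.play 259 (.both (.ref 724 66) (.both (.ref 1351 66) (.both (.ref 1099 130) (.play 388 (.both (.play 387 (.both (.play 450 (.both (.play 451 (.both (.play 389 (.both (.play 325 (.ref 5 133)) (.play 390 (.ref 1 386)))) (.play 514 (.ref 6 258)))) (.play 386 (.ref 6 194)))) (.play 452 (.ref 4 195)))) (.play 324 (.ref 4 131)))))))))) (.both (.play 134 (.both (.play 70 (.ref 6 5)) (.play 325 (.both (.play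 259 (.both (.play 387 (.ref 879 66)) (.both (.ref 1351 66) (.play 322 (.both (.play 386 (.ref 6 130)) (.play 260 (.ref 1140 194))))))) (.play 389 (.ref 5 133)))))) (.play 259 (.both (.ref 724 66) (.ref 1331 130))))))))) (.both (.ref 1345 2) (.both (.ref 1344 2) (.play 196 (.ref 1343 130)))))) (.both (.play 134 (.both (.play 70 (.ref 6 5)) (.play 325 (.both (.play 324 (.both (.play 326 (.both (.play 259 (.both (.play 323 (.ref 173 129)) (.both (.play 258 (.ref 263 258)) (.ref 614 259)))) (.play 390 (.ref 4 133)))) (.play 388 (.ref 6 132)))) (.play 389 (.ref 5 133)))))) (.both (.play 195 (.both (.play 134 (.both (.play 70 (.ref 6 5)) (.play 196 (.ref 317 130)))) (.both (.play 134 (.both (.play 70 (.ref 6 5)) (.play 325 (.both (.play 326 (.both (.play 324 (.both (.play 259 (.both (.play 323 (.ref 273 130)) (.both (.ref 1350 131) (.play 260 (.ref 216 258))))) (.play 388 (.ref 6 132)))) (.play 390 (.ref 4 133)))) (.play 389 (.ref 5 133)))))) (.play 196 (.ref 297 129))))) (.both (.play 262 (.both (.play 263 (.both (.play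 264 (.both (.play 134 (.both (.play 70 (.ref 6 5)) (.play 328 (.both (.play 260 (.both (.play 259 (.ref 341 194)) (.play 327 (.ref 0 260)))) (.play 329 (.ref 0 261)))))) (.play 265 (.ref 3 197)))) (.both (.play 260 (.both (.play 196 (.both (.ref 796 131) (.play 195 (.ref 0 195)))) (.both (.play 259 (.ref 341 194)) (.ref 827 194)))) (.play 196 (.ref 216 195))))) (.both (.play 134 (.both (.play 70 (.ref 6 5)) (.play 326 (.ref 805 67)))) (.both (.play 134 (.both (.play 70 (.ref 6 5)) (.ref 1349 131))) (.play 326 (.both (.play 196 (.both (.play 195 (.ref 964 130)) (.play 263 (.both (.play 260 (.both (.ref 796 131) (.play 259 (.ref 135 194)))) (.play 264 (.ref 3 196)))))) (.play 390 (.ref 7 133)))))))) (.both (.play 195 (.both (.ref 1345 2) (.both (.ref 1344 2) (.both (.play 134 (.both (.play 70 (.ref 6 5)) (.play 325 (.both (.play 324 (.both (.play 262 (.both (.play 323 (.both (.play 259 (.both (.play 326 (.both (.ref 156 66) (.play 258 (.ref 3 258)))) (.both (.play 130 (.both (.play 66 (.ref 7 66)) (.play 194 (.both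 (.play 387 (.ref 7 130)) (.play 260 (.ref 3 194)))))) (.both (.play 130 (.both (.play 66 (.ref 7 66)) (.play 258 (.both (.play 260 (.ref 2 194)) (.play 326 (.ref 3 258)))))) (.play 260 (.ref 152 194)))))) (.play 322 (.ref 2 258)))) (.both (.play 263 (.both (.play 327 (.both (.play 391 (.ref 98 134)) (.play 260 (.both (.play 259 (.ref 152 194)) (.play 328 (.ref 0 260)))))) (.play 264 (.ref 1 260)))) (.both (.play 263 (.ref 70 258)) (.play 323 (.ref 994 258)))))) (.play 388 (.ref 6 132)))) (.play 389 (.ref 5 133)))))) (.play 196 (.ref 1343 130)))))) (.both (.play 134 (.both (.play 70 (.ref 6 5)) (.play 325 (.both (.play 326 (.both (.play 196 (.both (.play 135 (.both (.play 262 (.both (.play 71 (.ref 5 70)) (.play 263 (.both (.play 327 (.both (.play 391 (.ref 4 134)) (.play 260 (.ref 169 259)))) (.play 264 (.ref 3 196)))))) (.play 136 (.ref 1 132)))) (.play 195 (.ref 152 130)))) (.play 390 (.ref 4 133)))) (.play 389 (.ref 5 133)))))) (.both (.ref 1348 3) (.both (.play 134 (.both (.play 70 (.ref 6 5)) (.play 325 (.both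 (.play 326 (.both (.play 324 (.both (.play 262 (.both (.ref 743 67) (.play 263 (.ref 160 259)))) (.play 388 (.ref 6 132)))) (.play 390 (.ref 4 133)))) (.play 389 (.ref 5 133)))))) (.play 325 (.both (.play 326 (.both (.play 324 (.both (.play 260 (.both (.play 259 (.both (.play 323 (.both (.play 262 (.both (.play 195 (.both (.play 130 (.ref 1347 66)) (.play 194 (.ref 3 194)))) (.play 263 (.ref 2 259)))) (.both (.play 322 (.both (.ref 1346 130) (.play 321 (.ref 2 257)))) (.play 262 (.ref 86 258))))) (.play 258 (.ref 0 258)))) (.both (.ref 1334 195) (.play 259 (.ref 216 258))))) (.play 388 (.ref 6 132)))) (.play 390 (.ref 4 133)))) (.both (.play 388 (.both (.play 389 (.both (.play 196 (.both (.play 453 (.both (.play 454 (.both (.play 195 (.both (.play 386 (.both (.play 258 (.both (.play 194 (.both (.play 322 (.ref 5 130)) (.play 257 (.ref 1 193)))) (.play 259 (.ref 1 194)))) (.play 387 (.ref 0 386)))) (.play 130 (.ref 3 130)))) (.play 518 (.ref 4 261)))) (.play 260 (.ref 7 196)))) (.both (.play 195 (.ref 1343 130))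 (.play 453 (.ref 123 196))))) (.play 452 (.ref 6 196)))) (.play 324 (.ref 6 132)))) (.both (.play 390 (.ref 17 132)) (.both (.ref 687 132) (.ref 1255 132))))))))))))))))))))
 (.seq (.seq (.seq (.one (.play 4 (.both (.play 3 (.ref 2 0)) (.play 68 (.both (.play 5 (.ref 2 1)) (.ref 80 1))))))
 (.seq (.one (.play 195 (.both (.ref 1160 0) (.both (.ref 414 2) (.ref 75 3)))))
 (.one (.both (.ref 1337 3) (.play 260 (.ref 2 256))))))
 (.seq (.one (.play 132 (.both (.ref 1354 0) (.play 71 (.ref 1 67)))))
 (.seq (.one (.play 259 (.both (.play 195 (.both (.play 323 (.both (.play 324 (.both (.play 322 (.both (.play 261 (.both (.play 260 (.both (.play 134 (.both (.play 70 (.ref 6 5)) (.play 325 (.both (.ref 582 131) (.play 389 (.ref 5 133)))))) (.play 321 (.ref 2 257)))) (.both (.play 325 (.ref 1355 2)) (.play 260 (.ref 160 257))))) (.play 386 (.ref 6 130)))) (.play 388 (.ref 4 131)))) (.both (.play 130 (.ref 326 66)) (.ref 724 66)))) (.both (.play 196 (.both (.ref 1356 128) (.play 134 (.ref 86 130)))) (.both (.play 196 (.both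 (.ref 1356 128) (.play 130 (.ref 3 130)))) (.play 196 (.ref 234 130)))))) (.both (.play 195 (.both (.play 323 (.both (.play 130 (.both (.play 324 (.both (.play 322 (.both (.play 325 (.both (.play 261 (.ref 1355 2)) (.play 258 (.ref 30 257)))) (.play 386 (.ref 6 130)))) (.play 388 (.ref 4 131)))) (.play 66 (.ref 7 66)))) (.both (.play 130 (.ref 326 66)) (.both (.play 130 (.ref 227 66)) (.play 386 (.ref 55 130)))))) (.both (.play 196 (.ref 504 130)) (.both (.play 196 (.ref 234 130)) (.play 196 (.both (.play 134 (.ref 86 130)) (.play 258 (.ref 1 194)))))))) (.both (.play 261 (.both (.play 134 (.both (.play 70 (.ref 6 5)) (.play 325 (.both (.play 326 (.both (.play 324 (.both (.play 323 (.both (.play 322 (.both (.ref 1346 130) (.play 262 (.ref 2 258)))) (.play 258 (.ref 3 258)))) (.play 388 (.ref 6 132)))) (.play 390 (.ref 4 133)))) (.play 389 (.ref 5 133)))))) (.both (.play 134 (.both (.play 70 (.ref 6 5)) (.play 325 (.both (.play 260 (.both (.play 324 (.both (.ref 582 131) (.play 388 (.ref 6 132)))) (.play 258 (.ref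 2 194)))) (.play 389 (.ref 5 133)))))) (.both (.play 134 (.both (.play 70 (.ref 6 5)) (.play 325 (.both (.play 326 (.both (.play 324 (.both (.ref 1350 131) (.play 388 (.ref 6 132)))) (.play 390 (.ref 4 133)))) (.play 389 (.ref 5 133)))))) (.play 260 (.ref 1045 194)))))) (.both (.play 261 (.both (.play 134 (.both (.play 70 (.ref 6 5)) (.play 325 (.both (.play 326 (.both (.play 324 (.both (.play 323 (.both (.play 262 (.both (.ref 825 68) (.play 322 (.ref 2 258)))) (.play 258 (.ref 3 258)))) (.play 388 (.ref 6 132)))) (.play 390 (.ref 4 133)))) (.play 389 (.ref 5 133)))))) (.both (.play 134 (.both (.play 70 (.ref 6 5)) (.play 260 (.ref 994 194)))) (.both (.play 134 (.both (.play 70 (.ref 6 5)) (.play 325 (.both (.play 326 (.both (.play 324 (.both (.play 388 (.ref 6 132)) (.ref 1342 195))) (.play 390 (.ref 4 133)))) (.play 389 (.ref 5 133)))))) (.play 260 (.ref 1045 194)))))) (.both (.play 196 (.both (.play 260 (.both (.play 195 (.both (.ref 1354 128) (.play 130 (.ref 3 130)))) (.play 199 (.ref 1 195)))) (.both (.play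 195 (.ref 504 130)) (.play 260 (.ref 70 193))))) (.both (.play 196 (.both (.play 195 (.ref 504 130)) (.both (.play 260 (.both (.play 195 (.ref 234 130)) (.play 199 (.ref 1 195)))) (.play 260 (.ref 70 193))))) (.play 196 (.both (.play 195 (.ref 504 130)) (.play 199 (.both (.ref 1353 132) (.play 260 (.ref 1 195))))))))))))))
 (.one (.both (.play 0 (.ref 3 0)) (.ref 1223 0))))))
 (.seq (.seq (.one (.play 69 (.both (.ref 1263 0) (.both (.ref 78 2) (.ref 8 65)))))
 (.seq (.one (.both (.play 0 (.ref 3 0)) (.ref 1359 0)))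
 (.one (.play 67 (.both (.play 66 (.ref 7 2)) (.play 322 (.both (.play 258 (.ref 6 66)) (.play 323 (.both (.play 324 (.both (.play 384 (.both (.play 320 (.ref 5 128)) (.play 321 (.ref 527 256)))) (.play 388 (.ref 4 131)))) (.play 386 (.ref 6 130)))))))))))
 (.seq (.seq (.one (.play 257 (.both (.ref 1079 0) (.play 321 (.ref 7 64)))))
 (.one (.play 257 (.both (.play 196 (.both (.play 132 (.ref 335 3)) (.play 256 (.ref 2 192)))) (.play 192 (.ref 3 192))))))
 (.seq (.one (.play 4 (.both (.play 3 (.ref 2 0)) (.ref 453 1))))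
 (.one (.both (.play 64 (.ref 2 0)) (.play 258 (.ref 5 2)))))))))
 (.seq (.seq (.seq (.seq (.one (.play 130 (.both (.play 66 (.ref 6 1)) (.ref 636 128))))
 (.seq (.one (.play 129 (.both (.ref 1238 0) (.play 128 (.ref 2 64)))))
 (.one (.play 132 (.both (.play 67 (.both (.play 3 (.ref 5 2)) (.play 68 (.both (.play 133 (.ref 0 65)) (.play 69 (.ref 1 65)))))) (.play 131 (.ref 1 128)))))))
 (.seq (.one (.play 66 (.both (.play 65 (.ref 225 0)) (.play 130 (.ref 5 65)))))
 (.seq (.one (.play 67 (.both (.play 258 (.ref 675 1)) (.play 68 (.ref 1 64)))))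
 (.one (.play 324 (.both (.play 197 (.both (.play 388 (.both (.play 262 (.both (.play 389 (.both (.play 263 (.both (.play 199 (.both (.play 327 (.both (.play 198 (.both (.play 135 (.ref 599 4)) (.play 391 (.ref 534 134)))) (.play 328 (.ref 0 260)))) (.play 200 (.ref 2 196)))) (.play 264 (.ref 3 196)))) (.play 453 (.ref 4 196)))) (.both (.play 389 (.both (.play 387 (.both (.play 451 (.ref 6 195)) (.play 386 (.both (.play 325 (.both (.play 322 (.both (.play 323 (.ref 2 258)) (.play 321 (.ref 3 321)))) (.play 326 (.ref 2 322)))) (.both (.play 321 (.ref 102 320)) (.play 325 (.ref 86 321))))))) (.play 453 (.ref 4 196)))) (.ref 636 195)))) (.play 452 (.ref 5 196)))) (.play 133 (.ref 6 68)))) (.both (.play 262 (.both (.play 326 (.both (.play 198 (.both (.play 199 (.both (.play 135 (.ref 468 6)) (.play 200 (.ref 993 196)))) (.both (.play 197 (.both (.play 133 (.ref 4 69)) (.ref 1370 132))) (.both (.ref 235 69) (.play 134 (.both (.play 133 (.ref 7 69)) (.play 135 (.ref 37 70)))))))) (.both (.play 197 (.both (.play 133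 (.ref 4 69)) (.play 388 (.both (.play 387 (.both (.play 451 (.ref 6 195)) (.play 325 (.ref 1316 258)))) (.play 452 (.ref 5 196)))))) (.both (.play 390 (.both (.play 198 (.both (.play 391 (.both (.play 323 (.both (.ref 1369 69) (.play 325 (.ref 0 323)))) (.play 455 (.ref 4 198)))) (.both (.play 133 (.both (.play 134 (.ref 7 69)) (.play 197 (.ref 7 133)))) (.play 199 (.both (.play 135 (.ref 5 134)) (.play 200 (.ref 993 196))))))) (.both (.play 197 (.both (.play 133 (.ref 4 69)) (.play 454 (.ref 7 197)))) (.both (.play 454 (.both (.play 455 (.both (.play 198 (.both (.play 453 (.both (.ref 1369 69) (.play 517 (.ref 6 261)))) (.play 391 (.ref 4 198)))) (.play 519 (.ref 4 262)))) (.both (.ref 271 261) (.ref 103 261)))) (.play 454 (.ref 326 197)))))) (.play 325 (.both (.play 327 (.both (.play 391 (.both (.play 388 (.both (.play 198 (.ref 99 134)) (.play 387 (.ref 1 323)))) (.play 392 (.ref 0 324)))) (.play 328 (.ref 3 260)))) (.both (.ref 801 194) (.play 327 (.both (.play 391 (.both (.ref 236 258) (.play 392 (.ref 0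 324)))) (.play 328 (.ref 3 260))))))))))) (.both (.ref 1366 67) (.both (.play 197 (.both (.play 133 (.ref 6 68)) (.play 263 (.both (.play 199 (.both (.play 327 (.both (.play 388 (.both (.play 387 (.both (.play 326 (.both (.ref 84 133) (.play 325 (.ref 1 323)))) (.play 451 (.ref 6 195)))) (.play 452 (.ref 5 196)))) (.play 328 (.ref 0 260)))) (.play 200 (.ref 2 196)))) (.play 264 (.ref 3 196)))))) (.play 263 (.ref 66 259)))))) (.both (.play 197 (.both (.play 133 (.ref 6 68)) (.play 388 (.both (.play 389 (.both (.play 387 (.both (.play 386 (.both (.ref 1341 194) (.both (.play 449 (.ref 14 320)) (.play 325 (.ref 86 321))))) (.play 451 (.ref 6 195)))) (.play 453 (.ref 4 196)))) (.play 452 (.ref 5 196)))))) (.both (.ref 1340 65) (.both (.play 197 (.both (.play 133 (.ref 6 68)) (.play 325 (.both (.play 389 (.both (.play 323 (.both (.ref 1368 131) (.both (.ref 1367 193) (.play 262 (.ref 160 258))))) (.play 453 (.ref 7 196)))) (.both (.play 389 (.both (.play 390 (.both (.play 323 (.both (.ref 1368 131) (.play 322 (.ref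 0 322)))) (.play 454 (.ref 4 197)))) (.play 453 (.ref 7 196)))) (.both (.play 389 (.both (.play 198 (.both (.play 199 (.both (.play 263 (.both (.play 390 (.both (.ref 93 132) (.play 454 (.ref 4 197)))) (.play 264 (.ref 0 196)))) (.play 200 (.ref 1 196)))) (.play 134 (.ref 5 133)))) (.play 453 (.ref 7 196)))) (.both (.play 323 (.both (.ref 1367 193) (.both (.play 326 (.both (.ref 1324 195) (.both (.ref 151 259) (.ref 1364 259)))) (.play 262 (.ref 160 258))))) (.ref 1349 194)))))))) (.both (.play 197 (.both (.play 133 (.ref 6 68)) (.play 388 (.both (.play 262 (.both (.play 387 (.both (.play 326 (.both (.play 325 (.both (.play 390 (.both (.play 454 (.ref 7 197)) (.play 323 (.ref 135 258)))) (.both (.play 386 (.ref 67 321)) (.play 386 (.ref 69 321))))) (.both (.play 390 (.both (.play 454 (.ref 7 197)) (.play 389 (.ref 1101 322)))) (.both (.play 390 (.both (.play 454 (.ref 7 197)) (.play 325 (.both (.play 323 (.ref 135 258)) (.play 327 (.ref 1 323)))))) (.play 325 (.ref 70 321)))))) (.play 451 (.ref 6 195)))) (.both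 (.ref 636 195) (.play 387 (.both (.play 451 (.ref 6 195)) (.play 263 (.both (.play 327 (.both (.play 326 (.both (.play 390 (.both (.play 454 (.ref 7 197)) (.play 389 (.ref 2 323)))) (.play 325 (.ref 1 323)))) (.play 328 (.ref 0 260)))) (.play 264 (.ref 3 196))))))))) (.play 452 (.ref 5 196)))))) (.both (.play 197 (.both (.play 388 (.both (.play 262 (.both (.play 389 (.both (.play 263 (.both (.play 199 (.both (.play 327 (.both (.play 390 (.both (.play 135 (.both (.ref 1172 68) (.play 326 (.ref 6 134)))) (.both (.play 454 (.ref 613 197)) (.play 454 (.both (.play 325 (.ref 4 197)) (.play 391 (.ref 6 198))))))) (.play 328 (.ref 0 260)))) (.play 200 (.ref 2 196)))) (.play 264 (.ref 3 196)))) (.play 453 (.ref 4 196)))) (.both (.play 389 (.both (.play 390 (.both (.play 391 (.both (.play 326 (.both (.play 455 (.ref 479 196)) (.play 454 (.ref 7 197)))) (.play 323 (.ref 3 323)))) (.both (.play 454 (.ref 613 197)) (.play 323 (.ref 113 321))))) (.play 453 (.ref 4 196)))) (.ref 636 195)))) (.play 452 (.ref 5 196)))) (.play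 133 (.ref 6 68)))) (.both (.ref 1348 66) (.both (.play 197 (.both (.play 133 (.ref 6 68)) (.play 388 (.both (.play 389 (.both (.play 387 (.both (.play 390 (.both (.play 323 (.both (.ref 1339 195) (.play 322 (.ref 3 322)))) (.both (.play 323 (.ref 30 322)) (.ref 78 323)))) (.play 451 (.ref 6 195)))) (.play 453 (.ref 4 196)))) (.play 452 (.ref 5 196)))))) (.both (.play 262 (.both (.play 197 (.both (.play 133 (.ref 6 68)) (.play 388 (.both (.ref 1338 194) (.play 452 (.ref 5 196)))))) (.both (.ref 1366 67) (.both (.play 197 (.both (.play 133 (.ref 6 68)) (.play 263 (.both (.play 388 (.both (.play 389 (.both (.play 199 (.both (.play 327 (.both (.ref 20 195) (.play 328 (.ref 0 260)))) (.play 200 (.ref 2 196)))) (.play 453 (.ref 4 196)))) (.play 452 (.ref 5 196)))) (.play 264 (.ref 3 196)))))) (.play 263 (.ref 66 259)))))) (.play 262 (.both (.play 388 (.both (.play 263 (.both (.play 327 (.both (.play 199 (.both (.play 387 (.both (.play 326 (.both (.play 390 (.both (.play 135 (.ref 6 134)) (.play 389 (.ref 2 323)))) (.play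 325 (.ref 1 323)))) (.play 451 (.ref 6 195)))) (.play 200 (.ref 2 196)))) (.play 328 (.ref 0 260)))) (.both (.ref 72 196) (.both (.ref 117 196) (.ref 65 260))))) (.both (.play 263 (.both (.play 325 (.both (.play 327 (.both (.play 326 (.both (.ref 1079 132) (.play 387 (.ref 1 323)))) (.play 328 (.ref 0 260)))) (.ref 75 196))) (.both (.ref 72 196) (.play 325 (.both (.ref 75 196) (.play 264 (.ref 1 260))))))) (.both (.play 453 (.ref 17 195)) (.both (.ref 43 195) (.ref 687 195)))))) (.both (.play 388 (.both (.play 389 (.both (.play 387 (.both (.play 451 (.ref 6 195)) (.play 322 (.both (.ref 1275 258) (.both (.play 323 (.ref 216 321)) (.play 386 (.ref 234 321))))))) (.play 453 (.ref 4 196)))) (.both (.play 452 (.both (.play 323 (.both (.ref 412 193) (.both (.play 389 (.both (.play 453 (.ref 4 196)) (.ref 1274 259))) (.play 325 (.ref 1365 258))))) (.both (.ref 28 196) (.play 516 (.ref 1102 259))))) (.both (.play 453 (.ref 17 195)) (.both (.ref 687 195) (.play 452 (.both (.play 451 (.ref 15 195)) (.both (.ref 871 195)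 (.play 516 (.ref 1102 259)))))))))) (.both (.play 263 (.ref 304 195)) (.play 263 (.ref 66 259)))))))))))))))))))))
 (.seq (.seq (.one (.play 261 (.both (.play 262 (.both (.ref 1371 1) (.both (.play 260 (.both (.play 198 (.both (.play 134 (.both (.play 6 (.ref 6 5)) (.play 263 (.both (.play 327 (.ref 4 70)) (.ref 1364 196))))) (.both (.play 134 (.ref 335 5)) (.play 263 (.both (.play 199 (.both (.play 327 (.both (.play 391 (.both (.play 390 (.both (.play 326 (.both (.play 135 (.ref 6 134)) (.play 389 (.both (.play 453 (.ref 6 197)) (.ref 31 197))))) (.play 454 (.ref 6 198)))) (.play 455 (.ref 7 198)))) (.play 328 (.ref 0 260)))) (.play 200 (.ref 2 196)))) (.both (.ref 151 196) (.ref 1364 196))))))) (.both (.play 259 (.ref 233 193)) (.play 259 (.ref 234 194))))) (.both (.play 260 (.both (.ref 1363 2) (.both (.play 263 (.both (.ref 282 68) (.both (.play 324 (.ref 118 195)) (.play 324 (.ref 66 259))))) (.both (.play 259 (.ref 234 194)) (.play 259 (.ref 1358 194)))))) (.both (.play 260 (.both (.ref 1363 2) (.both (.play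 198 (.both (.play 199 (.both (.play 134 (.both (.play 6 (.ref 6 5)) (.play 327 (.both (.play 263 (.ref 4 70)) (.play 326 (.both (.play 390 (.ref 675 133)) (.play 391 (.ref 4 134)))))))) (.play 200 (.ref 1 196)))) (.both (.play 134 (.ref 335 5)) (.play 199 (.both (.play 390 (.both (.play 326 (.both (.play 135 (.ref 5 134)) (.play 389 (.both (.play 327 (.both (.play 391 (.both (.play 388 (.both (.ref 611 195) (.play 387 (.ref 2 323)))) (.play 455 (.ref 4 198)))) (.ref 228 260))) (.play 453 (.ref 6 197)))))) (.both (.play 326 (.ref 675 133)) (.play 263 (.both (.play 264 (.both (.play 325 (.ref 673 196)) (.play 265 (.ref 3 197)))) (.both (.ref 151 196) (.ref 1050 196))))))) (.play 200 (.ref 1 196))))))) (.both (.play 259 (.ref 234 194)) (.play 259 (.ref 1360 194)))))) (.both (.play 260 (.both (.play 263 (.both (.play 200 (.both (.play 264 (.both (.play 198 (.ref 287 5)) (.play 201 (.ref 2 197)))) (.play 199 (.ref 2 196)))) (.both (.ref 282 68) (.both (.ref 78 196) (.both (.ref 1353 196) (.play 264 (.both (.play 265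 (.both (.play 327 (.both (.play 266 (.ref 640 198)) (.play 328 (.ref 0 260)))) (.play 198 (.ref 3 197)))) (.both (.ref 614 197) (.ref 8 260))))))))) (.both (.play 259 (.ref 234 194)) (.play 259 (.both (.play 194 (.ref 3 194)) (.play 323 (.ref 66 258))))))) (.both (.play 263 (.both (.play 199 (.both (.play 134 (.both (.play 198 (.ref 349 5)) (.play 327 (.both (.play 135 (.ref 7 70)) (.play 328 (.ref 261 260)))))) (.both (.play 198 (.both (.play 200 (.both (.play 136 (.both (.play 327 (.ref 468 7)) (.play 137 (.ref 2 133)))) (.play 201 (.ref 1 197)))) (.both (.play 200 (.both (.play 134 (.ref 349 5)) (.play 201 (.ref 1 197)))) (.play 134 (.ref 49 6))))) (.both (.play 260 (.both (.play 327 (.both (.play 324 (.both (.ref 1361 68) (.play 323 (.ref 1 259)))) (.play 328 (.ref 0 260)))) (.play 200 (.ref 2 196)))) (.play 200 (.ref 994 196)))))) (.both (.play 198 (.both (.play 264 (.ref 287 5)) (.both (.play 264 (.ref 1117 68)) (.both (.play 134 (.ref 206 69)) (.play 264 (.both (.play 200 (.both (.play 328 (.both (.play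 325 (.both (.play 389 (.both (.ref 21 196) (.play 453 (.ref 5 197)))) (.play 324 (.ref 1 260)))) (.play 329 (.ref 0 261)))) (.play 201 (.ref 2 197)))) (.play 265 (.ref 3 197)))))))) (.both (.play 264 (.both (.play 198 (.ref 287 5)) (.both (.play 325 (.both (.play 198 (.both (.play 134 (.ref 6 69)) (.play 389 (.both (.play 328 (.both (.play 327 (.both (.ref 501 196) (.play 260 (.ref 0 260)))) (.play 329 (.ref 0 261)))) (.play 453 (.ref 5 197)))))) (.play 324 (.ref 1 260)))) (.both (.play 325 (.both (.play 328 (.both (.play 327 (.both (.play 326 (.both (.ref 1362 133) (.play 265 (.ref 2 261)))) (.play 260 (.ref 0 260)))) (.play 329 (.ref 0 261)))) (.play 324 (.ref 1 260)))) (.ref 1268 196))))) (.both (.play 264 (.both (.play 200 (.both (.play 198 (.both (.play 199 (.both (.play 134 (.both (.play 6 (.ref 4 6)) (.play 136 (.both (.play 137 (.ref 2 133)) (.ref 1078 133))))) (.play 260 (.ref 2 196)))) (.play 265 (.ref 3 197)))) (.play 201 (.ref 2 197)))) (.both (.play 198 (.ref 287 5)) (.play 200 (.ref 285 196)))))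 (.both (.play 198 (.both (.play 264 (.both (.play 200 (.both (.play 199 (.both (.ref 264 69) (.play 260 (.ref 2 196)))) (.play 201 (.ref 2 197)))) (.play 265 (.ref 3 197)))) (.both (.play 264 (.ref 1117 68)) (.play 134 (.ref 206 69))))) (.both (.play 264 (.both (.play 328 (.both (.play 325 (.both (.play 326 (.both (.play 327 (.both (.ref 1362 133) (.play 260 (.ref 0 260)))) (.play 265 (.ref 1 261)))) (.play 324 (.ref 1 260)))) (.play 329 (.ref 0 261)))) (.both (.ref 252 196) (.play 325 (.ref 118 196))))) (.play 264 (.both (.play 200 (.ref 267 195)) (.ref 80 197)))))))))) (.both (.play 260 (.both (.play 263 (.both (.play 324 (.both (.play 327 (.both (.play 199 (.both (.ref 1361 68) (.play 200 (.ref 2 196)))) (.play 328 (.ref 0 260)))) (.play 323 (.ref 1 259)))) (.both (.play 324 (.ref 118 195)) (.both (.ref 72 196) (.play 324 (.ref 66 259)))))) (.both (.play 259 (.both (.play 323 (.both (.ref 1356 192) (.play 322 (.ref 1 258)))) (.play 194 (.ref 3 194)))) (.both (.play 259 (.ref 233 193)) (.both (.play 259 (.ref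 1360 194)) (.play 259 (.ref 1358 194))))))) (.both (.ref 1357 64) (.both (.ref 1352 64) (.both (.play 325 (.both (.play 259 (.both (.play 323 (.both (.play 198 (.both (.play 134 (.ref 6 69)) (.play 387 (.both (.ref 724 130) (.both (.play 324 (.both (.play 194 (.ref 326 130)) (.play 322 (.ref 2 258)))) (.play 324 (.both (.ref 1083 192) (.play 322 (.ref 2 258))))))))) (.both (.play 198 (.both (.play 134 (.ref 6 69)) (.play 324 (.ref 1045 258)))) (.both (.play 198 (.both (.play 134 (.ref 6 69)) (.play 387 (.both (.play 194 (.ref 326 130)) (.both (.ref 724 130) (.play 389 (.both (.ref 275 194) (.play 453 (.ref 5 197))))))))) (.play 324 (.both (.play 322 (.ref 2 258)) (.play 326 (.ref 317 258)))))))) (.both (.ref 1345 66) (.both (.ref 1344 66) (.play 260 (.ref 1343 194)))))) (.both (.ref 1340 66) (.both (.play 198 (.both (.play 134 (.ref 6 69)) (.play 389 (.both (.play 260 (.both (.play 199 (.both (.play 390 (.both (.play 388 (.both (.play 326 (.both (.play 135 (.ref 5 134)) (.play 387 (.ref 86 322)))) (.play 452 (.ref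 6 196)))) (.play 454 (.ref 4 197)))) (.play 200 (.ref 1 196)))) (.play 259 (.ref 152 194)))) (.play 453 (.ref 5 197)))))) (.both (.play 198 (.both (.play 134 (.ref 6 69)) (.play 389 (.both (.play 390 (.both (.play 388 (.both (.play 324 (.both (.play 263 (.both (.play 391 (.both (.play 455 (.both (.play 327 (.ref 7 198)) (.play 456 (.ref 0 388)))) (.play 392 (.ref 3 324)))) (.play 264 (.ref 1 260)))) (.both (.play 263 (.both (.play 323 (.both (.play 260 (.ref 1 259)) (.play 322 (.ref 0 322)))) (.play 264 (.ref 1 260)))) (.play 323 (.ref 216 322))))) (.play 452 (.ref 6 196)))) (.play 454 (.ref 4 197)))) (.play 453 (.ref 5 197)))))) (.both (.play 198 (.both (.play 134 (.ref 6 69)) (.play 260 (.both (.play 199 (.both (.play 324 (.both (.play 323 (.both (.play 326 (.both (.ref 483 131) (.play 388 (.both (.play 452 (.ref 5 196)) (.play 387 (.ref 176 322)))))) (.play 322 (.ref 2 258)))) (.both (.play 263 (.both (.play 326 (.both (.play 390 (.ref 675 133)) (.play 388 (.both (.play 327 (.ref 87 195)) (.play 452 (.ref 5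 196)))))) (.play 264 (.ref 1 260)))) (.play 263 (.ref 176 259))))) (.play 200 (.ref 1 196)))) (.play 259 (.ref 152 194)))))) (.both (.play 198 (.both (.play 134 (.ref 6 69)) (.play 389 (.both (.play 260 (.both (.play 199 (.both (.play 390 (.both (.play 326 (.both (.play 135 (.ref 5 134)) (.ref 401 195))) (.play 454 (.ref 4 197)))) (.play 200 (.ref 1 196)))) (.play 259 (.ref 152 194)))) (.play 453 (.ref 5 197)))))) (.play 389 (.both (.ref 1336 194) (.both (.play 390 (.both (.play 388 (.both (.play 452 (.ref 6 196)) (.play 323 (.both (.ref 1342 259) (.both (.play 324 (.ref 216 322)) (.play 387 (.ref 234 322))))))) (.play 454 (.ref 4 197)))) (.both (.play 454 (.ref 17 196)) (.both (.ref 687 196) (.ref 1255 196))))))))))))) (.both (.play 325 (.both (.play 198 (.both (.play 134 (.ref 6 69)) (.play 389 (.both (.play 390 (.both (.play 388 (.both (.play 387 (.both (.ref 1341 195) (.both (.play 322 (.ref 102 321)) (.play 326 (.ref 86 322))))) (.play 452 (.ref 6 196)))) (.play 454 (.ref 4 197)))) (.play 453 (.ref 5 197))))))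 (.both (.play 198 (.both (.play 134 (.ref 6 69)) (.play 389 (.both (.play 390 (.both (.play 388 (.both (.play 387 (.both (.play 260 (.both (.play 259 (.ref 152 194)) (.play 327 (.both (.play 323 (.both (.ref 887 259) (.play 322 (.ref 3 322)))) (.play 326 (.ref 2 323)))))) (.both (.play 322 (.ref 102 321)) (.play 326 (.ref 86 322))))) (.play 452 (.ref 6 196)))) (.play 454 (.ref 4 197)))) (.play 453 (.ref 5 197)))))) (.both (.ref 1340 66) (.both (.play 198 (.both (.play 134 (.ref 6 69)) (.play 260 (.both (.play 259 (.ref 152 194)) (.play 263 (.both (.play 324 (.both (.play 327 (.both (.play 388 (.both (.play 326 (.ref 87 195)) (.play 452 (.ref 5 196)))) (.play 328 (.ref 0 260)))) (.play 323 (.ref 1 259)))) (.both (.ref 151 196) (.play 324 (.ref 176 259))))))))) (.both (.play 198 (.both (.play 134 (.ref 6 69)) (.play 389 (.both (.play 388 (.both (.play 390 (.both (.play 324 (.both (.play 391 (.both (.ref 1339 196) (.play 392 (.ref 3 324)))) (.both (.play 323 (.ref 1256 258)) (.play 323 (.ref 216 322))))) (.play 454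 (.ref 4 197)))) (.play 452 (.ref 6 196)))) (.play 453 (.ref 5 197)))))) (.both (.play 389 (.both (.play 198 (.both (.play 134 (.ref 6 69)) (.play 390 (.both (.play 324 (.both (.play 391 (.both (.play 263 (.both (.play 455 (.ref 613 198)) (.play 264 (.ref 1 260)))) (.play 392 (.ref 3 324)))) (.both (.ref 1335 258) (.play 391 (.ref 295 322))))) (.play 454 (.ref 4 197)))))) (.both (.ref 1337 69) (.ref 1255 196)))) (.both (.play 389 (.both (.play 198 (.both (.play 134 (.ref 6 69)) (.play 390 (.both (.play 324 (.both (.play 263 (.both (.play 391 (.both (.play 455 (.ref 613 198)) (.play 392 (.ref 3 324)))) (.play 264 (.ref 1 260)))) (.both (.play 323 (.ref 1256 258)) (.play 323 (.ref 229 322))))) (.play 454 (.ref 4 197)))))) (.both (.ref 1337 69) (.ref 687 196)))) (.both (.play 389 (.both (.play 198 (.both (.play 134 (.ref 6 69)) (.ref 1338 195))) (.both (.ref 1337 69) (.play 454 (.ref 17 196))))) (.play 389 (.both (.ref 1336 194) (.both (.play 390 (.both (.play 388 (.both (.play 452 (.ref 6 196)) (.play 324 (.both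 (.ref 1335 258) (.both (.ref 1334 259) (.play 323 (.ref 216 322))))))) (.play 454 (.ref 4 197)))) (.both (.play 454 (.ref 17 196)) (.both (.ref 687 196) (.ref 1255 196))))))))))))))) (.play 260 (.both (.play 263 (.both (.play 324 (.both (.play 199 (.both (.play 327 (.both (.play 388 (.both (.play 326 (.both (.ref 84 133) (.play 325 (.both (.ref 1078 196) (.play 387 (.ref 1 323)))))) (.play 452 (.ref 5 196)))) (.play 328 (.ref 0 260)))) (.play 200 (.ref 2 196)))) (.play 323 (.ref 1 259)))) (.both (.play 324 (.ref 118 195)) (.both (.ref 78 196) (.play 324 (.ref 66 259)))))) (.both (.play 259 (.ref 234 194)) (.play 259 (.both (.play 194 (.ref 3 194)) (.play 326 (.both (.play 323 (.both (.play 324 (.both (.play 325 (.both (.play 388 (.both (.play 452 (.ref 7 195)) (.ref 85 195))) (.play 258 (.ref 0 258)))) (.play 263 (.ref 1 259)))) (.play 322 (.ref 1 258)))) (.play 327 (.ref 0 259))))))))))))))))))))) (.both (.play 133 (.both (.play 6 (.ref 5 5)) (.ref 1333 66))) (.both (.play 133 (.ref 45 4)) (.both (.play 133 (.ref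 37 5)) (.play 133 (.both (.ref 1333 66) (.both (.ref 44 68) (.play 325 (.ref 36 69)))))))))))
 (.seq (.one (.play 194 (.both (.play 258 (.ref 1204 1)) (.both (.play 133 (.ref 122 128)) (.play 133 (.ref 267 128))))))
 (.one (.both (.play 260 (.both (.play 5 (.ref 5 4)) (.play 259 (.ref 0 192)))) (.play 131 (.ref 2 128))))))
 (.seq (.one (.play 1 (.both (.play 65 (.both (.play 0 (.ref 3 0)) (.ref 1026 64))) (.play 2 (.ref 3 1)))))
 (.seq (.one (.play 196 (.both (.play 195 (.both (.play 259 (.both (.ref 615 1) (.play 323 (.ref 7 66)))) (.play 128 (.ref 0 128)))) (.play 197 (.ref 0 129)))))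
 (.one (.play 132 (.both (.play 131 (.both (.play 195 (.both (.play 129 (.both (.ref 440 0) (.play 128 (.ref 1 64)))) (.play 259 (.ref 7 2)))) (.play 64 (.ref 0 64)))) (.play 133 (.ref 0 65)))))))))
 (.seq (.seq (.seq (.one (.play 193 (.both (.play 129 (.both (.play 65 (.ref 5 1)) (.play 321 (.both (.ref 75 129) (.play 320 (.ref 1 256)))))) (.play 192 (.ref 3 192)))))
 (.seq (.one (.both (.play 325 (.both (.ref 1378 1) (.play 326 (.ref 0 258)))) (.both (.play 193 (.ref 102 192)) (.both (.ref 186 192) (.ref 1377 193)))))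
 (.one (.play 193 (.both (.play 196 (.both (.play 260 (.both (.play 67 (.ref 534 3)) (.play 259 (.both (.ref 325 65) (.play 323 (.ref 6 67)))))) (.play 197 (.ref 0 129)))) (.play 192 (.ref 1 128)))))))
 (.seq (.one (.play 321 (.both (.play 193 (.both (.play 129 (.both (.play 65 (.ref 5 1)) (.play 128 (.ref 644 64)))) (.play 192 (.ref 3 192)))) (.play 320 (.ref 1 256)))))
 (.seq (.one (.play 193 (.both (.play 129 (.both (.play 65 (.ref 5 1)) (.play 322 (.both (.play 324 (.both (.play 195 (.both (.play 128 (.ref 3 128)) (.play 388 (.ref 534 131)))) (.play 325 (.ref 0 257)))) (.play 386 (.ref 7 129)))))) (.play 192 (.ref 3 192)))))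
 (.one (.play 262 (.both (.play 261 (.both (.play 195 (.both (.play 197 (.both (.play 259 (.ref 1204 2)) (.play 194 (.ref 0 194)))) (.both (.play 197 (.both (.play 259 (.ref 1204 2)) (.play 263 (.ref 0 195)))) (.both (.play 260 (.ref 295 193)) (.play 197 (.ref 169 194)))))) (.both (.play 259 (.both (.play 260 (.both (.ref 1382 2) (.both (.ref 121 193) (.both (.ref 186 193) (.ref 284 194))))) (.both (.play 260 (.ref 1379 1)) (.both (.play 260 (.both (.ref 1381 2) (.both (.ref 121 193) (.both (.play 323 (.both (.ref 186 193) (.play 322 (.ref 1 258)))) (.ref 284 194))))) (.both (.play 260 (.both (.ref 1378 2) (.both (.ref 266 193) (.ref 121 193)))) (.both (.play 260 (.both (.ref 1378 2) (.both (.ref 1382 2) (.both (.ref 1381 2) (.ref 1380 130))))) (.both (.play 195 (.both (.play 131 (.both (.play 67 (.ref 5 3)) (.play 323 (.ref 1143 66)))) (.both (.play 131 (.both (.play 67 (.ref 5 3)) (.play 197 (.ref 504 130)))) (.play 197 (.ref 134 194))))) (.play 260 (.both (.ref 1380 130) (.both (.ref 266 193) (.both (.ref 284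 194) (.ref 1377 194)))))))))))) (.both (.play 260 (.both (.play 259 (.ref 1379 1)) (.both (.play 263 (.both (.play 259 (.both (.play 326 (.both (.play 325 (.both (.play 389 (.both (.play 453 (.ref 7 196)) (.play 264 (.ref 176 260)))) (.play 258 (.ref 0 258)))) (.play 327 (.ref 0 259)))) (.both (.play 326 (.ref 25 257)) (.ref 23 258)))) (.both (.ref 1359 195) (.both (.ref 1223 195) (.play 327 (.ref 25 258)))))) (.both (.play 263 (.ref 233 194)) (.both (.play 263 (.ref 1360 195)) (.play 263 (.ref 1358 195))))))) (.both (.play 197 (.both (.play 195 (.both (.play 131 (.ref 1244 2)) (.play 194 (.ref 0 194)))) (.both (.play 325 (.both (.play 263 (.both (.play 389 (.both (.ref 1321 130) (.play 453 (.ref 5 197)))) (.play 264 (.ref 3 196)))) (.both (.play 263 (.both (.play 389 (.both (.play 390 (.ref 679 130)) (.play 453 (.ref 5 197)))) (.play 264 (.ref 3 196)))) (.both (.play 389 (.both (.play 390 (.both (.play 326 (.both (.play 133 (.ref 7 133)) (.ref 401 195))) (.play 454 (.ref 4 197)))) (.play 453 (.ref 5 197)))) (.both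 (.play 263 (.both (.play 326 (.both (.play 324 (.both (.play 388 (.both (.play 133 (.ref 6 132)) (.play 327 (.ref 87 195)))) (.play 323 (.ref 2 259)))) (.both (.play 390 (.ref 534 133)) (.play 324 (.both (.play 390 (.both (.ref 1104 196) (.play 454 (.ref 7 197)))) (.play 323 (.ref 2 259))))))) (.play 264 (.ref 3 196)))) (.both (.play 263 (.both (.ref 1320 131) (.play 264 (.ref 3 196)))) (.play 389 (.both (.play 263 (.both (.play 390 (.both (.play 391 (.both (.play 455 (.ref 613 198)) (.play 324 (.ref 295 322)))) (.play 454 (.ref 4 197)))) (.play 264 (.ref 3 196)))) (.play 453 (.ref 5 197)))))))))) (.play 195 (.ref 169 194))))) (.both (.play 263 (.both (.play 260 (.both (.play 327 (.both (.play 324 (.both (.play 388 (.both (.play 197 (.ref 18 132)) (.ref 21 195))) (.play 323 (.ref 1 259)))) (.play 328 (.ref 0 260)))) (.both (.ref 438 192) (.both (.play 327 (.both (.play 259 (.both (.play 258 (.ref 437 192)) (.play 326 (.ref 0 259)))) (.play 328 (.ref 0 260)))) (.play 327 (.ref 25 258)))))) (.both (.play 264 (.both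 (.ref 1376 132) (.both (.play 325 (.ref 118 196)) (.play 325 (.ref 66 260))))) (.both (.play 264 (.both (.ref 1376 132) (.play 197 (.ref 3 196)))) (.play 264 (.both (.play 197 (.ref 3 196)) (.play 325 (.ref 118 196)))))))) (.play 263 (.both (.play 195 (.ref 263 195)) (.both (.play 260 (.both (.play 195 (.ref 3 195)) (.play 324 (.both (.play 325 (.both (.play 389 (.both (.play 453 (.ref 7 196)) (.play 327 (.both (.ref 351 196) (.play 328 (.ref 0 260)))))) (.play 264 (.ref 1 260)))) (.play 323 (.ref 1 259)))))) (.play 264 (.ref 305 196))))))))))) (.both (.play 134 (.both (.play 7 (.ref 5 6)) (.play 263 (.both (.play 327 (.ref 4 70)) (.play 197 (.ref 261 195)))))) (.both (.play 134 (.ref 45 5)) (.play 134 (.ref 37 6))))))))))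
 (.seq (.seq (.one (.play 129 (.both (.ref 666 1) (.play 128 (.ref 3 128)))))
 (.seq (.one (.play 195 (.both (.ref 1384 0) (.play 133 (.ref 2 129)))))
 (.one (.play 388 (.both (.play 452 (.both (.play 324 (.both (.play 323 (.both (.play 260 (.both (.play 515 (.both (.play 196 (.both (.play 133 (.both (.play 132 (.both (.ref 378 3) (.play 69 (.ref 5 68)))) (.play 197 (.ref 5 132)))) (.both (.ref 52 67) (.both (.play 133 (.both (.play 132 (.both (.ref 1085 67) (.play 69 (.ref 5 68)))) (.play 197 (.ref 5 132)))) (.ref 47 131))))) (.play 451 (.ref 6 259)))) (.both (.play 515 (.both (.play 261 (.both (.play 259 (.both (.play 195 (.ref 7 195)) (.play 322 (.ref 1 258)))) (.play 263 (.ref 1 259)))) (.play 451 (.ref 6 259)))) (.play 261 (.both (.play 197 (.ref 5 196)) (.play 263 (.ref 1 259))))))) (.both (.play 325 (.both (.ref 1384 130) (.both (.play 261 (.both (.play 197 (.ref 467 132)) (.play 322 (.ref 2 258)))) (.play 322 (.ref 1127 256))))) (.both (.ref 1385 130) (.play 325 (.both (.play 322 (.ref 1127 256)) (.play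 263 (.ref 2 259)))))))) (.both (.play 323 (.both (.ref 1385 130) (.both (.play 259 (.ref 696 131)) (.play 325 (.both (.play 261 (.ref 1365 258)) (.play 263 (.ref 2 259))))))) (.both (.play 515 (.both (.play 451 (.ref 485 258)) (.play 516 (.ref 1 451)))) (.play 516 (.both (.ref 1282 259) (.play 515 (.ref 1 451)))))))) (.play 387 (.ref 3 387)))) (.play 389 (.ref 3 388)))))))
 (.seq (.seq (.one (.play 456 (.both (.play 455 (.both (.play 453 (.both (.ref 1386 0) (.both (.play 389 (.both (.play 325 (.both (.play 261 (.both (.ref 608 194) (.play 518 (.ref 4 261)))) (.play 517 (.ref 5 261)))) (.play 388 (.ref 3 388)))) (.both (.play 517 (.both (.play 389 (.both (.play 325 (.ref 5 261)) (.play 518 (.both (.play 581 (.both (.play 582 (.both (.ref 676 386) (.play 646 (.ref 7 389)))) (.both (.ref 414 388) (.ref 75 389)))) (.play 457 (.ref 1 453)))))) (.play 516 (.ref 1 452)))) (.both (.play 517 (.ref 1204 260)) (.play 452 (.both (.play 387 (.ref 102 386)) (.both (.play 387 (.both (.play 451 (.both (.play 386 (.ref 3 386))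 (.play 518 (.both (.play 517 (.ref 1261 450)) (.play 519 (.ref 0 451)))))) (.play 388 (.ref 3 387)))) (.ref 23 451))))))))) (.both (.play 453 (.both (.ref 1386 0) (.both (.play 393 (.both (.play 457 (.ref 1110 262)) (.play 392 (.ref 2 389)))) (.play 392 (.ref 122 387))))) (.both (.ref 1373 259) (.play 457 (.both (.play 393 (.both (.play 521 (.both (.ref 376 328) (.play 522 (.ref 0 454)))) (.play 394 (.ref 2 390)))) (.both (.play 518 (.both (.play 394 (.both (.play 393 (.ref 2 390)) (.play 458 (.both (.play 395 (.ref 2 391)) (.play 519 (.ref 1 454)))))) (.play 517 (.ref 1 453)))) (.play 518 (.ref 66 453))))))))) (.both (.ref 1383 258) (.both (.play 455 (.both (.play 453 (.both (.play 457 (.both (.play 393 (.both (.ref 1326 259) (.play 394 (.ref 2 390)))) (.both (.play 393 (.both (.play 520 (.both (.play 265 (.ref 6 264)) (.ref 1025 452))) (.play 394 (.ref 2 390)))) (.ref 23 452)))) (.both (.play 517 (.ref 1204 260)) (.both (.ref 212 386) (.ref 1375 387))))) (.both (.play 453 (.both (.play 452 (.both (.play 516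 (.both (.play 392 (.ref 1374 260)) (.play 515 (.ref 1 451)))) (.both (.ref 23 451) (.ref 1026 451)))) (.both (.play 517 (.ref 1204 260)) (.both (.play 388 (.both (.play 452 (.both (.play 519 (.both (.play 392 (.ref 433 386)) (.play 520 (.ref 0 452)))) (.play 387 (.ref 3 387)))) (.play 389 (.ref 3 388)))) (.ref 1375 387))))) (.both (.play 453 (.both (.play 392 (.both (.play 452 (.ref 1374 260)) (.play 393 (.ref 2 389)))) (.both (.play 392 (.both (.play 520 (.ref 1328 263)) (.play 393 (.ref 2 389)))) (.both (.ref 212 386) (.play 392 (.ref 122 387)))))) (.both (.ref 1373 259) (.play 457 (.both (.play 518 (.both (.play 458 (.both (.play 459 (.both (.play 392 (.both (.play 393 (.both (.play 520 (.ref 126 264)) (.play 460 (.ref 3 392)))) (.play 391 (.ref 3 391)))) (.ref 8 455))) (.play 519 (.ref 1 454)))) (.play 517 (.ref 1 453)))) (.both (.ref 1213 262) (.ref 1223 389))))))))) (.both (.play 455 (.both (.play 453 (.both (.ref 452 261) (.both (.play 392 (.ref 267 387)) (.play 520 (.ref 25 451))))) (.both (.play 453 (.both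 (.play 392 (.ref 484 261)) (.both (.play 520 (.ref 12 387)) (.play 392 (.ref 122 387))))) (.both (.ref 1214 261) (.both (.play 453 (.both (.play 452 (.ref 300 387)) (.both (.play 392 (.ref 122 387)) (.play 517 (.ref 118 388))))) (.play 453 (.both (.play 452 (.ref 300 387)) (.both (.play 520 (.ref 12 387)) (.play 457 (.ref 885 452)))))))))) (.both (.ref 1372 259) (.both (.ref 1332 259) (.both (.play 455 (.both (.ref 1245 259) (.both (.play 457 (.both (.play 393 (.both (.play 453 (.both (.play 520 (.both (.play 265 (.ref 6 264)) (.ref 11 387))) (.both (.ref 1326 259) (.play 389 (.ref 1244 260))))) (.play 394 (.ref 2 390)))) (.both (.ref 1205 260) (.ref 1022 390)))) (.both (.play 457 (.both (.play 393 (.ref 1209 260)) (.both (.play 393 (.ref 1110 262)) (.both (.play 518 (.ref 118 389)) (.play 518 (.ref 66 453)))))) (.both (.play 457 (.both (.play 393 (.both (.play 265 (.both (.play 458 (.both (.ref 1205 260) (.play 522 (.ref 4 265)))) (.play 520 (.ref 6 264)))) (.play 394 (.ref 2 390)))) (.both (.play 521 (.both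 (.play 394 (.both (.play 458 (.both (.ref 1205 260) (.play 395 (.ref 2 391)))) (.play 393 (.ref 2 390)))) (.play 522 (.ref 0 454)))) (.both (.play 393 (.ref 481 262)) (.play 521 (.ref 25 452)))))) (.both (.play 457 (.both (.ref 1312 261) (.both (.ref 1311 262) (.both (.play 393 (.ref 481 262)) (.both (.ref 1022 390) (.ref 1266 390)))))) (.play 457 (.both (.play 393 (.both (.play 265 (.both (.ref 1325 261) (.play 520 (.ref 6 264)))) (.play 394 (.ref 2 390)))) (.both (.play 517 (.both (.play 393 (.ref 481 262)) (.play 518 (.ref 1 453)))) (.both (.play 393 (.ref 1110 262)) (.play 518 (.ref 66 453)))))))))))) (.both (.play 392 (.both (.play 455 (.both (.play 453 (.both (.ref 1323 260) (.both (.ref 266 387) (.ref 121 387)))) (.both (.play 453 (.both (.ref 1323 260) (.play 393 (.ref 2 389)))) (.both (.play 457 (.both (.play 518 (.both (.play 519 (.both (.play 583 (.ref 329 327)) (.play 458 (.ref 1 454)))) (.play 517 (.ref 1 453)))) (.ref 1324 326))) (.both (.play 453 (.ref 267 387)) (.play 453 (.ref 122 387))))))) (.both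 (.play 520 (.ref 1315 261)) (.play 520 (.ref 45 263))))) (.both (.play 455 (.both (.play 453 (.both (.play 392 (.ref 484 261)) (.both (.play 392 (.ref 267 387)) (.play 520 (.ref 25 451))))) (.both (.play 453 (.both (.ref 1323 260) (.both (.play 520 (.ref 12 387)) (.play 520 (.ref 25 451))))) (.both (.play 453 (.both (.ref 1323 260) (.both (.play 392 (.ref 122 387)) (.play 392 (.ref 267 387))))) (.play 393 (.both (.play 457 (.ref 481 262)) (.both (.play 392 (.both (.play 520 (.ref 18 264)) (.play 394 (.ref 993 390)))) (.both (.play 520 (.both (.play 457 (.ref 77 264)) (.both (.play 392 (.ref 18 264)) (.both (.play 265 (.ref 88 264)) (.play 584 (.both (.play 392 (.ref 5 328)) (.ref 986 391))))))) (.play 394 (.both (.play 457 (.ref 2 390)) (.play 392 (.ref 993 390)))))))))))) (.both (.play 520 (.both (.play 455 (.both (.play 453 (.both (.play 389 (.ref 1244 260)) (.both (.ref 11 387) (.ref 24 451)))) (.both (.play 457 (.both (.ref 1108 262) (.both (.ref 1107 262) (.play 522 (.both (.play 458 (.both (.play 459 (.ref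 640 391)) (.play 523 (.ref 0 455)))) (.play 521 (.ref 0 454))))))) (.play 521 (.ref 229 453))))) (.both (.play 392 (.ref 1315 261)) (.both (.play 392 (.ref 45 263)) (.ref 1314 325))))) (.both (.ref 1322 260) (.both (.play 457 (.both (.play 455 (.both (.ref 1205 260) (.play 458 (.both (.play 459 (.both (.play 392 (.both (.play 520 (.both (.play 265 (.ref 5 264)) (.ref 1237 328))) (.play 391 (.ref 3 391)))) (.play 395 (.ref 71 391)))) (.both (.ref 78 391) (.ref 8 454)))))) (.both (.play 455 (.both (.ref 1205 260) (.play 393 (.ref 481 262)))) (.both (.play 455 (.both (.ref 1208 260) (.both (.play 393 (.ref 1110 262)) (.play 393 (.ref 267 388))))) (.both (.play 455 (.both (.ref 1205 260) (.ref 1213 262))) (.both (.play 455 (.both (.ref 1312 261) (.both (.ref 1218 261) (.both (.ref 1213 262) (.ref 1294 325))))) (.both (.play 520 (.both (.play 392 (.both (.play 265 (.ref 5 264)) (.play 584 (.ref 622 327)))) (.both (.play 265 (.ref 664 264)) (.both (.play 393 (.ref 77 264)) (.play 584 (.both (.play 392 (.ref 622 327))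 (.both (.play 392 (.ref 1102 327)) (.both (.play 393 (.ref 76 328)) (.play 392 (.ref 36 328)))))))))) (.play 455 (.both (.ref 1294 325) (.both (.ref 1302 326) (.both (.play 393 (.ref 267 388)) (.play 521 (.ref 25 452))))))))))))) (.both (.play 455 (.both (.play 453 (.both (.play 517 (.ref 1204 260)) (.ref 452 261))) (.both (.play 457 (.both (.play 522 (.both (.ref 1205 260) (.play 521 (.ref 0 454)))) (.both (.ref 1311 262) (.play 518 (.ref 118 389))))) (.both (.play 457 (.both (.ref 1205 260) (.both (.ref 1218 261) (.play 518 (.ref 66 453))))) (.both (.play 457 (.both (.play 518 (.both (.play 458 (.both (.play 522 (.both (.play 393 (.both (.play 265 (.ref 4 265)) (.ref 1062 389))) (.play 523 (.ref 0 455)))) (.play 519 (.ref 1 454)))) (.play 517 (.ref 1 453)))) (.both (.ref 1310 261) (.both (.play 393 (.ref 267 388)) (.ref 1223 389))))) (.both (.play 457 (.both (.play 518 (.both (.play 393 (.both (.play 521 (.both (.play 585 (.both (.play 520 (.both (.play 265 (.ref 6 264)) (.play 586 (.ref 105 390)))) (.play 392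 (.ref 7 328)))) (.play 522 (.ref 0 454)))) (.play 394 (.ref 2 390)))) (.play 517 (.ref 1 453)))) (.both (.play 393 (.ref 1110 262)) (.both (.play 518 (.ref 118 389)) (.play 518 (.ref 66 453)))))) (.both (.play 457 (.both (.ref 1218 261) (.both (.ref 1310 261) (.both (.play 393 (.both (.play 392 (.both (.play 520 (.both (.play 265 (.ref 6 264)) (.play 521 (.both (.play 519 (.ref 220 326)) (.play 585 (.ref 7 328)))))) (.play 453 (.ref 2 389)))) (.play 394 (.ref 2 390)))) (.both (.play 393 (.ref 1110 262)) (.ref 1305 325)))))) (.play 457 (.both (.ref 1305 325) (.both (.play 393 (.both (.play 521 (.both (.play 585 (.both (.play 392 (.ref 7 328)) (.play 518 (.both (.play 519 (.both (.ref 1100 390) (.play 458 (.ref 1 454)))) (.play 517 (.ref 1 453)))))) (.play 522 (.ref 0 454)))) (.play 394 (.ref 2 390)))) (.both (.play 393 (.ref 267 388)) (.play 521 (.ref 25 452))))))))))))) (.both (.play 520 (.both (.play 457 (.both (.play 458 (.both (.play 393 (.both (.play 265 (.ref 6 264)) (.play 455 (.ref 882 389)))) (.both (.play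 393 (.both (.play 265 (.ref 6 264)) (.play 395 (.both (.play 459 (.both (.ref 892 327) (.play 396 (.ref 2 392)))) (.both (.play 522 (.both (.play 394 (.both (.play 586 (.ref 7 329)) (.play 455 (.ref 2 391)))) (.both (.play 586 (.ref 81 329)) (.play 523 (.ref 229 455))))) (.both (.play 394 (.ref 160 391)) (.play 396 (.ref 19 392)))))))) (.both (.play 459 (.both (.play 393 (.both (.play 265 (.ref 6 264)) (.ref 78 392))) (.play 519 (.ref 1 455)))) (.ref 1307 391))))) (.both (.play 393 (.ref 77 264)) (.play 458 (.both (.play 455 (.both (.play 518 (.both (.ref 1309 391) (.play 517 (.ref 1 453)))) (.both (.ref 1308 390) (.both (.ref 78 391) (.ref 8 454))))) (.both (.play 459 (.ref 118 391)) (.both (.ref 1307 391) (.both (.play 455 (.ref 885 453)) (.play 519 (.ref 987 454)))))))))) (.both (.play 392 (.both (.play 265 (.ref 5 264)) (.ref 1306 326))) (.both (.play 392 (.ref 45 263)) (.both (.ref 64 263) (.both (.play 392 (.ref 37 264)) (.play 392 (.both (.ref 1306 326) (.both (.play 583 (.ref 55 327)) (.both (.ref 44 327)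 (.play 584 (.ref 36 328)))))))))))) (.play 455 (.both (.play 453 (.both (.ref 303 324) (.both (.play 520 (.both (.play 392 (.both (.ref 444 327) (.play 393 (.ref 2 389)))) (.play 521 (.ref 0 453)))) (.both (.play 392 (.ref 267 387)) (.play 520 (.ref 25 451)))))) (.both (.play 457 (.both (.ref 1304 325) (.both (.play 521 (.ref 164 387)) (.both (.ref 174 387) (.both (.ref 1223 389) (.play 521 (.ref 25 452))))))) (.both (.play 457 (.both (.ref 1303 325) (.both (.ref 1246 387) (.both (.play 393 (.ref 267 388)) (.both (.play 518 (.both (.play 458 (.both (.play 523 (.both (.play 459 (.both (.play 392 (.both (.play 393 (.ref 754 389)) (.play 391 (.ref 3 391)))) (.play 524 (.ref 0 456)))) (.play 522 (.ref 0 455)))) (.play 519 (.ref 1 454)))) (.play 517 (.ref 1 453)))) (.ref 1223 389)))))) (.both (.play 457 (.both (.ref 1305 325) (.both (.play 393 (.ref 267 388)) (.play 518 (.ref 66 453))))) (.both (.play 457 (.both (.play 393 (.ref 1109 325)) (.both (.ref 1302 326) (.both (.play 393 (.ref 267 388)) (.play 521 (.ref 25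 452)))))) (.both (.play 457 (.both (.ref 1302 326) (.both (.play 518 (.ref 118 389)) (.play 518 (.ref 66 453))))) (.both (.play 457 (.both (.ref 1230 325) (.both (.play 518 (.ref 118 389)) (.play 518 (.ref 66 453))))) (.play 457 (.both (.ref 1305 325) (.both (.ref 1304 325) (.both (.ref 1303 325) (.both (.play 521 (.both (.play 520 (.both (.play 584 (.both (.play 393 (.ref 6 328)) (.play 648 (.ref 91 391)))) (.play 453 (.ref 0 453)))) (.play 522 (.ref 0 454)))) (.ref 1302 326))))))))))))))))))))))))))))))
 (.one (.play 67 (.both (.play 65 (.ref 1046 0)) (.both (.play 3 (.ref 68 0)) (.both (.play 68 (.ref 86 1)) (.play 6 (.ref 791 2))))))))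
 (.seq (.one (.play 196 (.both (.play 69 (.both (.play 66 (.ref 14 0)) (.play 5 (.ref 5 4)))) (.play 3 (.ref 7 3)))))
 (.one (.both (.play 3 (.ref 7 3)) (.play 131 (.ref 1181 64))))))))))))
 (.seq (.seq (.seq (.seq (.seq (.seq (.seq (.one (.play 260 (.both (.play 325 (.both (.play 324 (.both (.play 195 (.both (.play 259 (.ref 6 3)) (.play 131 (.both (.play 133 (.both (.play 130 (.ref 965 64)) (.play 134 (.ref 176 130)))) (.play 388 (.ref 7 131)))))) (.play 389 (.ref 4 132)))) (.play 261 (.ref 4 68)))) (.both (.play 259 (.ref 15 3)) (.both (.play 325 (.both (.play 324 (.both (.play 387 (.both (.play 388 (.both (.play 131 (.both (.play 133 (.both (.play 130 (.ref 102 64)) (.play 134 (.both (.play 71 (.ref 2 67)) (.play 199 (.both (.play 135 (.both (.play 327 (.both (.play 263 (.ref 7 70)) (.play 326 (.ref 1 323)))) (.play 200 (.ref 0 132)))) (.play 198 (.ref 0 131)))))))) (.play 195 (.ref 7 131)))) (.play 451 (.ref 6 195)))) (.play 323 (.ref 6 131)))) (.play 389 (.ref 4 132)))) (.play 261 (.ref 4 68)))) (.play 325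 (.ref 17 67)))))))
 (.seq (.one (.play 67 (.both (.play 65 (.ref 964 0)) (.play 69 (.ref 3 1)))))
 (.one (.both (.play 2 (.ref 7 2)) (.ref 167 64)))))
 (.seq (.one (.play 258 (.both (.play 259 (.both (.play 324 (.both (.play 323 (.both (.play 66 (.both (.play 65 (.ref 143 0)) (.play 130 (.ref 7 66)))) (.play 388 (.ref 4 131)))) (.play 260 (.ref 4 67)))) (.play 322 (.ref 6 66)))) (.play 194 (.ref 6 2)))))
 (.seq (.one (.play 66 (.both (.ref 792 0) (.play 2 (.ref 7 2)))))
 (.one (.play 67 (.both (.play 3 (.ref 1 2)) (.play 131 (.ref 295 64))))))))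
 (.seq (.seq (.one (.play 196 (.both (.play 260 (.ref 6 4)) (.play 195 (.ref 267 128)))))
 (.seq (.one (.play 193 (.both (.play 2 (.ref 5 1)) (.play 321 (.ref 878 64)))))
 (.one (.play 259 (.both (.play 195 (.ref 6 3)) (.play 260 (.both (.play 258 (.ref 144 64)) (.play 323 (.ref 6 67)))))))))
 (.seq (.one (.play 68 (.both (.play 65 (.both (.play 1 (.both (.play 64 (.ref 5 0)) (.play 0 (.ref 3 0)))) (.play 129 (.ref 1 64)))) (.play 4 (.ref 5 3)))))
 (.seq (.one (.play 195 (.both (.play 193 (.both (.play 257 (.ref 4 0)) (.ref 568 0))) (.play 258 (.ref 6 2)))))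
 (.one (.play 257 (.both (.play 256 (.ref 15 0)) (.ref 1401 65))))))))
 (.seq (.seq (.seq (.one (.play 64 (.both (.play 65 (.ref 1347 0)) (.play 128 (.ref 7 64)))))
 (.seq (.one (.play 387 (.both (.ref 1403 0) (.play 323 (.ref 6 131)))))
 (.one (.play 129 (.both (.play 320 (.both (.play 65 (.both (.play 64 (.ref 1347 0)) (.play 256 (.ref 6 64)))) (.play 384 (.ref 6 128)))) (.both (.ref 1404 0) (.play 387 (.both (.ref 1402 128) (.play 323 (.ref 6 131))))))))))
 (.seq (.one (.play 257 (.both (.ref 1403 0) (.both (.ref 1196 64) (.play 64 (.ref 579 64))))))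
 (.seq (.one (.play 69 (.both (.play 257 (.both (.play 320 (.ref 379 0)) (.both (.play 322 (.ref 368 0)) (.both (.ref 1196 64) (.play 320 (.both (.play 258 (.both (.ref 724 64) (.play 259 (.ref 1 256)))) (.play 384 (.ref 6 128)))))))) (.play 133 (.ref 5 68)))))
 (.one (.play 192 (.both (.play 256 (.ref 6 0)) (.ref 106 1)))))))
 (.seq (.seq (.one (.play 64 (.both (.play 0 (.ref 7 0)) (.play 321 (.both (.play 128 (.ref 7 64)) (.play 323 (.both (.play 259 (.ref 6 67)) (.ref 1401 129))))))))
 (.seq (.one (.play 257 (.both (.play 256 (.ref 15 0)) (.both (.play 322 (.both (.play 321 (.both (.ref 930 0) (.play 386 (.ref 4 129)))) (.play 258 (.ref 4 65)))) (.both (.play 322 (.ref 17 64)) (.play 322 (.both (.play 321 (.both (.ref 366 64) (.play 386 (.ref 4 129)))) (.play 258 (.ref 4 65)))))))))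
 (.one (.play 256 (.both (.play 192 (.ref 6 0)) (.play 257 (.ref 104 64)))))))
 (.seq (.one (.both (.play 1 (.ref 4 1)) (.play 128 (.ref 5 64))))
 (.seq (.one (.both (.play 65 (.ref 1412 0)) (.play 384 (.ref 5 128))))
 (.one (.play 193 (.both (.play 134 (.both (.play 323 (.both (.play 322 (.both (.play 131 (.both (.ref 48 2) (.play 386 (.ref 6 130)))) (.both (.play 321 (.both (.play 386 (.both (.play 257 (.ref 99 129)) (.play 131 (.ref 6 130)))) (.play 320 (.ref 2 256)))) (.play 321 (.ref 69 256))))) (.both (.play 130 (.both (.play 321 (.both (.play 257 (.ref 1413 1)) (.play 322 (.ref 69 256)))) (.play 387 (.ref 7 130)))) (.both (.play 130 (.ref 696 2)) (.ref 1056 128))))) (.play 70 (.ref 5 69)))) (.play 192 (.ref 0 192))))))))))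
 (.seq (.seq (.seq (.seq (.one (.both (.play 2 (.ref 6 1)) (.play 195 (.ref 736 128))))
 (.seq (.one (.play 262 (.both (.play 323 (.both (.play 259 (.both (.ref 1180 0) (.both (.ref 1178 2) (.both (.play 131 (.both (.play 322 (.ref 406 2)) (.both (.ref 390 66) (.ref 1198 66)))) (.both (.ref 1177 66) (.both (.ref 1176 66) (.ref 1175 66))))))) (.both (.ref 1171 2) (.both (.ref 1173 66) (.both (.play 389 (.both (.play 390 (.both (.play 455 (.both (.play 454 (.both (.play 387 (.both (.play 135 (.both (.play 71 (.ref 5 70)) (.play 196 (.both (.play 259 (.ref 782 130)) (.play 197 (.ref 2 131)))))) (.play 388 (.ref 0 387)))) (.play 519 (.ref 4 262)))) (.play 391 (.ref 4 198)))) (.play 453 (.ref 6 197)))) (.play 325 (.ref 6 133)))) (.both (.ref 1169 130) (.ref 1166 130))))))) (.both (.play 135 (.both (.play 196 (.both (.play 325 (.both (.play 260 (.both (.play 324 (.both (.play 131 (.ref 431 3)) (.both (.play 131 (.ref 696 3)) (.play 259 (.both (.play 261 (.both (.play 323 (.both (.play 387 (.ref 1291 130)) (.play 322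 (.ref 1 258)))) (.play 194 (.ref 3 194)))) (.both (.play 258 (.ref 112 257)) (.play 258 (.ref 155 257)))))))) (.both (.play 324 (.both (.play 131 (.ref 431 3)) (.play 323 (.ref 1125 130)))) (.both (.play 263 (.both (.play 324 (.both (.play 131 (.ref 696 3)) (.play 323 (.ref 2 259)))) (.play 261 (.ref 3 195)))) (.ref 1392 194))))) (.play 389 (.ref 6 133)))) (.play 197 (.ref 2 131)))) (.play 71 (.ref 5 70)))) (.both (.play 196 (.both (.play 260 (.both (.play 261 (.both (.ref 1414 1) (.play 263 (.ref 3 195)))) (.both (.play 324 (.both (.play 135 (.both (.play 131 (.both (.play 67 (.ref 430 3)) (.both (.ref 666 3) (.play 323 (.both (.play 325 (.both (.play 258 (.both (.play 322 (.ref 1244 129)) (.play 259 (.ref 3 258)))) (.play 263 (.ref 2 259)))) (.both (.play 387 (.ref 1415 130)) (.play 387 (.ref 442 131)))))))) (.play 71 (.ref 5 70)))) (.both (.play 135 (.both (.play 131 (.ref 696 3)) (.play 71 (.ref 5 70)))) (.both (.play 388 (.both (.play 259 (.both (.play 323 (.both (.play 132 (.ref 126 67)) (.play 325 (.ref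 317 258)))) (.play 452 (.ref 7 195)))) (.both (.play 387 (.both (.play 323 (.ref 1415 130)) (.play 451 (.ref 6 195)))) (.both (.ref 271 195) (.play 452 (.ref 579 195)))))) (.play 388 (.ref 326 131)))))) (.both (.play 261 (.both (.ref 1414 1) (.both (.play 131 (.both (.play 67 (.both (.play 135 (.both (.play 259 (.both (.play 323 (.both (.play 68 (.ref 46 3)) (.play 322 (.ref 1 258)))) (.both (.play 68 (.both (.play 4 (.ref 5 3)) (.play 132 (.both (.play 323 (.ref 5 67)) (.play 325 (.ref 4 68)))))) (.ref 315 66)))) (.play 71 (.ref 5 70)))) (.play 3 (.ref 4 3)))) (.both (.play 67 (.ref 478 3)) (.both (.play 324 (.ref 431 3)) (.play 324 (.both (.play 323 (.both (.play 132 (.both (.play 325 (.ref 114 66)) (.play 387 (.ref 6 131)))) (.both (.play 132 (.both (.play 68 (.both (.play 259 (.ref 5 67)) (.play 325 (.ref 4 68)))) (.play 387 (.ref 6 131)))) (.play 322 (.ref 67 257))))) (.play 388 (.ref 7 131)))))))) (.play 194 (.ref 155 193))))) (.both (.play 324 (.both (.play 131 (.ref 696 3)) (.both (.play 263 (.both (.play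 323 (.both (.play 387 (.ref 442 131)) (.play 325 (.ref 2 259)))) (.play 261 (.ref 3 195)))) (.play 263 (.both (.play 388 (.ref 326 131)) (.play 261 (.ref 3 195))))))) (.play 261 (.ref 295 193))))))) (.both (.play 197 (.both (.play 135 (.ref 2 131)) (.ref 24 193))) (.both (.play 197 (.ref 143 131)) (.play 197 (.ref 25 193)))))) (.both (.play 135 (.both (.play 71 (.ref 5 70)) (.play 390 (.both (.play 196 (.both (.play 389 (.both (.play 391 (.both (.play 388 (.both (.play 323 (.both (.play 387 (.ref 203 130)) (.play 324 (.ref 3 323)))) (.both (.play 323 (.both (.play 387 (.both (.play 259 (.both (.play 132 (.ref 5 131)) (.ref 193 194))) (.play 322 (.ref 3 322)))) (.play 324 (.ref 3 323)))) (.both (.play 451 (.both (.play 387 (.both (.play 323 (.both (.play 259 (.ref 46 131)) (.play 322 (.ref 3 322)))) (.play 450 (.ref 1 386)))) (.play 452 (.ref 1 387)))) (.both (.play 324 (.both (.play 260 (.ref 873 131)) (.play 323 (.ref 3 323)))) (.both (.play 451 (.both (.play 387 (.both (.play 260 (.both (.play 261 (.ref 295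 193)) (.play 324 (.ref 6 195)))) (.play 450 (.ref 1 386)))) (.play 452 (.ref 1 387)))) (.play 451 (.both (.play 387 (.both (.ref 191 195) (.play 450 (.ref 1 386)))) (.play 452 (.ref 1 387)))))))))) (.play 455 (.ref 4 198)))) (.play 453 (.ref 6 197)))) (.play 197 (.ref 2 131)))) (.both (.ref 1203 131) (.both (.play 197 (.both (.play 196 (.ref 2 131)) (.ref 103 197))) (.play 455 (.ref 17 197)))))))) (.both (.play 135 (.both (.play 71 (.ref 5 70)) (.play 197 (.both (.play 196 (.ref 2 131)) (.ref 1411 133))))) (.both (.play 135 (.both (.play 71 (.ref 5 70)) (.ref 1410 133))) (.ref 1391 130)))))))))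
 (.one (.play 1 (.both (.play 0 (.ref 3 0)) (.play 69 (.both (.play 2 (.ref 3 1)) (.play 5 (.ref 5 4)))))))))
 (.seq (.one (.both (.play 66 (.both (.ref 1417 0) (.play 128 (.ref 1 64)))) (.play 3 (.ref 7 3))))
 (.seq (.one (.play 197 (.both (.play 4 (.ref 7 4)) (.ref 1397 64))))
 (.one (.play 67 (.both (.play 131 (.both (.play 66 (.both (.ref 1417 0) (.play 64 (.ref 0 64)))) (.play 324 (.ref 7 67)))) (.play 3 (.ref 7 3))))))))
 (.seq (.seq (.one (.play 195 (.both (.play 194 (.both (.play 129 (.both (.ref 316 0) (.play 128 (.ref 3 128)))) (.play 133 (.ref 2 129)))) (.play 259 (.ref 6 3)))))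
 (.seq (.one (.play 321 (.both (.play 257 (.ref 715 0)) (.both (.play 387 (.both (.play 388 (.both (.play 257 (.both (.play 320 (.ref 379 0)) (.both (.ref 58 0) (.play 385 (.both (.play 384 (.ref 15 128)) (.both (.play 386 (.ref 144 192)) (.ref 1408 192))))))) (.play 451 (.ref 6 195)))) (.play 323 (.ref 6 131)))) (.both (.ref 1207 128) (.both (.ref 1169 128) (.ref 1421 128)))))))
 (.one (.play 261 (.both (.ref 1422 1) (.both (.play 322 (.both (.play 324 (.both (.play 132 (.both (.play 134 (.both (.play 131 (.both (.ref 11 64) (.both (.play 258 (.ref 700 65)) (.play 67 (.both (.play 66 (.ref 3 66)) (.play 258 (.ref 5 66))))))) (.play 70 (.ref 5 69)))) (.play 68 (.ref 7 68)))) (.play 388 (.ref 6 132)))) (.both (.play 132 (.both (.play 258 (.both (.play 131 (.both (.ref 38 65) (.play 67 (.ref 5 66)))) (.both (.play 131 (.ref 700 65)) (.play 321 (.both (.play 66 (.both (.play 257 (.ref 6 65)) (.ref 320 65))) (.play 385 (.ref 6 129))))))) (.play 68 (.ref 7 68)))) (.both (.ref 1397 128) (.ref 1207 129))))) (.both (.ref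 1420 65) (.play 132 (.ref 326 68)))))))))
 (.seq (.one (.play 66 (.both (.play 196 (.both (.play 3 (.ref 7 3)) (.ref 110 64))) (.play 128 (.ref 1 64)))))
 (.seq (.one (.both (.play 3 (.ref 7 3)) (.play 66 (.both (.play 128 (.ref 1 64)) (.ref 110 64)))))
 (.one (.play 192 (.both (.play 256 (.ref 6 0)) (.play 194 (.both (.play 258 (.ref 4 1)) (.play 195 (.ref 250 128)))))))))))
 (.seq (.seq (.seq (.one (.play 129 (.both (.ref 58 0) (.ref 1426 128))))
 (.seq (.one (.play 257 (.both (.play 256 (.ref 15 0)) (.play 64 (.ref 227 0)))))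
 (.one (.play 129 (.both (.play 320 (.ref 406 0)) (.ref 47 64))))))
 (.seq (.one (.play 386 (.both (.play 322 (.both (.ref 1429 1) (.both (.play 130 (.both (.play 196 (.both (.play 453 (.both (.ref 52 1) (.play 260 (.ref 7 196)))) (.play 132 (.ref 7 132)))) (.play 385 (.ref 15 129)))) (.both (.play 385 (.ref 379 65)) (.both (.play 196 (.both (.play 453 (.both (.play 193 (.ref 580 129)) (.play 260 (.ref 7 196)))) (.play 132 (.ref 7 132)))) (.ref 1428 193)))))) (.both (.play 196 (.both (.play 453 (.both (.play 454 (.both (.play 387 (.both (.play 322 (.ref 368 65)) (.play 388 (.ref 0 386)))) (.play 518 (.ref 4 261)))) (.play 260 (.ref 7 196)))) (.play 132 (.ref 7 132)))) (.both (.play 322 (.both (.play 385 (.ref 379 65)) (.both (.play 387 (.both (.play 323 (.both (.play 130 (.ref 4 130)) (.play 324 (.ref 504 257)))) (.play 451 (.ref 4 194)))) (.play 387 (.ref 318 193))))) (.play 196 (.both (.play 132 (.ref 7 132)) (.play 453 (.both (.play 260 (.ref 7 196)) (.play 388 (.both (.ref 462 260) (.both (.play 387 (.ref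 267 320)) (.play 387 (.ref 143 322))))))))))))))
 (.seq (.one (.play 67 (.both (.play 197 (.both (.play 70 (.both (.play 3 (.both (.play 260 (.both (.play 258 (.both (.play 194 (.ref 5 2)) (.play 259 (.ref 267 192)))) (.play 324 (.ref 6 68)))) (.play 2 (.ref 3 2)))) (.play 6 (.ref 5 5)))) (.play 4 (.ref 7 4)))) (.play 129 (.ref 1 65)))))
 (.one (.play 194 (.both (.play 259 (.both (.play 130 (.both (.play 66 (.both (.play 2 (.ref 4 2)) (.ref 327 65))) (.both (.play 66 (.ref 478 2)) (.play 323 (.both (.play 321 (.both (.play 322 (.both (.play 386 (.both (.play 129 (.ref 4 129)) (.play 131 (.ref 6 130)))) (.play 320 (.ref 2 256)))) (.play 385 (.ref 5 129)))) (.play 387 (.ref 7 130))))))) (.play 192 (.ref 0 192)))) (.play 256 (.ref 1 192))))))))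
 (.seq (.seq (.one (.play 194 (.both (.play 195 (.ref 343 0)) (.play 258 (.ref 4 1)))))
 (.seq (.one (.play 194 (.both (.play 195 (.ref 273 0)) (.play 258 (.ref 4 1)))))
 (.one (.play 257 (.both (.play 64 (.ref 326 0)) (.both (.play 64 (.ref 227 0)) (.both (.play 64 (.both (.play 0 (.ref 7 0)) (.play 258 (.both (.play 259 (.both (.play 256 (.both (.play 320 (.ref 6 64)) (.ref 8 256))) (.play 192 (.ref 3 192)))) (.play 322 (.ref 4 65)))))) (.ref 1434 64))))))))
 (.seq (.seq (.one (.both (.play 2 (.ref 5 1)) (.ref 1434 64)))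
 (.one (.both (.ref 490 0) (.play 384 (.ref 6 128)))))
 (.seq (.one (.play 323 (.both (.play 322 (.both (.play 131 (.ref 1437 2)) (.play 320 (.ref 2 256)))) (.play 387 (.ref 74 195)))))
 (.one (.play 322 (.both (.play 260 (.both (.ref 1438 1) (.play 195 (.ref 134 193)))) (.both (.play 260 (.both (.play 195 (.both (.play 131 (.both (.play 67 (.ref 478 3)) (.play 386 (.ref 5 130)))) (.play 193 (.ref 0 193)))) (.both (.play 193 (.both (.ref 1438 1) (.play 195 (.ref 0 193)))) (.both (.play 193 (.both (.play 386 (.both (.play 129 (.ref 7 129)) (.ref 1434 193))) (.play 195 (.ref 0 193)))) (.both (.play 324 (.both (.play 323 (.both (.play 387 (.both (.play 132 (.ref 6 131)) (.play 451 (.ref 98 194)))) (.play 321 (.ref 2 257)))) (.play 388 (.ref 74 196)))) (.play 195 (.both (.ref 464 129) (.play 193 (.ref 0 193))))))))) (.both (.play 195 (.both (.play 193 (.both (.play 129 (.ref 363 128)) (.play 260 (.ref 0 193)))) (.play 257 (.ref 1 193)))) (.both (.play 195 (.both (.play 386 (.ref 1436 129)) (.play 257 (.ref 1 193))))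 (.ref 1435 129)))))))))))))
 (.seq (.seq (.seq (.seq (.seq (.one (.both (.ref 1185 0) (.play 258 (.ref 4 1))))
 (.seq (.one (.play 196 (.both (.play 3 (.ref 7 3)) (.ref 1207 64))))
 (.one (.play 4 (.both (.play 3 (.both (.play 64 (.ref 2 0)) (.play 194 (.ref 5 2)))) (.play 197 (.ref 7 4)))))))
 (.seq (.one (.play 5 (.both (.ref 121 0) (.play 198 (.ref 7 5)))))
 (.seq (.one (.play 259 (.both (.play 66 (.both (.play 68 (.both (.ref 1443 0) (.both (.play 2 (.ref 196 1)) (.ref 1442 1)))) (.both (.play 68 (.both (.ref 1443 0) (.play 130 (.ref 1 66)))) (.both (.play 68 (.both (.ref 1442 1) (.play 130 (.ref 1 66)))) (.both (.play 195 (.ref 326 2)) (.play 68 (.both (.play 195 (.ref 95 2)) (.play 130 (.ref 1 66))))))))) (.both (.ref 1419 1) (.both (.ref 1441 2) (.play 68 (.both (.play 195 (.ref 1436 2)) (.play 130 (.ref 1 66)))))))))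
 (.one (.play 195 (.both (.play 197 (.both (.ref 1439 1) (.both (.ref 1444 128) (.both (.play 326 (.ref 1425 130)) (.both (.play 196 (.both (.play 261 (.both (.play 389 (.both (.play 325 (.ref 91 132)) (.both (.play 325 (.ref 240 132)) (.play 326 (.ref 26 197))))) (.play 194 (.ref 0 194)))) (.play 258 (.ref 1 194)))) (.play 326 (.ref 326 133))))))) (.both (.play 197 (.both (.play 196 (.ref 129 2)) (.both (.play 387 (.both (.play 323 (.both (.play 386 (.ref 379 66)) (.both (.play 133 (.both (.play 386 (.both (.play 131 (.both (.play 132 (.both (.play 68 (.ref 5 67)) (.play 130 (.ref 0 130)))) (.play 322 (.ref 6 130)))) (.play 450 (.ref 6 194)))) (.play 326 (.ref 7 133)))) (.both (.play 326 (.both (.ref 1409 130) (.play 133 (.ref 7 133)))) (.play 133 (.both (.play 326 (.ref 7 133)) (.ref 1428 194))))))) (.both (.play 326 (.both (.ref 1407 66) (.play 133 (.ref 7 133)))) (.both (.play 323 (.both (.play 386 (.ref 379 66)) (.both (.play 388 (.ref 368 66)) (.ref 1434 194)))) (.both (.ref 1419 129) (.ref 1441 130))))))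 (.both (.play 387 (.both (.play 326 (.both (.play 453 (.both (.play 323 (.both (.ref 1403 66) (.ref 1402 194))) (.play 389 (.ref 6 197)))) (.play 133 (.ref 7 133)))) (.both (.play 326 (.both (.ref 1406 66) (.play 133 (.ref 7 133)))) (.both (.play 323 (.both (.ref 1403 66) (.play 388 (.ref 1440 194)))) (.both (.ref 1419 129) (.ref 1441 130)))))) (.both (.ref 1444 128) (.both (.ref 1431 129) (.play 326 (.ref 1418 130)))))))) (.both (.play 197 (.both (.play 323 (.both (.play 131 (.both (.play 322 (.ref 406 2)) (.both (.play 130 (.ref 326 66)) (.play 130 (.ref 803 66))))) (.both (.play 387 (.both (.play 388 (.both (.play 322 (.both (.play 131 (.both (.ref 734 66) (.play 324 (.ref 4 131)))) (.play 389 (.ref 3 322)))) (.play 452 (.ref 4 195)))) (.both (.play 386 (.both (.play 388 (.both (.play 324 (.both (.play 131 (.ref 4 131)) (.play 385 (.ref 86 320)))) (.play 452 (.ref 4 195)))) (.play 450 (.ref 6 194)))) (.both (.play 388 (.both (.play 322 (.both (.play 386 (.ref 335 130)) (.play 389 (.ref 3 322)))) (.play 452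 (.ref 4 195)))) (.both (.play 386 (.both (.play 322 (.both (.play 131 (.ref 6 130)) (.play 389 (.both (.play 325 (.both (.play 261 (.ref 74 197)) (.play 324 (.ref 0 322)))) (.play 388 (.ref 3 322)))))) (.play 450 (.ref 6 194)))) (.ref 1428 194)))))) (.both (.play 131 (.both (.play 130 (.ref 803 66)) (.ref 1426 130))) (.both (.play 131 (.both (.play 130 (.ref 227 66)) (.both (.play 130 (.ref 803 66)) (.play 68 (.both (.play 132 (.ref 5 67)) (.play 388 (.both (.play 324 (.ref 4 131)) (.play 387 (.ref 1440 194))))))))) (.both (.play 131 (.both (.play 130 (.ref 803 66)) (.play 388 (.both (.play 387 (.both (.play 322 (.both (.ref 734 66) (.play 389 (.ref 3 322)))) (.play 452 (.ref 4 195)))) (.play 324 (.ref 4 131)))))) (.ref 1435 130))))))) (.both (.play 131 (.both (.play 196 (.both (.play 132 (.both (.play 68 (.both (.play 4 (.ref 6 3)) (.ref 82 66))) (.play 199 (.ref 3 131)))) (.play 130 (.ref 3 130)))) (.both (.play 323 (.both (.play 132 (.both (.play 68 (.ref 5 67)) (.play 196 (.both (.play 194 (.both (.play 193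 (.ref 86 128)) (.play 261 (.ref 0 194)))) (.play 199 (.ref 3 131)))))) (.both (.play 132 (.both (.play 68 (.ref 5 67)) (.play 196 (.both (.play 387 (.ref 5 131)) (.play 199 (.ref 3 131)))))) (.play 388 (.ref 17 130))))) (.both (.play 323 (.both (.play 130 (.ref 803 66)) (.play 388 (.ref 17 130)))) (.both (.play 130 (.both (.play 323 (.ref 803 66)) (.play 196 (.ref 3 130)))) (.ref 395 66)))))) (.both (.ref 1439 1) (.both (.play 196 (.ref 129 2)) (.both (.ref 1432 2) (.play 196 (.ref 309 129)))))))) (.both (.play 326 (.both (.play 387 (.both (.play 323 (.both (.ref 1429 2) (.both (.play 131 (.both (.ref 52 2) (.play 386 (.ref 15 130)))) (.both (.play 386 (.ref 379 66)) (.both (.play 194 (.ref 580 130)) (.ref 1428 194)))))) (.both (.ref 1397 193) (.ref 1207 194)))) (.both (.ref 1430 1) (.both (.play 197 (.ref 326 133)) (.play 197 (.ref 580 133)))))) (.both (.play 323 (.both (.play 131 (.both (.ref 58 2) (.both (.play 130 (.ref 227 66)) (.play 132 (.ref 37 67))))) (.both (.ref 1427 2) (.both (.play 131 (.both (.play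 322 (.ref 406 2)) (.both (.play 130 (.ref 326 66)) (.ref 1198 66)))) (.both (.play 387 (.both (.play 386 (.ref 406 66)) (.both (.play 386 (.ref 162 129)) (.ref 1433 194)))) (.play 387 (.both (.play 194 (.ref 326 130)) (.ref 1433 194)))))))) (.both (.play 197 (.both (.ref 1432 2) (.both (.play 196 (.both (.play 261 (.both (.play 326 (.both (.play 389 (.both (.play 132 (.both (.play 68 (.both (.play 4 (.ref 4 4)) (.play 199 (.both (.play 131 (.ref 3 131)) (.play 135 (.ref 5 134)))))) (.play 325 (.ref 7 132)))) (.play 453 (.ref 6 197)))) (.play 454 (.ref 7 197)))) (.play 194 (.ref 0 194)))) (.play 258 (.ref 1 194)))) (.both (.ref 1431 129) (.both (.ref 1424 130) (.play 326 (.ref 326 133))))))) (.both (.play 326 (.both (.ref 1430 1) (.both (.play 323 (.both (.play 135 (.both (.ref 1427 2) (.play 199 (.ref 5 134)))) (.both (.play 387 (.both (.play 388 (.ref 368 66)) (.both (.play 386 (.both (.play 324 (.both (.ref 58 66) (.play 325 (.ref 1 322)))) (.play 450 (.ref 6 194)))) (.play 388 (.both (.play 389 (.both (.ref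 137 194) (.play 327 (.ref 2 323)))) (.play 452 (.ref 4 195))))))) (.both (.play 135 (.both (.play 387 (.both (.ref 58 66) (.play 388 (.ref 318 194)))) (.play 199 (.ref 5 134)))) (.both (.play 135 (.both (.play 387 (.both (.ref 730 66) (.both (.play 386 (.both (.play 388 (.both (.play 324 (.both (.play 131 (.ref 4 131)) (.play 325 (.ref 1 322)))) (.play 452 (.ref 4 195)))) (.play 450 (.ref 6 194)))) (.play 388 (.ref 318 194))))) (.play 199 (.ref 5 134)))) (.both (.play 135 (.both (.play 387 (.both (.play 386 (.ref 379 66)) (.both (.ref 58 66) (.both (.ref 730 66) (.play 194 (.ref 326 130)))))) (.play 199 (.ref 5 134)))) (.play 135 (.both (.ref 1188 130) (.play 199 (.ref 5 134)))))))))) (.both (.play 197 (.ref 1418 130)) (.both (.ref 1420 130) (.play 197 (.ref 1425 130))))))) (.both (.play 197 (.both (.play 196 (.ref 129 2)) (.both (.play 326 (.ref 1425 130)) (.play 326 (.ref 326 133))))) (.both (.play 197 (.both (.play 196 (.ref 129 2)) (.both (.ref 1424 130) (.play 326 (.ref 580 133))))) (.both (.ref 1423 65)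 (.both (.play 197 (.both (.play 196 (.ref 309 129)) (.both (.play 387 (.both (.ref 1419 129) (.play 196 (.ref 554 129)))) (.play 326 (.ref 326 133))))) (.play 326 (.both (.play 197 (.ref 1418 130)) (.both (.play 197 (.ref 326 133)) (.ref 1410 197))))))))))))))))))))
 (.seq (.seq (.one (.play 259 (.both (.play 260 (.both (.play 325 (.both (.play 324 (.both (.play 67 (.both (.play 66 (.ref 133 0)) (.play 131 (.ref 7 67)))) (.play 389 (.ref 4 132)))) (.play 261 (.ref 4 68)))) (.play 323 (.ref 6 67)))) (.play 195 (.ref 6 3)))))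
 (.seq (.one (.play 67 (.both (.play 69 (.both (.play 66 (.ref 242 0)) (.play 5 (.ref 5 4)))) (.play 3 (.ref 7 3)))))
 (.one (.play 391 (.both (.ref 1447 0) (.play 390 (.ref 3 323)))))))
 (.seq (.one (.both (.play 3 (.ref 7 3)) (.ref 1183 64)))
 (.seq (.one (.play 195 (.both (.play 66 (.ref 534 2)) (.play 196 (.ref 0 128)))))
 (.one (.play 129 (.both (.play 197 (.both (.play 321 (.both (.ref 52 0) (.both (.play 128 (.ref 326 64)) (.play 130 (.ref 45 64))))) (.play 133 (.ref 5 132)))) (.both (.play 321 (.both (.play 130 (.ref 45 64)) (.both (.play 130 (.ref 782 64)) (.play 320 (.both (.play 384 (.ref 6 128)) (.play 259 (.both (.ref 457 128) (.play 258 (.ref 1 256))))))))) (.both (.play 197 (.both (.play 258 (.both (.play 322 (.ref 478 65)) (.play 259 (.ref 2 193)))) (.play 133 (.ref 5 132)))) (.play 197 (.both (.play 258 (.both (.play 322 (.ref 99 65)) (.play 259 (.ref 2 193)))) (.play 133 (.ref 5 132)))))))))))))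
 (.seq (.seq (.seq (.one (.both (.play 258 (.both (.play 194 (.both (.play 193 (.both (.play 1 (.ref 4 1)) (.play 192 (.ref 0 192)))) (.play 3 (.ref 6 2)))) (.play 322 (.ref 6 66)))) (.play 324 (.ref 4 67))))
 (.seq (.one (.play 194 (.both (.play 2 (.ref 4 2)) (.play 193 (.ref 112 192)))))
 (.one (.play 324 (.both (.play 323 (.both (.play 259 (.both (.play 195 (.ref 696 2)) (.both (.ref 1453 64) (.play 387 (.both (.play 195 (.ref 7 130)) (.ref 647 194)))))) (.both (.play 322 (.ref 1206 129)) (.play 322 (.ref 267 256))))) (.play 388 (.ref 6 132)))))))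
 (.seq (.one (.play 65 (.both (.ref 763 0) (.play 258 (.ref 49 1)))))
 (.seq (.one (.both (.play 257 (.both (.ref 1455 0) (.play 256 (.ref 1 192)))) (.play 128 (.ref 3 128))))
 (.one (.play 194 (.both (.play 1 (.ref 4 1)) (.play 195 (.ref 1098 128))))))))
 (.seq (.seq (.one (.play 65 (.both (.ref 816 0) (.play 322 (.ref 4 65)))))
 (.seq (.one (.play 390 (.both (.play 261 (.both (.play 195 (.both (.play 131 (.both (.ref 58 2) (.both (.play 194 (.both (.play 130 (.ref 744 64)) (.play 260 (.ref 3 194)))) (.play 260 (.both (.play 324 (.ref 49 67)) (.play 194 (.ref 3 194))))))) (.both (.play 194 (.both (.play 130 (.ref 696 2)) (.play 260 (.ref 3 194)))) (.both (.play 517 (.both (.play 387 (.both (.play 388 (.ref 397 67)) (.both (.play 196 (.ref 45 130)) (.play 388 (.ref 1440 194))))) (.play 453 (.ref 6 261)))) (.both (.play 387 (.both (.play 388 (.ref 368 66)) (.both (.play 194 (.ref 326 130)) (.play 388 (.ref 1440 194))))) (.ref 395 130)))))) (.play 197 (.ref 7 197)))) (.both (.play 261 (.ref 1449 194)) (.both (.play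 261 (.ref 326 197)) (.ref 1446 258))))))
 (.one (.play 259 (.both (.ref 1459 0) (.both (.play 324 (.both (.play 195 (.both (.play 131 (.both (.ref 396 3) (.both (.play 132 (.ref 782 66)) (.ref 1457 66)))) (.both (.play 131 (.ref 397 3)) (.both (.ref 1458 66) (.both (.play 131 (.both (.ref 1457 66) (.play 388 (.ref 4 131)))) (.play 387 (.both (.play 196 (.both (.play 194 (.both (.play 130 (.ref 7 130)) (.ref 740 194))) (.play 132 (.ref 5 131)))) (.both (.play 452 (.both (.ref 780 130) (.play 388 (.ref 4 195)))) (.ref 1191 194))))))))) (.both (.play 325 (.ref 1456 130)) (.play 325 (.ref 317 258))))) (.both (.play 390 (.both (.ref 1451 66) (.both (.ref 1454 129) (.both (.play 451 (.both (.play 517 (.both (.play 518 (.both (.play 387 (.both (.ref 52 130) (.play 450 (.both (.play 514 (.ref 6 258)) (.play 515 (.both (.play 583 (.both (.play 582 (.both (.play 389 (.both (.play 325 (.ref 7 325)) (.play 388 (.ref 1 386)))) (.play 647 (.ref 4 390)))) (.play 519 (.ref 4 326)))) (.play 516 (.ref 3 450)))))))) (.play 581 (.ref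 6 325)))) (.play 453 (.ref 6 261)))) (.both (.play 387 (.ref 715 130)) (.both (.ref 1207 258) (.both (.ref 1169 258) (.ref 1421 258)))))) (.both (.play 453 (.both (.play 263 (.both (.play 324 (.both (.play 452 (.both (.play 388 (.ref 696 131)) (.both (.play 451 (.both (.play 387 (.both (.play 260 (.ref 18 195)) (.play 386 (.ref 3 386)))) (.play 391 (.ref 2 387)))) (.play 451 (.ref 1206 258))))) (.play 325 (.ref 2 259)))) (.play 199 (.ref 5 198)))) (.play 517 (.ref 6 261)))) (.ref 1446 258)))))) (.both (.play 390 (.both (.play 387 (.both (.play 197 (.both (.play 195 (.both (.play 450 (.both (.play 451 (.both (.play 388 (.both (.ref 396 67) (.play 389 (.ref 1 386)))) (.play 514 (.ref 6 258)))) (.play 386 (.ref 6 194)))) (.both (.play 450 (.both (.ref 58 66) (.play 386 (.ref 6 194)))) (.both (.ref 407 129) (.play 194 (.ref 326 130)))))) (.play 261 (.ref 7 197)))) (.both (.play 453 (.both (.play 195 (.both (.play 388 (.ref 368 66)) (.both (.play 386 (.both (.ref 58 66) (.play 450 (.ref 6 194)))) (.play 388 (.both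 (.play 386 (.both (.play 450 (.ref 6 194)) (.play 389 (.ref 0 386)))) (.play 452 (.ref 4 195))))))) (.play 517 (.ref 6 261)))) (.both (.play 517 (.both (.play 518 (.both (.play 583 (.both (.play 582 (.both (.play 516 (.both (.play 451 (.ref 786 130)) (.play 515 (.ref 0 515)))) (.play 647 (.ref 4 390)))) (.play 519 (.ref 4 326)))) (.play 581 (.ref 6 325)))) (.play 453 (.ref 6 261)))) (.play 517 (.both (.play 518 (.both (.play 583 (.both (.play 582 (.both (.play 516 (.both (.play 452 (.both (.play 451 (.ref 4 259)) (.play 388 (.ref 81 259)))) (.play 515 (.ref 0 515)))) (.play 647 (.ref 4 390)))) (.play 519 (.ref 4 326)))) (.play 581 (.ref 6 325)))) (.play 453 (.ref 6 261)))))))) (.both (.ref 1454 129) (.both (.ref 1422 130) (.both (.ref 1447 194) (.play 451 (.both (.play 517 (.both (.play 260 (.both (.play 387 (.ref 45 194)) (.both (.play 387 (.both (.play 196 (.ref 5 195)) (.ref 1402 258))) (.play 518 (.both (.play 261 (.both (.play 263 (.both (.play 199 (.ref 5 198)) (.play 324 (.ref 1 259)))) (.play 197 (.ref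 7 197)))) (.play 581 (.ref 6 325))))))) (.play 453 (.ref 6 261)))) (.both (.play 261 (.both (.play 263 (.both (.play 260 (.both (.ref 1398 194) (.play 324 (.ref 1 259)))) (.play 199 (.ref 5 198)))) (.play 197 (.ref 7 197)))) (.both (.play 261 (.both (.play 197 (.ref 7 197)) (.ref 1421 258))) (.both (.ref 1207 258) (.ref 1169 258))))))))))) (.both (.play 325 (.both (.play 453 (.both (.play 261 (.both (.play 197 (.both (.play 133 (.both (.play 132 (.both (.play 68 (.ref 7 68)) (.play 196 (.both (.play 195 (.both (.play 387 (.ref 5 131)) (.play 194 (.ref 0 194)))) (.play 389 (.ref 7 132)))))) (.play 69 (.ref 4 69)))) (.play 390 (.ref 7 197)))) (.both (.play 389 (.ref 1452 194)) (.both (.play 390 (.ref 534 197)) (.play 518 (.ref 613 261)))))) (.both (.play 389 (.both (.play 261 (.ref 1452 194)) (.play 517 (.ref 5 261)))) (.both (.play 390 (.both (.play 261 (.ref 534 197)) (.play 517 (.ref 6 261)))) (.play 517 (.ref 664 261)))))) (.play 324 (.ref 317 258)))) (.both (.play 390 (.both (.ref 1451 66) (.both (.play 261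 (.ref 1449 194)) (.both (.ref 1447 194) (.play 261 (.ref 580 197)))))) (.both (.ref 1423 129) (.both (.play 390 (.both (.play 453 (.both (.play 261 (.both (.play 263 (.both (.play 452 (.both (.play 324 (.both (.play 388 (.ref 431 131)) (.play 260 (.ref 1 259)))) (.both (.play 324 (.both (.play 260 (.ref 1 259)) (.play 451 (.ref 267 385)))) (.play 451 (.ref 1206 258))))) (.play 199 (.ref 5 198)))) (.play 197 (.ref 7 197)))) (.play 517 (.ref 6 261)))) (.both (.play 261 (.ref 1449 194)) (.both (.ref 1395 195) (.both (.play 453 (.both (.play 261 (.both (.play 197 (.ref 7 197)) (.play 518 (.both (.play 325 (.ref 7 261)) (.ref 1080 325))))) (.play 517 (.ref 6 261)))) (.ref 1446 258)))))) (.both (.play 325 (.both (.play 390 (.both (.play 261 (.both (.play 453 (.both (.play 260 (.both (.play 389 (.both (.play 196 (.ref 7 196)) (.play 452 (.ref 220 259)))) (.play 258 (.ref 0 258)))) (.play 517 (.ref 6 261)))) (.play 197 (.ref 7 197)))) (.both (.play 261 (.ref 534 197)) (.ref 1411 261)))) (.both (.play 324 (.both (.ref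 1450 195) (.play 263 (.ref 2 259)))) (.play 324 (.ref 317 258))))) (.both (.play 390 (.both (.play 517 (.both (.play 518 (.both (.play 583 (.both (.play 582 (.both (.play 516 (.both (.ref 1448 194) (.play 515 (.ref 0 515)))) (.play 647 (.ref 4 390)))) (.play 519 (.ref 4 326)))) (.play 581 (.ref 6 325)))) (.play 453 (.ref 6 261)))) (.both (.ref 1395 195) (.both (.ref 366 197) (.ref 1394 259))))) (.play 390 (.both (.play 261 (.ref 1449 194)) (.both (.play 517 (.both (.play 518 (.both (.play 583 (.both (.play 582 (.both (.ref 1448 194) (.play 647 (.ref 4 390)))) (.play 519 (.ref 4 326)))) (.play 581 (.ref 6 325)))) (.play 453 (.ref 6 261)))) (.both (.ref 1395 195) (.both (.ref 366 197) (.ref 1446 258))))))))))))))))))))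
 (.seq (.seq (.one (.both (.play 0 (.ref 0 0)) (.play 70 (.ref 3 2))))
 (.one (.play 67 (.both (.play 3 (.ref 1461 0)) (.play 66 (.ref 3 1))))))
 (.seq (.one (.play 66 (.both (.play 5 (.ref 2 2)) (.ref 208 64))))
 (.one (.play 194 (.both (.play 257 (.both (.play 193 (.both (.ref 532 0) (.play 256 (.ref 1 192)))) (.play 258 (.ref 1 193)))) (.play 133 (.ref 2 130))))))))))
 (.seq (.seq (.seq (.seq (.one (.play 195 (.both (.play 194 (.both (.play 261 (.both (.play 325 (.ref 696 4)) (.play 262 (.ref 0 194)))) (.both (.ref 306 128) (.play 261 (.ref 12 128))))) (.play 134 (.ref 2 131)))))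
 (.seq (.one (.play 194 (.both (.play 386 (.both (.play 129 (.both (.ref 490 0) (.play 322 (.ref 7 129)))) (.play 450 (.ref 4 193)))) (.play 130 (.ref 5 129)))))
 (.one (.play 321 (.both (.play 385 (.both (.ref 1466 0) (.both (.ref 1186 128) (.play 194 (.ref 18 129))))) (.play 320 (.ref 1 256)))))))
 (.seq (.one (.play 260 (.both (.play 325 (.both (.play 196 (.both (.play 132 (.ref 368 3)) (.both (.play 132 (.both (.ref 367 3) (.both (.play 131 (.ref 326 67)) (.ref 369 67)))) (.both (.play 132 (.ref 370 67)) (.both (.play 132 (.ref 733 67)) (.play 388 (.both (.play 195 (.ref 227 131)) (.both (.ref 770 131) (.both (.play 453 (.both (.ref 652 131) (.play 389 (.ref 4 196)))) (.play 453 (.both (.play 389 (.ref 4 196)) (.ref 355 196)))))))))))) (.both (.play 326 (.both (.ref 1467 67) (.both (.ref 1465 128) (.both (.ref 1464 129) (.ref 266 258))))) (.both (.play 326 (.both (.ref 1467 67) (.play 259 (.ref 3 259)))) (.both (.play 326 (.both (.ref 1465 128) (.play 259 (.ref 3 259)))) (.both (.play 326 (.both (.ref 1464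 129) (.play 259 (.ref 3 259)))) (.play 326 (.ref 352 258)))))))) (.both (.ref 1459 1) (.both (.play 325 (.both (.play 196 (.both (.play 132 (.both (.play 323 (.ref 406 3)) (.play 389 (.ref 4 132)))) (.both (.ref 817 3) (.both (.ref 1458 67) (.play 388 (.both (.play 195 (.ref 326 131)) (.both (.ref 627 131) (.play 389 (.both (.play 387 (.both (.play 451 (.ref 6 195)) (.play 390 (.both (.play 323 (.ref 216 322)) (.play 454 (.ref 0 387)))))) (.play 453 (.ref 4 196))))))))))) (.both (.play 326 (.both (.play 391 (.both (.play 262 (.both (.play 198 (.ref 7 198)) (.play 323 (.ref 2 259)))) (.play 392 (.ref 0 324)))) (.both (.ref 1450 196) (.both (.ref 1076 258) (.play 391 (.both (.play 390 (.both (.ref 1047 262) (.play 323 (.ref 0 323)))) (.play 392 (.ref 0 324)))))))) (.both (.play 326 (.both (.ref 1450 196) (.play 259 (.ref 3 259)))) (.play 326 (.both (.ref 1076 258) (.play 259 (.ref 3 259)))))))) (.both (.play 391 (.both (.play 262 (.both (.play 261 (.both (.play 196 (.both (.play 518 (.both (.play 519 (.both (.play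 388 (.both (.ref 40 68) (.both (.ref 1186 131) (.play 197 (.ref 18 132))))) (.play 582 (.ref 6 326)))) (.play 454 (.ref 6 262)))) (.play 195 (.ref 3 195)))) (.play 323 (.ref 1 259)))) (.play 198 (.ref 7 198)))) (.both (.play 262 (.both (.play 323 (.both (.play 325 (.both (.play 454 (.both (.play 389 (.both (.play 453 (.ref 431 132)) (.play 390 (.ref 1461 322)))) (.play 518 (.ref 6 262)))) (.play 326 (.ref 2 259)))) (.play 261 (.ref 1 259)))) (.play 198 (.ref 7 198)))) (.both (.play 262 (.ref 1390 195)) (.both (.play 262 (.ref 326 198)) (.play 518 (.both (.play 519 (.both (.play 584 (.both (.play 583 (.both (.play 326 (.both (.play 325 (.both (.play 388 (.both (.play 517 (.both (.ref 810 260) (.play 516 (.ref 0 516)))) (.play 387 (.ref 1 323)))) (.play 392 (.ref 0 324)))) (.play 390 (.ref 7 326)))) (.play 648 (.ref 4 391)))) (.play 520 (.ref 4 327)))) (.play 582 (.ref 6 326)))) (.play 454 (.ref 6 262))))))))) (.both (.play 388 (.both (.play 196 (.ref 391 67)) (.both (.play 196 (.both (.play 389 (.ref 397 68)) (.both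 (.ref 657 131) (.play 195 (.both (.play 131 (.ref 7 131)) (.play 261 (.both (.play 262 (.ref 3 195)) (.ref 103 195)))))))) (.both (.play 196 (.both (.play 387 (.ref 406 67)) (.both (.play 389 (.ref 397 68)) (.ref 1190 195)))) (.both (.play 196 (.both (.play 387 (.ref 379 67)) (.both (.play 387 (.ref 406 67)) (.ref 657 131)))) (.both (.play 196 (.both (.play 389 (.ref 370 131)) (.play 195 (.both (.play 131 (.ref 7 131)) (.play 262 (.both (.play 261 (.ref 3 195)) (.play 198 (.both (.play 197 (.ref 0 195)) (.play 391 (.ref 7 198)))))))))) (.play 452 (.both (.play 261 (.both (.play 323 (.both (.play 259 (.ref 534 195)) (.play 262 (.ref 1 259)))) (.play 197 (.ref 5 196)))) (.ref 1433 259))))))))) (.both (.play 391 (.both (.play 454 (.both (.play 453 (.both (.play 389 (.both (.play 325 (.ref 696 132)) (.both (.ref 1453 194) (.play 517 (.both (.play 325 (.ref 7 260)) (.play 388 (.ref 98 260))))))) (.both (.play 389 (.both (.play 325 (.ref 696 132)) (.both (.play 388 (.both (.play 196 (.ref 4 196)) (.play 390 (.ref 964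 323)))) (.play 325 (.both (.play 517 (.ref 7 260)) (.ref 1392 323)))))) (.both (.play 452 (.ref 1206 259)) (.play 452 (.ref 267 386)))))) (.play 518 (.ref 6 262)))) (.both (.play 325 (.both (.play 389 (.both (.play 196 (.ref 478 132)) (.play 390 (.ref 295 322)))) (.both (.play 326 (.ref 863 258)) (.play 326 (.ref 133 259))))) (.both (.play 454 (.both (.play 325 (.both (.play 453 (.both (.play 389 (.ref 696 132)) (.both (.play 452 (.ref 1206 259)) (.play 452 (.both (.play 388 (.both (.play 516 (.ref 1291 259)) (.play 387 (.ref 3 387)))) (.play 392 (.ref 2 388))))))) (.both (.play 326 (.both (.play 388 (.both (.play 452 (.both (.play 453 (.ref 397 132)) (.both (.play 261 (.ref 18 196)) (.play 453 (.ref 138 259))))) (.play 387 (.ref 1 323)))) (.play 259 (.ref 3 259)))) (.play 326 (.ref 133 259))))) (.play 518 (.ref 6 262)))) (.both (.ref 1446 259) (.ref 1410 262)))))) (.both (.play 262 (.both (.play 261 (.both (.play 198 (.both (.play 195 (.both (.play 259 (.both (.ref 1463 192) (.play 194 (.ref 3 194)))) (.play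 196 (.ref 3 195)))) (.play 391 (.ref 7 198)))) (.play 323 (.ref 1 259)))) (.both (.play 261 (.ref 309 194)) (.both (.play 391 (.ref 1449 195)) (.play 391 (.ref 1390 195)))))) (.both (.play 391 (.both (.play 262 (.both (.play 198 (.ref 7 198)) (.play 519 (.both (.play 323 (.both (.play 261 (.ref 1 259)) (.play 584 (.both (.play 583 (.both (.play 646 (.both (.play 647 (.both (.play 390 (.both (.ref 1462 322) (.play 454 (.ref 7 390)))) (.play 710 (.ref 6 454)))) (.play 582 (.ref 6 390)))) (.play 648 (.ref 4 391)))) (.play 520 (.ref 4 327)))))) (.both (.play 584 (.both (.play 583 (.both (.play 390 (.both (.play 323 (.both (.play 261 (.ref 1 259)) (.ref 1462 322))) (.ref 461 262))) (.play 648 (.ref 4 391)))) (.play 520 (.ref 4 327)))) (.both (.play 518 (.ref 15 262)) (.play 584 (.ref 17 326)))))))) (.both (.play 262 (.ref 1449 195)) (.both (.play 262 (.both (.play 261 (.both (.play 326 (.both (.play 454 (.both (.play 392 (.both (.play 393 (.both (.play 390 (.both (.play 197 (.ref 7 197)) (.play 453 (.ref 1 389))))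 (.play 394 (.ref 3 326)))) (.play 325 (.ref 0 324)))) (.play 518 (.ref 6 262)))) (.play 259 (.ref 0 259)))) (.play 323 (.ref 1 259)))) (.play 198 (.ref 7 198)))) (.both (.play 262 (.ref 326 198)) (.ref 1446 259)))))) (.play 391 (.both (.play 454 (.both (.play 262 (.both (.play 261 (.both (.play 195 (.both (.play 259 (.ref 1283 194)) (.play 196 (.ref 3 195)))) (.play 323 (.ref 1 259)))) (.play 198 (.ref 7 198)))) (.play 518 (.ref 6 262)))) (.both (.play 262 (.ref 1425 195)) (.ref 1410 262))))))))))))))
 (.seq (.one (.play 257 (.both (.play 129 (.both (.ref 1455 0) (.play 128 (.ref 3 128)))) (.play 256 (.ref 1 192)))))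
 (.one (.play 67 (.both (.play 257 (.ref 605 0)) (.play 3 (.ref 5 2))))))))
 (.seq (.seq (.one (.play 388 (.both (.play 389 (.both (.play 325 (.both (.play 326 (.both (.play 261 (.both (.play 197 (.both (.play 133 (.both (.ref 367 4) (.play 134 (.ref 46 69)))) (.both (.play 134 (.both (.play 133 (.both (.play 262 (.both (.play 69 (.ref 4 69)) (.play 453 (.ref 691 195)))) (.play 70 (.ref 5 69)))) (.play 198 (.ref 5 133)))) (.both (.play 198 (.ref 849 130)) (.play 196 (.ref 1393 130)))))) (.both (.play 197 (.ref 463 68)) (.both (.play 453 (.both (.ref 1470 195) (.both (.play 262 (.ref 18 197)) (.play 516 (.ref 55 260))))) (.play 452 (.ref 77 196)))))) (.play 328 (.ref 1 324)))) (.both (.play 261 (.both (.play 197 (.ref 379 68)) (.both (.play 453 (.both (.ref 58 132) (.both (.play 518 (.both (.play 517 (.both (.play 516 (.both (.play 324 (.both (.ref 781 132) (.play 581 (.ref 7 324)))) (.play 580 (.ref 6 324)))) (.play 582 (.ref 4 325)))) (.play 454 (.ref 4 261)))) (.play 260 (.ref 227 196))))) (.both (.play 453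 (.both (.play 452 (.both (.play 260 (.both (.play 196 (.ref 7 196)) (.play 454 (.both (.play 451 (.both (.play 515 (.ref 171 258)) (.ref 827 385))) (.play 518 (.ref 4 261)))))) (.play 516 (.ref 6 260)))) (.both (.play 260 (.ref 326 196)) (.both (.play 260 (.ref 227 196)) (.play 516 (.ref 55 260)))))) (.play 452 (.ref 77 196)))))) (.play 326 (.ref 68 322))))) (.both (.play 390 (.both (.ref 1469 195) (.both (.play 451 (.ref 14 322)) (.both (.ref 266 322) (.ref 121 322))))) (.both (.play 390 (.both (.ref 1469 195) (.play 328 (.ref 2 324)))) (.both (.play 390 (.ref 267 322)) (.both (.play 390 (.ref 122 322)) (.play 390 (.ref 746 322)))))))) (.both (.ref 1468 64) (.both (.ref 1460 65) (.both (.play 326 (.both (.play 262 (.both (.play 198 (.both (.play 261 (.both (.play 197 (.both (.play 133 (.both (.play 325 (.both (.ref 1278 66) (.play 324 (.ref 6 132)))) (.play 69 (.ref 4 69)))) (.both (.play 133 (.ref 256 69)) (.play 390 (.both (.play 199 (.both (.play 200 (.both (.ref 555 133) (.play 201 (.ref 1 197)))) (.play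 135 (.ref 5 134)))) (.play 454 (.ref 7 197))))))) (.both (.play 260 (.both (.play 325 (.both (.play 197 (.both (.play 199 (.both (.play 133 (.both (.ref 959 66) (.play 69 (.ref 4 69)))) (.play 200 (.ref 1 196)))) (.both (.play 133 (.ref 256 69)) (.ref 1370 132)))) (.play 328 (.ref 3 260)))) (.play 259 (.ref 0 259)))) (.both (.play 260 (.both (.play 197 (.both (.play 199 (.both (.play 133 (.both (.play 69 (.ref 4 69)) (.play 324 (.ref 329 132)))) (.play 200 (.ref 1 196)))) (.both (.play 133 (.ref 256 69)) (.ref 1370 132)))) (.play 259 (.ref 0 259)))) (.both (.play 260 (.both (.play 325 (.both (.play 324 (.ref 311 131)) (.play 328 (.ref 3 260)))) (.play 259 (.ref 0 259)))) (.play 260 (.both (.play 325 (.both (.play 324 (.both (.ref 236 258) (.play 387 (.ref 1 323)))) (.play 328 (.ref 3 260)))) (.play 259 (.ref 0 259))))))))) (.play 134 (.ref 4 134)))) (.play 455 (.ref 7 262)))) (.both (.play 455 (.ref 1390 259)) (.both (.ref 1389 259) (.both (.play 455 (.both (.play 262 (.ref 7 262)) (.play 390 (.both (.play 389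 (.ref 143 324)) (.play 583 (.ref 7 326)))))) (.ref 1388 322)))))) (.both (.ref 1445 129) (.both (.ref 1416 193) (.both (.play 455 (.both (.play 326 (.both (.play 516 (.both (.play 452 (.both (.play 324 (.both (.play 515 (.ref 379 195)) (.ref 130 259))) (.both (.ref 1405 195) (.both (.play 324 (.both (.ref 1404 195) (.both (.ref 130 259) (.ref 1409 259)))) (.both (.play 582 (.both (.play 583 (.both (.play 580 (.both (.play 579 (.both (.play 324 (.both (.ref 130 259) (.play 515 (.ref 6 323)))) (.play 643 (.ref 6 387)))) (.both (.play 581 (.ref 144 387)) (.ref 1408 387)))) (.play 646 (.ref 6 390)))) (.play 518 (.ref 6 326)))) (.play 582 (.both (.play 583 (.both (.play 580 (.both (.play 387 (.ref 326 323)) (.play 581 (.ref 144 387)))) (.play 646 (.ref 6 390)))) (.play 518 (.ref 6 326))))))))) (.both (.play 324 (.both (.ref 1407 195) (.both (.ref 1406 195) (.both (.play 325 (.both (.play 328 (.both (.play 260 (.ref 10 259)) (.play 264 (.ref 5 263)))) (.play 387 (.ref 1 323)))) (.play 325 (.both (.play 328 (.both (.ref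 1398 259) (.play 264 (.ref 5 263)))) (.play 387 (.ref 1 323)))))))) (.both (.play 518 (.both (.play 517 (.both (.play 452 (.both (.play 324 (.ref 131 259)) (.play 451 (.ref 3 451)))) (.play 456 (.ref 2 452)))) (.play 582 (.ref 6 326)))) (.ref 1397 322))))) (.play 262 (.ref 7 262)))) (.both (.play 326 (.both (.play 516 (.both (.play 452 (.both (.ref 1405 195) (.both (.ref 1400 260) (.both (.play 580 (.both (.play 389 (.ref 45 323)) (.ref 1399 323))) (.play 580 (.both (.ref 1399 323) (.both (.play 579 (.both (.play 515 (.both (.play 324 (.ref 6 323)) (.ref 868 387))) (.play 643 (.ref 6 387)))) (.play 579 (.both (.play 582 (.both (.play 518 (.ref 6 326)) (.play 581 (.both (.ref 732 387) (.play 645 (.ref 4 388)))))) (.play 643 (.ref 6 387))))))))))) (.both (.play 328 (.both (.play 325 (.both (.play 324 (.both (.ref 197 258) (.both (.play 260 (.ref 10 259)) (.play 452 (.both (.play 261 (.ref 5 260)) (.play 517 (.ref 318 323))))))) (.play 389 (.ref 1 324)))) (.play 264 (.ref 5 263)))) (.both (.play 328 (.both (.play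 325 (.both (.play 324 (.both (.ref 197 258) (.both (.play 260 (.ref 10 259)) (.ref 1398 259)))) (.play 389 (.ref 1 324)))) (.play 264 (.ref 5 263)))) (.ref 1397 322))))) (.play 262 (.ref 7 262)))) (.both (.play 328 (.both (.play 326 (.both (.play 325 (.ref 14 259)) (.play 262 (.ref 7 262)))) (.play 264 (.ref 5 263)))) (.ref 1391 323))))) (.both (.play 455 (.both (.play 326 (.both (.play 328 (.both (.play 264 (.ref 5 263)) (.play 583 (.both (.play 648 (.both (.play 647 (.both (.play 710 (.both (.play 711 (.both (.play 454 (.both (.ref 1396 322) (.play 518 (.ref 7 454)))) (.play 774 (.ref 6 518)))) (.play 646 (.ref 6 454)))) (.play 712 (.ref 4 455)))) (.play 584 (.ref 4 391)))) (.both (.play 648 (.both (.play 647 (.both (.play 454 (.both (.ref 1396 322) (.ref 461 326))) (.play 712 (.ref 4 455)))) (.play 584 (.ref 4 391)))) (.both (.play 582 (.ref 15 326)) (.play 648 (.ref 17 390)))))))) (.play 262 (.ref 7 262)))) (.both (.play 326 (.ref 1390 259)) (.both (.ref 1395 260) (.both (.play 326 (.ref 326 262)) (.ref 1394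 324)))))) (.both (.play 455 (.both (.play 326 (.both (.play 518 (.both (.play 328 (.both (.play 264 (.ref 5 263)) (.play 389 (.both (.play 517 (.both (.play 453 (.both (.play 581 (.ref 833 322)) (.both (.play 581 (.ref 1393 322)) (.play 452 (.both (.play 454 (.both (.play 387 (.ref 3 387)) (.play 516 (.both (.ref 796 387) (.play 515 (.ref 1 451)))))) (.both (.play 451 (.ref 112 450)) (.play 451 (.ref 155 450)))))))) (.both (.play 516 (.ref 1165 323)) (.both (.play 453 (.both (.play 581 (.ref 326 324)) (.both (.play 454 (.both (.play 581 (.both (.play 324 (.ref 7 324)) (.ref 414 388))) (.play 456 (.ref 3 388)))) (.ref 1392 387)))) (.both (.play 516 (.ref 267 450)) (.play 516 (.ref 122 450))))))) (.play 390 (.ref 2 324)))))) (.play 582 (.ref 6 326)))) (.play 262 (.ref 7 262)))) (.both (.play 326 (.ref 1390 259)) (.both (.play 326 (.ref 326 262)) (.ref 1391 323))))) (.play 326 (.both (.play 455 (.ref 1390 259)) (.both (.ref 1389 259) (.both (.play 455 (.ref 326 262)) (.ref 1388 322))))))))))))))))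
 (.seq (.one (.play 519 (.both (.ref 1471 0) (.both (.ref 1387 65) (.both (.ref 1301 67) (.both (.play 455 (.both (.ref 1137 131) (.both (.ref 1131 260) (.both (.play 326 (.ref 326 262)) (.play 518 (.both (.play 517 (.both (.play 516 (.both (.ref 568 324) (.ref 121 450))) (.both (.ref 939 324) (.both (.play 520 (.both (.play 584 (.ref 4 327)) (.ref 259 452))) (.play 516 (.ref 122 450)))))) (.play 582 (.ref 6 326)))))))) (.both (.play 455 (.both (.play 326 (.both (.play 390 (.both (.play 328 (.both (.play 325 (.both (.ref 432 132) (.both (.ref 508 259) (.ref 1136 323)))) (.play 264 (.ref 5 263)))) (.play 583 (.ref 7 326)))) (.play 262 (.ref 7 262)))) (.both (.play 326 (.ref 227 262)) (.play 520 (.both (.play 521 (.both (.play 454 (.both (.play 457 (.both (.play 585 (.both (.play 458 (.both (.play 394 (.ref 18 329)) (.play 518 (.ref 2 454)))) (.both (.play 394 (.ref 37 329)) (.play 586 (.ref 450 390))))) (.both (.play 394 (.ref 1231 326)) (.both (.play 394 (.ref 454 326)) (.both (.play 456 (.both (.play 394 (.ref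 2 390)) (.play 518 (.ref 176 453)))) (.play 518 (.both (.play 517 (.both (.play 516 (.ref 341 451)) (.play 456 (.ref 1 453)))) (.play 458 (.ref 2 454))))))))) (.both (.play 453 (.ref 112 452)) (.play 453 (.ref 155 452))))) (.both (.play 522 (.both (.ref 1294 390) (.both (.ref 80 455) (.ref 246 455)))) (.both (.play 522 (.both (.play 586 (.both (.play 523 (.both (.play 585 (.both (.play 650 (.both (.play 457 (.ref 4 393)) (.play 714 (.ref 675 457)))) (.play 518 (.ref 0 518)))) (.play 456 (.ref 3 455)))) (.play 587 (.ref 0 519)))) (.play 454 (.ref 3 454)))) (.both (.play 522 (.both (.ref 1294 390) (.play 454 (.ref 3 454)))) (.play 522 (.ref 247 454))))))) (.play 584 (.ref 4 327))))))) (.both (.ref 1292 193) (.both (.ref 1270 257) (.both (.play 520 (.both (.play 518 (.both (.play 455 (.both (.ref 1252 258) (.both (.ref 1249 259) (.both (.ref 1248 259) (.both (.ref 1247 260) (.both (.ref 1253 325) (.both (.ref 1235 450) (.ref 1233 451)))))))) (.both (.play 455 (.both (.ref 1252 258) (.play 582 (.ref 6 326)))) (.both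 (.play 455 (.ref 1250 259)) (.both (.play 455 (.both (.play 582 (.ref 6 326)) (.ref 1233 451))) (.both (.play 582 (.both (.play 454 (.both (.play 390 (.ref 5 326)) (.play 453 (.ref 295 451)))) (.play 455 (.ref 6 326)))) (.both (.play 521 (.both (.play 582 (.ref 1204 325)) (.both (.ref 1251 452) (.play 457 (.both (.play 585 (.both (.ref 266 452) (.play 586 (.ref 0 518)))) (.play 458 (.ref 2 454))))))) (.play 582 (.both (.play 521 (.ref 1204 325)) (.play 455 (.ref 6 326))))))))))) (.both (.play 455 (.both (.play 518 (.ref 1250 259)) (.play 584 (.ref 4 327)))) (.both (.play 455 (.both (.play 518 (.both (.ref 1248 259) (.play 582 (.ref 6 326)))) (.play 584 (.ref 4 327)))) (.both (.play 455 (.both (.play 518 (.both (.ref 1247 260) (.play 582 (.ref 6 326)))) (.play 584 (.ref 4 327)))) (.both (.play 521 (.both (.play 455 (.both (.play 518 (.both (.play 582 (.ref 6 326)) (.ref 1246 451))) (.play 584 (.ref 4 327)))) (.both (.play 518 (.both (.ref 611 325) (.both (.play 582 (.both (.play 455 (.ref 6 326)) (.ref 78 454)))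 (.play 457 (.both (.play 585 (.both (.play 517 (.ref 437 451)) (.play 586 (.ref 0 518)))) (.play 458 (.ref 2 454))))))) (.both (.play 455 (.both (.play 518 (.both (.play 582 (.ref 6 326)) (.play 586 (.both (.play 522 (.both (.ref 855 452) (.play 587 (.ref 0 519)))) (.play 585 (.ref 0 518)))))) (.play 584 (.ref 4 327)))) (.both (.play 518 (.both (.play 457 (.ref 1008 325)) (.both (.play 455 (.ref 206 326)) (.play 457 (.ref 1109 389))))) (.both (.play 455 (.both (.ref 1226 326) (.play 584 (.ref 4 327)))) (.both (.play 455 (.both (.play 584 (.ref 4 327)) (.play 522 (.both (.ref 1236 391) (.both (.ref 80 455) (.ref 246 455)))))) (.play 518 (.both (.play 457 (.ref 1109 389)) (.both (.play 457 (.both (.play 585 (.both (.ref 444 392) (.play 586 (.ref 0 518)))) (.play 458 (.ref 2 454)))) (.both (.play 457 (.ref 267 452)) (.play 585 (.ref 25 516))))))))))))) (.both (.play 521 (.both (.ref 1245 324) (.both (.play 518 (.both (.play 454 (.ref 1244 325)) (.both (.play 457 (.ref 122 452)) (.play 457 (.ref 267 452))))) (.ref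 1242 327)))) (.both (.play 521 (.both (.play 455 (.ref 323 325)) (.both (.play 518 (.both (.play 454 (.ref 1244 325)) (.ref 303 389))) (.both (.play 518 (.both (.ref 611 325) (.both (.play 582 (.ref 1204 325)) (.play 454 (.ref 185 453))))) (.both (.ref 1243 326) (.play 455 (.both (.play 518 (.both (.play 582 (.ref 6 326)) (.ref 72 454))) (.play 584 (.ref 4 327))))))))) (.play 521 (.both (.ref 1243 326) (.both (.play 455 (.ref 549 326)) (.both (.ref 1242 327) (.both (.play 584 (.both (.play 455 (.ref 4 327)) (.play 648 (.both (.play 457 (.ref 979 392)) (.both (.play 457 (.ref 329 392)) (.both (.play 712 (.both (.ref 470 455) (.both (.ref 44 519) (.play 776 (.ref 36 520))))) (.play 712 (.ref 37 456)))))))) (.play 522 (.both (.play 455 (.both (.ref 1236 391) (.play 454 (.ref 3 454)))) (.both (.play 455 (.ref 247 454)) (.both (.play 455 (.ref 185 454)) (.ref 78 455)))))))))))))))))) (.both (.play 455 (.both (.play 326 (.both (.play 262 (.ref 7 262)) (.play 518 (.both (.play 517 (.both (.play 520 (.both (.play 584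 (.ref 4 327)) (.ref 306 451))) (.both (.play 520 (.both (.play 584 (.ref 4 327)) (.play 516 (.ref 882 451)))) (.both (.play 520 (.both (.ref 1118 324) (.play 584 (.ref 4 327)))) (.play 516 (.ref 122 450)))))) (.play 582 (.ref 6 326)))))) (.both (.play 326 (.ref 326 262)) (.both (.play 326 (.ref 227 262)) (.play 582 (.ref 55 326)))))) (.both (.play 455 (.both (.play 326 (.ref 326 262)) (.both (.play 326 (.ref 227 262)) (.play 518 (.both (.play 520 (.both (.play 584 (.ref 4 327)) (.ref 1235 450))) (.play 582 (.ref 6 326))))))) (.both (.play 455 (.both (.play 326 (.ref 326 262)) (.both (.play 326 (.ref 227 262)) (.play 518 (.both (.play 520 (.both (.play 584 (.ref 4 327)) (.ref 1233 451))) (.play 582 (.ref 6 326))))))) (.both (.play 455 (.both (.play 326 (.both (.play 262 (.ref 7 262)) (.play 518 (.both (.play 520 (.both (.ref 820 323) (.play 584 (.ref 4 327)))) (.play 582 (.ref 6 326)))))) (.both (.ref 366 262) (.both (.play 326 (.ref 227 262)) (.play 582 (.ref 55 326)))))) (.play 520 (.both (.play 521 (.both (.play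 455 (.both (.play 326 (.both (.play 262 (.ref 7 262)) (.play 454 (.both (.play 457 (.ref 1231 326)) (.both (.play 453 (.ref 112 452)) (.play 453 (.ref 155 452))))))) (.play 584 (.ref 4 327)))) (.both (.play 455 (.both (.play 584 (.ref 4 327)) (.play 454 (.ref 113 452)))) (.ref 1221 326)))) (.both (.play 521 (.both (.play 455 (.both (.play 326 (.both (.play 262 (.ref 7 262)) (.play 328 (.both (.play 264 (.ref 5 263)) (.ref 482 327))))) (.play 584 (.ref 4 327)))) (.both (.play 455 (.ref 548 326)) (.both (.play 455 (.both (.play 518 (.both (.play 582 (.ref 6 326)) (.play 457 (.ref 484 326)))) (.play 584 (.ref 4 327)))) (.play 522 (.both (.ref 1220 326) (.both (.ref 1219 326) (.both (.ref 1218 326) (.both (.play 458 (.ref 1110 327)) (.ref 1230 390)))))))))) (.both (.play 518 (.both (.play 517 (.both (.play 455 (.both (.play 582 (.ref 6 326)) (.play 456 (.ref 86 452)))) (.both (.play 582 (.both (.play 455 (.ref 6 326)) (.ref 1229 388))) (.play 580 (.ref 14 451))))) (.both (.ref 166 323) (.both (.play 455 (.ref 206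 326)) (.play 517 (.both (.play 453 (.both (.play 581 (.both (.play 582 (.both (.play 646 (.ref 256 389)) (.play 645 (.both (.play 584 (.both (.play 644 (.ref 32 452)) (.play 585 (.ref 0 517)))) (.play 709 (.ref 18 453)))))) (.play 580 (.ref 1 516)))) (.play 452 (.ref 3 452)))) (.both (.play 580 (.ref 14 451)) (.both (.play 584 (.ref 12 451)) (.play 584 (.ref 25 515)))))))))) (.both (.play 521 (.both (.play 455 (.both (.ref 1228 323) (.play 584 (.ref 4 327)))) (.both (.play 455 (.both (.ref 1228 323) (.both (.play 522 (.ref 273 326)) (.both (.ref 1226 326) (.play 522 (.ref 185 454)))))) (.both (.play 455 (.ref 550 326)) (.both (.play 455 (.ref 321 326)) (.ref 1222 326)))))) (.both (.play 521 (.both (.play 518 (.both (.play 582 (.both (.play 453 (.both (.play 517 (.both (.play 585 (.both (.play 457 (.both (.play 330 (.ref 5 329)) (.play 456 (.ref 2 453)))) (.play 586 (.ref 0 518)))) (.play 452 (.ref 3 452)))) (.play 454 (.ref 3 453)))) (.play 581 (.ref 1 517)))) (.both (.ref 611 325) (.play 454 (.both (.play 455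 (.both (.play 457 (.both (.ref 483 326) (.play 456 (.ref 2 390)))) (.play 522 (.ref 3 454)))) (.play 453 (.ref 3 453))))))) (.both (.play 518 (.both (.ref 611 325) (.play 457 (.ref 484 326)))) (.both (.play 518 (.both (.play 457 (.ref 484 326)) (.both (.play 582 (.ref 118 453)) (.play 582 (.ref 66 517))))) (.both (.play 518 (.both (.ref 611 325) (.both (.play 454 (.both (.play 455 (.both (.ref 1217 390) (.play 522 (.ref 3 454)))) (.play 453 (.ref 3 453)))) (.play 582 (.ref 118 453))))) (.ref 1215 326)))))) (.both (.play 521 (.both (.play 518 (.both (.ref 452 326) (.both (.play 585 (.ref 12 452)) (.play 582 (.both (.ref 522 452) (.play 581 (.ref 1 517))))))) (.both (.play 518 (.both (.ref 452 326) (.both (.play 582 (.ref 118 453)) (.play 582 (.ref 66 517))))) (.both (.play 522 (.both (.play 582 (.both (.play 518 (.both (.play 585 (.both (.play 584 (.both (.play 457 (.ref 333 328)) (.play 517 (.ref 0 517)))) (.play 586 (.ref 0 518)))) (.play 581 (.ref 1 517)))) (.play 583 (.ref 1 518)))) (.both (.ref 1218 326) (.ref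 1223 454)))) (.both (.ref 1222 326) (.both (.ref 1214 326) (.both (.ref 1221 326) (.ref 1216 452)))))))) (.both (.play 521 (.both (.play 455 (.both (.play 518 (.both (.play 582 (.ref 6 326)) (.play 454 (.both (.ref 1217 390) (.play 453 (.ref 3 453)))))) (.play 584 (.ref 4 327)))) (.both (.play 455 (.ref 548 326)) (.both (.play 455 (.both (.play 522 (.both (.ref 480 327) (.play 454 (.ref 3 454)))) (.play 584 (.ref 4 327)))) (.ref 1216 452))))) (.both (.play 455 (.both (.play 518 (.both (.play 521 (.both (.play 457 (.ref 484 326)) (.play 454 (.ref 30 453)))) (.play 582 (.ref 6 326)))) (.play 584 (.ref 4 327)))) (.play 521 (.both (.play 455 (.both (.play 584 (.ref 4 327)) (.play 454 (.both (.play 456 (.both (.play 457 (.ref 2 390)) (.play 453 (.ref 0 453)))) (.play 522 (.ref 3 454)))))) (.both (.ref 1215 326) (.both (.ref 1214 326) (.play 584 (.both (.play 455 (.ref 4 327)) (.play 457 (.both (.play 585 (.ref 600 327)) (.play 648 (.ref 329 392)))))))))))))))))))))))))))))))))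
 (.one (.play 131 (.both (.play 322 (.ref 406 2)) (.both (.play 324 (.ref 397 3)) (.both (.ref 515 65) (.ref 523 128))))))))
 (.seq (.one (.play 64 (.both (.play 4 (.ref 2 0)) (.play 131 (.ref 0 64)))))
 (.seq (.one (.play 68 (.both (.play 4 (.ref 5 3)) (.play 129 (.ref 2 64)))))
 (.one (.play 196 (.both (.play 132 (.both (.play 68 (.ref 335 3)) (.play 257 (.both (.play 193 (.both (.ref 1475 65) (.play 192 (.ref 3 192)))) (.play 256 (.ref 2 192)))))) (.play 197 (.ref 1 194)))))))))
 (.seq (.seq (.seq (.one (.play 130 (.both (.play 194 (.both (.play 195 (.both (.ref 596 1) (.play 134 (.ref 1 130)))) (.play 193 (.ref 1 129)))) (.both (.ref 11 64) (.ref 24 128)))))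
 (.seq (.one (.play 129 (.both (.play 65 (.ref 99 1)) (.play 130 (.ref 1 128)))))
 (.one (.play 131 (.both (.ref 1478 0) (.play 195 (.ref 2 128)))))))
 (.seq (.one (.play 194 (.both (.play 130 (.both (.play 258 (.both (.ref 127 2) (.play 257 (.ref 1 193)))) (.play 129 (.ref 3 129)))) (.both (.ref 11 128) (.ref 24 192)))))
 (.seq (.one (.play 6 (.both (.ref 761 0) (.play 70 (.ref 2 3)))))
 (.one (.play 129 (.both (.ref 48 0) (.play 66 (.ref 5 65))))))))
 (.seq (.seq (.one (.play 130 (.both (.ref 1482 0) (.both (.play 194 (.ref 616 65)) (.play 194 (.both (.play 385 (.ref 5 129)) (.play 387 (.ref 98 130))))))))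
 (.seq (.one (.play 260 (.both (.play 321 (.both (.play 193 (.both (.ref 1483 0) (.play 192 (.ref 3 192)))) (.play 320 (.ref 1 256)))) (.play 196 (.ref 2 193)))))
 (.one (.play 130 (.both (.play 65 (.ref 256 1)) (.play 131 (.ref 1 128)))))))
 (.seq (.seq (.one (.play 131 (.both (.play 67 (.ref 335 2)) (.ref 1475 64))))
 (.one (.play 131 (.both (.play 196 (.both (.play 257 (.both (.play 193 (.both (.ref 1486 1) (.play 192 (.ref 3 192)))) (.play 256 (.ref 2 192)))) (.play 197 (.ref 1 194)))) (.play 67 (.ref 4 67))))))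
 (.seq (.one (.play 66 (.both (.play 2 (.ref 7 2)) (.play 65 (.ref 169 64)))))
 (.one (.play 196 (.both (.play 389 (.both (.play 258 (.both (.play 194 (.both (.play 195 (.both (.play 131 (.both (.play 67 (.ref 49 3)) (.play 322 (.both (.play 130 (.both (.ref 537 64) (.play 323 (.ref 534 66)))) (.play 386 (.ref 5 130)))))) (.play 262 (.ref 3 194)))) (.play 193 (.ref 3 193)))) (.both (.play 194 (.both (.play 195 (.both (.play 257 (.ref 86 192)) (.play 262 (.ref 3 194)))) (.play 193 (.ref 3 193)))) (.ref 1474 193)))) (.play 453 (.ref 7 196)))) (.both (.play 132 (.both (.play 195 (.both (.play 323 (.both (.play 194 (.both (.play 131 (.both (.play 67 (.ref 256 3)) (.ref 1488 64))) (.play 193 (.ref 0 193)))) (.play 387 (.ref 5 131)))) (.both (.play 323 (.both (.play 322 (.both (.play 131 (.both (.play 67 (.ref 256 3)) (.play 386 (.ref 6 130)))) (.play 262 (.ref 1 258)))) (.play 387 (.ref 5 131)))) (.play 194 (.ref 216 193))))) (.play 68 (.ref 4 68)))) (.both (.play 132 (.ref 478 68)) (.play 389 (.ref 431 68))))))))))))))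
 (.seq (.seq (.seq (.seq (.seq (.seq (.one (.play 66 (.both (.ref 11 0) (.both (.ref 529 1) (.ref 24 64)))))
 (.seq (.one (.play 194 (.both (.play 131 (.ref 468 2)) (.play 193 (.ref 1 192)))))
 (.one (.play 195 (.both (.ref 1491 0) (.play 259 (.ref 2 192)))))))
 (.seq (.one (.play 193 (.both (.play 65 (.both (.ref 34 0) (.play 64 (.ref 3 64)))) (.play 192 (.ref 1 128)))))
 (.seq (.one (.play 130 (.both (.ref 1493 1) (.both (.play 65 (.ref 102 64)) (.both (.ref 11 64) (.ref 24 128))))))
 (.one (.play 66 (.both (.play 4 (.both (.play 65 (.ref 882 0)) (.play 3 (.ref 3 3)))) (.play 133 (.ref 0 66))))))))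
 (.seq (.seq (.one (.play 71 (.both (.play 67 (.both (.ref 865 0) (.both (.ref 1495 0) (.play 3 (.ref 10 2))))) (.play 7 (.ref 2 4)))))
 (.seq (.one (.play 130 (.both (.play 194 (.both (.play 133 (.both (.ref 760 0) (.play 134 (.ref 2 130)))) (.play 129 (.ref 3 129)))) (.play 131 (.ref 3 130)))))
 (.one (.play 259 (.both (.play 195 (.both (.play 196 (.both (.play 324 (.both (.play 388 (.both (.play 133 (.both (.play 132 (.both (.play 68 (.ref 286 3)) (.play 69 (.ref 5 68)))) (.play 197 (.ref 5 132)))) (.play 452 (.ref 7 195)))) (.both (.play 131 (.both (.play 197 (.both (.play 133 (.ref 99 69)) (.play 130 (.ref 113 128)))) (.play 67 (.ref 4 67)))) (.play 388 (.ref 534 131))))) (.play 263 (.ref 3 195)))) (.play 194 (.ref 3 194)))) (.both (.ref 1497 64) (.both (.play 258 (.ref 845 192)) (.ref 11 193))))))))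
 (.seq (.one (.play 6 (.both (.play 66 (.ref 433 0)) (.play 70 (.ref 2 3)))))
 (.seq (.one (.play 199 (.both (.play 133 (.both (.play 260 (.both (.ref 429 4) (.play 259 (.ref 1 195)))) (.both (.play 69 (.ref 99 5)) (.play 259 (.both (.play 195 (.both (.play 194 (.both (.ref 121 128) (.play 261 (.ref 0 194)))) (.play 258 (.ref 1 194)))) (.play 260 (.ref 1 195))))))) (.play 135 (.ref 2 132)))))
 (.one (.play 258 (.both (.play 194 (.both (.play 133 (.both (.play 69 (.both (.play 5 (.ref 4 5)) (.ref 1007 128))) (.play 134 (.ref 2 130)))) (.play 257 (.ref 1 193)))) (.play 259 (.ref 1 194)))))))))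
 (.seq (.seq (.seq (.one (.play 195 (.both (.ref 1501 0) (.both (.play 259 (.both (.play 260 (.both (.play 133 (.both (.play 324 (.ref 1413 4)) (.both (.play 69 (.ref 478 5)) (.play 324 (.both (.play 326 (.both (.play 261 (.both (.play 323 (.both (.play 387 (.ref 126 131)) (.play 322 (.ref 1 258)))) (.play 327 (.ref 0 259)))) (.play 390 (.ref 7 133)))) (.play 388 (.ref 5 132))))))) (.play 199 (.ref 1 195)))) (.play 258 (.ref 1 194)))) (.both (.play 194 (.ref 846 128)) (.ref 24 193))))))
 (.seq (.one (.play 128 (.both (.play 129 (.both (.ref 768 0) (.play 64 (.ref 7 64)))) (.play 192 (.ref 7 128)))))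
 (.one (.play 70 (.both (.ref 310 0) (.play 6 (.ref 2 3)))))))
 (.seq (.one (.play 258 (.both (.play 129 (.both (.play 193 (.both (.play 132 (.both (.play 131 (.both (.play 322 (.ref 358 1)) (.play 192 (.ref 2 128)))) (.play 133 (.ref 2 129)))) (.play 128 (.ref 3 128)))) (.play 130 (.ref 3 129)))) (.play 257 (.ref 1 193)))))
 (.seq (.one (.play 133 (.both (.play 69 (.both (.play 5 (.ref 4 5)) (.play 260 (.both (.play 324 (.ref 329 68)) (.play 259 (.ref 70 193)))))) (.both (.play 69 (.ref 478 5)) (.play 326 (.both (.play 195 (.both (.play 259 (.both (.play 260 (.both (.play 324 (.both (.play 131 (.both (.play 67 (.ref 4 67)) (.play 194 (.ref 1081 128)))) (.play 388 (.ref 5 132)))) (.play 199 (.ref 1 195)))) (.play 258 (.ref 1 194)))) (.both (.play 259 (.both (.play 260 (.both (.play 324 (.both (.play 131 (.both (.play 261 (.both (.ref 1156 66) (.play 327 (.ref 0 259)))) (.play 67 (.ref 4 67)))) (.play 388 (.ref 5 132)))) (.play 199 (.ref 1 195)))) (.play 258 (.ref 1 194)))) (.ref 1474 130)))) (.play 390 (.ref 7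 133))))))))
 (.one (.play 65 (.both (.play 1 (.ref 4 1)) (.play 320 (.ref 76 64))))))))
 (.seq (.seq (.one (.play 65 (.both (.play 256 (.ref 5 0)) (.play 258 (.ref 81 1)))))
 (.seq (.one (.play 65 (.both (.play 66 (.both (.play 2 (.ref 5 1)) (.ref 1508 65))) (.play 320 (.ref 6 64)))))
 (.one (.play 65 (.both (.play 258 (.ref 91 1)) (.play 64 (.ref 0 64)))))))
 (.seq (.one (.play 323 (.both (.play 195 (.both (.ref 1057 2) (.both (.play 132 (.both (.ref 1482 2) (.both (.play 196 (.ref 616 67)) (.ref 1508 131)))) (.play 194 (.ref 113 192))))) (.both (.play 195 (.both (.play 322 (.both (.play 131 (.both (.play 130 (.both (.play 68 (.both (.play 67 (.both (.play 196 (.both (.play 3 (.ref 4 3)) (.play 129 (.both (.play 128 (.ref 0 128)) (.play 194 (.both (.play 197 (.ref 3 129)) (.play 193 (.ref 0 193)))))))) (.play 4 (.ref 5 3)))) (.play 132 (.ref 5 67)))) (.play 66 (.ref 7 66)))) (.play 386 (.ref 6 130)))) (.both (.play 131 (.both (.play 130 (.ref 1393 64)) (.play 386 (.ref 6 130)))) (.both (.play 131 (.both (.play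 132 (.ref 849 64)) (.play 386 (.ref 6 130)))) (.both (.play 196 (.both (.play 194 (.both (.play 132 (.ref 478 68)) (.play 193 (.ref 0 193)))) (.both (.play 132 (.ref 616 67)) (.ref 1510 129)))) (.ref 1509 66)))))) (.both (.play 194 (.both (.play 196 (.both (.play 132 (.ref 616 67)) (.play 193 (.ref 0 193)))) (.play 262 (.ref 3 194)))) (.both (.play 322 (.both (.ref 1509 66) (.play 262 (.ref 1 258)))) (.play 262 (.ref 504 194)))))) (.both (.play 322 (.both (.play 321 (.both (.play 196 (.both (.ref 429 67) (.both (.play 132 (.ref 478 68)) (.play 387 (.both (.play 389 (.both (.play 195 (.both (.ref 537 129) (.play 386 (.ref 335 130)))) (.play 453 (.ref 7 196)))) (.play 451 (.ref 5 195))))))) (.play 320 (.ref 2 256)))) (.both (.play 196 (.both (.ref 1507 67) (.both (.play 132 (.ref 478 68)) (.play 389 (.both (.play 324 (.both (.play 386 (.both (.play 195 (.both (.play 131 (.ref 6 130)) (.ref 956 194))) (.play 385 (.ref 1 321)))) (.play 390 (.ref 0 322)))) (.play 453 (.ref 7 196))))))) (.play 321 (.ref 69 256)))))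 (.play 322 (.ref 70 256)))))))
 (.seq (.one (.play 195 (.both (.play 259 (.ref 5 3)) (.play 194 (.ref 68 128)))))
 (.one (.play 196 (.both (.play 132 (.both (.play 389 (.both (.play 195 (.both (.play 323 (.both (.play 194 (.both (.ref 834 0) (.play 193 (.ref 0 193)))) (.play 387 (.ref 5 131)))) (.both (.ref 1512 128) (.play 194 (.ref 216 193))))) (.play 453 (.ref 7 196)))) (.play 68 (.ref 4 68)))) (.both (.play 132 (.both (.play 195 (.both (.play 323 (.both (.play 194 (.both (.play 258 (.both (.ref 1156 65) (.play 257 (.ref 86 192)))) (.play 193 (.ref 0 193)))) (.play 387 (.ref 5 131)))) (.both (.ref 1512 128) (.play 194 (.ref 216 193))))) (.play 68 (.ref 4 68)))) (.both (.play 132 (.ref 478 68)) (.play 389 (.both (.play 258 (.both (.play 257 (.ref 882 192)) (.both (.ref 306 192) (.ref 1269 193)))) (.play 453 (.ref 7 196))))))))))))))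
 (.seq (.seq (.seq (.seq (.one (.play 134 (.both (.play 136 (.both (.play 327 (.both (.play 196 (.both (.play 195 (.both (.play 261 (.both (.ref 432 3) (.both (.play 132 (.both (.play 325 (.both (.play 133 (.both (.play 68 (.ref 7 68)) (.play 194 (.ref 2 130)))) (.play 389 (.ref 7 132)))) (.play 131 (.ref 3 131)))) (.play 194 (.ref 433 128))))) (.both (.play 194 (.ref 1127 128)) (.play 131 (.ref 10 130))))) (.both (.play 132 (.both (.play 260 (.both (.play 68 (.both (.ref 1151 2) (.play 261 (.ref 49 4)))) (.play 259 (.ref 1 195)))) (.play 131 (.ref 3 131)))) (.both (.ref 1128 128) (.both (.ref 353 129) (.play 131 (.ref 102 130))))))) (.play 391 (.ref 7 134)))) (.play 135 (.ref 1 133)))) (.both (.play 70 (.both (.play 327 (.both (.play 196 (.both (.play 195 (.both (.play 261 (.both (.ref 432 3) (.both (.ref 1130 66) (.play 132 (.both (.play 194 (.ref 433 128)) (.play 131 (.ref 3 131))))))) (.both (.play 194 (.ref 1127 128)) (.play 131 (.ref 10 130))))) (.both (.play 132 (.both (.play 260 (.both (.play 261 (.both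 (.ref 749 3) (.both (.play 325 (.ref 256 68)) (.play 325 (.ref 1129 68))))) (.play 259 (.ref 1 195)))) (.play 131 (.ref 3 131)))) (.both (.ref 1128 128) (.both (.ref 353 129) (.play 131 (.ref 102 130))))))) (.play 391 (.ref 7 134)))) (.play 6 (.ref 4 6)))) (.both (.play 70 (.both (.play 135 (.both (.play 196 (.both (.play 132 (.both (.play 260 (.both (.play 133 (.both (.play 261 (.both (.ref 807 3) (.play 325 (.ref 5 69)))) (.play 69 (.ref 126 4)))) (.play 259 (.ref 1 195)))) (.play 131 (.ref 3 131)))) (.play 195 (.ref 2 131)))) (.play 136 (.ref 1 133)))) (.play 6 (.ref 4 6)))) (.ref 1485 5))))))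
 (.seq (.one (.both (.play 1 (.ref 7 1)) (.play 67 (.ref 1 64))))
 (.one (.play 386 (.both (.play 194 (.both (.ref 1503 1) (.both (.ref 874 1) (.both (.play 193 (.ref 1515 128)) (.play 195 (.both (.play 131 (.ref 5 130)) (.play 193 (.ref 1 192)))))))) (.both (.play 193 (.ref 431 65)) (.both (.play 193 (.both (.play 194 (.ref 1515 128)) (.play 450 (.ref 7 193)))) (.play 450 (.both (.ref 1115 192) (.both (.ref 271 257) (.ref 103 257)))))))))))
 (.seq (.one (.play 129 (.both (.ref 58 0) (.play 386 (.ref 4 129)))))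
 (.seq (.one (.play 66 (.both (.play 68 (.both (.play 4 (.ref 5 3)) (.ref 848 64))) (.play 2 (.ref 7 2)))))
 (.one (.play 65 (.both (.play 256 (.ref 5 0)) (.play 66 (.both (.play 67 (.both (.play 68 (.ref 3 0)) (.play 131 (.ref 0 64)))) (.play 130 (.ref 7 1))))))))))
 (.seq (.seq (.one (.play 65 (.both (.play 1 (.ref 5 0)) (.ref 1519 64))))
 (.seq (.one (.play 323 (.both (.play 259 (.both (.play 195 (.both (.ref 772 2) (.both (.ref 58 66) (.both (.play 196 (.both (.ref 961 128) (.both (.play 194 (.both (.play 130 (.ref 7 130)) (.play 261 (.both (.ref 1330 193) (.play 260 (.both (.play 193 (.ref 0 193)) (.play 325 (.ref 7 196)))))))) (.both (.play 194 (.both (.play 130 (.ref 7 130)) (.play 451 (.ref 123 194)))) (.ref 1519 195))))) (.ref 1520 131))))) (.both (.play 195 (.both (.ref 772 2) (.play 452 (.ref 4 195)))) (.both (.ref 1517 66) (.both (.play 195 (.both (.ref 1520 131) (.play 452 (.ref 4 195)))) (.play 451 (.both (.ref 1518 192) (.ref 1083 256)))))))) (.both (.play 259 (.both (.play 322 (.both (.ref 1517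 66) (.play 390 (.ref 3 322)))) (.both (.play 322 (.both (.play 321 (.both (.play 195 (.both (.play 196 (.both (.play 132 (.ref 5 131)) (.play 260 (.both (.play 261 (.both (.play 325 (.ref 7 196)) (.play 262 (.ref 1 258)))) (.play 451 (.ref 5 195)))))) (.play 452 (.ref 4 195)))) (.play 320 (.ref 0 320)))) (.play 390 (.ref 3 322)))) (.both (.play 195 (.both (.play 196 (.ref 782 130)) (.play 452 (.ref 4 195)))) (.both (.play 390 (.both (.play 451 (.both (.ref 52 130) (.play 450 (.ref 1 386)))) (.play 322 (.ref 3 322)))) (.play 322 (.both (.play 321 (.both (.play 451 (.both (.play 258 (.ref 534 194)) (.ref 1083 256))) (.play 320 (.ref 0 320)))) (.play 390 (.ref 3 322))))))))) (.both (.play 451 (.both (.play 259 (.both (.play 450 (.ref 463 130)) (.both (.ref 689 131) (.ref 1083 256)))) (.both (.play 326 (.both (.play 259 (.both (.ref 48 130) (.both (.ref 689 131) (.play 260 (.both (.play 261 (.both (.ref 699 194) (.play 262 (.ref 0 259)))) (.play 196 (.ref 5 195))))))) (.play 390 (.ref 2 323)))) (.play 390 (.ref 1003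 322))))) (.play 390 (.ref 1004 322)))))))
 (.one (.play 65 (.both (.ref 47 0) (.play 320 (.ref 6 64)))))))
 (.seq (.one (.play 129 (.both (.play 193 (.both (.play 194 (.both (.ref 807 0) (.play 133 (.ref 1 129)))) (.play 192 (.ref 1 128)))) (.play 196 (.ref 0 129)))))
 (.seq (.one (.play 132 (.both (.play 130 (.both (.ref 1523 0) (.play 66 (.ref 7 66)))) (.play 68 (.ref 5 67)))))
 (.one (.play 64 (.both (.ref 50 0) (.play 131 (.ref 0 64)))))))))
 (.seq (.seq (.seq (.one (.play 129 (.both (.play 193 (.both (.play 194 (.both (.play 65 (.ref 256 1)) (.play 133 (.ref 1 129)))) (.play 192 (.ref 1 128)))) (.play 196 (.ref 0 129)))))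
 (.seq (.one (.play 66 (.both (.play 2 (.ref 5 1)) (.play 321 (.both (.play 130 (.ref 5 65)) (.ref 443 128))))))
 (.one (.play 67 (.both (.play 3 (.ref 7 3)) (.play 131 (.both (.play 66 (.both (.play 65 (.both (.play 64 (.ref 0 64)) (.play 129 (.both (.play 128 (.ref 1 64)) (.play 130 (.ref 143 65)))))) (.play 133 (.ref 3 66)))) (.play 324 (.ref 7 67)))))))))
 (.seq (.one (.play 131 (.both (.play 195 (.both (.play 130 (.both (.play 129 (.both (.ref 615 1) (.play 128 (.ref 0 128)))) (.play 197 (.ref 3 130)))) (.play 388 (.ref 7 131)))) (.play 67 (.ref 7 67)))))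
 (.seq (.one (.play 67 (.both (.play 66 (.ref 163 0)) (.both (.ref 1495 0) (.play 3 (.ref 10 2))))))
 (.one (.play 68 (.both (.play 1 (.ref 247 0)) (.play 132 (.ref 0 65))))))))
 (.seq (.seq (.one (.play 70 (.both (.ref 856 0) (.play 134 (.ref 0 67)))))
 (.seq (.one (.play 454 (.both (.play 327 (.both (.play 326 (.both (.play 325 (.both (.play 324 (.both (.play 263 (.both (.play 260 (.both (.play 196 (.both (.play 132 (.ref 397 4)) (.both (.play 132 (.ref 157 67)) (.play 388 (.both (.ref 763 131) (.play 387 (.ref 1 323))))))) (.play 259 (.ref 3 259)))) (.play 264 (.ref 2 260)))) (.both (.play 259 (.ref 102 258)) (.both (.play 263 (.ref 122 258)) (.play 263 (.ref 267 258)))))) (.both (.ref 1532 258) (.both (.play 328 (.ref 845 259)) (.ref 1531 260))))) (.both (.play 325 (.both (.play 324 (.both (.play 390 (.both (.ref 1530 256) (.both (.play 518 (.ref 240 261)) (.play 518 (.ref 202 262))))) (.both (.play 387 (.ref 14 258)) (.play 518 (.both (.play 516 (.both (.ref 108 259) (.both (.play 388 (.both (.play 387 (.ref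 1 323)) (.play 517 (.ref 1206 323)))) (.play 517 (.ref 86 451))))) (.both (.play 390 (.ref 240 261)) (.play 390 (.ref 202 262)))))))) (.both (.play 328 (.ref 846 259)) (.both (.play 328 (.ref 845 259)) (.play 328 (.both (.play 389 (.both (.play 390 (.both (.play 518 (.ref 240 261)) (.play 329 (.ref 1 325)))) (.play 388 (.ref 1 324)))) (.play 392 (.ref 0 325)))))))) (.play 390 (.ref 99 262))))) (.both (.play 391 (.both (.play 263 (.ref 406 134)) (.both (.ref 1529 195) (.both (.ref 1522 198) (.play 583 (.both (.ref 47 262) (.ref 1299 390))))))) (.both (.play 391 (.both (.play 263 (.ref 1157 134)) (.both (.ref 1522 198) (.ref 1528 259)))) (.both (.play 391 (.both (.play 263 (.ref 379 134)) (.both (.ref 768 198) (.ref 1527 262)))) (.both (.play 391 (.both (.play 263 (.ref 406 134)) (.both (.play 263 (.ref 1157 134)) (.both (.ref 768 198) (.play 328 (.both (.play 264 (.ref 5 263)) (.play 583 (.both (.play 390 (.ref 534 326)) (.play 392 (.ref 5 327)))))))))) (.both (.play 391 (.both (.ref 1529 195) (.both (.ref 1524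 196) (.both (.ref 1528 259) (.both (.ref 806 260) (.both (.ref 1153 261) (.ref 1527 262))))))) (.both (.play 391 (.both (.ref 1522 198) (.both (.ref 768 198) (.ref 806 260)))) (.both (.play 326 (.both (.play 328 (.both (.ref 1526 196) (.both (.play 391 (.both (.play 264 (.ref 5 263)) (.ref 960 324))) (.ref 1525 261)))) (.both (.play 391 (.ref 418 261)) (.both (.play 262 (.ref 613 262)) (.play 390 (.ref 99 262)))))) (.both (.play 391 (.both (.ref 1524 196) (.both (.ref 1522 198) (.ref 768 198)))) (.play 391 (.both (.ref 1522 198) (.both (.ref 768 198) (.ref 1153 261)))))))))))))) (.both (.play 453 (.both (.ref 1521 66) (.both (.ref 1511 194) (.both (.play 389 (.both (.play 390 (.both (.ref 695 194) (.both (.play 388 (.both (.play 583 (.both (.play 517 (.both (.play 325 (.both (.play 516 (.ref 1437 196)) (.both (.play 261 (.ref 49 197)) (.ref 1083 322)))) (.both (.play 581 (.both (.play 580 (.both (.play 516 (.both (.play 325 (.ref 6 324)) (.play 518 (.ref 135 451)))) (.play 644 (.ref 6 388)))) (.play 645 (.ref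 5 389)))) (.play 581 (.ref 91 324))))) (.play 647 (.ref 7 390)))) (.play 387 (.ref 0 387)))) (.play 326 (.ref 99 262))))) (.both (.play 456 (.both (.play 517 (.both (.ref 1483 196) (.play 516 (.ref 1 452)))) (.play 392 (.ref 2 389)))) (.play 456 (.ref 1004 388))))) (.both (.ref 1492 197) (.ref 1516 197)))))) (.both (.play 453 (.both (.ref 1521 66) (.both (.play 452 (.both (.ref 35 323) (.both (.play 387 (.ref 102 386)) (.both (.ref 11 386) (.ref 24 450))))) (.both (.ref 1490 386) (.both (.ref 1481 386) (.both (.ref 1499 386) (.play 456 (.ref 1127 387)))))))) (.both (.play 453 (.both (.ref 1513 194) (.both (.ref 1492 197) (.both (.ref 1514 256) (.both (.play 456 (.ref 437 387)) (.play 392 (.ref 1046 388))))))) (.both (.play 453 (.both (.play 390 (.both (.ref 1476 195) (.both (.ref 1485 261) (.play 326 (.ref 99 262))))) (.both (.ref 1516 197) (.both (.ref 1514 256) (.ref 1494 322))))) (.both (.play 453 (.both (.play 390 (.both (.play 391 (.both (.play 452 (.both (.play 583 (.both (.play 516 (.both (.play 584 (.both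 (.play 327 (.both (.play 263 (.ref 335 198)) (.both (.ref 781 198) (.play 517 (.both (.play 581 (.both (.play 388 (.both (.ref 1475 260) (.play 324 (.ref 4 324)))) (.play 645 (.ref 5 389)))) (.play 518 (.ref 0 516))))))) (.play 648 (.ref 4 391)))) (.play 515 (.ref 1 451)))) (.play 647 (.ref 7 390)))) (.play 451 (.ref 2 387)))) (.play 392 (.ref 1 389)))) (.both (.play 326 (.both (.play 391 (.both (.play 452 (.both (.play 516 (.both (.play 327 (.both (.play 263 (.ref 335 198)) (.ref 743 260))) (.play 515 (.ref 1 451)))) (.play 451 (.ref 2 387)))) (.play 392 (.ref 1 389)))) (.play 262 (.ref 4 262)))) (.both (.ref 1485 261) (.play 326 (.ref 99 262)))))) (.both (.play 456 (.both (.play 516 (.both (.play 452 (.both (.play 389 (.both (.play 325 (.both (.play 261 (.ref 6 260)) (.play 451 (.both (.ref 154 384) (.play 518 (.ref 0 451)))))) (.play 388 (.ref 3 388)))) (.play 515 (.ref 1 451)))) (.play 517 (.ref 1 452)))) (.play 392 (.ref 2 389)))) (.both (.ref 1506 257) (.both (.ref 1479 261) (.both (.ref 1499 386) (.play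 392 (.ref 1046 388)))))))) (.both (.play 453 (.both (.ref 1498 193) (.both (.ref 1513 194) (.both (.ref 1511 194) (.both (.ref 1489 194) (.both (.ref 1502 257) (.both (.ref 1506 257) (.both (.ref 1480 258) (.both (.play 452 (.both (.ref 1505 258) (.both (.ref 1493 323) (.both (.ref 11 386) (.ref 24 450))))) (.both (.ref 1477 322) (.ref 1490 386))))))))))) (.both (.play 453 (.both (.ref 1484 196) (.both (.ref 1500 257) (.both (.ref 1494 322) (.both (.ref 1496 385) (.both (.ref 1504 386) (.play 456 (.ref 1127 387)))))))) (.both (.play 453 (.both (.play 452 (.both (.play 391 (.both (.play 516 (.both (.play 583 (.both (.ref 1503 198) (.both (.play 390 (.ref 534 326)) (.ref 423 390)))) (.play 515 (.ref 1 451)))) (.play 392 (.ref 2 388)))) (.both (.play 391 (.both (.play 390 (.ref 531 259)) (.play 392 (.ref 2 388)))) (.both (.ref 119 387) (.ref 24 450))))) (.both (.ref 1502 257) (.both (.ref 1500 257) (.both (.ref 1479 261) (.both (.ref 1499 386) (.play 392 (.ref 1046 388)))))))) (.both (.play 453 (.both (.ref 1498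 193) (.both (.play 390 (.both (.play 391 (.both (.play 452 (.both (.play 388 (.both (.play 583 (.both (.play 584 (.both (.ref 1486 196) (.play 648 (.ref 4 391)))) (.play 647 (.ref 7 390)))) (.play 387 (.ref 3 387)))) (.play 451 (.ref 2 387)))) (.play 392 (.ref 1 389)))) (.both (.ref 1487 195) (.both (.ref 1485 261) (.play 326 (.ref 99 262)))))) (.both (.ref 1479 261) (.both (.ref 1496 385) (.both (.ref 1481 386) (.play 392 (.ref 1046 388)))))))) (.both (.play 453 (.both (.play 392 (.both (.ref 1491 197) (.both (.ref 1494 322) (.play 391 (.ref 67 388))))) (.both (.ref 1492 197) (.both (.ref 1490 386) (.play 392 (.ref 1046 388)))))) (.both (.play 453 (.both (.ref 1489 194) (.both (.play 390 (.both (.ref 1487 195) (.both (.play 391 (.both (.play 452 (.both (.play 388 (.both (.play 583 (.both (.play 584 (.both (.play 517 (.both (.play 581 (.ref 696 260)) (.both (.play 518 (.both (.play 327 (.both (.ref 1475 260) (.play 263 (.ref 6 262)))) (.play 516 (.ref 0 516)))) (.play 581 (.both (.play 516 (.both (.play 324 (.ref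 4 324)) (.play 518 (.ref 0 516)))) (.play 645 (.ref 7 388))))))) (.play 648 (.ref 4 391)))) (.play 647 (.ref 7 390)))) (.play 387 (.ref 3 387)))) (.play 451 (.ref 2 387)))) (.play 392 (.ref 1 389)))) (.both (.ref 1485 261) (.play 326 (.ref 99 262)))))) (.both (.ref 1484 196) (.both (.ref 1481 386) (.play 392 (.ref 1046 388))))))) (.both (.play 453 (.both (.play 392 (.both (.play 452 (.both (.play 388 (.both (.play 516 (.both (.play 580 (.both (.play 325 (.both (.play 324 (.both (.play 259 (.both (.play 260 (.both (.play 195 (.ref 7 195)) (.play 326 (.both (.play 327 (.ref 3 259)) (.play 390 (.ref 99 262)))))) (.play 323 (.ref 7 259)))) (.play 261 (.ref 5 260)))) (.play 389 (.ref 5 324)))) (.both (.play 389 (.ref 18 324)) (.play 645 (.ref 17 387))))) (.play 515 (.ref 1 451)))) (.play 387 (.ref 3 387)))) (.both (.play 387 (.ref 102 386)) (.both (.ref 11 386) (.ref 24 450))))) (.both (.ref 1478 261) (.both (.ref 761 386) (.play 391 (.ref 67 388)))))) (.both (.ref 1480 258) (.both (.ref 1479 261) (.play 392 (.ref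 1046 388)))))) (.both (.play 453 (.both (.play 392 (.both (.play 452 (.both (.play 516 (.both (.play 388 (.both (.play 324 (.both (.ref 52 195) (.both (.play 261 (.both (.play 325 (.ref 5 260)) (.play 580 (.both (.ref 57 323) (.both (.ref 28 324) (.both (.play 645 (.ref 17 387)) (.ref 621 387))))))) (.play 517 (.ref 49 260))))) (.play 387 (.ref 3 387)))) (.play 515 (.ref 1 451)))) (.both (.ref 11 386) (.ref 24 450)))) (.both (.ref 1478 261) (.play 391 (.ref 67 388))))) (.both (.ref 1479 261) (.both (.ref 1477 322) (.play 392 (.ref 1046 388)))))) (.play 390 (.both (.play 453 (.both (.ref 1476 195) (.both (.play 456 (.ref 1127 387)) (.both (.play 452 (.both (.ref 1474 387) (.ref 1269 387))) (.play 392 (.ref 19 389)))))) (.both (.play 326 (.ref 99 262)) (.play 326 (.ref 478 262)))))))))))))))))))))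
 (.one (.play 66 (.both (.ref 11 0) (.both (.ref 1269 1) (.ref 24 64)))))))
 (.seq (.seq (.one (.play 68 (.both (.play 65 (.both (.play 193 (.both (.ref 34 0) (.play 192 (.ref 1 128)))) (.play 64 (.ref 3 64)))) (.play 69 (.ref 2 65)))))
 (.one (.play 131 (.both (.play 129 (.both (.play 65 (.both (.play 257 (.both (.play 64 (.ref 803 0)) (.play 320 (.both (.play 256 (.ref 6 64)) (.play 321 (.both (.play 384 (.ref 6 128)) (.play 385 (.ref 91 128)))))))) (.play 1 (.ref 4 1)))) (.play 130 (.ref 1 128)))) (.play 195 (.ref 2 128))))))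
 (.seq (.one (.play 321 (.both (.play 259 (.both (.play 323 (.both (.play 322 (.both (.play 131 (.both (.play 66 (.both (.play 67 (.both (.play 2 (.ref 7 2)) (.play 3 (.ref 4 3)))) (.play 130 (.ref 7 66)))) (.play 386 (.ref 6 130)))) (.play 320 (.ref 2 256)))) (.both (.play 322 (.both (.play 386 (.both (.play 131 (.ref 6 130)) (.play 450 (.both (.play 387 (.ref 6 194)) (.play 514 (.ref 7 257)))))) (.play 320 (.ref 2 256)))) (.play 387 (.ref 91 130))))) (.play 192 (.ref 0 192)))) (.both (.ref 464 128) (.both (.play 385 (.ref 700 128)) (.play 192 (.both (.play 385 (.both (.play 128 (.ref 7 128)) (.play 448 (.ref 55 192)))) (.play 259 (.ref 0 192)))))))))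
 (.one (.play 197 (.both (.play 257 (.both (.play 193 (.both (.ref 1537 0) (.play 256 (.ref 1 192)))) (.play 258 (.ref 1 193)))) (.play 133 (.ref 2 130)))))))))))
 (.seq (.seq (.seq (.seq (.seq (.one (.play 195 (.both (.play 259 (.both (.play 260 (.both (.play 323 (.both (.play 324 (.both (.play 69 (.both (.play 133 (.both (.play 5 (.ref 4 5)) (.play 261 (.ref 6 68)))) (.both (.play 133 (.ref 1412 4)) (.play 322 (.both (.play 132 (.both (.play 68 (.ref 6 67)) (.play 321 (.both (.ref 1325 128) (.play 320 (.ref 2 256)))))) (.play 261 (.ref 1 258))))))) (.both (.play 388 (.ref 675 131)) (.play 388 (.both (.play 322 (.both (.play 389 (.ref 450 193)) (.play 261 (.ref 1 258)))) (.play 452 (.ref 7 195))))))) (.both (.play 387 (.ref 18 131)) (.play 387 (.both (.play 388 (.both (.play 452 (.ref 4 195)) (.play 322 (.both (.play 261 (.ref 1 258)) (.play 321 (.ref 229 320)))))) (.play 451 (.ref 5 195))))))) (.play 199 (.ref 1 195)))) (.play 258 (.ref 1 194)))) (.both (.ref 1501 0) (.both (.play 194 (.ref 846 128)) (.ref 24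 193))))))
 (.seq (.one (.play 196 (.both (.play 262 (.both (.play 261 (.both (.play 135 (.both (.play 71 (.both (.play 70 (.both (.play 6 (.ref 7 6)) (.play 325 (.ref 604 66)))) (.play 7 (.ref 6 6)))) (.play 136 (.ref 2 132)))) (.both (.play 260 (.both (.play 134 (.both (.play 135 (.both (.play 71 (.both (.play 7 (.ref 6 6)) (.ref 830 131))) (.play 136 (.ref 2 132)))) (.both (.play 71 (.both (.ref 1108 4) (.both (.play 70 (.both (.play 136 (.both (.play 69 (.both (.play 5 (.ref 7 5)) (.play 72 (.ref 0 69)))) (.play 135 (.ref 2 132)))) (.play 6 (.ref 4 6)))) (.ref 591 6)))) (.play 70 (.ref 349 5))))) (.play 259 (.ref 2 195)))) (.both (.play 260 (.both (.play 135 (.both (.play 71 (.both (.play 70 (.both (.play 134 (.both (.play 69 (.both (.play 5 (.ref 7 5)) (.ref 825 5))) (.play 325 (.ref 6 69)))) (.play 6 (.ref 7 6)))) (.play 7 (.ref 6 6)))) (.play 136 (.ref 2 132)))) (.play 259 (.ref 2 195)))) (.ref 824 131))))) (.both (.ref 703 3) (.both (.play 260 (.both (.play 133 (.both (.ref 1507 4) (.both (.play 69 (.ref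 478 5)) (.ref 441 131)))) (.play 259 (.ref 1 195)))) (.ref 264 68))))) (.both (.play 260 (.both (.play 135 (.both (.play 195 (.both (.ref 298 128) (.play 134 (.ref 2 131)))) (.play 136 (.ref 2 132)))) (.play 259 (.ref 1 195)))) (.both (.play 260 (.both (.ref 299 128) (.play 259 (.ref 1 195)))) (.ref 119 131))))))
 (.one (.play 67 (.both (.ref 537 0) (.play 3 (.ref 5 2)))))))
 (.seq (.one (.both (.play 66 (.both (.ref 1541 0) (.play 257 (.ref 335 1)))) (.play 129 (.ref 1 128))))
 (.seq (.one (.play 131 (.both (.play 130 (.ref 1542 0)) (.play 195 (.ref 2 128)))))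
 (.one (.play 196 (.both (.play 323 (.both (.play 257 (.both (.play 387 (.both (.play 321 (.both (.play 193 (.both (.play 386 (.both (.play 129 (.both (.play 385 (.both (.ref 52 0) (.play 384 (.ref 2 320)))) (.play 322 (.ref 4 129)))) (.both (.play 450 (.ref 668 193)) (.play 450 (.both (.play 385 (.ref 4 193)) (.play 195 (.ref 6 194))))))) (.play 192 (.ref 3 192)))) (.play 320 (.ref 1 256)))) (.play 451 (.ref 5 195)))) (.play 256 (.ref 0 256)))) (.both (.play 132 (.both (.play 257 (.both (.play 131 (.both (.play 321 (.both (.play 193 (.both (.play 133 (.both (.ref 701 64) (.play 69 (.ref 5 68)))) (.play 192 (.ref 3 192)))) (.play 320 (.ref 1 256)))) (.play 67 (.ref 7 67)))) (.play 256 (.ref 0 256)))) (.play 68 (.ref 6 67)))) (.play 132 (.ref 335 67))))) (.both (.play 257 (.both (.play 323 (.both (.play 132 (.ref 335 67)) (.play 256 (.ref 0 256)))) (.play 197 (.ref 2 193)))) (.both (.play 197 (.ref 1542 66)) (.play 197 (.ref 67 193))))))))))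
 (.seq (.seq (.one (.play 194 (.both (.ref 1290 1) (.both (.ref 11 128) (.ref 24 192)))))
 (.seq (.one (.play 131 (.both (.ref 58 2) (.both (.play 322 (.both (.ref 1395 64) (.play 386 (.ref 6 130)))) (.play 322 (.ref 335 66))))))
 (.one (.play 258 (.both (.play 197 (.both (.play 194 (.both (.play 322 (.both (.ref 1546 2) (.play 321 (.ref 1 257)))) (.play 193 (.ref 3 193)))) (.play 198 (.ref 2 194)))) (.both (.ref 11 192) (.both (.play 197 (.ref 122 192)) (.ref 119 193))))))))
 (.seq (.one (.play 260 (.both (.play 321 (.both (.play 193 (.both (.play 129 (.both (.ref 52 0) (.both (.play 130 (.both (.play 66 (.ref 5 65)) (.play 385 (.both (.play 322 (.both (.play 386 (.ref 4 129)) (.ref 414 192))) (.both (.ref 28 129) (.both (.play 450 (.ref 17 192)) (.ref 621 192))))))) (.play 322 (.ref 49 65))))) (.play 192 (.ref 3 192)))) (.play 320 (.ref 1 256)))) (.play 196 (.ref 2 193)))))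
 (.seq (.one (.play 129 (.both (.ref 891 0) (.play 69 (.ref 2 65)))))
 (.one (.play 131 (.both (.ref 52 2) (.both (.play 322 (.both (.play 130 (.both (.play 132 (.both (.play 129 (.ref 844 64)) (.play 68 (.ref 5 67)))) (.play 66 (.ref 7 66)))) (.play 386 (.ref 6 130)))) (.play 322 (.ref 335 66))))))))))
 (.seq (.seq (.seq (.one (.play 132 (.both (.play 259 (.both (.play 68 (.both (.play 193 (.both (.ref 822 0) (.play 192 (.ref 0 192)))) (.play 4 (.ref 6 3)))) (.both (.play 323 (.both (.play 193 (.both (.play 129 (.both (.play 131 (.both (.ref 490 2) (.both (.ref 602 2) (.play 130 (.both (.play 322 (.both (.play 65 (.ref 196 64)) (.play 386 (.ref 6 130)))) (.play 66 (.ref 7 66))))))) (.play 128 (.ref 3 128)))) (.play 192 (.ref 0 192)))) (.play 387 (.ref 5 131)))) (.play 323 (.ref 126 67))))) (.both (.play 133 (.ref 1542 2)) (.both (.ref 1549 64) (.play 133 (.ref 67 129)))))))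
 (.seq (.one (.play 259 (.both (.play 195 (.both (.play 196 (.both (.play 324 (.both (.play 131 (.both (.play 132 (.both (.play 68 (.ref 286 3)) (.both (.ref 781 3) (.play 133 (.both (.play 325 (.both (.ref 821 67) (.play 389 (.ref 4 132)))) (.play 69 (.ref 5 68))))))) (.play 67 (.ref 4 67)))) (.both (.play 388 (.both (.ref 365 68) (.play 452 (.ref 7 195)))) (.play 388 (.ref 534 131))))) (.play 263 (.ref 3 195)))) (.play 194 (.ref 3 194)))) (.both (.ref 1497 64) (.both (.play 258 (.ref 845 192)) (.ref 11 193))))))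
 (.one (.play 131 (.both (.play 67 (.both (.play 66 (.ref 846 0)) (.play 130 (.ref 1 66)))) (.play 132 (.ref 1 67)))))))
 (.seq (.one (.play 71 (.both (.ref 1553 0) (.play 7 (.ref 2 4)))))
 (.seq (.one (.play 132 (.both (.play 129 (.ref 1456 0)) (.play 133 (.ref 2 129)))))
 (.one (.play 321 (.both (.play 193 (.both (.play 130 (.both (.ref 1482 0) (.both (.play 194 (.ref 616 65)) (.play 385 (.both (.play 194 (.ref 5 129)) (.ref 621 192)))))) (.play 192 (.ref 3 192)))) (.play 320 (.ref 1 256))))))))
 (.seq (.seq (.one (.play 260 (.both (.ref 1556 0) (.play 196 (.ref 2 193)))))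
 (.seq (.one (.play 67 (.both (.play 66 (.ref 846 0)) (.both (.ref 11 1) (.both (.play 66 (.both (.play 5 (.both (.ref 919 1) (.play 6 (.ref 2 2)))) (.play 133 (.ref 0 66)))) (.play 3 (.ref 10 2)))))))
 (.one (.play 196 (.both (.play 68 (.both (.play 260 (.both (.play 69 (.both (.play 5 (.ref 5 4)) (.play 261 (.both (.play 259 (.both (.play 323 (.ref 6 67)) (.play 258 (.ref 437 192)))) (.play 325 (.ref 4 68)))))) (.both (.play 69 (.ref 18 4)) (.play 325 (.ref 17 67))))) (.play 67 (.ref 3 67)))) (.play 195 (.ref 1 131)))))))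
 (.seq (.seq (.one (.play 135 (.both (.ref 1559 0) (.play 71 (.ref 2 68)))))
 (.one (.play 258 (.both (.play 197 (.both (.play 194 (.both (.play 322 (.both (.play 133 (.both (.ref 58 4) (.both (.play 324 (.both (.play 132 (.both (.play 134 (.both (.play 70 (.ref 5 69)) (.play 195 (.both (.play 196 (.ref 2 130)) (.ref 799 193))))) (.play 68 (.ref 7 68)))) (.play 388 (.ref 6 132)))) (.play 324 (.ref 335 68))))) (.play 321 (.ref 1 257)))) (.play 193 (.ref 3 193)))) (.play 198 (.ref 2 194)))) (.both (.ref 11 192) (.both (.play 197 (.ref 122 192)) (.ref 119 193)))))))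
 (.seq (.one (.play 130 (.both (.play 259 (.both (.play 66 (.ref 478 2)) (.play 192 (.ref 0 192)))) (.play 129 (.ref 3 129)))))
 (.one (.play 259 (.both (.play 195 (.ref 866 0)) (.play 323 (.ref 4 66))))))))))
 (.seq (.seq (.seq (.seq (.one (.play 260 (.both (.play 67 (.both (.play 69 (.both (.ref 1488 0) (.play 5 (.ref 5 4)))) (.play 3 (.ref 7 3)))) (.both (.play 67 (.ref 534 3)) (.play 324 (.both (.play 69 (.both (.play 5 (.ref 5 4)) (.play 133 (.ref 6 68)))) (.play 388 (.ref 7 131))))))))
 (.seq (.one (.play 258 (.both (.play 259 (.both (.play 323 (.both (.play 131 (.both (.ref 1037 2) (.both (.play 322 (.both (.play 130 (.both (.play 132 (.both (.play 68 (.ref 5 67)) (.play 193 (.ref 86 128)))) (.play 66 (.ref 7 66)))) (.play 386 (.ref 6 130)))) (.play 322 (.ref 335 66))))) (.both (.play 387 (.ref 534 130)) (.play 387 (.ref 675 130))))) (.play 198 (.ref 1 194)))) (.play 257 (.ref 1 193)))))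
 (.one (.play 195 (.both (.play 134 (.both (.play 194 (.both (.play 70 (.both (.play 6 (.ref 4 6)) (.play 257 (.ref 14 128)))) (.play 133 (.ref 2 130)))) (.play 135 (.ref 2 131)))) (.play 262 (.ref 0 195)))))))
 (.seq (.one (.play 196 (.both (.ref 1566 0) (.both (.ref 1565 2) (.both (.play 260 (.both (.play 261 (.both (.play 325 (.both (.play 133 (.both (.ref 1037 4) (.both (.play 324 (.both (.play 132 (.both (.play 68 (.ref 7 68)) (.play 323 (.ref 32 131)))) (.play 388 (.ref 6 132)))) (.play 324 (.ref 335 68))))) (.both (.play 389 (.ref 534 132)) (.play 389 (.ref 675 132))))) (.play 200 (.ref 1 196)))) (.play 259 (.ref 1 195)))) (.ref 24 194))))))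
 (.seq (.one (.play 258 (.both (.play 197 (.both (.play 322 (.both (.play 133 (.both (.ref 58 4) (.both (.play 324 (.both (.play 132 (.both (.play 134 (.both (.play 195 (.both (.play 131 (.ref 831 66)) (.both (.ref 1507 66) (.play 196 (.ref 160 130))))) (.play 70 (.ref 5 69)))) (.play 68 (.ref 7 68)))) (.play 388 (.ref 6 132)))) (.play 324 (.ref 335 68))))) (.play 321 (.ref 1 257)))) (.play 198 (.ref 2 194)))) (.both (.play 197 (.ref 267 192)) (.both (.ref 251 193) (.ref 24 256))))))
 (.one (.play 129 (.both (.play 193 (.both (.play 132 (.both (.play 68 (.both (.play 4 (.ref 4 4)) (.play 131 (.both (.play 259 (.both (.play 258 (.both (.ref 84 65) (.play 198 (.ref 1 194)))) (.play 323 (.ref 5 67)))) (.play 192 (.ref 2 128)))))) (.play 133 (.ref 2 129)))) (.play 128 (.ref 3 128)))) (.play 130 (.ref 3 129))))))))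
 (.seq (.seq (.one (.play 260 (.both (.play 196 (.both (.play 197 (.both (.play 133 (.both (.play 69 (.ref 286 4)) (.play 325 (.both (.play 132 (.both (.play 324 (.both (.play 134 (.both (.play 131 (.both (.play 67 (.ref 7 67)) (.play 198 (.ref 169 130)))) (.play 70 (.ref 5 69)))) (.play 388 (.ref 6 132)))) (.play 68 (.ref 7 68)))) (.both (.play 132 (.ref 534 68)) (.ref 27 132)))))) (.play 264 (.ref 3 196)))) (.play 195 (.ref 3 195)))) (.both (.ref 1566 64) (.both (.ref 1569 66) (.ref 11 194))))))
 (.seq (.one (.play 194 (.both (.ref 1555 1) (.both (.play 129 (.ref 102 128)) (.both (.play 133 (.ref 122 128)) (.play 133 (.ref 267 128)))))))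
 (.one (.play 196 (.both (.play 132 (.both (.ref 58 3) (.both (.play 323 (.both (.play 131 (.both (.play 133 (.both (.play 194 (.both (.play 195 (.both (.play 130 (.both (.play 66 (.ref 7 66)) (.ref 339 128))) (.play 134 (.ref 1 130)))) (.both (.play 130 (.ref 831 65)) (.play 195 (.ref 160 129))))) (.play 69 (.ref 5 68)))) (.play 67 (.ref 7 67)))) (.play 387 (.ref 6 131)))) (.play 323 (.ref 335 67))))) (.both (.play 195 (.both (.play 132 (.both (.play 194 (.both (.play 130 (.both (.play 66 (.both (.play 65 (.both (.play 1 (.ref 7 1)) (.play 322 (.both (.play 129 (.ref 7 65)) (.ref 414 129))))) (.play 2 (.ref 4 2)))) (.both (.play 323 (.ref 256 66)) (.play 322 (.both (.play 323 (.ref 601 128)) (.both (.ref 414 129) (.ref 75 130))))))) (.play 193 (.ref 218 128)))) (.both (.ref 781 3) (.play 323 (.ref 335 67))))) (.play 197 (.ref 1 194)))) (.both (.play 195 (.both (.play 132 (.both (.ref 781 3) (.both (.ref 1037 3) (.play 133 (.both (.play 69 (.ref 5 68)) (.play 194 (.ref 994 129))))))) (.play 197 (.ref 1 194))))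 (.both (.ref 1550 1) (.both (.play 195 (.both (.play 131 (.both (.play 323 (.both (.play 322 (.both (.ref 667 64) (.play 386 (.ref 6 130)))) (.both (.play 387 (.both (.ref 47 66) (.play 451 (.ref 5 195)))) (.ref 414 130)))) (.play 67 (.ref 4 67)))) (.play 197 (.ref 1 194)))) (.play 197 (.ref 1542 66)))))))))))
 (.seq (.one (.play 195 (.both (.ref 1497 0) (.both (.ref 1501 0) (.both (.ref 1569 1) (.both (.ref 1565 1) (.both (.play 130 (.ref 102 129)) (.ref 1269 130))))))))
 (.seq (.one (.play 195 (.both (.play 321 (.both (.play 131 (.ref 463 2)) (.play 320 (.ref 2 256)))) (.both (.play 321 (.both (.play 196 (.both (.play 194 (.both (.play 131 (.both (.ref 694 3) (.ref 835 64))) (.play 193 (.ref 0 193)))) (.both (.play 132 (.ref 616 67)) (.ref 1510 129)))) (.play 320 (.ref 2 256)))) (.both (.play 131 (.both (.play 132 (.both (.play 196 (.both (.ref 1488 64) (.play 387 (.ref 5 131)))) (.play 68 (.ref 5 67)))) (.play 386 (.ref 6 130)))) (.both (.play 321 (.both (.play 387 (.both (.ref 1541 129) (.both (.play 196 (.ref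 18 131)) (.play 450 (.ref 55 194))))) (.play 320 (.ref 2 256)))) (.play 321 (.both (.play 386 (.ref 77 130)) (.play 320 (.ref 2 256))))))))))
 (.one (.play 68 (.both (.play 132 (.both (.play 130 (.both (.ref 1488 0) (.play 129 (.ref 0 129)))) (.play 323 (.ref 5 67)))) (.play 4 (.ref 5 3)))))))))
 (.seq (.seq (.seq (.one (.play 323 (.both (.play 322 (.both (.ref 1574 0) (.both (.play 195 (.both (.play 131 (.both (.ref 1575 64) (.play 386 (.ref 6 130)))) (.both (.play 131 (.both (.ref 1575 64) (.play 324 (.ref 49 67)))) (.both (.play 131 (.both (.play 324 (.ref 49 67)) (.play 386 (.ref 6 130)))) (.play 387 (.both (.ref 1470 129) (.both (.play 196 (.ref 18 131)) (.play 386 (.both (.play 324 (.both (.ref 75 195) (.play 385 (.ref 1 321)))) (.play 450 (.ref 6 194))))))))))) (.play 321 (.ref 69 256))))) (.both (.play 322 (.both (.ref 1574 0) (.play 262 (.ref 1 258)))) (.both (.play 196 (.both (.play 132 (.both (.play 195 (.both (.ref 1564 64) (.play 194 (.ref 216 193)))) (.play 68 (.ref 4 68)))) (.both (.play 387 (.ref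 1413 67)) (.both (.ref 1507 67) (.play 387 (.both (.play 195 (.both (.ref 537 129) (.ref 1563 129))) (.play 451 (.ref 5 195)))))))) (.play 322 (.ref 70 256)))))))
 (.seq (.one (.play 324 (.both (.play 257 (.both (.play 385 (.ref 498 0)) (.play 256 (.ref 3 256)))) (.play 260 (.ref 2 257)))))
 (.one (.play 385 (.both (.play 257 (.both (.play 450 (.both (.play 193 (.both (.ref 409 0) (.play 386 (.ref 4 193)))) (.both (.play 386 (.ref 256 193)) (.ref 425 256)))) (.play 256 (.ref 3 256)))) (.play 384 (.ref 1 320)))))))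
 (.seq (.one (.play 324 (.both (.ref 1578 0) (.play 260 (.ref 2 257)))))
 (.seq (.one (.play 66 (.both (.ref 522 0) (.play 133 (.ref 0 66)))))
 (.one (.play 131 (.both (.play 67 (.both (.ref 1580 0) (.play 130 (.ref 1 66)))) (.play 132 (.ref 1 67))))))))
 (.seq (.seq (.one (.play 65 (.both (.ref 949 0) (.play 132 (.ref 0 65)))))
 (.seq (.one (.play 132 (.both (.play 69 (.both (.ref 865 0) (.play 5 (.ref 5 4)))) (.play 259 (.ref 335 3)))))
 (.one (.both (.play 4 (.ref 5 3)) (.ref 676 64)))))
 (.seq (.seq (.one (.both (.play 5 (.ref 5 4)) (.play 131 (.both (.play 259 (.both (.ref 676 64) (.play 323 (.ref 6 67)))) (.play 130 (.ref 160 65))))))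
 (.one (.play 454 (.both (.play 326 (.both (.play 327 (.both (.play 328 (.both (.play 264 (.both (.play 265 (.both (.play 392 (.both (.play 200 (.both (.play 201 (.both (.play 135 (.both (.play 136 (.both (.ref 787 7) (.play 71 (.ref 7 71)))) (.play 199 (.ref 7 135)))) (.play 137 (.ref 5 136)))) (.both (.ref 367 71) (.both (.play 201 (.both (.play 202 (.both (.play 199 (.both (.play 135 (.ref 7 135)) (.play 138 (.both (.play 139 (.ref 2 135)) (.play 329 (.ref 5 137)))))) (.play 203 (.ref 176 199)))) (.play 137 (.ref 5 136)))) (.play 201 (.both (.play 329 (.both (.ref 825 135) (.play 136 (.ref 7 136)))) (.play 137 (.ref 5 136)))))))) (.play 456 (.ref 6 263)))) (.both (.play 266 (.ref 1044 262)) (.play 392 (.both (.play 266 (.ref 993 262)) (.play 456 (.ref 6 263))))))) (.play 391 (.ref 5 263)))) (.both (.ref 1523 196) (.both (.play 264 (.both (.play 265 (.ref 1045 261)) (.play 391 (.ref 5 263)))) (.ref 1525 261))))) (.both (.play 391 (.both (.play 263 (.both (.ref 373 70) (.both (.play 199 (.both (.ref 996 135)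 (.play 390 (.ref 6 198)))) (.play 264 (.ref 46 199))))) (.both (.play 328 (.ref 1585 259)) (.play 518 (.ref 335 262))))) (.both (.play 325 (.both (.play 324 (.both (.play 388 (.both (.play 261 (.both (.play 197 (.ref 77 132)) (.both (.play 197 (.both (.play 133 (.ref 6 132)) (.play 390 (.ref 98 197)))) (.play 518 (.both (.play 516 (.both (.play 452 (.ref 5 260)) (.play 517 (.ref 86 451)))) (.play 390 (.ref 7 261))))))) (.play 387 (.ref 1 323)))) (.both (.play 390 (.both (.ref 1530 256) (.both (.play 518 (.ref 1584 259)) (.play 518 (.ref 95 261))))) (.play 387 (.ref 14 258))))) (.both (.play 328 (.ref 846 259)) (.both (.play 328 (.ref 845 259)) (.play 328 (.both (.ref 854 260) (.play 392 (.ref 0 325)))))))) (.both (.play 328 (.both (.ref 1526 196) (.both (.play 391 (.ref 1585 259)) (.ref 1525 261)))) (.both (.play 518 (.both (.play 391 (.both (.play 390 (.both (.play 325 (.ref 644 261)) (.ref 676 323))) (.play 582 (.ref 6 326)))) (.both (.play 390 (.ref 1584 259)) (.play 391 (.ref 335 262))))) (.both (.play 518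 (.both (.play 390 (.ref 1584 259)) (.both (.play 391 (.both (.play 328 (.both (.play 390 (.both (.play 325 (.ref 1272 259)) (.play 389 (.ref 160 324)))) (.play 264 (.ref 5 263)))) (.play 582 (.ref 6 326)))) (.play 391 (.ref 335 262))))) (.ref 1583 259)))))))) (.both (.play 327 (.both (.play 325 (.both (.play 324 (.both (.play 263 (.both (.play 260 (.both (.play 388 (.both (.play 261 (.both (.play 196 (.both (.play 132 (.ref 49 68)) (.play 195 (.ref 644 131)))) (.play 197 (.ref 126 132)))) (.play 387 (.ref 1 323)))) (.play 259 (.ref 3 259)))) (.play 264 (.ref 2 260)))) (.both (.play 259 (.ref 102 258)) (.both (.play 263 (.ref 122 258)) (.play 263 (.ref 267 258)))))) (.both (.ref 1532 258) (.both (.play 328 (.ref 845 259)) (.ref 1531 260))))) (.both (.ref 1583 259) (.both (.play 391 (.both (.play 328 (.both (.play 325 (.both (.play 518 (.both (.play 388 (.ref 14 259)) (.play 582 (.ref 6 326)))) (.play 392 (.ref 0 325)))) (.play 264 (.ref 5 263)))) (.play 262 (.ref 7 262)))) (.ref 837 262))))) (.both (.play 390 (.both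 (.play 518 (.both (.play 327 (.both (.play 391 (.both (.ref 743 260) (.play 582 (.ref 6 326)))) (.play 263 (.ref 5 262)))) (.ref 676 323))) (.play 262 (.ref 4 262)))) (.both (.play 390 (.both (.play 518 (.both (.ref 1518 259) (.ref 676 323))) (.play 262 (.ref 4 262)))) (.both (.play 390 (.both (.play 518 (.both (.play 325 (.both (.play 261 (.ref 7 261)) (.ref 168 325))) (.ref 676 323))) (.play 262 (.ref 4 262)))) (.both (.play 390 (.both (.play 518 (.both (.play 327 (.both (.play 391 (.both (.play 325 (.ref 644 261)) (.play 582 (.ref 6 326)))) (.play 263 (.ref 5 262)))) (.ref 676 323))) (.play 262 (.ref 4 262)))) (.play 262 (.both (.play 327 (.both (.play 328 (.both (.play 325 (.ref 845 259)) (.both (.play 325 (.both (.play 261 (.ref 30 260)) (.play 392 (.ref 0 325)))) (.play 329 (.ref 247 261))))) (.play 391 (.ref 7 262)))) (.play 390 (.ref 4 262))))))))))) (.both (.play 453 (.both (.play 456 (.both (.ref 1578 132) (.both (.ref 1581 385) (.both (.play 452 (.both (.ref 1580 385) (.both (.ref 11 386) (.both (.ref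 1582 386) (.play 388 (.ref 10 387)))))) (.both (.ref 310 386) (.play 516 (.ref 14 387))))))) (.both (.ref 1579 132) (.both (.play 452 (.both (.ref 1535 323) (.both (.ref 11 386) (.both (.play 391 (.ref 122 386)) (.ref 251 387))))) (.both (.play 456 (.both (.play 452 (.both (.ref 865 385) (.both (.ref 1582 386) (.play 388 (.ref 10 387))))) (.play 392 (.ref 2 389)))) (.both (.play 456 (.both (.ref 1581 385) (.play 392 (.ref 2 389)))) (.both (.ref 1504 386) (.play 456 (.ref 1127 387))))))))) (.both (.play 453 (.both (.ref 1577 132) (.both (.ref 1573 257) (.both (.ref 1571 258) (.both (.play 392 (.both (.play 452 (.ref 437 386)) (.play 456 (.ref 2 389)))) (.play 392 (.ref 1046 388))))))) (.both (.play 453 (.both (.ref 1579 132) (.both (.ref 1577 132) (.both (.ref 1576 194) (.both (.ref 1572 195) (.both (.ref 1548 196) (.both (.ref 1557 196) (.both (.ref 1543 261) (.ref 1560 321))))))))) (.both (.play 453 (.both (.ref 1570 192) (.both (.ref 1552 193) (.both (.ref 1576 194) (.both (.play 452 (.both (.ref 1505 258) (.both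 (.ref 1493 323) (.both (.play 516 (.both (.play 451 (.both (.play 390 (.both (.ref 1463 384) (.play 391 (.ref 2 387)))) (.play 518 (.ref 0 451)))) (.play 515 (.ref 1 451)))) (.ref 11 386))))) (.both (.ref 1567 256) (.both (.ref 1539 257) (.both (.ref 1573 257) (.both (.ref 1545 258) (.both (.play 452 (.both (.play 451 (.both (.play 390 (.both (.play 516 (.both (.play 517 (.both (.play 326 (.both (.play 262 (.ref 4 262)) (.ref 1130 322))) (.play 456 (.ref 1 452)))) (.play 515 (.ref 1 451)))) (.play 391 (.ref 2 387)))) (.play 518 (.ref 0 451)))) (.both (.ref 11 386) (.ref 1269 387)))) (.both (.ref 1477 322) (.ref 1534 386)))))))))))) (.both (.play 453 (.both (.ref 1547 194) (.both (.ref 1561 194) (.both (.ref 1568 194) (.both (.ref 1572 195) (.both (.ref 1544 195) (.both (.ref 1540 256) (.both (.ref 1571 258) (.both (.ref 1551 259) (.ref 1494 322)))))))))) (.both (.play 453 (.both (.ref 1570 192) (.both (.play 452 (.both (.play 391 (.both (.play 388 (.both (.ref 1546 196) (.play 387 (.ref 3 387)))) (.play 392 (.ref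 2 388)))) (.both (.ref 11 386) (.both (.play 391 (.ref 122 386)) (.ref 251 387))))) (.both (.play 456 (.both (.play 452 (.both (.play 516 (.both (.ref 1537 259) (.play 517 (.ref 1 452)))) (.both (.play 516 (.both (.ref 1562 259) (.play 517 (.ref 1 452)))) (.both (.play 516 (.both (.ref 11 386) (.play 517 (.ref 1 452)))) (.play 388 (.ref 10 387)))))) (.play 392 (.ref 2 389)))) (.both (.ref 1536 261) (.both (.ref 1481 386) (.play 392 (.ref 1046 388)))))))) (.both (.play 453 (.both (.ref 1568 194) (.both (.ref 1567 256) (.both (.play 456 (.both (.play 517 (.both (.play 389 (.both (.play 390 (.both (.play 326 (.both (.ref 1564 258) (.play 262 (.ref 4 262)))) (.both (.play 326 (.ref 616 261)) (.play 581 (.both (.ref 1563 323) (.play 645 (.ref 5 389))))))) (.play 388 (.ref 3 388)))) (.play 516 (.ref 1 452)))) (.play 392 (.ref 2 389)))) (.both (.play 456 (.both (.play 516 (.both (.play 452 (.both (.ref 1562 259) (.play 515 (.ref 1 451)))) (.play 517 (.ref 1 452)))) (.play 392 (.ref 2 389)))) (.both (.ref 1499 386) (.play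 392 (.ref 1046 388)))))))) (.both (.play 453 (.both (.play 456 (.both (.play 517 (.both (.play 389 (.both (.play 581 (.both (.play 582 (.both (.play 325 (.both (.play 644 (.both (.play 645 (.both (.ref 52 196) (.play 708 (.ref 6 452)))) (.play 580 (.ref 6 388)))) (.play 518 (.ref 4 325)))) (.play 646 (.ref 4 389)))) (.both (.ref 1466 196) (.both (.play 390 (.ref 18 325)) (.play 582 (.both (.play 518 (.both (.play 325 (.ref 4 325)) (.play 645 (.ref 126 389)))) (.play 646 (.ref 4 389)))))))) (.play 388 (.ref 3 388)))) (.play 516 (.ref 1 452)))) (.play 392 (.ref 2 389)))) (.both (.ref 1538 259) (.both (.ref 1494 322) (.both (.ref 1496 385) (.both (.ref 1504 386) (.play 456 (.ref 1127 387)))))))) (.both (.play 453 (.both (.ref 1561 194) (.both (.play 456 (.both (.ref 1559 321) (.both (.ref 1553 385) (.both (.ref 1558 385) (.both (.ref 310 386) (.play 516 (.ref 14 387))))))) (.both (.ref 1560 321) (.both (.ref 1554 385) (.both (.play 456 (.both (.ref 1558 385) (.play 392 (.ref 2 389)))) (.both (.ref 1504 386) (.play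 456 (.ref 1127 387))))))))) (.both (.play 453 (.both (.play 456 (.both (.ref 1556 196) (.both (.ref 1553 385) (.both (.ref 1558 385) (.both (.ref 310 386) (.play 516 (.ref 14 387))))))) (.both (.ref 1557 196) (.both (.play 452 (.both (.ref 1555 259) (.both (.ref 11 386) (.ref 119 387)))) (.both (.play 456 (.both (.play 452 (.both (.play 451 (.ref 845 385)) (.both (.ref 11 386) (.play 388 (.ref 10 387))))) (.play 392 (.ref 2 389)))) (.both (.ref 1554 385) (.both (.ref 1504 386) (.play 456 (.ref 1127 387))))))))) (.both (.play 453 (.both (.ref 1552 193) (.both (.ref 1551 259) (.both (.ref 1543 261) (.both (.ref 1496 385) (.both (.ref 1481 386) (.play 392 (.ref 1046 388)))))))) (.both (.play 453 (.both (.play 391 (.both (.ref 1550 196) (.both (.play 452 (.both (.play 518 (.both (.play 327 (.both (.play 516 (.both (.play 388 (.both (.play 326 (.both (.ref 1400 260) (.play 262 (.ref 7 262)))) (.play 387 (.ref 3 387)))) (.play 515 (.ref 1 451)))) (.play 263 (.ref 6 262)))) (.both (.play 582 (.both (.ref 660 323) (.play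 646 (.ref 5 390)))) (.play 582 (.ref 126 326))))) (.both (.ref 891 323) (.play 387 (.ref 102 386))))) (.both (.ref 1549 323) (.ref 154 386))))) (.both (.ref 1548 196) (.both (.play 452 (.both (.play 516 (.both (.play 518 (.both (.ref 789 323) (.play 451 (.ref 0 451)))) (.play 515 (.ref 1 451)))) (.both (.ref 11 386) (.ref 529 387)))) (.both (.ref 1481 386) (.both (.ref 1499 386) (.play 456 (.ref 1127 387)))))))) (.both (.play 453 (.both (.ref 1547 194) (.both (.ref 1545 258) (.both (.ref 1543 261) (.play 392 (.ref 1046 388)))))) (.both (.play 453 (.both (.ref 1544 195) (.both (.ref 1543 261) (.both (.ref 1477 322) (.play 392 (.ref 1046 388)))))) (.both (.play 453 (.both (.ref 1540 256) (.both (.ref 1539 257) (.both (.ref 1538 259) (.both (.ref 1536 261) (.both (.ref 1499 386) (.play 392 (.ref 1046 388)))))))) (.play 453 (.both (.play 452 (.both (.ref 1535 323) (.both (.ref 11 386) (.both (.play 391 (.ref 122 386)) (.ref 119 387))))) (.both (.play 456 (.both (.play 517 (.both (.play 389 (.both (.play 581 (.both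 (.ref 634 323) (.play 390 (.ref 18 325)))) (.play 388 (.ref 3 388)))) (.play 516 (.ref 1 452)))) (.play 392 (.ref 2 389)))) (.both (.ref 1534 386) (.play 392 (.ref 1046 388)))))))))))))))))))))))))
 (.seq (.one (.play 455 (.both (.ref 1586 0) (.both (.ref 1533 0) (.both (.play 391 (.both (.play 327 (.both (.play 263 (.both (.ref 1473 68) (.both (.ref 521 132) (.both (.ref 513 133) (.play 264 (.ref 46 199)))))) (.both (.play 263 (.both (.ref 1473 68) (.both (.ref 516 133) (.ref 47 198)))) (.both (.ref 520 132) (.both (.ref 517 133) (.both (.ref 514 133) (.ref 52 198))))))) (.both (.ref 511 326) (.ref 510 326)))) (.both (.ref 1472 128) (.both (.ref 1212 129) (.both (.play 391 (.both (.play 327 (.both (.ref 374 134) (.both (.ref 1152 259) (.ref 684 326)))) (.both (.play 327 (.both (.ref 1158 134) (.both (.play 518 (.ref 406 198)) (.both (.play 328 (.both (.play 264 (.ref 5 263)) (.play 583 (.both (.play 390 (.both (.play 389 (.both (.play 388 (.ref 2 324)) (.play 582 (.ref 458 390)))) (.play 326 (.ref 7 326)))) (.play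 392 (.ref 5 327)))))) (.ref 684 326))))) (.both (.play 327 (.both (.ref 1154 134) (.both (.ref 1158 134) (.both (.play 326 (.both (.play 390 (.both (.play 392 (.both (.ref 1156 197) (.play 325 (.ref 3 325)))) (.play 583 (.ref 7 326)))) (.play 262 (.ref 7 262)))) (.play 326 (.ref 418 261)))))) (.both (.play 583 (.ref 1148 134)) (.both (.play 327 (.both (.play 518 (.both (.play 263 (.both (.play 198 (.both (.play 199 (.both (.play 134 (.ref 7 134)) (.ref 1155 135))) (.play 262 (.ref 7 198)))) (.play 454 (.ref 6 262)))) (.play 582 (.ref 6 326)))) (.both (.ref 374 134) (.both (.ref 1154 134) (.both (.play 518 (.ref 406 198)) (.play 328 (.both (.play 264 (.ref 5 263)) (.play 583 (.both (.play 392 (.ref 5 327)) (.play 584 (.ref 332 390))))))))))) (.both (.play 392 (.both (.play 328 (.ref 361 199)) (.both (.play 390 (.both (.play 454 (.both (.ref 807 261) (.play 453 (.ref 1 389)))) (.both (.play 329 (.ref 122 324)) (.play 329 (.ref 267 324))))) (.play 390 (.both (.ref 505 323) (.both (.play 326 (.ref 363 325)) (.play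 453 (.both (.play 583 (.both (.play 326 (.ref 7 326)) (.play 584 (.ref 332 390)))) (.play 454 (.ref 1 389)))))))))) (.both (.play 326 (.both (.play 390 (.ref 431 198)) (.both (.play 262 (.both (.play 390 (.ref 430 198)) (.play 327 (.ref 7 262)))) (.both (.play 327 (.both (.play 262 (.ref 7 262)) (.ref 684 326))) (.play 390 (.both (.play 392 (.both (.play 454 (.both (.play 329 (.both (.play 389 (.both (.play 328 (.ref 2 325)) (.play 388 (.ref 169 387)))) (.play 330 (.ref 2 326)))) (.play 453 (.ref 1 389)))) (.play 325 (.ref 3 325)))) (.play 583 (.ref 7 326)))))))) (.both (.play 327 (.both (.ref 52 198) (.both (.play 518 (.ref 379 198)) (.both (.play 518 (.ref 406 198)) (.play 518 (.both (.play 326 (.both (.play 328 (.both (.play 325 (.both (.play 389 (.both (.play 390 (.both (.play 261 (.ref 196 260)) (.play 329 (.ref 1 325)))) (.play 388 (.ref 1 324)))) (.play 392 (.ref 0 325)))) (.play 264 (.ref 5 263)))) (.play 262 (.ref 7 262)))) (.play 582 (.ref 6 326)))))))) (.both (.play 327 (.both (.play 518 (.ref 379 198))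 (.both (.ref 1153 261) (.play 328 (.ref 45 262))))) (.play 583 (.ref 731 262)))))))))))) (.both (.play 391 (.both (.play 327 (.both (.ref 374 134) (.both (.play 583 (.both (.ref 718 198) (.both (.play 518 (.both (.play 454 (.both (.play 263 (.ref 6 262)) (.ref 29 390))) (.play 582 (.ref 6 326)))) (.both (.play 390 (.ref 227 326)) (.play 390 (.both (.play 326 (.ref 7 326)) (.play 582 (.both (.play 518 (.ref 6 326)) (.ref 457 390))))))))) (.both (.ref 1152 259) (.ref 1150 262))))) (.both (.play 327 (.both (.ref 52 198) (.both (.ref 1147 198) (.both (.ref 380 198) (.play 326 (.both (.play 328 (.both (.play 325 (.both (.play 389 (.both (.play 390 (.both (.play 261 (.both (.play 260 (.ref 3 260)) (.play 518 (.both (.play 454 (.ref 7 261)) (.play 582 (.ref 6 326)))))) (.play 329 (.ref 1 325)))) (.play 388 (.ref 1 324)))) (.play 392 (.ref 0 325)))) (.play 264 (.ref 5 263)))) (.play 262 (.ref 7 262)))))))) (.both (.play 327 (.both (.play 518 (.ref 379 198)) (.both (.play 518 (.ref 406 198)) (.ref 1151 261)))) (.both (.play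 327 (.both (.ref 52 198) (.both (.play 328 (.both (.play 264 (.ref 5 263)) (.play 583 (.both (.ref 1149 326) (.play 392 (.ref 5 327)))))) (.ref 1150 262)))) (.both (.play 583 (.ref 1146 198)) (.both (.play 583 (.both (.play 392 (.both (.play 647 (.both (.ref 718 262) (.play 456 (.ref 5 391)))) (.play 328 (.ref 5 327)))) (.both (.ref 1144 262) (.both (.play 584 (.both (.play 327 (.both (.play 328 (.ref 46 263)) (.ref 1145 326))) (.play 648 (.ref 4 391)))) (.play 392 (.ref 37 327)))))) (.play 583 (.both (.ref 1091 323) (.both (.ref 407 325) (.both (.play 390 (.ref 227 326)) (.play 392 (.ref 37 327))))))))))))) (.both (.play 583 (.both (.play 391 (.ref 1148 134)) (.both (.play 391 (.ref 1146 198)) (.both (.play 391 (.both (.ref 772 198) (.both (.ref 374 198) (.both (.play 582 (.ref 379 262)) (.both (.ref 719 262) (.play 390 (.ref 326 326))))))) (.both (.play 391 (.ref 1143 326)) (.both (.play 647 (.both (.ref 366 390) (.both (.play 454 (.ref 227 390)) (.play 646 (.both (.play 585 (.both (.ref 1142 453) (.both (.play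 648 (.both (.play 712 (.ref 4 455)) (.play 649 (.ref 1101 581)))) (.both (.play 648 (.both (.play 712 (.ref 4 455)) (.play 584 (.ref 160 581)))) (.play 584 (.ref 1140 518)))))) (.play 710 (.ref 6 454))))))) (.both (.play 647 (.both (.play 646 (.both (.play 584 (.both (.play 585 (.both (.play 648 (.ref 114 389)) (.play 586 (.ref 1 582)))) (.both (.ref 1141 390) (.play 585 (.ref 1140 518))))) (.play 710 (.ref 6 454)))) (.both (.ref 470 390) (.both (.ref 1132 390) (.both (.play 648 (.both (.play 584 (.both (.play 391 (.ref 4 391)) (.play 585 (.both (.play 582 (.ref 2 518)) (.play 586 (.ref 1098 518)))))) (.play 712 (.ref 4 455)))) (.play 710 (.ref 55 454))))))) (.play 647 (.both (.ref 1115 389) (.both (.play 454 (.ref 326 390)) (.ref 627 390))))))))))) (.both (.play 583 (.both (.play 582 (.both (.play 584 (.both (.play 391 (.both (.ref 378 262) (.play 648 (.ref 4 391)))) (.both (.ref 1124 389) (.play 585 (.ref 1101 517))))) (.both (.play 391 (.ref 379 262)) (.both (.play 584 (.both (.play 581 (.both (.ref 1139 385)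 (.both (.ref 1138 452) (.both (.ref 1128 513) (.both (.ref 353 514) (.play 516 (.ref 102 515))))))) (.both (.ref 1123 516) (.play 585 (.ref 1101 517))))) (.ref 1126 388))))) (.both (.play 647 (.both (.ref 1137 259) (.both (.play 648 (.both (.play 390 (.both (.ref 941 326) (.play 454 (.ref 7 390)))) (.play 712 (.ref 4 455)))) (.ref 1134 389)))) (.both (.play 647 (.both (.ref 972 262) (.both (.play 646 (.ref 379 326)) (.both (.ref 1132 390) (.play 454 (.ref 580 390)))))) (.both (.play 647 (.ref 715 326)) (.both (.play 647 (.both (.play 648 (.both (.ref 1135 387) (.both (.ref 678 388) (.both (.ref 1114 389) (.both (.ref 1133 389) (.ref 388 390)))))) (.both (.play 648 (.both (.ref 1135 387) (.play 712 (.ref 4 455)))) (.both (.ref 1115 389) (.both (.ref 1134 389) (.both (.ref 470 390) (.ref 1132 390))))))) (.both (.play 647 (.both (.ref 1131 388) (.both (.play 454 (.ref 326 390)) (.both (.play 454 (.ref 227 390)) (.play 710 (.ref 55 454)))))) (.ref 1116 389)))))))) (.both (.play 583 (.both (.play 582 (.both (.play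 584 (.both (.ref 459 262) (.both (.ref 1124 389) (.play 585 (.ref 1101 517))))) (.both (.play 391 (.ref 406 262)) (.both (.play 584 (.both (.play 581 (.both (.play 580 (.both (.play 646 (.both (.ref 432 388) (.both (.ref 1130 451) (.play 579 (.ref 433 513))))) (.both (.play 579 (.ref 1127 513)) (.play 516 (.ref 10 515))))) (.both (.play 517 (.both (.play 710 (.both (.play 645 (.both (.ref 427 453) (.play 644 (.ref 1 580)))) (.both (.ref 356 452) (.both (.play 645 (.both (.play 646 (.ref 256 453)) (.play 644 (.ref 1 580)))) (.play 646 (.ref 1129 453)))))) (.play 516 (.ref 3 516)))) (.both (.ref 1128 513) (.both (.ref 353 514) (.play 516 (.ref 102 515))))))) (.both (.ref 1123 516) (.play 585 (.ref 1101 517))))) (.ref 1126 388))))) (.both (.play 647 (.both (.ref 721 262) (.both (.play 648 (.ref 397 327)) (.ref 1122 390)))) (.both (.play 647 (.both (.play 646 (.ref 406 326)) (.both (.play 648 (.ref 397 327)) (.play 712 (.ref 17 454))))) (.both (.play 647 (.both (.play 646 (.ref 406 326)) (.both (.ref 1121 326) (.ref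 1122 390)))) (.both (.play 647 (.both (.ref 1121 326) (.both (.play 648 (.ref 397 327)) (.play 454 (.ref 227 390))))) (.both (.play 647 (.both (.play 646 (.both (.play 648 (.both (.play 454 (.both (.ref 1120 388) (.play 390 (.ref 7 390)))) (.play 712 (.ref 4 455)))) (.play 710 (.ref 6 454)))) (.both (.ref 366 390) (.both (.ref 724 390) (.play 710 (.ref 55 454)))))) (.ref 1116 389)))))))) (.both (.ref 1113 260) (.play 583 (.both (.play 391 (.both (.ref 1091 323) (.play 582 (.ref 458 390)))) (.both (.ref 1090 326) (.both (.play 647 (.both (.ref 58 326) (.both (.play 648 (.ref 397 327)) (.play 454 (.ref 227 390))))) (.both (.play 647 (.both (.ref 58 326) (.both (.play 646 (.ref 406 326)) (.play 454 (.ref 326 390))))) (.play 647 (.both (.ref 394 388) (.both (.ref 366 390) (.both (.play 454 (.ref 227 390)) (.play 710 (.ref 55 454))))))))))))))))))))))))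
 (.one (.play 521 (.both (.ref 1587 2) (.both (.ref 1089 64) (.both (.ref 875 65) (.both (.play 457 (.both (.play 393 (.both (.ref 525 70) (.both (.play 329 (.both (.ref 52 200) (.both (.play 522 (.ref 368 200)) (.both (.play 522 (.ref 397 201)) (.play 522 (.both (.ref 509 261) (.play 586 (.ref 4 329)))))))) (.both (.play 522 (.both (.play 329 (.ref 397 201)) (.play 456 (.ref 3 456)))) (.both (.ref 503 200) (.play 456 (.both (.play 455 (.both (.play 454 (.ref 122 388)) (.both (.play 454 (.both (.ref 266 388) (.both (.ref 121 388) (.ref 529 389)))) (.both (.play 394 (.ref 69 390)) (.play 394 (.ref 526 391)))))) (.play 522 (.ref 3 456))))))))) (.both (.play 393 (.both (.ref 525 70) (.both (.ref 511 328) (.ref 510 328)))) (.both (.play 393 (.both (.play 522 (.both (.play 329 (.both (.ref 367 200) (.both (.ref 396 201) (.ref 509 261)))) (.play 456 (.ref 3 456)))) (.both (.play 522 (.both (.play 585 (.both (.ref 409 200) (.play 584 (.ref 1 520)))) (.play 456 (.ref 3 456)))) (.both (.play 522 (.both (.play 585 (.both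 (.ref 507 264) (.play 584 (.ref 1 520)))) (.play 456 (.ref 3 456)))) (.both (.play 585 (.both (.play 584 (.both (.ref 52 264) (.play 522 (.ref 1 520)))) (.both (.play 394 (.both (.play 392 (.both (.play 328 (.ref 7 328)) (.ref 488 392))) (.play 330 (.ref 5 329)))) (.ref 501 392)))) (.both (.play 585 (.both (.play 394 (.both (.play 392 (.both (.ref 505 325) (.play 328 (.ref 7 328)))) (.play 330 (.ref 5 329)))) (.both (.ref 404 327) (.both (.play 392 (.ref 326 328)) (.play 394 (.ref 45 328)))))) (.both (.play 585 (.both (.ref 404 327) (.both (.play 394 (.both (.play 330 (.ref 5 329)) (.ref 501 392))) (.play 522 (.ref 504 456))))) (.play 522 (.both (.play 585 (.both (.ref 489 328) (.play 584 (.ref 1 520)))) (.play 456 (.ref 3 456))))))))))) (.both (.play 393 (.both (.ref 503 200) (.both (.play 522 (.both (.play 585 (.both (.ref 58 264) (.play 584 (.ref 1 520)))) (.play 456 (.ref 3 456)))) (.both (.play 585 (.both (.play 586 (.ref 368 264)) (.both (.ref 501 392) (.play 584 (.ref 458 392))))) (.both (.play 585 (.both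 (.ref 407 327) (.play 586 (.ref 332 392)))) (.play 522 (.ref 500 328))))))) (.both (.play 585 (.both (.play 522 (.both (.ref 411 200) (.both (.ref 53 264) (.both (.ref 59 264) (.both (.ref 497 328) (.both (.ref 493 392) (.both (.ref 495 392) (.ref 492 392)))))))) (.both (.play 522 (.ref 498 200)) (.both (.play 393 (.both (.ref 447 328) (.both (.play 394 (.both (.play 392 (.both (.play 328 (.ref 7 328)) (.ref 44 392))) (.play 330 (.ref 5 329)))) (.play 584 (.ref 458 392))))) (.both (.play 522 (.both (.ref 497 328) (.play 584 (.ref 1 520)))) (.both (.ref 496 392) (.both (.play 522 (.ref 494 392)) (.play 584 (.both (.play 586 (.both (.play 650 (.ref 99 393)) (.play 587 (.ref 2 520)))) (.play 522 (.ref 1 520))))))))))) (.both (.play 522 (.both (.play 585 (.both (.ref 495 392) (.play 584 (.ref 1 520)))) (.play 456 (.ref 3 456)))) (.both (.play 522 (.both (.play 585 (.ref 494 392)) (.play 456 (.ref 3 456)))) (.play 522 (.both (.play 585 (.both (.ref 492 392) (.play 584 (.ref 1 520)))) (.play 456 (.ref 3 456))))))))))))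 (.both (.ref 491 195) (.both (.play 522 (.both (.play 457 (.both (.play 393 (.both (.play 329 (.both (.ref 367 200) (.both (.ref 396 201) (.play 328 (.ref 418 263))))) (.both (.play 329 (.ref 397 201)) (.both (.play 329 (.both (.play 328 (.both (.play 265 (.both (.play 392 (.both (.play 327 (.both (.play 326 (.ref 218 261)) (.play 394 (.ref 3 327)))) (.play 585 (.ref 7 328)))) (.play 458 (.ref 4 265)))) (.play 264 (.ref 7 264)))) (.play 586 (.ref 4 329)))) (.both (.play 329 (.both (.play 328 (.ref 418 263)) (.play 586 (.ref 4 329)))) (.play 586 (.both (.play 394 (.both (.play 392 (.both (.play 331 (.ref 122 326)) (.both (.play 328 (.ref 363 327)) (.play 330 (.both (.play 331 (.ref 86 327)) (.play 585 (.ref 5 329))))))) (.both (.play 331 (.ref 416 326)) (.both (.play 331 (.both (.play 392 (.both (.play 328 (.ref 363 327)) (.play 332 (.ref 2 328)))) (.play 458 (.ref 5 330)))) (.both (.play 585 (.ref 415 328)) (.play 458 (.ref 413 329))))))) (.both (.play 650 (.ref 81 393)) (.play 650 (.ref 98 393)))))))))) (.play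 456 (.ref 3 456)))) (.both (.play 588 (.ref 12 455)) (.play 588 (.both (.play 587 (.both (.play 460 (.both (.play 461 (.ref 2 457)) (.play 652 (.both (.ref 412 457) (.both (.ref 29 459) (.ref 27 459)))))) (.play 520 (.ref 0 520)))) (.play 589 (.ref 0 521))))))) (.both (.play 522 (.both (.play 585 (.both (.play 457 (.both (.ref 411 200) (.play 456 (.ref 3 456)))) (.play 584 (.ref 1 520)))) (.both (.play 588 (.ref 12 455)) (.play 588 (.ref 25 519))))) (.both (.play 585 (.both (.play 584 (.both (.play 457 (.both (.play 393 (.both (.ref 378 264) (.both (.ref 405 264) (.ref 407 327)))) (.both (.play 393 (.ref 406 264)) (.both (.play 393 (.ref 379 264)) (.both (.play 393 (.both (.ref 404 327) (.play 648 (.ref 6 392)))) (.play 649 (.both (.play 648 (.both (.play 456 (.both (.play 520 (.both (.play 455 (.both (.play 458 (.both (.play 394 (.ref 2 391)) (.ref 258 453))) (.play 391 (.ref 7 391)))) (.play 713 (.ref 7 456)))) (.play 392 (.ref 7 392)))) (.play 712 (.ref 6 456)))) (.both (.play 456 (.ref 227 392)) (.ref 402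 454))))))))) (.play 522 (.ref 1 520)))) (.both (.play 522 (.both (.play 457 (.ref 400 264)) (.play 584 (.ref 1 520)))) (.both (.play 457 (.both (.play 522 (.ref 400 264)) (.both (.play 456 (.both (.play 392 (.ref 399 328)) (.play 522 (.ref 3 456)))) (.both (.play 649 (.both (.play 650 (.ref 397 329)) (.both (.play 458 (.ref 45 392)) (.play 714 (.ref 17 456))))) (.both (.play 649 (.both (.play 650 (.ref 397 329)) (.play 456 (.ref 326 392)))) (.ref 395 392)))))) (.both (.play 649 (.both (.play 457 (.both (.play 648 (.ref 379 328)) (.both (.play 456 (.both (.ref 40 329) (.play 392 (.ref 7 392)))) (.both (.ref 394 390) (.ref 390 392))))) (.both (.play 457 (.ref 391 328)) (.both (.play 713 (.both (.ref 386 328) (.both (.ref 389 456) (.both (.play 776 (.ref 55 520)) (.play 776 (.both (.play 712 (.ref 6 520)) (.play 777 (.both (.play 584 (.both (.play 520 (.ref 7 520)) (.play 841 (.both (.play 586 (.both (.play 587 (.ref 2 520)) (.play 650 (.ref 5 585)))) (.play 648 (.ref 7 584)))))) (.play 840 (.ref 6 584))))))))))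 (.both (.play 713 (.both (.ref 386 328) (.both (.ref 372 328) (.both (.play 714 (.ref 368 392)) (.both (.play 520 (.both (.play 456 (.ref 7 456)) (.play 777 (.both (.play 840 (.both (.play 841 (.both (.play 650 (.both (.play 714 (.ref 382 457)) (.play 586 (.ref 5 585)))) (.play 904 (.ref 6 648)))) (.play 776 (.ref 6 584)))) (.play 584 (.ref 7 520)))))) (.ref 377 456)))))) (.both (.play 713 (.both (.ref 381 328) (.both (.ref 374 328) (.both (.play 712 (.ref 379 392)) (.both (.ref 377 456) (.ref 375 520)))))) (.both (.play 713 (.both (.ref 374 328) (.both (.ref 372 328) (.both (.play 714 (.ref 370 456)) (.play 778 (.ref 17 520)))))) (.both (.play 713 (.both (.play 714 (.ref 368 392)) (.both (.ref 366 456) (.play 776 (.ref 55 520))))) (.play 713 (.both (.play 520 (.ref 326 456)) (.both (.play 520 (.ref 227 456)) (.play 714 (.both (.play 712 (.both (.play 715 (.both (.play 651 (.both (.play 711 (.both (.play 780 (.both (.play 716 (.ref 60 521)) (.play 779 (.ref 0 712)))) (.play 650 (.ref 2 647)))) (.play 652 (.ref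 2 648)))) (.both (.play 651 (.ref 122 646)) (.play 648 (.ref 30 647))))) (.play 776 (.ref 6 520)))) (.play 778 (.ref 4 521))))))))))))))) (.both (.play 522 (.both (.play 649 (.both (.play 457 (.both (.ref 365 329) (.play 456 (.ref 3 456)))) (.both (.play 458 (.ref 361 329)) (.play 456 (.both (.play 520 (.ref 363 455)) (.play 457 (.ref 3 456))))))) (.play 584 (.ref 1 520)))) (.both (.play 584 (.both (.play 586 (.both (.play 583 (.both (.ref 362 389) (.both (.play 519 (.both (.play 712 (.both (.play 647 (.both (.ref 359 391) (.play 646 (.ref 1 582)))) (.both (.play 648 (.ref 358 391)) (.ref 356 454)))) (.play 518 (.ref 3 518)))) (.both (.ref 354 515) (.both (.ref 353 516) (.play 518 (.ref 102 517))))))) (.play 587 (.ref 2 520)))) (.play 522 (.ref 1 520)))) (.both (.play 584 (.both (.play 586 (.both (.play 583 (.both (.play 650 (.both (.play 519 (.both (.play 647 (.both (.play 648 (.both (.play 455 (.both (.play 456 (.both (.play 392 (.ref 5 391)) (.play 711 (.both (.play 520 (.ref 6 455)) (.play 710 (.ref 32 518))))))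 (.play 391 (.ref 4 391)))) (.both (.play 712 (.ref 256 455)) (.play 712 (.both (.play 776 (.ref 7 519)) (.ref 351 519)))))) (.play 646 (.ref 1 582)))) (.play 518 (.ref 3 518)))) (.play 651 (.ref 0 583)))) (.both (.play 518 (.ref 102 517)) (.both (.play 650 (.ref 12 517)) (.play 650 (.ref 25 581)))))) (.play 587 (.ref 2 520)))) (.play 522 (.ref 1 520)))) (.play 584 (.both (.play 586 (.both (.play 583 (.both (.play 650 (.both (.play 649 (.both (.play 714 (.ref 256 457)) (.play 582 (.ref 0 582)))) (.play 651 (.ref 0 583)))) (.both (.play 650 (.both (.play 519 (.both (.play 647 (.both (.play 714 (.both (.play 649 (.both (.play 648 (.both (.play 712 (.ref 256 455)) (.play 715 (.ref 0 647)))) (.play 457 (.ref 4 457)))) (.play 778 (.ref 7 521)))) (.play 646 (.ref 1 582)))) (.play 518 (.ref 3 518)))) (.play 651 (.ref 0 583)))) (.play 518 (.ref 102 517))))) (.play 587 (.ref 2 520)))) (.play 522 (.ref 1 520)))))))))))) (.both (.ref 350 261) (.both (.play 522 (.both (.play 585 (.both (.play 457 (.both (.ref 59 264) (.play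 456 (.ref 3 456)))) (.play 584 (.ref 1 520)))) (.both (.play 588 (.ref 12 455)) (.play 588 (.ref 25 519))))) (.both (.play 522 (.both (.play 457 (.both (.play 585 (.both (.ref 53 264) (.play 584 (.ref 1 520)))) (.play 456 (.ref 3 456)))) (.both (.play 588 (.ref 12 455)) (.play 588 (.ref 25 519))))) (.both (.play 522 (.both (.play 585 (.both (.play 649 (.both (.play 457 (.both (.play 393 (.both (.ref 48 264) (.play 394 (.ref 46 329)))) (.play 456 (.ref 3 456)))) (.both (.ref 39 392) (.both (.play 713 (.ref 45 456)) (.play 457 (.both (.play 456 (.ref 3 456)) (.ref 43 456))))))) (.play 584 (.ref 1 520)))) (.both (.play 588 (.ref 12 455)) (.ref 9 519)))) (.both (.play 522 (.both (.play 585 (.both (.play 649 (.both (.play 457 (.both (.ref 40 329) (.play 456 (.ref 3 456)))) (.both (.ref 39 392) (.both (.play 713 (.both (.ref 38 456) (.play 777 (.ref 36 521)))) (.play 713 (.ref 37 457)))))) (.play 584 (.ref 1 520)))) (.both (.play 588 (.both (.ref 35 392) (.play 589 (.ref 0 521)))) (.both (.play 588 (.both (.play 587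 (.both (.play 460 (.both (.play 461 (.ref 2 457)) (.play 652 (.both (.play 651 (.both (.ref 31 458) (.play 715 (.ref 6 459)))) (.both (.ref 29 459) (.ref 27 459)))))) (.play 520 (.ref 0 520)))) (.play 589 (.ref 0 521)))) (.play 588 (.ref 25 519)))))) (.play 522 (.both (.play 588 (.both (.play 585 (.both (.play 457 (.both (.ref 22 392) (.play 456 (.ref 3 456)))) (.play 584 (.ref 1 520)))) (.play 589 (.ref 0 521)))) (.both (.play 584 (.ref 14 455)) (.both (.play 588 (.ref 12 455)) (.ref 9 519)))))))))))))))))))))))))))))))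
    (by decide +kernel)

end Crest.Agent.Snaky
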