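import Crest.Agent.Lib_Snaky.Root

set_option autoImplicit false
set_option linter.all false
set_option maxRecDepth 1000000

namespace Crest.Agent.Snaky

theorem Cert_L42 : PW ⟨18, nat_lit 189949748331344282158465936143089041947166946823150368417981053974164398042611006175138949438466720043001255312937424880993353255330308402038630652649458094510938859027126288384, nat_lit 59949689441266938725683315901863919364259196564260080029982193953956735845966898583220705575418771666945370874387023365502371043277374943474984078180075642268860862671562952334076332954086357277895005283846267161871142217795770605092344803265170667170460535676035902544793602179231639176763662066952692811198819174874589848435444522372481877552188904839126227040376381703623374231392224256, 22, nat_lit 59949689441266938725683315901863919364259196564260080029982193953956735845966898583220705575418771666945370874387023365502371043277374943474984078180075642268860862671562952334076332954086357277895005283846267161871142217795770605092344803265170667170460535676035902544793602179231639176763662066952692811198819174874589848435444522372481877552188904839126227040376381703623374231392224256⟩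 :=
  sound2 baseTbl baseTbl_ok
    (.seq (.seq (.seq (.seq (.seq (.seq (.seq (.seq (.seq (.seq (.one (.play 257 (.both (.play 193 (.ref 4 0)) (.play 321 (.ref 4 64)))))
 (.one (.play 257 (.both (.play 64 (.ref 7 0)) (.ref 8 1)))))
 (.seq (.one (.both (.play 64 (.ref 7 0)) (.play 320 (.ref 6 64))))
 (.one (.play 256 (.both (.play 192 (.ref 6 0)) (.play 257 (.ref 10 0)))))))
 (.seq (.seq (.one (.play 256 (.both (.play 192 (.ref 6 0)) (.play 320 (.ref 6 64)))))
 (.one (.both (.ref 12 0) (.ref 8 1))))
 (.seq (.one (.play 257 (.both (.play 1 (.ref 13 0)) (.both (.ref 11 64) (.ref 9 64)))))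
 (.seq (.one (.play 64 (.both (.play 0 (.ref 7 0)) (.play 128 (.ref 7 64)))))
 (.one (.play 321 (.both (.ref 15 0) (.play 385 (.ref 13 128)))))))))
 (.seq (.seq (.seq (.one (.both (.play 1 (.ref 5 0)) (.play 129 (.ref 5 64))))
 (.one (.both (.play 65 (.ref 17 0)) (.ref 8 64))))
 (.seq (.one (.play 257 (.both (.ref 12 0) (.play 321 (.ref 18 1)))))
 (.seq (.one (.play 321 (.both (.ref 15 0) (.ref 19 128))))
 (.one (.play 257 (.both (.ref 20 0) (.both (.ref 16 0) (.ref 8 1))))))))
 (.seq (.seq (.one (.play 321 (.both (.play 66 (.ref 17 1)) (.play 385 (.ref 13 128)))))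
 (.one (.both (.play 67 (.ref 0 0)) (.play 69 (.ref 0 1)))))
 (.seq (.one (.play 65 (.both (.play 64 (.ref 1 0)) (.play 66 (.ref 1 1)))))
 (.seq (.one (.both (.ref 24 0) (.play 69 (.ref 23 1))))
 (.one (.both (.play 4 (.ref 2 0)) (.play 132 (.ref 0 64)))))))))
 (.seq (.seq (.seq (.seq (.one (.both (.play 3 (.ref 2 0)) (.play 132 (.both (.play 68 (.ref 26 1)) (.play 131 (.ref 0 64))))))
 (.one (.both (.play 64 (.ref 1 0)) (.play 5 (.ref 1 1)))))
 (.seq (.one (.both (.play 0 (.ref 0 0)) (.play 69 (.ref 0 1))))
 (.seq (.one (.play 67 (.both (.play 68 (.ref 29 0)) (.play 66 (.ref 28 1)))))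
 (.one (.both (.play 3 (.ref 2 0)) (.play 5 (.ref 2 1)))))))
 (.seq (.seq (.one (.both (.play 4 (.ref 31 0)) (.play 132 (.ref 23 64))))
 (.one (.play 69 (.both (.play 70 (.ref 32 2)) (.ref 24 64)))))
 (.seq (.one (.play 69 (.both (.ref 33 1) (.both (.ref 30 64) (.play 133 (.ref 23 65))))))
 (.seq (.one (.both (.play 5 (.ref 31 1)) (.ref 24 64)))
 (.one (.play 69 (.both (.play 70 (.ref 35 1)) (.both (.ref 33 1) (.both (.ref 34 1) (.both (.play 6 (.ref 27 2)) (.play 65 (.ref 25 64))))))))))))
 (.seq (.seq (.seq (.one (.play 68 (.both (.play 66 (.both (.ref 36 0) (.play 2 (.ref 7 2)))) (.play 4 (.ref 5 3)))))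
 (.one (.play 256 (.both (.play 65 (.ref 5 0)) (.play 321 (.ref 4 64))))))
 (.seq (.one (.play 321 (.both (.play 65 (.both (.play 1 (.ref 5 0)) (.ref 38 64))) (.play 257 (.ref 4 64)))))
 (.seq (.one (.both (.play 65 (.ref 3 0)) (.play 69 (.ref 3 1))))
 (.one (.both (.play 0 (.ref 0 0)) (.play 69 (.ref 40 1)))))))
 (.seq (.seq (.one (.both (.play 4 (.both (.play 3 (.ref 2 0)) (.play 68 (.ref 26 1)))) (.play 131 (.ref 0 64))))
 (.one (.play 68 (.both (.play 1 (.ref 3 0)) (.play 133 (.ref 42 1))))))
 (.seq (.one (.both (.play 3 (.ref 0 0)) (.play 69 (.ref 3 1))))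
 (.seq (.one (.both (.play 0 (.ref 0 0)) (.play 69 (.ref 44 1))))
 (.one (.both (.play 65 (.ref 7 0)) (.play 321 (.ref 7 64))))))))))
 (.seq (.seq (.seq (.seq (.seq (.one (.play 195 (.both (.play 259 (.ref 46 2)) (.play 196 (.ref 45 128)))))
 (.one (.play 132 (.both (.ref 47 1) (.play 65 (.ref 3 64))))))
 (.seq (.one (.both (.play 0 (.ref 3 0)) (.play 5 (.ref 2 1))))
 (.one (.play 4 (.both (.play 3 (.ref 2 0)) (.play 68 (.ref 49 0)))))))
 (.seq (.seq (.one (.play 68 (.both (.ref 50 1) (.play 132 (.ref 23 64)))))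
 (.one (.both (.play 1 (.ref 1 0)) (.play 5 (.ref 1 1)))))
 (.seq (.one (.both (.play 64 (.ref 2 0)) (.play 5 (.ref 52 1))))
 (.seq (.one (.play 65 (.both (.play 1 (.ref 6 0)) (.play 2 (.ref 5 1)))))
 (.one (.both (.play 3 (.ref 6 2)) (.play 68 (.ref 2 64))))))))
 (.seq (.seq (.seq (.one (.both (.play 5 (.ref 27 1)) (.play 128 (.ref 1 64))))
 (.one (.both (.play 64 (.ref 2 0)) (.play 68 (.ref 2 1)))))
 (.seq (.one (.both (.play 65 (.ref 57 0)) (.play 6 (.ref 1 2))))
 (.seq (.one (.play 68 (.both (.play 4 (.ref 5 3)) (.play 69 (.ref 58 64)))))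
 (.one (.play 260 (.both (.play 196 (.both (.play 130 (.both (.ref 59 0) (.both (.play 69 (.both (.play 68 (.both (.play 70 (.ref 56 2)) (.play 4 (.ref 5 3)))) (.both (.play 132 (.both (.play 197 (.both (.play 133 (.ref 55 2)) (.play 198 (.ref 3 130)))) (.both (.play 70 (.both (.play 68 (.both (.play 4 (.ref 6 3)) (.play 71 (.ref 1 67)))) (.play 133 (.ref 2 66)))) (.ref 54 3)))) (.play 197 (.both (.play 133 (.both (.play 5 (.ref 6 4)) (.play 134 (.ref 53 130)))) (.both (.play 198 (.both (.play 133 (.both (.play 5 (.ref 6 4)) (.ref 51 131))) (.play 131 (.ref 3 130)))) (.both (.play 133 (.both (.play 5 (.ref 6 4)) (.ref 48 66))) (.ref 43 130)))))))) (.play 129 (.ref 41 128))))) (.play 3 (.ref 4 3)))) (.play 324 (.ref 4 67))))))))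
 (.seq (.seq (.one (.both (.play 0 (.ref 7 0)) (.play 321 (.ref 7 64))))
 (.one (.play 257 (.both (.play 64 (.ref 61 0)) (.ref 8 1)))))
 (.seq (.one (.play 192 (.both (.play 256 (.ref 6 0)) (.ref 62 64))))
 (.seq (.one (.both (.play 67 (.ref 2 0)) (.play 5 (.ref 1 1))))
 (.one (.both (.play 1 (.ref 1 0)) (.play 66 (.ref 64 0)))))))))
 (.seq (.seq (.seq (.seq (.one (.both (.play 64 (.ref 2 0)) (.play 5 (.ref 64 1))))
 (.one (.both (.play 64 (.ref 2 0)) (.play 2 (.ref 1 1)))))
 (.seq (.one (.both (.play 65 (.ref 67 0)) (.play 6 (.ref 1 2))))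
 (.seq (.one (.play 65 (.both (.play 3 (.ref 67 0)) (.play 68 (.ref 2 1)))))
 (.one (.both (.ref 69 0) (.both (.play 3 (.ref 68 0)) (.both (.play 68 (.ref 66 1)) (.play 6 (.ref 65 2)))))))))
 (.seq (.seq (.one (.both (.play 64 (.ref 2 0)) (.play 5 (.ref 1 1))))
 (.one (.both (.play 2 (.ref 4 2)) (.play 196 (.ref 71 192)))))
 (.seq (.one (.play 258 (.both (.play 196 (.both (.play 194 (.both (.play 3 (.ref 6 2)) (.play 197 (.ref 28 193)))) (.both (.play 260 (.ref 72 1)) (.both (.play 3 (.both (.play 194 (.ref 6 2)) (.play 260 (.ref 4 3)))) (.play 197 (.ref 70 192)))))) (.play 322 (.ref 6 66)))))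
 (.seq (.one (.play 259 (.both (.ref 73 0) (.both (.ref 39 3) (.play 323 (.both (.ref 37 64) (.both (.ref 63 66) (.ref 39 67))))))))
 (.one (.both (.play 256 (.ref 6 0)) (.play 258 (.ref 4 1))))))))
 (.seq (.seq (.seq (.one (.play 258 (.both (.play 256 (.both (.play 192 (.ref 6 0)) (.play 257 (.ref 75 64)))) (.play 194 (.ref 4 1)))))
 (.one (.both (.play 1 (.ref 3 0)) (.play 5 (.ref 2 1)))))
 (.seq (.one (.play 4 (.both (.play 3 (.ref 2 0)) (.play 68 (.ref 77 0)))))
 (.seq (.one (.play 68 (.both (.ref 78 1) (.play 132 (.ref 23 64)))))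
 (.one (.play 68 (.both (.play 4 (.ref 31 0)) (.both (.play 69 (.both (.play 3 (.both (.play 4 (.ref 2 0)) (.play 70 (.ref 3 2)))) (.play 133 (.ref 23 65)))) (.both (.play 69 (.ref 32 1)) (.ref 79 1)))))))))
 (.seq (.seq (.one (.both (.play 0 (.ref 3 0)) (.play 128 (.ref 1 64))))
 (.one (.play 129 (.both (.play 1 (.both (.play 65 (.ref 81 0)) (.play 2 (.ref 3 1)))) (.play 130 (.ref 1 65))))))
 (.seq (.one (.play 66 (.both (.ref 82 0) (.ref 80 2))))
 (.seq (.one (.both (.play 259 (.ref 6 3)) (.ref 83 128)))
 (.one (.play 197 (.both (.play 195 (.ref 84 0)) (.play 261 (.ref 4 4))))))))))))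
 (.seq (.seq (.seq (.seq (.seq (.seq (.one (.both (.play 1 (.ref 5 0)) (.play 320 (.ref 5 64))))
 (.one (.both (.play 0 (.ref 4 0)) (.play 321 (.ref 4 64)))))
 (.seq (.one (.play 193 (.both (.play 257 (.ref 87 0)) (.play 129 (.ref 86 64)))))
 (.one (.play 321 (.both (.ref 88 1) (.both (.ref 22 64) (.ref 8 65)))))))
 (.seq (.seq (.one (.both (.play 64 (.ref 2 0)) (.play 5 (.ref 2 1))))
 (.one (.both (.play 2 (.ref 6 1)) (.play 256 (.ref 1 192)))))
 (.seq (.one (.play 196 (.both (.play 257 (.ref 91 0)) (.ref 79 129))))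
 (.seq (.one (.play 260 (.both (.play 324 (.both (.play 197 (.both (.play 261 (.both (.play 4 (.ref 4 4)) (.play 259 (.both (.ref 92 66) (.play 258 (.ref 90 193)))))) (.play 133 (.ref 86 68)))) (.both (.ref 12 67) (.ref 22 67)))) (.both (.ref 89 3) (.both (.ref 85 64) (.both (.ref 76 67) (.ref 19 67)))))))
 (.one (.both (.play 1 (.ref 6 0)) (.play 320 (.ref 6 64))))))))
 (.seq (.seq (.seq (.one (.play 192 (.both (.play 256 (.ref 94 0)) (.play 128 (.ref 61 64)))))
 (.one (.play 321 (.both (.ref 95 0) (.both (.ref 12 64) (.ref 16 64))))))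
 (.seq (.one (.both (.play 66 (.ref 17 1)) (.ref 12 64)))
 (.seq (.one (.play 66 (.both (.play 2 (.ref 5 1)) (.play 321 (.both (.play 128 (.ref 7 64)) (.play 130 (.ref 5 65)))))))
 (.one (.play 1 (.both (.play 129 (.both (.play 65 (.ref 81 0)) (.play 130 (.ref 1 65)))) (.play 2 (.ref 3 1))))))))
 (.seq (.seq (.one (.play 66 (.both (.ref 99 0) (.play 6 (.ref 2 2)))))
 (.one (.play 1 (.both (.play 0 (.ref 3 0)) (.play 2 (.ref 3 1))))))
 (.seq (.one (.both (.ref 101 0) (.ref 24 64)))
 (.seq (.one (.play 65 (.both (.play 0 (.ref 3 0)) (.play 4 (.ref 2 1)))))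
 (.one (.play 1 (.both (.ref 103 0) (.play 2 (.ref 3 1))))))))))
 (.seq (.seq (.seq (.seq (.one (.play 65 (.both (.play 4 (.ref 2 1)) (.ref 24 64))))
 (.one (.play 66 (.both (.ref 105 0) (.both (.ref 104 0) (.play 70 (.ref 102 1)))))))
 (.seq (.one (.play 5 (.both (.play 1 (.both (.play 0 (.ref 3 0)) (.play 69 (.ref 77 1)))) (.play 4 (.ref 2 1)))))
 (.seq (.one (.play 257 (.both (.play 66 (.ref 5 1)) (.ref 76 64))))
 (.one (.play 193 (.both (.play 65 (.both (.ref 108 0) (.play 64 (.ref 3 64)))) (.play 192 (.ref 1 128))))))))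
 (.seq (.seq (.one (.play 131 (.both (.play 134 (.both (.ref 109 2) (.both (.ref 107 66) (.ref 80 67)))) (.both (.ref 106 64) (.both (.ref 100 64) (.play 70 (.ref 70 65)))))))
 (.one (.play 194 (.both (.play 258 (.ref 6 2)) (.play 193 (.ref 53 128))))))
 (.seq (.one (.play 259 (.both (.play 4 (.ref 5 3)) (.ref 111 64))))
 (.seq (.one (.play 196 (.both (.play 70 (.both (.play 132 (.both (.ref 112 1) (.play 131 (.both (.play 130 (.both (.play 133 (.ref 2 66)) (.play 129 (.ref 0 129)))) (.play 71 (.ref 1 67)))))) (.play 6 (.ref 5 5)))) (.both (.play 260 (.ref 94 4)) (.ref 110 64)))))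
 (.one (.play 66 (.both (.ref 104 0) (.ref 24 65))))))))
 (.seq (.seq (.seq (.one (.play 67 (.both (.ref 114 0) (.both (.play 66 (.ref 102 1)) (.both (.play 66 (.both (.play 4 (.both (.play 65 (.ref 2 1)) (.play 3 (.ref 3 3)))) (.ref 24 65))) (.ref 101 2))))))
 (.one (.play 71 (.both (.ref 115 0) (.play 136 (.ref 42 4))))))
 (.seq (.one (.both (.play 262 (.ref 4 5)) (.ref 116 128)))
 (.seq (.one (.play 196 (.both (.play 198 (.ref 117 0)) (.play 260 (.ref 6 4)))))
 (.one (.both (.play 6 (.ref 5 5)) (.ref 118 64))))))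
 (.seq (.seq (.one (.play 261 (.both (.play 70 (.ref 119 0)) (.both (.play 325 (.ref 97 4)) (.both (.play 325 (.ref 18 5)) (.play 325 (.ref 13 68)))))))
 (.one (.play 257 (.both (.play 193 (.ref 4 0)) (.ref 38 0)))))
 (.seq (.one (.play 257 (.both (.ref 12 0) (.play 66 (.ref 5 1)))))
 (.seq (.one (.play 257 (.both (.play 1 (.ref 13 0)) (.both (.ref 122 64) (.ref 121 65)))))
 (.one (.both (.play 193 (.ref 6 0)) (.play 320 (.ref 5 64))))))))))
 (.seq (.seq (.seq (.seq (.seq (.one (.play 193 (.both (.play 257 (.both (.play 65 (.both (.play 66 (.ref 5 1)) (.play 64 (.ref 3 64)))) (.both (.play 66 (.ref 124 1)) (.ref 123 64)))) (.play 192 (.ref 1 128)))))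
 (.one (.both (.play 64 (.ref 5 0)) (.play 320 (.ref 5 64)))))
 (.seq (.one (.play 195 (.both (.play 259 (.ref 126 3)) (.play 194 (.ref 68 128)))))
 (.seq (.one (.both (.play 5 (.ref 2 1)) (.play 128 (.ref 1 64))))
 (.one (.play 129 (.both (.play 65 (.ref 128 0)) (.play 130 (.ref 1 65))))))))
 (.seq (.seq (.one (.play 133 (.both (.ref 47 2) (.both (.ref 129 64) (.play 134 (.ref 25 129))))))
 (.one (.both (.play 0 (.ref 0 0)) (.play 70 (.ref 3 2)))))
 (.seq (.one (.play 1 (.both (.play 3 (.ref 131 0)) (.play 66 (.ref 3 1)))))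
 (.seq (.one (.play 66 (.both (.ref 48 2) (.both (.ref 132 64) (.play 130 (.ref 49 65))))))
 (.one (.play 131 (.both (.ref 133 0) (.both (.ref 130 1) (.both (.play 134 (.both (.ref 127 1) (.both (.ref 125 2) (.ref 47 3)))) (.both (.ref 106 64) (.ref 100 64)))))))))))
 (.seq (.seq (.seq (.one (.both (.play 1 (.ref 6 0)) (.play 320 (.ref 126 64))))
 (.one (.both (.play 64 (.ref 2 0)) (.play 6 (.ref 1 2)))))
 (.seq (.one (.both (.ref 79 1) (.play 129 (.ref 1 64))))
 (.seq (.one (.play 65 (.both (.ref 101 0) (.play 5 (.ref 2 1)))))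
 (.one (.play 130 (.both (.play 66 (.both (.ref 138 0) (.play 129 (.ref 1 65)))) (.both (.play 70 (.ref 137 2)) (.play 129 (.both (.play 131 (.ref 136 64)) (.play 66 (.ref 1 65)))))))))))
 (.seq (.seq (.one (.both (.play 0 (.ref 3 0)) (.play 69 (.ref 3 1))))
 (.one (.play 3 (.both (.play 64 (.ref 2 0)) (.play 70 (.ref 140 2))))))
 (.seq (.one (.play 65 (.both (.ref 101 0) (.play 4 (.ref 2 1)))))
 (.seq (.one (.play 66 (.both (.ref 142 0) (.both (.ref 101 1) (.ref 141 1)))))
 (.one (.play 131 (.both (.play 196 (.both (.play 69 (.both (.play 260 (.ref 126 4)) (.play 130 (.ref 2 66)))) (.play 195 (.ref 1 131)))) (.both (.play 130 (.both (.ref 82 64) (.play 69 (.ref 2 66)))) (.ref 24 130))))))))))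
 (.seq (.seq (.seq (.seq (.one (.play 132 (.both (.ref 144 0) (.both (.ref 109 3) (.both (.ref 114 65) (.both (.ref 143 65) (.ref 99 66)))))))
 (.one (.both (.play 0 (.ref 4 0)) (.play 321 (.ref 46 64)))))
 (.seq (.one (.play 199 (.both (.play 263 (.ref 146 6)) (.ref 145 64))))
 (.seq (.one (.play 197 (.both (.ref 147 0) (.both (.play 199 (.both (.play 6 (.ref 75 5)) (.both (.ref 47 68) (.ref 139 130)))) (.both (.play 261 (.ref 135 5)) (.ref 134 65))))))
 (.one (.both (.ref 101 0) (.play 5 (.ref 31 1)))))))
 (.seq (.seq (.one (.play 66 (.both (.play 65 (.ref 149 0)) (.ref 24 65))))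
 (.one (.play 67 (.both (.ref 150 0) (.play 7 (.ref 2 3))))))
 (.seq (.one (.play 3 (.both (.play 4 (.ref 90 0)) (.play 2 (.ref 140 1)))))
 (.seq (.one (.play 66 (.both (.play 65 (.ref 102 0)) (.play 6 (.ref 31 2)))))
 (.one (.play 67 (.both (.ref 153 0) (.both (.ref 101 2) (.ref 152 2)))))))))
 (.seq (.seq (.seq (.one (.play 68 (.both (.ref 154 0) (.play 8 (.ref 2 4)))))
 (.one (.both (.play 66 (.ref 4 2)) (.play 260 (.ref 0 192)))))
 (.seq (.one (.play 198 (.both (.play 197 (.both (.play 200 (.both (.play 264 (.ref 156 5)) (.ref 109 68))) (.both (.ref 155 128) (.both (.ref 151 129) (.ref 100 130))))) (.play 262 (.ref 6 6)))))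
 (.seq (.one (.play 134 (.both (.ref 59 4) (.ref 157 64))))
 (.one (.both (.play 192 (.ref 6 0)) (.play 258 (.both (.play 194 (.ref 4 1)) (.play 257 (.ref 75 64)))))))))
 (.seq (.seq (.one (.play 68 (.both (.play 69 (.ref 149 0)) (.play 132 (.ref 23 64)))))
 (.one (.play 68 (.both (.play 0 (.ref 3 0)) (.ref 160 1)))))
 (.seq (.one (.both (.play 0 (.ref 3 0)) (.play 5 (.ref 27 1))))
 (.seq (.one (.play 68 (.both (.play 1 (.ref 3 0)) (.play 132 (.ref 23 64)))))
 (.one (.play 68 (.both (.play 64 (.ref 32 0)) (.both (.ref 78 1) (.ref 163 1)))))))))))))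
 (.seq (.seq (.seq (.seq (.seq (.seq (.seq (.one (.play 5 (.both (.play 3 (.ref 136 0)) (.play 68 (.ref 2 1)))))
 (.one (.play 71 (.both (.play 131 (.both (.ref 127 0) (.play 70 (.ref 2 67)))) (.both (.play 135 (.ref 49 67)) (.ref 165 67))))))
 (.seq (.one (.play 193 (.both (.play 257 (.ref 126 1)) (.play 192 (.ref 1 128)))))
 (.one (.both (.play 0 (.ref 4 0)) (.play 129 (.ref 7 64))))))
 (.seq (.seq (.one (.both (.play 64 (.ref 168 0)) (.play 385 (.ref 7 128))))
 (.one (.play 259 (.both (.play 323 (.ref 169 2)) (.play 260 (.ref 0 192))))))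
 (.seq (.one (.play 132 (.both (.play 131 (.both (.ref 170 1) (.play 192 (.ref 2 128)))) (.play 133 (.ref 2 129)))))
 (.seq (.one (.play 198 (.both (.play 195 (.both (.ref 171 2) (.ref 167 66))) (.both (.ref 166 64) (.both (.ref 164 131) (.both (.play 199 (.ref 162 131)) (.ref 161 131)))))))
 (.one (.play 257 (.both (.play 66 (.ref 5 1)) (.play 320 (.ref 6 64)))))))))
 (.seq (.seq (.seq (.one (.play 256 (.both (.play 192 (.ref 6 0)) (.ref 173 0))))
 (.one (.both (.play 2 (.ref 5 1)) (.ref 174 64))))
 (.seq (.one (.both (.play 0 (.ref 3 0)) (.play 133 (.ref 0 65))))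
 (.seq (.one (.play 132 (.both (.play 68 (.ref 176 0)) (.play 131 (.ref 0 64)))))
 (.one (.both (.play 1 (.ref 6 0)) (.play 320 (.ref 124 64)))))))
 (.seq (.seq (.one (.play 131 (.both (.play 67 (.ref 178 2)) (.play 132 (.ref 2 128)))))
 (.one (.play 260 (.both (.play 259 (.both (.ref 179 1) (.play 192 (.ref 0 192)))) (.play 261 (.ref 0 193))))))
 (.seq (.one (.play 1 (.both (.play 64 (.ref 1 0)) (.play 68 (.ref 0 1)))))
 (.seq (.one (.play 65 (.both (.play 69 (.both (.ref 181 0) (.play 70 (.ref 0 2)))) (.play 66 (.ref 1 1)))))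
 (.one (.both (.play 5 (.ref 2 2)) (.ref 182 64))))))))
 (.seq (.seq (.seq (.seq (.one (.both (.play 1 (.ref 6 0)) (.play 320 (.ref 5 64))))
 (.one (.play 67 (.both (.play 68 (.ref 0 0)) (.play 5 (.ref 28 1))))))
 (.seq (.one (.play 68 (.both (.play 69 (.ref 56 1)) (.both (.play 132 (.ref 23 64)) (.ref 185 64)))))
 (.seq (.one (.both (.play 1 (.ref 6 0)) (.play 128 (.ref 5 64))))
 (.one (.both (.play 65 (.ref 187 0)) (.play 384 (.ref 5 128)))))))
 (.seq (.seq (.one (.play 134 (.both (.play 198 (.both (.play 261 (.both (.play 325 (.ref 188 5)) (.ref 186 131))) (.play 135 (.ref 2 131)))) (.both (.play 198 (.both (.play 262 (.both (.play 261 (.both (.play 325 (.ref 184 69)) (.play 194 (.ref 0 194)))) (.play 263 (.ref 0 195)))) (.play 135 (.ref 2 131)))) (.both (.play 194 (.ref 183 128)) (.ref 165 130))))))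
 (.one (.play 198 (.both (.ref 189 1) (.both (.play 195 (.both (.ref 180 2) (.ref 167 66))) (.both (.play 195 (.both (.ref 127 64) (.both (.ref 177 131) (.play 194 (.ref 25 193))))) (.both (.ref 166 64) (.play 199 (.ref 162 131)))))))))
 (.seq (.one (.play 321 (.both (.play 66 (.ref 17 1)) (.play 128 (.ref 7 64)))))
 (.seq (.one (.play 65 (.both (.play 2 (.ref 5 1)) (.play 256 (.ref 6 64)))))
 (.one (.both (.play 66 (.both (.ref 192 0) (.play 130 (.ref 5 65)))) (.play 384 (.ref 6 128))))))))
 (.seq (.seq (.seq (.one (.play 321 (.both (.play 320 (.ref 193 0)) (.both (.ref 191 64) (.ref 96 64)))))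
 (.one (.play 64 (.both (.play 1 (.ref 5 0)) (.play 257 (.ref 4 64))))))
 (.seq (.one (.play 65 (.both (.play 321 (.both (.ref 195 0) (.play 385 (.ref 4 128)))) (.play 129 (.ref 5 64)))))
 (.seq (.one (.play 321 (.both (.ref 196 1) (.both (.ref 191 64) (.ref 9 128)))))
 (.one (.play 194 (.both (.play 258 (.ref 6 2)) (.play 193 (.ref 66 128))))))))
 (.seq (.seq (.one (.play 260 (.both (.play 196 (.both (.play 3 (.ref 4 3)) (.ref 198 64))) (.play 324 (.ref 4 67)))))
 (.one (.play 323 (.both (.play 322 (.ref 193 2)) (.both (.ref 196 3) (.both (.ref 199 64) (.play 132 (.ref 175 66))))))))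
 (.seq (.one (.play 257 (.both (.play 64 (.ref 7 0)) (.play 322 (.ref 4 65)))))
 (.seq (.one (.play 258 (.both (.ref 201 0) (.play 194 (.ref 4 1)))))
 (.one (.play 257 (.both (.play 64 (.ref 7 0)) (.ref 12 0))))))))))
 (.seq (.seq (.seq (.seq (.seq (.one (.play 196 (.both (.play 198 (.both (.play 262 (.ref 4 5)) (.play 195 (.both (.ref 114 128) (.ref 80 131))))) (.play 260 (.ref 6 4)))))
 (.one (.play 197 (.both (.ref 204 0) (.both (.ref 203 4) (.ref 202 4))))))
 (.seq (.one (.play 68 (.both (.play 0 (.ref 3 0)) (.play 4 (.ref 31 0)))))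
 (.one (.both (.play 4 (.ref 2 1)) (.play 128 (.ref 1 64))))))
 (.seq (.seq (.one (.play 129 (.both (.play 65 (.ref 207 0)) (.play 130 (.ref 1 65)))))
 (.one (.both (.ref 208 0) (.play 6 (.ref 2 2)))))
 (.seq (.one (.play 131 (.both (.play 134 (.both (.play 198 (.both (.play 70 (.both (.play 262 (.ref 61 5)) (.play 71 (.ref 2 67)))) (.play 199 (.ref 0 131)))) (.both (.play 135 (.ref 35 66)) (.play 135 (.ref 25 130))))) (.both (.play 130 (.ref 209 64)) (.both (.play 134 (.both (.ref 114 64) (.both (.play 135 (.both (.ref 206 68) (.play 199 (.ref 23 131)))) (.play 135 (.ref 25 130))))) (.play 70 (.ref 53 66)))))))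
 (.seq (.one (.both (.play 133 (.ref 42 1)) (.play 128 (.ref 1 64))))
 (.one (.both (.play 2 (.ref 6 1)) (.play 196 (.ref 211 128))))))))
 (.seq (.seq (.seq (.one (.play 195 (.both (.play 257 (.ref 212 0)) (.both (.play 2 (.ref 75 1)) (.ref 47 64)))))
 (.one (.play 68 (.both (.play 0 (.ref 3 0)) (.play 132 (.ref 23 64))))))
 (.seq (.one (.play 67 (.both (.ref 114 0) (.play 7 (.ref 31 3)))))
 (.seq (.one (.play 135 (.both (.play 67 (.both (.ref 114 0) (.play 134 (.ref 0 67)))) (.both (.play 71 (.both (.ref 206 4) (.play 136 (.ref 0 68)))) (.play 136 (.both (.play 134 (.ref 131 67)) (.play 71 (.ref 0 68))))))))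
 (.one (.play 196 (.both (.play 198 (.both (.play 262 (.ref 146 5)) (.both (.ref 216 128) (.play 199 (.both (.ref 215 128) (.both (.play 136 (.ref 27 132)) (.ref 214 132))))))) (.both (.ref 213 3) (.both (.play 260 (.ref 135 4)) (.ref 210 64)))))))))
 (.seq (.seq (.one (.play 321 (.both (.play 320 (.ref 193 0)) (.both (.ref 191 64) (.ref 203 128)))))
 (.one (.both (.play 65 (.ref 97 0)) (.both (.play 65 (.ref 18 1)) (.play 384 (.ref 159 128))))))
 (.seq (.one (.both (.ref 15 0) (.ref 12 64)))
 (.seq (.one (.play 257 (.both (.play 321 (.ref 220 0)) (.ref 8 1))))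
 (.one (.play 4 (.both (.ref 141 0) (.play 5 (.ref 2 1))))))))))
 (.seq (.seq (.seq (.seq (.one (.play 1 (.both (.play 5 (.both (.ref 103 0) (.play 6 (.ref 2 2)))) (.play 2 (.ref 3 1)))))
 (.one (.play 66 (.both (.ref 223 0) (.both (.ref 101 1) (.ref 222 1))))))
 (.seq (.one (.play 257 (.both (.play 321 (.ref 188 1)) (.play 256 (.ref 1 192)))))
 (.seq (.one (.play 129 (.both (.play 130 (.both (.ref 225 0) (.play 197 (.ref 3 129)))) (.play 128 (.ref 3 128)))))
 (.one (.play 195 (.both (.ref 226 2) (.both (.ref 150 128) (.both (.ref 224 128) (.both (.ref 99 129) (.play 194 (.both (.ref 222 129) (.ref 24 193))))))))))))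
 (.seq (.seq (.one (.both (.play 196 (.both (.play 198 (.both (.ref 227 0) (.play 262 (.ref 4 5)))) (.play 260 (.ref 6 4)))) (.both (.ref 203 4) (.both (.ref 76 4) (.both (.ref 221 4) (.ref 21 4))))))
 (.one (.play 66 (.both (.ref 82 0) (.both (.ref 223 0) (.play 70 (.ref 35 1)))))))
 (.seq (.one (.play 259 (.both (.play 2 (.ref 4 2)) (.play 260 (.ref 0 192)))))
 (.seq (.one (.both (.play 0 (.ref 0 0)) (.play 66 (.ref 3 1))))
 (.one (.both (.play 1 (.ref 231 0)) (.play 70 (.ref 3 2))))))))
 (.seq (.seq (.seq (.one (.play 196 (.both (.play 260 (.ref 4 3)) (.play 197 (.ref 232 128)))))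
 (.one (.play 258 (.both (.play 194 (.both (.play 3 (.ref 6 2)) (.ref 233 64))) (.play 322 (.ref 6 66))))))
 (.seq (.one (.play 323 (.both (.play 322 (.ref 193 2)) (.both (.ref 196 3) (.both (.ref 234 64) (.play 132 (.ref 175 66)))))))
 (.seq (.one (.both (.play 65 (.ref 1 0)) (.play 69 (.ref 0 1))))
 (.one (.play 69 (.both (.play 65 (.both (.play 64 (.ref 1 0)) (.play 5 (.ref 236 1)))) (.play 68 (.ref 0 1))))))))
 (.seq (.seq (.one (.play 130 (.both (.play 198 (.both (.ref 170 3) (.play 131 (.ref 3 130)))) (.both (.ref 132 128) (.play 194 (.ref 49 129))))))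
 (.one (.play 198 (.both (.play 196 (.both (.play 260 (.ref 6 4)) (.play 199 (.both (.ref 115 128) (.ref 79 132))))) (.play 262 (.ref 4 5))))))
 (.seq (.one (.both (.play 69 (.ref 97 4)) (.both (.play 69 (.ref 18 5)) (.ref 239 128))))
 (.seq (.one (.play 4 (.both (.play 65 (.ref 90 0)) (.play 71 (.ref 3 3)))))
 (.one (.both (.ref 241 0) (.play 2 (.ref 3 2)))))))))))
 (.seq (.seq (.seq (.seq (.seq (.seq (.one (.play 197 (.both (.ref 171 1) (.both (.play 198 (.both (.play 131 (.ref 242 128)) (.play 262 (.ref 23 194)))) (.both (.play 198 (.both (.play 131 (.ref 242 128)) (.both (.play 134 (.ref 31 130)) (.ref 107 130)))) (.both (.ref 160 130) (.play 134 (.ref 27 130))))))))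
 (.one (.both (.play 193 (.ref 6 0)) (.play 64 (.ref 5 0)))))
 (.seq (.one (.both (.play 192 (.ref 4 0)) (.play 321 (.ref 7 64))))
 (.one (.both (.play 0 (.ref 4 0)) (.play 321 (.ref 245 64))))))
 (.seq (.seq (.one (.play 129 (.both (.play 65 (.ref 246 1)) (.play 128 (.ref 3 128)))))
 (.one (.play 257 (.both (.play 258 (.both (.ref 247 0) (.play 197 (.ref 1 193)))) (.play 256 (.ref 1 192))))))
 (.seq (.one (.play 65 (.both (.ref 101 0) (.play 132 (.ref 29 64)))))
 (.seq (.one (.play 131 (.both (.ref 249 0) (.play 130 (.ref 1 66)))))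
 (.one (.play 66 (.both (.ref 101 1) (.play 65 (.ref 25 64)))))))))
 (.seq (.seq (.seq (.one (.play 66 (.both (.play 65 (.ref 102 0)) (.play 134 (.ref 23 66)))))
 (.one (.play 67 (.both (.ref 252 0) (.both (.ref 24 66) (.ref 30 66))))))
 (.seq (.one (.play 198 (.both (.play 197 (.both (.play 196 (.both (.ref 248 3) (.both (.ref 253 128) (.both (.ref 251 129) (.both (.ref 99 130) (.ref 250 130)))))) (.play 137 (.ref 2 133)))) (.both (.play 197 (.both (.ref 248 4) (.play 137 (.ref 2 133)))) (.both (.play 262 (.both (.play 326 (.both (.play 390 (.ref 219 69)) (.both (.play 135 (.ref 244 70)) (.both (.play 135 (.ref 124 70)) (.ref 123 133))))) (.both (.play 134 (.both (.ref 108 69) (.play 201 (.ref 81 133)))) (.play 261 (.ref 58 195))))) (.both (.ref 155 129) (.ref 100 131)))))))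
 (.seq (.one (.play 68 (.both (.ref 154 0) (.both (.ref 153 1) (.both (.ref 82 2) (.both (.play 67 (.ref 35 2)) (.play 72 (.ref 149 3))))))))
 (.one (.play 197 (.both (.play 199 (.both (.play 263 (.ref 4 6)) (.ref 255 128))) (.play 261 (.ref 6 5))))))))
 (.seq (.seq (.one (.both (.play 65 (.ref 3 0)) (.play 2 (.ref 44 0))))
 (.one (.play 1 (.both (.play 67 (.ref 231 0)) (.play 4 (.ref 0 1))))))
 (.seq (.one (.both (.play 67 (.ref 232 0)) (.both (.ref 258 0) (.both (.play 4 (.ref 45 1)) (.play 70 (.ref 257 2))))))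
 (.seq (.one (.both (.play 65 (.ref 7 0)) (.play 128 (.ref 4 0))))
 (.one (.play 259 (.both (.play 260 (.both (.play 68 (.both (.play 4 (.ref 5 3)) (.play 261 (.both (.play 258 (.both (.play 197 (.both (.play 325 (.both (.play 132 (.ref 260 68)) (.play 326 (.ref 0 258)))) (.play 198 (.ref 2 194)))) (.ref 109 129))) (.both (.play 194 (.ref 259 192)) (.both (.ref 164 194) (.play 262 (.ref 162 194)))))))) (.play 324 (.ref 4 67)))) (.both (.play 68 (.ref 175 2)) (.both (.ref 39 3) (.ref 76 66)))))))))))
 (.seq (.seq (.seq (.seq (.one (.play 64 (.both (.play 3 (.ref 2 0)) (.play 131 (.ref 0 64)))))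
 (.one (.play 257 (.both (.ref 8 1) (.ref 11 64)))))
 (.seq (.one (.play 257 (.both (.ref 12 0) (.both (.play 321 (.both (.play 192 (.both (.play 256 (.ref 6 0)) (.play 385 (.ref 7 128)))) (.ref 8 65))) (.both (.play 321 (.ref 13 64)) (.ref 263 64))))))
 (.seq (.one (.both (.play 0 (.ref 7 0)) (.play 2 (.ref 5 1))))
 (.one (.play 66 (.both (.play 64 (.both (.play 65 (.ref 265 0)) (.play 128 (.ref 7 64)))) (.play 130 (.ref 5 65))))))))
 (.seq (.seq (.one (.play 129 (.both (.ref 266 0) (.ref 264 128))))
 (.one (.both (.ref 267 2) (.play 196 (.ref 2 192)))))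
 (.seq (.one (.both (.ref 15 0) (.play 66 (.ref 17 1))))
 (.seq (.one (.play 65 (.both (.play 0 (.ref 7 0)) (.play 256 (.ref 6 64)))))
 (.one (.play 64 (.both (.ref 270 0) (.play 128 (.ref 7 64)))))))))
 (.seq (.seq (.seq (.one (.play 129 (.both (.ref 271 0) (.play 130 (.ref 17 65)))))
 (.one (.play 193 (.both (.ref 272 0) (.both (.play 129 (.ref 269 64)) (.both (.play 129 (.both (.play 256 (.both (.play 65 (.ref 6 64)) (.play 192 (.ref 7 192)))) (.play 130 (.ref 17 65)))) (.ref 15 128)))))))
 (.seq (.one (.play 449 (.both (.ref 273 0) (.ref 76 256))))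
 (.seq (.one (.play 259 (.both (.ref 274 2) (.play 260 (.ref 2 256)))))
 (.one (.play 388 (.both (.play 324 (.both (.ref 275 1) (.play 389 (.ref 0 321)))) (.both (.play 260 (.both (.play 324 (.ref 268 65)) (.both (.play 259 (.ref 66 256)) (.ref 262 256)))) (.play 387 (.ref 41 320)))))))))
 (.seq (.seq (.one (.both (.play 1 (.ref 3 0)) (.play 4 (.ref 31 0))))
 (.one (.play 68 (.both (.play 0 (.ref 3 0)) (.play 69 (.ref 277 1))))))
 (.seq (.one (.both (.play 0 (.ref 3 0)) (.ref 163 1)))
 (.seq (.one (.play 323 (.both (.play 195 (.ref 268 0)) (.play 324 (.ref 0 256)))))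
 (.one (.both (.ref 280 1) (.play 192 (.ref 3 192))))))))))
 (.seq (.seq (.seq (.seq (.seq (.one (.both (.ref 274 2) (.play 388 (.ref 0 320))))
 (.one (.play 259 (.both (.play 387 (.ref 282 0)) (.play 260 (.ref 2 256))))))
 (.seq (.one (.play 324 (.both (.play 321 (.both (.ref 283 1) (.ref 167 192))) (.both (.play 325 (.ref 281 65)) (.both (.play 325 (.ref 279 257)) (.both (.ref 278 257) (.ref 164 257)))))))
 (.seq (.one (.both (.ref 101 0) (.play 133 (.ref 23 65))))
 (.one (.both (.play 133 (.ref 42 1)) (.play 129 (.ref 1 64)))))))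
 (.seq (.seq (.one (.play 67 (.both (.play 65 (.both (.play 68 (.ref 286 0)) (.play 1 (.ref 7 1)))) (.play 3 (.ref 5 2)))))
 (.one (.both (.play 258 (.ref 94 2)) (.play 260 (.ref 0 192)))))
 (.seq (.one (.both (.ref 266 0) (.play 384 (.ref 6 128))))
 (.seq (.one (.play 259 (.both (.play 195 (.both (.play 131 (.ref 289 2)) (.both (.play 387 (.ref 288 128)) (.play 387 (.both (.ref 287 129) (.play 388 (.ref 0 320))))))) (.play 260 (.ref 2 256)))))
 (.one (.play 69 (.both (.play 65 (.ref 285 0)) (.both (.play 65 (.ref 149 0)) (.play 134 (.ref 42 2))))))))))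
 (.seq (.seq (.seq (.one (.play 68 (.both (.play 1 (.ref 140 0)) (.play 132 (.ref 23 64)))))
 (.one (.play 3 (.both (.play 4 (.ref 2 0)) (.ref 292 1)))))
 (.seq (.one (.play 68 (.both (.play 4 (.ref 31 0)) (.both (.ref 293 0) (.both (.play 133 (.ref 42 1)) (.ref 160 1))))))
 (.seq (.one (.play 69 (.both (.ref 101 0) (.play 70 (.ref 32 2)))))
 (.one (.play 68 (.both (.play 4 (.ref 31 0)) (.play 69 (.ref 25 64))))))))
 (.seq (.seq (.one (.play 69 (.both (.ref 101 0) (.ref 296 2))))
 (.one (.play 65 (.both (.play 0 (.ref 3 0)) (.play 132 (.ref 0 65))))))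
 (.seq (.one (.play 1 (.both (.ref 298 0) (.play 2 (.ref 3 1)))))
 (.seq (.one (.play 133 (.both (.ref 299 0) (.play 134 (.ref 0 66)))))
 (.one (.play 68 (.both (.play 1 (.ref 29 0)) (.play 7 (.ref 1 3))))))))))
 (.seq (.seq (.seq (.seq (.one (.both (.ref 301 0) (.play 66 (.ref 1 2))))
 (.one (.play 6 (.both (.play 67 (.ref 302 0)) (.both (.play 70 (.ref 23 2)) (.ref 237 2))))))
 (.seq (.one (.play 70 (.both (.play 6 (.ref 31 2)) (.play 131 (.ref 302 64)))))
 (.seq (.one (.play 197 (.both (.ref 180 1) (.both (.ref 304 128) (.both (.play 262 (.ref 42 130)) (.both (.ref 296 130) (.ref 303 192)))))))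
 (.one (.play 197 (.both (.ref 305 1) (.both (.ref 300 128) (.both (.ref 295 129) (.ref 297 129)))))))))
 (.seq (.seq (.one (.play 259 (.both (.play 387 (.both (.play 195 (.both (.ref 272 2) (.ref 264 194))) (.play 388 (.ref 0 320)))) (.play 260 (.ref 2 256)))))
 (.one (.play 324 (.both (.ref 307 1) (.both (.ref 107 256) (.play 325 (.ref 285 256)))))))
 (.seq (.one (.play 387 (.both (.play 259 (.both (.play 451 (.both (.ref 273 2) (.ref 263 258))) (.play 260 (.ref 2 256)))) (.play 388 (.ref 0 320)))))
 (.seq (.one (.both (.play 64 (.ref 7 0)) (.ref 39 1)))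
 (.one (.play 261 (.both (.ref 191 4) (.ref 239 64))))))))
 (.seq (.seq (.seq (.one (.both (.play 1 (.ref 6 0)) (.play 449 (.ref 7 192))))
 (.one (.both (.play 0 (.ref 3 0)) (.play 133 (.ref 42 1)))))
 (.seq (.one (.play 3 (.both (.play 4 (.ref 2 0)) (.play 69 (.ref 140 1)))))
 (.seq (.one (.play 68 (.both (.play 4 (.ref 31 0)) (.both (.ref 314 0) (.play 69 (.ref 313 1))))))
 (.one (.play 195 (.both (.play 259 (.ref 7 2)) (.play 196 (.ref 0 128))))))))
 (.seq (.seq (.one (.play 67 (.both (.ref 316 0) (.play 68 (.ref 2 64)))))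
 (.one (.play 68 (.both (.play 1 (.ref 3 0)) (.play 5 (.ref 27 1))))))
 (.seq (.one (.play 68 (.both (.ref 318 1) (.both (.play 69 (.both (.play 2 (.ref 3 1)) (.ref 296 2))) (.play 132 (.ref 23 64))))))
 (.seq (.one (.play 129 (.both (.ref 294 1) (.play 128 (.ref 1 64)))))
 (.one (.play 256 (.both (.play 64 (.ref 5 0)) (.play 129 (.ref 124 0))))))))))))))
 (.seq (.seq (.seq (.seq (.seq (.seq (.seq (.seq (.one (.both (.play 193 (.ref 6 0)) (.play 128 (.ref 5 0))))
 (.one (.both (.play 193 (.ref 178 0)) (.both (.play 128 (.ref 86 0)) (.both (.play 1 (.ref 322 0)) (.ref 321 64))))))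
 (.seq (.one (.play 257 (.both (.play 0 (.ref 7 0)) (.ref 8 1))))
 (.one (.play 195 (.both (.play 67 (.both (.play 258 (.both (.play 194 (.both (.play 66 (.ref 7 1)) (.play 3 (.ref 6 2)))) (.both (.play 259 (.both (.play 322 (.ref 6 66)) (.ref 324 66))) (.play 322 (.ref 323 66))))) (.play 68 (.ref 2 64)))) (.play 196 (.ref 0 128)))))))
 (.seq (.seq (.one (.play 4 (.both (.play 65 (.ref 1 0)) (.play 68 (.ref 23 0)))))
 (.one (.play 68 (.both (.play 1 (.ref 3 0)) (.ref 326 65)))))
 (.seq (.one (.both (.play 1 (.ref 6 0)) (.play 257 (.ref 6 64))))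
 (.seq (.one (.play 131 (.both (.play 67 (.ref 328 2)) (.play 132 (.ref 66 128)))))
 (.one (.play 322 (.both (.ref 329 0) (.play 386 (.ref 7 129)))))))))
 (.seq (.seq (.seq (.one (.play 258 (.both (.ref 330 0) (.both (.play 322 (.ref 46 65)) (.play 196 (.both (.play 132 (.ref 31 128)) (.ref 327 129)))))))
 (.one (.play 196 (.both (.ref 331 1) (.both (.ref 325 65) (.both (.ref 320 128) (.both (.play 261 (.ref 42 129)) (.ref 319 129))))))))
 (.seq (.one (.play 131 (.both (.play 67 (.ref 178 2)) (.play 132 (.ref 66 128)))))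
 (.seq (.one (.play 194 (.both (.play 258 (.ref 91 1)) (.both (.play 260 (.both (.play 3 (.ref 4 3)) (.play 261 (.ref 29 193)))) (.ref 182 192)))))
 (.one (.play 68 (.both (.play 67 (.ref 0 0)) (.play 4 (.ref 236 0))))))))
 (.seq (.seq (.one (.play 68 (.both (.play 4 (.ref 31 0)) (.ref 335 65))))
 (.one (.both (.play 65 (.ref 328 0)) (.play 384 (.ref 5 128)))))
 (.seq (.one (.play 196 (.both (.play 131 (.both (.play 258 (.both (.play 322 (.ref 337 2)) (.play 197 (.ref 1 193)))) (.play 132 (.ref 2 128)))) (.both (.play 132 (.ref 31 128)) (.play 197 (.ref 286 129))))))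
 (.seq (.one (.both (.play 5 (.ref 2 1)) (.play 129 (.ref 1 64))))
 (.one (.play 4 (.both (.play 3 (.ref 2 0)) (.play 68 (.ref 339 0))))))))))
 (.seq (.seq (.seq (.seq (.one (.play 260 (.both (.ref 280 1) (.both (.ref 34 192) (.ref 340 193)))))
 (.one (.play 257 (.both (.play 0 (.ref 7 0)) (.play 320 (.ref 159 64))))))
 (.seq (.one (.both (.play 65 (.ref 7 0)) (.play 128 (.ref 245 0))))
 (.seq (.one (.play 64 (.both (.play 193 (.ref 168 0)) (.play 256 (.ref 4 64)))))
 (.one (.both (.ref 344 0) (.both (.play 193 (.ref 169 0)) (.both (.play 256 (.ref 246 64)) (.play 385 (.ref 343 128)))))))))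
 (.seq (.seq (.one (.play 195 (.both (.play 193 (.both (.play 257 (.ref 6 1)) (.ref 318 128))) (.play 259 (.ref 4 2)))))
 (.one (.play 64 (.both (.play 320 (.both (.ref 270 0) (.play 384 (.ref 6 128)))) (.play 128 (.ref 7 64))))))
 (.seq (.one (.play 450 (.both (.play 258 (.both (.ref 273 1) (.both (.ref 347 129) (.ref 346 256)))) (.both (.play 257 (.ref 345 129)) (.both (.ref 14 257) (.ref 342 257))))))
 (.seq (.one (.play 323 (.both (.ref 307 0) (.both (.play 387 (.both (.ref 348 1) (.play 388 (.ref 0 320)))) (.both (.ref 341 64) (.both (.ref 338 128) (.both (.play 388 (.ref 42 256)) (.ref 336 256))))))))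
 (.one (.play 66 (.both (.play 2 (.ref 5 1)) (.play 68 (.ref 1 64)))))))))
 (.seq (.seq (.seq (.one (.both (.play 66 (.both (.play 65 (.ref 265 0)) (.play 130 (.ref 5 65)))) (.play 128 (.ref 7 64))))
 (.one (.play 325 (.both (.play 133 (.both (.play 261 (.both (.play 197 (.ref 289 4)) (.play 262 (.ref 66 258)))) (.both (.play 322 (.both (.play 262 (.both (.play 326 (.both (.play 390 (.both (.play 198 (.ref 351 69)) (.play 391 (.ref 0 323)))) (.play 263 (.ref 2 259)))) (.play 261 (.ref 2 258)))) (.play 386 (.ref 91 129)))) (.both (.play 131 (.both (.ref 350 66) (.play 388 (.ref 4 131)))) (.play 388 (.both (.play 261 (.both (.play 197 (.ref 6 132)) (.play 262 (.ref 66 258)))) (.play 131 (.ref 4 131)))))))) (.both (.play 388 (.both (.ref 349 3) (.play 131 (.ref 4 131)))) (.both (.ref 334 128) (.both (.ref 189 128) (.both (.play 322 (.both (.play 386 (.ref 91 129)) (.play 262 (.ref 27 258)))) (.play 388 (.both (.ref 333 130) (.play 131 (.ref 4 131))))))))))))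
 (.seq (.one (.play 1 (.both (.play 256 (.ref 6 0)) (.play 194 (.ref 4 1)))))
 (.seq (.one (.both (.play 0 (.ref 0 0)) (.play 69 (.ref 3 1))))
 (.one (.both (.play 3 (.ref 6 2)) (.play 193 (.ref 354 192)))))))
 (.seq (.seq (.one (.play 261 (.both (.play 195 (.both (.play 197 (.both (.play 4 (.ref 4 4)) (.play 194 (.ref 29 193)))) (.both (.play 259 (.ref 355 1)) (.both (.ref 353 3) (.play 194 (.ref 259 192)))))) (.play 325 (.ref 4 68)))))
 (.one (.both (.play 197 (.both (.play 261 (.ref 4 4)) (.ref 83 128))) (.play 259 (.ref 6 3)))))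
 (.seq (.one (.play 65 (.both (.play 64 (.ref 2 0)) (.play 128 (.ref 1 64)))))
 (.seq (.one (.play 197 (.both (.ref 230 2) (.play 257 (.both (.play 131 (.both (.ref 358 128) (.play 198 (.ref 140 130)))) (.play 258 (.ref 1 193)))))))
 (.one (.play 257 (.both (.ref 12 0) (.ref 121 65))))))))))
 (.seq (.seq (.seq (.seq (.seq (.one (.play 257 (.both (.play 321 (.both (.play 194 (.both (.play 258 (.ref 4 1)) (.play 385 (.ref 5 129)))) (.ref 12 64))) (.both (.ref 8 1) (.both (.play 321 (.ref 13 64)) (.ref 360 64))))))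
 (.one (.play 65 (.both (.ref 195 0) (.play 129 (.ref 5 64))))))
 (.seq (.one (.play 129 (.both (.ref 362 1) (.ref 15 64))))
 (.one (.play 257 (.both (.play 385 (.both (.play 193 (.both (.ref 363 0) (.ref 361 192))) (.play 384 (.ref 1 320)))) (.play 256 (.ref 3 256)))))))
 (.seq (.seq (.one (.play 322 (.both (.ref 364 1) (.both (.ref 142 256) (.ref 208 256)))))
 (.one (.play 324 (.both (.play 323 (.both (.ref 365 0) (.both (.play 326 (.both (.ref 230 131) (.ref 143 256))) (.both (.ref 359 129) (.both (.play 326 (.both (.ref 230 131) (.ref 99 257))) (.both (.play 326 (.both (.ref 230 131) (.ref 109 194))) (.play 322 (.both (.ref 142 256) (.both (.ref 82 256) (.play 326 (.both (.ref 51 259) (.ref 24 321)))))))))))) (.both (.play 133 (.ref 357 129)) (.both (.play 388 (.ref 135 132)) (.ref 110 192)))))))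
 (.seq (.one (.play 257 (.both (.ref 16 0) (.play 66 (.ref 5 1)))))
 (.seq (.one (.both (.play 0 (.ref 7 0)) (.ref 202 64)))
 (.one (.play 321 (.both (.play 320 (.ref 193 0)) (.both (.ref 22 64) (.both (.ref 96 64) (.play 385 (.both (.play 130 (.ref 17 65)) (.play 192 (.ref 368 128)))))))))))))
 (.seq (.seq (.seq (.one (.play 321 (.both (.play 65 (.ref 97 0)) (.both (.ref 39 65) (.ref 76 128)))))
 (.one (.both (.play 3 (.ref 0 0)) (.play 65 (.ref 3 0)))))
 (.seq (.one (.both (.play 0 (.ref 371 0)) (.play 69 (.ref 3 1))))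
 (.seq (.one (.play 259 (.both (.play 323 (.ref 188 3)) (.play 258 (.ref 68 192)))))
 (.one (.play 326 (.both (.play 323 (.both (.ref 283 3) (.ref 373 128))) (.both (.play 259 (.ref 372 258)) (.both (.ref 164 259) (.play 327 (.ref 162 259))))))))))
 (.seq (.seq (.one (.play 259 (.both (.ref 280 0) (.both (.ref 338 64) (.both (.ref 336 192) (.play 260 (.both (.play 320 (.ref 1 256)) (.play 324 (.ref 23 256)))))))))
 (.one (.play 257 (.both (.play 64 (.ref 7 0)) (.play 320 (.ref 159 64))))))
 (.seq (.one (.play 195 (.both (.play 67 (.both (.ref 376 2) (.play 68 (.ref 2 64)))) (.play 196 (.ref 0 128)))))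
 (.seq (.one (.play 70 (.both (.ref 241 0) (.both (.play 6 (.ref 31 2)) (.play 71 (.ref 277 3))))))
 (.one (.play 68 (.both (.play 69 (.ref 3 1)) (.play 132 (.ref 23 64))))))))))
 (.seq (.seq (.seq (.seq (.one (.play 325 (.both (.ref 283 2) (.both (.play 260 (.both (.play 321 (.ref 90 256)) (.ref 379 258))) (.both (.ref 378 256) (.both (.play 326 (.ref 32 258)) (.ref 79 258)))))))
 (.one (.play 259 (.both (.play 260 (.both (.ref 280 1) (.both (.play 261 (.ref 32 193)) (.play 321 (.ref 28 256))))) (.play 195 (.ref 5 194))))))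
 (.seq (.one (.both (.play 324 (.ref 193 4)) (.both (.ref 196 5) (.both (.ref 199 66) (.ref 204 128)))))
 (.seq (.one (.play 193 (.both (.play 257 (.ref 5 1)) (.play 192 (.ref 1 128)))))
 (.one (.both (.ref 383 0) (.play 64 (.ref 3 64)))))))
 (.seq (.seq (.one (.play 68 (.both (.ref 295 0) (.both (.ref 297 0) (.play 132 (.ref 23 64))))))
 (.one (.play 69 (.both (.ref 152 0) (.both (.play 5 (.ref 31 1)) (.ref 295 1))))))
 (.seq (.one (.play 68 (.both (.play 0 (.ref 3 0)) (.ref 386 0))))
 (.seq (.one (.both (.ref 307 1) (.play 256 (.ref 3 256))))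
 (.one (.play 195 (.both (.play 259 (.ref 246 2)) (.play 196 (.ref 40 128)))))))))
 (.seq (.seq (.seq (.one (.both (.play 1 (.ref 6 0)) (.play 384 (.ref 5 128))))
 (.one (.play 65 (.both (.play 193 (.ref 390 0)) (.play 128 (.ref 5 64))))))
 (.seq (.one (.play 65 (.both (.ref 15 0) (.play 320 (.ref 6 64)))))
 (.seq (.one (.play 130 (.both (.play 129 (.both (.ref 392 0) (.play 66 (.ref 5 65)))) (.both (.ref 391 1) (.play 385 (.both (.play 194 (.ref 5 129)) (.ref 263 192)))))))
 (.one (.play 68 (.both (.play 4 (.ref 31 0)) (.play 129 (.ref 1 64))))))))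
 (.seq (.seq (.one (.play 68 (.both (.play 64 (.ref 32 0)) (.both (.ref 394 1) (.ref 335 65)))))
 (.one (.play 67 (.both (.play 68 (.both (.play 65 (.both (.play 1 (.ref 7 1)) (.play 129 (.ref 1 64)))) (.both (.ref 395 1) (.play 129 (.ref 64 64))))) (.play 3 (.ref 5 2))))))
 (.seq (.one (.play 195 (.both (.play 131 (.ref 188 2)) (.play 196 (.ref 52 192)))))
 (.seq (.one (.both (.play 2 (.ref 5 1)) (.play 320 (.ref 6 64))))
 (.one (.play 66 (.both (.play 65 (.ref 398 0)) (.play 130 (.ref 5 65))))))))))))
 (.seq (.seq (.seq (.seq (.seq (.seq (.one (.play 322 (.both (.ref 399 1) (.both (.play 386 (.ref 18 66)) (.ref 389 128)))))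
 (.one (.play 129 (.both (.play 64 (.ref 351 0)) (.play 384 (.ref 6 128))))))
 (.seq (.one (.play 65 (.both (.play 66 (.ref 17 1)) (.play 256 (.ref 6 64)))))
 (.one (.play 129 (.both (.ref 271 0) (.both (.ref 402 0) (.play 385 (.ref 269 64))))))))
 (.seq (.seq (.one (.both (.play 0 (.ref 7 0)) (.play 320 (.ref 6 64))))
 (.one (.both (.play 0 (.ref 4 0)) (.play 385 (.ref 7 128)))))
 (.seq (.one (.both (.play 192 (.ref 405 0)) (.play 129 (.ref 7 64))))
 (.seq (.one (.play 129 (.both (.play 65 (.ref 406 1)) (.both (.play 130 (.ref 404 65)) (.play 386 (.both (.play 193 (.ref 7 129)) (.ref 389 192)))))))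
 (.one (.play 192 (.both (.play 1 (.ref 6 0)) (.play 385 (.ref 61 128)))))))))
 (.seq (.seq (.seq (.one (.play 65 (.both (.ref 15 0) (.play 256 (.ref 6 64)))))
 (.one (.play 258 (.both (.play 194 (.both (.play 130 (.both (.ref 266 1) (.play 321 (.ref 6 129)))) (.both (.play 259 (.both (.play 321 (.both (.play 130 (.ref 6 129)) (.play 260 (.ref 52 256)))) (.play 195 (.ref 5 194)))) (.play 195 (.ref 17 130))))) (.both (.ref 272 65) (.both (.play 194 (.both (.ref 409 65) (.both (.ref 15 129) (.ref 408 129)))) (.both (.play 193 (.ref 351 129)) (.ref 287 192))))))))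
 (.seq (.one (.both (.play 323 (.both (.play 451 (.both (.ref 410 1) (.play 452 (.ref 41 384)))) (.both (.play 259 (.both (.ref 407 65) (.both (.ref 403 66) (.both (.ref 401 66) (.both (.ref 400 129) (.play 451 (.both (.ref 397 129) (.both (.ref 396 193) (.ref 389 257))))))))) (.both (.play 451 (.both (.ref 393 130) (.both (.ref 389 257) (.play 384 (.ref 26 320))))) (.play 324 (.ref 53 320)))))) (.both (.play 388 (.ref 388 64)) (.both (.play 388 (.ref 162 320)) (.both (.ref 387 320) (.play 388 (.both (.play 320 (.ref 3 320)) (.ref 385 321))))))))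
 (.seq (.one (.both (.play 257 (.ref 4 0)) (.play 256 (.ref 5 0))))
 (.one (.both (.play 129 (.ref 7 0)) (.play 128 (.ref 4 0)))))))
 (.seq (.seq (.one (.both (.play 256 (.ref 6 0)) (.play 257 (.ref 7 0))))
 (.one (.both (.play 129 (.ref 6 0)) (.play 128 (.ref 5 0)))))
 (.seq (.one (.both (.play 256 (.ref 415 0)) (.both (.play 129 (.ref 414 0)) (.both (.play 257 (.ref 413 0)) (.play 128 (.ref 412 0))))))
 (.seq (.one (.play 5 (.both (.play 129 (.both (.play 69 (.ref 339 1)) (.play 128 (.ref 1 64)))) (.play 4 (.ref 2 1)))))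
 (.one (.play 69 (.both (.ref 33 1) (.both (.ref 417 1) (.both (.play 134 (.ref 42 2)) (.play 65 (.ref 25 64))))))))))))
 (.seq (.seq (.seq (.seq (.one (.play 259 (.both (.play 130 (.ref 4 2)) (.play 260 (.ref 41 192)))))
 (.one (.both (.play 1 (.ref 1 0)) (.play 67 (.ref 2 0)))))
 (.seq (.one (.play 258 (.both (.play 131 (.ref 6 2)) (.play 257 (.both (.play 256 (.ref 420 192)) (.play 197 (.ref 1 193)))))))
 (.seq (.one (.both (.play 65 (.ref 35 0)) (.both (.play 6 (.ref 27 2)) (.play 65 (.ref 25 64)))))
 (.one (.play 66 (.both (.ref 82 0) (.both (.play 70 (.ref 35 1)) (.play 70 (.ref 149 1)))))))))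
 (.seq (.seq (.one (.play 66 (.both (.ref 99 0) (.both (.play 70 (.ref 285 1)) (.play 70 (.ref 25 65))))))
 (.one (.play 129 (.both (.play 257 (.both (.play 65 (.ref 5 1)) (.play 256 (.ref 1 192)))) (.play 128 (.ref 3 128))))))
 (.seq (.one (.play 196 (.both (.ref 425 0) (.play 133 (.ref 27 129)))))
 (.seq (.one (.play 131 (.both (.play 259 (.both (.play 67 (.ref 7 2)) (.play 260 (.ref 0 192)))) (.play 132 (.ref 2 128)))))
 (.one (.both (.ref 427 2) (.ref 99 128)))))))
 (.seq (.seq (.seq (.one (.both (.play 1 (.ref 5 0)) (.ref 121 64)))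
 (.one (.both (.ref 79 1) (.play 128 (.ref 1 64)))))
 (.seq (.one (.play 65 (.both (.ref 181 0) (.play 66 (.ref 1 1)))))
 (.seq (.one (.play 66 (.both (.ref 101 1) (.ref 431 64))))
 (.one (.play 67 (.both (.ref 432 0) (.both (.play 66 (.ref 102 1)) (.both (.play 66 (.both (.ref 101 1) (.play 132 (.both (.play 65 (.ref 0 65)) (.play 131 (.ref 1 67)))))) (.ref 24 66)))))))))
 (.seq (.seq (.one (.play 198 (.both (.play 6 (.ref 6 5)) (.play 199 (.both (.play 196 (.both (.ref 317 68) (.ref 433 128))) (.both (.ref 47 68) (.both (.play 200 (.ref 430 132)) (.play 260 (.ref 68 194)))))))))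
 (.one (.play 257 (.both (.play 66 (.ref 5 1)) (.play 320 (.ref 159 64))))))
 (.seq (.one (.both (.ref 12 0) (.play 2 (.ref 5 1))))
 (.seq (.one (.both (.play 1 (.ref 3 0)) (.play 133 (.ref 0 65))))
 (.one (.play 132 (.both (.play 68 (.ref 437 0)) (.play 131 (.ref 0 64)))))))))))
 (.seq (.seq (.seq (.seq (.seq (.one (.both (.play 0 (.ref 3 0)) (.ref 438 1)))
 (.one (.both (.play 0 (.ref 0 0)) (.play 4 (.ref 0 1)))))
 (.seq (.one (.both (.play 1 (.ref 440 0)) (.play 70 (.ref 3 2))))
 (.seq (.one (.play 134 (.both (.play 131 (.both (.play 195 (.both (.play 67 (.both (.play 259 (.ref 86 3)) (.play 66 (.ref 3 66)))) (.play 194 (.ref 1 130)))) (.both (.play 130 (.ref 285 65)) (.play 130 (.ref 25 129))))) (.both (.play 131 (.both (.play 130 (.both (.ref 138 64) (.ref 24 129))) (.both (.ref 79 67) (.play 130 (.ref 25 129))))) (.both (.play 67 (.ref 441 65)) (.play 135 (.ref 439 67)))))))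
 (.one (.play 68 (.both (.play 4 (.ref 5 3)) (.play 69 (.ref 68 64))))))))
 (.seq (.seq (.one (.play 257 (.both (.play 64 (.ref 7 0)) (.ref 19 64))))
 (.one (.play 257 (.both (.ref 8 1) (.both (.ref 376 64) (.ref 444 64))))))
 (.seq (.one (.both (.play 67 (.ref 2 0)) (.play 2 (.ref 1 0))))
 (.seq (.one (.both (.play 67 (.ref 66 0)) (.both (.play 2 (.ref 28 0)) (.both (.play 64 (.ref 446 0)) (.play 5 (.ref 65 1))))))
 (.one (.play 67 (.both (.play 4 (.ref 2 0)) (.ref 214 0))))))))
 (.seq (.seq (.seq (.one (.play 195 (.both (.play 193 (.both (.play 257 (.ref 6 1)) (.play 132 (.both (.play 131 (.both (.play 129 (.ref 3 64)) (.play 192 (.ref 2 128)))) (.both (.ref 448 129) (.play 133 (.ref 447 129))))))) (.play 259 (.ref 4 2)))))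
 (.one (.play 256 (.both (.play 65 (.ref 5 0)) (.ref 8 0)))))
 (.seq (.one (.play 257 (.both (.play 64 (.ref 7 0)) (.ref 450 65))))
 (.seq (.one (.play 194 (.both (.play 258 (.ref 178 2)) (.play 193 (.ref 57 128)))))
 (.one (.play 133 (.both (.ref 452 0) (.play 134 (.ref 3 66))))))))
 (.seq (.seq (.one (.play 132 (.both (.ref 453 0) (.both (.play 259 (.both (.ref 12 2) (.ref 451 66))) (.play 133 (.ref 40 65))))))
 (.one (.play 257 (.both (.ref 12 0) (.both (.ref 63 0) (.both (.ref 76 64) (.ref 221 64)))))))
 (.seq (.one (.play 66 (.both (.play 2 (.ref 5 1)) (.ref 455 64))))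
 (.seq (.one (.both (.play 64 (.ref 7 0)) (.play 2 (.ref 5 1))))
 (.one (.play 131 (.both (.play 67 (.both (.play 66 (.ref 7 2)) (.ref 346 65))) (.both (.play 67 (.ref 310 2)) (.both (.play 322 (.both (.play 68 (.both (.play 67 (.ref 457 2)) (.ref 173 66))) (.both (.play 67 (.both (.play 66 (.ref 7 2)) (.play 258 (.ref 6 66)))) (.play 386 (.ref 323 130))))) (.play 323 (.both (.ref 456 66) (.both (.ref 454 128) (.both (.ref 449 129) (.both (.ref 76 130) (.ref 445 130))))))))))))))))
 (.seq (.seq (.seq (.seq (.one (.both (.play 258 (.ref 4 1)) (.play 196 (.ref 3 128))))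
 (.one (.play 257 (.both (.play 64 (.ref 7 0)) (.ref 76 64)))))
 (.seq (.one (.both (.play 259 (.ref 4 2)) (.play 196 (.ref 140 128))))
 (.seq (.one (.play 67 (.both (.play 68 (.ref 3 0)) (.play 132 (.ref 0 64)))))
 (.one (.play 134 (.both (.play 4 (.both (.play 65 (.ref 90 0)) (.ref 462 3))) (.play 133 (.ref 0 66))))))))
 (.seq (.seq (.one (.both (.play 66 (.ref 6 1)) (.play 256 (.ref 1 192))))
 (.one (.play 66 (.both (.ref 82 0) (.play 134 (.ref 0 66))))))
 (.seq (.one (.play 261 (.both (.play 132 (.ref 4 4)) (.ref 465 128))))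
 (.seq (.one (.play 66 (.both (.ref 99 0) (.play 5 (.ref 2 2)))))
 (.one (.both (.play 69 (.both (.play 70 (.ref 3 2)) (.play 132 (.ref 2 65)))) (.play 128 (.ref 2 64))))))))
 (.seq (.seq (.seq (.one (.both (.play 195 (.both (.play 259 (.ref 6 3)) (.play 134 (.both (.play 133 (.ref 468 66)) (.both (.play 135 (.both (.play 70 (.ref 45 67)) (.play 198 (.ref 2 131)))) (.ref 467 128)))))) (.play 261 (.ref 4 4))))
 (.one (.play 66 (.both (.ref 82 0) (.play 133 (.ref 0 66))))))
 (.seq (.one (.play 131 (.both (.play 67 (.ref 7 2)) (.play 132 (.ref 2 128)))))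
 (.seq (.one (.both (.ref 471 0) (.play 260 (.ref 0 192))))
 (.one (.play 262 (.both (.play 198 (.ref 472 3)) (.ref 470 128)))))))
 (.seq (.seq (.one (.play 257 (.both (.ref 12 0) (.play 66 (.ref 86 1)))))
 (.one (.play 194 (.both (.play 258 (.ref 4 1)) (.ref 474 64)))))
 (.seq (.one (.play 259 (.both (.ref 59 0) (.play 322 (.ref 159 66)))))
 (.seq (.one (.play 196 (.both (.ref 421 0) (.both (.ref 419 1) (.both (.play 131 (.ref 75 2)) (.ref 36 128))))))
 (.one (.play 197 (.both (.play 194 (.both (.ref 230 2) (.ref 82 128))) (.both (.play 261 (.ref 146 4)) (.ref 83 128)))))))))))))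
 (.seq (.seq (.seq (.seq (.seq (.seq (.seq (.one (.play 132 (.both (.ref 478 0) (.play 259 (.ref 6 3)))))
 (.one (.play 196 (.both (.play 260 (.ref 4 3)) (.play 128 (.ref 0 128))))))
 (.seq (.one (.play 132 (.both (.ref 462 1) (.play 131 (.ref 0 64)))))
 (.one (.play 129 (.both (.play 257 (.ref 5 1)) (.play 128 (.ref 1 64)))))))
 (.seq (.seq (.one (.play 1 (.both (.play 65 (.ref 49 0)) (.play 2 (.ref 3 1)))))
 (.one (.play 66 (.both (.ref 483 0) (.play 134 (.ref 0 66))))))
 (.seq (.one (.play 131 (.both (.play 259 (.ref 5 3)) (.play 130 (.ref 68 64)))))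
 (.seq (.one (.play 259 (.both (.play 130 (.ref 246 2)) (.play 260 (.ref 0 192)))))
 (.one (.play 68 (.both (.play 4 (.ref 31 0)) (.play 129 (.ref 28 64)))))))))
 (.seq (.seq (.seq (.one (.play 67 (.both (.ref 251 0) (.both (.play 66 (.ref 102 1)) (.both (.play 133 (.both (.play 2 (.both (.play 66 (.ref 176 1)) (.play 3 (.ref 3 2)))) (.ref 487 3))) (.play 71 (.ref 35 2)))))))
 (.one (.play 1 (.both (.play 133 (.both (.ref 298 0) (.play 134 (.ref 0 66)))) (.play 2 (.ref 3 1))))))
 (.seq (.one (.play 67 (.both (.ref 252 0) (.both (.ref 82 1) (.both (.ref 489 1) (.play 71 (.ref 25 66)))))))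
 (.seq (.one (.play 69 (.both (.play 197 (.both (.play 261 (.both (.play 68 (.ref 61 4)) (.both (.ref 118 64) (.play 325 (.ref 13 68))))) (.play 198 (.ref 0 130)))) (.play 70 (.ref 2 66)))))
 (.one (.both (.play 323 (.both (.ref 267 2) (.play 324 (.ref 0 256)))) (.play 196 (.ref 2 192)))))))
 (.seq (.seq (.one (.play 260 (.both (.play 388 (.both (.play 324 (.ref 282 1)) (.both (.ref 262 256) (.play 387 (.ref 45 320))))) (.both (.play 324 (.ref 492 65)) (.play 259 (.ref 53 256))))))
 (.one (.play 196 (.both (.play 260 (.ref 4 3)) (.play 197 (.ref 441 128))))))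
 (.seq (.one (.play 66 (.both (.play 65 (.both (.ref 101 0) (.play 132 (.ref 0 65)))) (.both (.play 70 (.ref 102 1)) (.ref 431 64)))))
 (.seq (.one (.play 68 (.both (.play 69 (.both (.play 5 (.ref 31 1)) (.play 131 (.both (.play 132 (.ref 0 64)) (.play 70 (.ref 1 66)))))) (.both (.play 69 (.ref 32 1)) (.both (.ref 336 1) (.play 132 (.ref 23 64)))))))
 (.one (.play 129 (.both (.play 1 (.both (.play 0 (.ref 3 0)) (.play 193 (.ref 4 1)))) (.play 128 (.ref 1 64))))))))))
 (.seq (.seq (.seq (.seq (.one (.play 320 (.both (.play 192 (.ref 390 0)) (.play 257 (.ref 6 64)))))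
 (.one (.play 323 (.both (.ref 307 0) (.both (.ref 438 256) (.play 324 (.ref 277 256)))))))
 (.seq (.one (.play 324 (.both (.ref 283 1) (.both (.ref 386 256) (.ref 438 257)))))
 (.seq (.one (.both (.play 194 (.ref 428 0)) (.both (.ref 426 2) (.both (.ref 424 128) (.both (.ref 423 128) (.both (.play 198 (.both (.ref 252 128) (.both (.ref 153 128) (.both (.play 194 (.ref 32 130)) (.play 199 (.ref 32 131)))))) (.both (.ref 291 129) (.play 198 (.ref 422 129)))))))))
 (.one (.play 257 (.both (.play 2 (.ref 5 1)) (.ref 76 64)))))))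
 (.seq (.seq (.one (.play 68 (.both (.ref 502 2) (.play 128 (.ref 2 64)))))
 (.one (.play 259 (.both (.ref 458 0) (.both (.play 131 (.both (.play 67 (.ref 7 2)) (.ref 503 64))) (.play 260 (.ref 41 192)))))))
 (.seq (.one (.play 131 (.both (.play 67 (.ref 412 3)) (.play 130 (.ref 232 128)))))
 (.seq (.one (.both (.play 0 (.ref 3 0)) (.ref 237 64)))
 (.one (.both (.play 1 (.ref 5 0)) (.play 321 (.ref 4 64))))))))
 (.seq (.seq (.seq (.one (.both (.play 64 (.ref 5 0)) (.play 129 (.ref 6 0))))
 (.one (.play 129 (.both (.play 257 (.both (.play 66 (.ref 508 1)) (.play 256 (.ref 1 192)))) (.play 128 (.ref 3 128))))))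
 (.seq (.one (.play 260 (.both (.play 193 (.both (.play 129 (.ref 507 1)) (.play 192 (.ref 3 192)))) (.play 197 (.ref 27 193)))))
 (.seq (.one (.play 195 (.both (.play 131 (.ref 507 3)) (.play 194 (.ref 232 192)))))
 (.one (.play 65 (.both (.play 66 (.ref 5 1)) (.ref 361 64)))))))
 (.seq (.seq (.one (.play 257 (.both (.play 129 (.both (.ref 512 0) (.play 128 (.ref 3 128)))) (.play 256 (.ref 1 192)))))
 (.one (.play 194 (.both (.ref 513 1) (.both (.play 193 (.ref 285 128)) (.ref 182 192))))))
 (.seq (.one (.play 129 (.both (.ref 340 1) (.play 128 (.ref 1 64)))))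
 (.seq (.one (.both (.play 0 (.ref 3 0)) (.ref 515 0)))
 (.one (.play 257 (.both (.play 2 (.ref 5 1)) (.ref 263 64))))))))))
 (.seq (.seq (.seq (.seq (.seq (.one (.both (.play 196 (.both (.play 132 (.ref 337 3)) (.both (.play 258 (.both (.ref 517 130) (.play 256 (.ref 2 192)))) (.play 258 (.ref 66 192))))) (.play 131 (.ref 7 66))))
 (.one (.play 134 (.both (.play 66 (.both (.play 65 (.both (.play 64 (.ref 2 0)) (.ref 24 64))) (.play 133 (.ref 0 66)))) (.play 135 (.ref 0 67))))))
 (.seq (.one (.both (.play 2 (.ref 1 0)) (.play 66 (.ref 2 0))))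
 (.one (.play 67 (.both (.ref 106 0) (.both (.ref 100 0) (.play 6 (.ref 420 3))))))))
 (.seq (.seq (.one (.both (.ref 115 0) (.play 8 (.ref 2 4))))
 (.one (.play 68 (.both (.play 70 (.ref 522 0)) (.both (.ref 521 0) (.both (.play 6 (.ref 68 2)) (.play 8 (.ref 520 4))))))))
 (.seq (.one (.play 195 (.both (.play 259 (.ref 245 2)) (.play 196 (.ref 29 128)))))
 (.seq (.one (.both (.play 2 (.ref 5 1)) (.play 320 (.ref 159 64))))
 (.one (.play 193 (.both (.play 257 (.ref 4 0)) (.play 320 (.ref 86 64)))))))))
 (.seq (.seq (.seq (.one (.play 257 (.both (.ref 8 1) (.both (.ref 526 1) (.play 321 (.ref 525 64))))))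
 (.one (.play 257 (.both (.play 193 (.ref 4 0)) (.play 256 (.ref 507 0))))))
 (.seq (.one (.play 257 (.both (.ref 12 0) (.ref 528 65))))
 (.seq (.one (.play 195 (.both (.play 197 (.both (.play 261 (.ref 4 4)) (.ref 467 128))) (.play 259 (.ref 6 3)))))
 (.one (.play 66 (.both (.play 2 (.ref 7 2)) (.play 132 (.ref 232 64))))))))
 (.seq (.seq (.one (.play 259 (.both (.ref 531 0) (.play 322 (.ref 159 66)))))
 (.one (.both (.ref 15 0) (.ref 8 65))))
 (.seq (.one (.play 320 (.both (.play 64 (.both (.play 0 (.ref 7 0)) (.play 321 (.ref 10 64)))) (.play 256 (.ref 6 64)))))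
 (.seq (.one (.play 260 (.both (.ref 534 3) (.both (.play 324 (.ref 533 3)) (.ref 530 64)))))
 (.one (.both (.play 6 (.ref 5 5)) (.play 262 (.both (.play 260 (.both (.play 324 (.ref 6 68)) (.ref 115 192))) (.play 326 (.ref 4 69)))))))))))
 (.seq (.seq (.seq (.seq (.one (.both (.play 0 (.ref 3 0)) (.ref 80 1)))
 (.one (.both (.play 68 (.ref 522 0)) (.both (.play 4 (.ref 232 2)) (.both (.play 8 (.ref 66 4)) (.play 72 (.ref 537 4)))))))
 (.seq (.one (.play 68 (.both (.play 1 (.ref 371 0)) (.both (.ref 164 1) (.play 69 (.ref 162 1))))))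
 (.seq (.one (.both (.play 66 (.ref 3 0)) (.play 2 (.ref 0 0))))
 (.one (.play 68 (.both (.play 0 (.ref 540 0)) (.both (.play 2 (.ref 45 0)) (.both (.play 66 (.ref 537 0)) (.ref 539 1)))))))))
 (.seq (.seq (.one (.both (.ref 496 1) (.play 128 (.ref 1 64))))
 (.one (.play 68 (.both (.play 66 (.ref 542 0)) (.both (.play 69 (.both (.ref 395 2) (.both (.play 70 (.ref 211 2)) (.play 130 (.ref 420 65))))) (.both (.play 128 (.ref 520 64)) (.play 130 (.ref 66 64))))))))
 (.seq (.one (.both (.ref 433 0) (.play 136 (.ref 0 68))))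
 (.seq (.one (.both (.play 70 (.both (.play 68 (.ref 544 0)) (.both (.play 72 (.ref 542 4)) (.both (.play 132 (.ref 68 66)) (.play 136 (.ref 45 68)))))) (.both (.play 68 (.both (.play 70 (.ref 544 0)) (.both (.play 67 (.both (.ref 495 0) (.both (.ref 465 0) (.play 134 (.ref 371 67))))) (.both (.play 134 (.ref 232 66)) (.play 136 (.ref 540 68)))))) (.both (.ref 543 4) (.both (.ref 523 64) (.both (.play 134 (.ref 538 64)) (.ref 541 68)))))))
 (.one (.play 257 (.both (.play 66 (.ref 5 1)) (.ref 221 64))))))))
 (.seq (.seq (.seq (.one (.play 257 (.both (.ref 12 0) (.both (.ref 108 64) (.ref 546 64)))))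
 (.one (.play 64 (.both (.play 0 (.ref 7 0)) (.play 132 (.ref 3 64))))))
 (.seq (.one (.play 257 (.both (.ref 475 0) (.both (.ref 8 1) (.both (.ref 19 64) (.play 320 (.ref 159 64)))))))
 (.seq (.one (.play 64 (.both (.play 0 (.ref 7 0)) (.ref 549 64))))
 (.one (.both (.ref 389 1) (.play 128 (.ref 2 64)))))))
 (.seq (.seq (.one (.play 130 (.both (.play 129 (.ref 551 0)) (.both (.play 259 (.both (.ref 8 3) (.play 323 (.both (.play 132 (.ref 5 67)) (.ref 203 130))))) (.play 129 (.ref 57 64))))))
 (.one (.play 261 (.both (.ref 534 4) (.both (.play 325 (.ref 533 4)) (.ref 204 64))))))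
 (.seq (.one (.play 257 (.both (.ref 12 0) (.play 321 (.ref 5 65)))))
 (.seq (.one (.both (.play 0 (.ref 4 0)) (.play 321 (.ref 7 64))))
 (.one (.play 259 (.both (.play 195 (.both (.play 2 (.ref 4 2)) (.ref 494 64))) (.both (.play 195 (.ref 555 2)) (.play 258 (.ref 412 66)))))))))))))
 (.seq (.seq (.seq (.seq (.seq (.seq (.one (.play 195 (.both (.play 259 (.ref 4 2)) (.play 196 (.ref 44 128)))))
 (.one (.play 65 (.both (.play 64 (.ref 2 0)) (.play 133 (.ref 0 65))))))
 (.seq (.one (.both (.play 64 (.ref 1 0)) (.play 69 (.ref 0 1))))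
 (.one (.play 65 (.both (.play 1 (.ref 559 0)) (.play 66 (.ref 1 1)))))))
 (.seq (.seq (.one (.play 66 (.both (.ref 101 1) (.ref 560 64))))
 (.one (.play 67 (.both (.play 66 (.both (.ref 99 0) (.play 134 (.ref 0 66)))) (.both (.play 132 (.both (.play 66 (.ref 29 65)) (.play 131 (.ref 1 67)))) (.ref 24 66))))))
 (.seq (.one (.both (.ref 431 0) (.play 70 (.ref 0 2))))
 (.seq (.one (.play 67 (.both (.ref 101 2) (.play 66 (.ref 563 64)))))
 (.one (.play 257 (.both (.ref 8 1) (.ref 367 64))))))))
 (.seq (.seq (.seq (.one (.play 66 (.both (.play 65 (.both (.play 5 (.ref 2 1)) (.ref 24 64))) (.play 1 (.ref 3 1)))))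
 (.one (.both (.play 65 (.ref 3 0)) (.play 2 (.ref 0 0)))))
 (.seq (.one (.play 2 (.both (.play 67 (.ref 232 0)) (.both (.ref 258 0) (.both (.play 4 (.ref 29 1)) (.play 70 (.ref 567 2)))))))
 (.seq (.one (.play 68 (.both (.play 67 (.both (.play 0 (.ref 0 0)) (.play 6 (.ref 28 2)))) (.play 69 (.ref 0 1)))))
 (.one (.play 2 (.both (.ref 182 0) (.both (.ref 24 1) (.ref 569 1))))))))
 (.seq (.seq (.one (.play 65 (.both (.ref 101 0) (.ref 569 64))))
 (.one (.play 195 (.both (.ref 248 2) (.both (.ref 251 128) (.both (.ref 82 129) (.both (.ref 571 129) (.ref 570 192))))))))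
 (.seq (.one (.play 200 (.both (.play 196 (.both (.ref 572 0) (.play 136 (.ref 31 132)))) (.both (.play 201 (.ref 35 132)) (.both (.play 137 (.ref 27 133)) (.ref 237 196))))))
 (.seq (.one (.play 261 (.both (.play 325 (.ref 97 4)) (.both (.ref 39 5) (.ref 239 64)))))
 (.one (.play 321 (.both (.play 66 (.ref 17 1)) (.ref 221 128)))))))))
 (.seq (.seq (.seq (.seq (.one (.play 256 (.both (.play 65 (.ref 94 0)) (.play 449 (.ref 7 192)))))
 (.one (.play 192 (.both (.ref 576 0) (.play 128 (.ref 7 128))))))
 (.seq (.one (.play 385 (.both (.ref 577 0) (.both (.ref 12 128) (.ref 534 128)))))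
 (.seq (.one (.play 323 (.both (.play 387 (.both (.ref 577 2) (.ref 8 131))) (.both (.ref 578 2) (.both (.ref 234 64) (.both (.ref 221 130) (.play 386 (.ref 159 130))))))))
 (.one (.play 323 (.both (.play 322 (.ref 193 2)) (.both (.ref 579 64) (.both (.ref 22 66) (.ref 575 66)))))))))
 (.seq (.seq (.one (.play 257 (.both (.play 64 (.ref 87 0)) (.play 448 (.ref 5 192)))))
 (.one (.play 193 (.both (.ref 581 0) (.play 129 (.ref 5 128))))))
 (.seq (.one (.play 384 (.both (.ref 582 0) (.both (.ref 8 128) (.ref 39 128)))))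
 (.seq (.one (.play 385 (.both (.ref 582 1) (.ref 12 128))))
 (.one (.play 323 (.both (.ref 584 2) (.both (.ref 583 3) (.both (.ref 199 64) (.both (.ref 76 130) (.ref 19 130)))))))))))
 (.seq (.seq (.seq (.one (.play 193 (.both (.play 0 (.ref 4 0)) (.play 384 (.ref 86 128)))))
 (.one (.play 257 (.both (.ref 586 0) (.play 321 (.ref 4 64))))))
 (.seq (.one (.play 128 (.both (.ref 196 0) (.both (.play 129 (.ref 17 64)) (.ref 587 64)))))
 (.seq (.one (.play 385 (.both (.ref 588 1) (.both (.ref 196 65) (.both (.ref 22 128) (.ref 549 192))))))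
 (.one (.both (.ref 196 3) (.both (.ref 199 64) (.play 132 (.ref 175 66))))))))
 (.seq (.seq (.one (.play 386 (.both (.play 131 (.both (.ref 196 3) (.play 322 (.ref 6 130)))) (.both (.play 387 (.both (.play 388 (.both (.play 324 (.ref 72 129)) (.play 452 (.ref 4 195)))) (.play 450 (.ref 6 194)))) (.both (.ref 498 130) (.play 387 (.both (.play 324 (.both (.ref 527 194) (.play 325 (.ref 68 320)))) (.play 450 (.ref 6 194)))))))))
 (.one (.both (.play 320 (.ref 193 0)) (.play 386 (.ref 4 129)))))
 (.seq (.one (.play 193 (.both (.play 257 (.ref 86 1)) (.play 192 (.ref 1 128)))))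
 (.seq (.one (.both (.play 68 (.both (.ref 593 3) (.play 67 (.ref 3 67)))) (.both (.ref 115 64) (.both (.ref 252 65) (.both (.ref 489 66) (.play 199 (.ref 563 130)))))))
 (.one (.play 257 (.both (.play 321 (.ref 337 1)) (.play 256 (.ref 1 192)))))))))))
 (.seq (.seq (.seq (.seq (.seq (.one (.play 192 (.both (.play 256 (.ref 6 0)) (.play 194 (.both (.play 258 (.ref 4 1)) (.ref 448 128))))))
 (.one (.play 129 (.both (.play 65 (.ref 5 1)) (.play 321 (.both (.ref 534 64) (.both (.play 385 (.ref 533 64)) (.ref 596 128))))))))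
 (.seq (.one (.play 196 (.both (.play 260 (.ref 4 3)) (.play 130 (.ref 45 128)))))
 (.seq (.one (.play 68 (.both (.play 67 (.ref 0 0)) (.play 4 (.ref 559 0)))))
 (.one (.play 132 (.both (.ref 264 4) (.play 66 (.ref 232 64))))))))
 (.seq (.seq (.one (.both (.play 0 (.ref 3 0)) (.ref 496 1)))
 (.one (.play 194 (.both (.play 258 (.ref 6 2)) (.play 132 (.ref 68 128))))))
 (.seq (.one (.play 196 (.both (.play 260 (.ref 246 3)) (.play 130 (.ref 45 128)))))
 (.seq (.one (.play 196 (.both (.play 260 (.ref 135 4)) (.both (.play 5 (.both (.play 260 (.ref 6 4)) (.play 198 (.both (.play 262 (.ref 4 5)) (.play 136 (.ref 2 132)))))) (.play 198 (.ref 522 128))))))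
 (.one (.play 257 (.both (.play 66 (.ref 184 1)) (.play 256 (.ref 1 192)))))))))
 (.seq (.seq (.seq (.one (.both (.ref 605 0) (.play 128 (.ref 3 128))))
 (.one (.both (.play 3 (.ref 7 3)) (.ref 85 64))))
 (.seq (.one (.play 260 (.both (.play 67 (.ref 607 0)) (.both (.play 324 (.ref 220 3)) (.both (.play 324 (.ref 533 3)) (.play 324 (.ref 13 67)))))))
 (.seq (.one (.play 261 (.both (.play 325 (.ref 220 4)) (.both (.play 325 (.ref 533 4)) (.play 260 (.both (.play 259 (.both (.play 262 (.both (.play 326 (.ref 4 69)) (.play 198 (.ref 2 195)))) (.both (.ref 106 192) (.play 198 (.ref 67 194))))) (.play 324 (.ref 6 68))))))))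
 (.one (.play 3 (.both (.play 4 (.ref 2 0)) (.play 131 (.both (.play 195 (.ref 6 2)) (.play 132 (.ref 0 64))))))))))
 (.seq (.seq (.one (.play 193 (.both (.play 2 (.ref 5 1)) (.ref 122 64))))
 (.one (.play 68 (.both (.play 4 (.ref 5 3)) (.play 128 (.ref 2 64))))))
 (.seq (.one (.play 261 (.both (.play 132 (.both (.ref 612 2) (.ref 445 68))) (.both (.play 132 (.both (.ref 612 2) (.ref 454 66))) (.both (.ref 456 4) (.both (.ref 204 64) (.play 324 (.ref 159 68))))))))
 (.seq (.one (.play 259 (.both (.play 131 (.both (.play 67 (.both (.play 66 (.ref 7 2)) (.ref 264 66))) (.play 132 (.ref 2 128)))) (.play 260 (.ref 0 192)))))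
 (.one (.play 67 (.both (.ref 251 0) (.both (.ref 99 1) (.both (.ref 250 1) (.ref 24 66)))))))))))
 (.seq (.seq (.seq (.seq (.one (.play 65 (.both (.play 192 (.ref 187 0)) (.play 257 (.ref 6 64)))))
 (.one (.both (.ref 616 0) (.both (.play 192 (.ref 188 0)) (.both (.play 257 (.ref 178 64)) (.ref 321 128))))))
 (.seq (.one (.play 66 (.both (.play 65 (.both (.play 64 (.ref 2 0)) (.play 130 (.ref 3 65)))) (.play 134 (.ref 3 66)))))
 (.seq (.one (.play 261 (.both (.play 4 (.ref 4 4)) (.ref 465 128))))
 (.one (.play 195 (.both (.ref 619 0) (.both (.play 4 (.ref 75 3)) (.ref 127 64))))))))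
 (.seq (.seq (.one (.play 66 (.both (.ref 483 0) (.ref 24 65))))
 (.one (.play 198 (.both (.play 199 (.both (.play 196 (.both (.ref 486 4) (.both (.ref 621 129) (.ref 182 194)))) (.both (.play 134 (.ref 461 4)) (.both (.play 196 (.ref 594 64)) (.play 132 (.ref 259 130)))))) (.both (.ref 620 1) (.both (.play 199 (.both (.ref 466 2) (.both (.play 196 (.both (.play 260 (.ref 91 3)) (.ref 463 130))) (.both (.play 134 (.ref 461 4)) (.ref 618 66))))) (.play 262 (.ref 146 5))))))))
 (.seq (.one (.play 325 (.both (.play 134 (.both (.play 70 (.ref 328 5)) (.both (.play 70 (.ref 187 5)) (.ref 622 128)))) (.both (.play 134 (.ref 617 5)) (.both (.ref 123 132) (.ref 502 132))))))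
 (.seq (.one (.play 67 (.both (.play 66 (.both (.ref 129 0) (.both (.ref 483 0) (.play 2 (.both (.play 1 (.ref 3 1)) (.play 130 (.both (.play 194 (.ref 4 2)) (.play 129 (.ref 1 65))))))))) (.play 131 (.ref 5 3)))))
 (.one (.both (.ref 624 0) (.play 132 (.ref 6 3))))))))
 (.seq (.seq (.seq (.one (.both (.play 0 (.ref 7 0)) (.play 66 (.ref 5 1))))
 (.one (.both (.play 2 (.ref 5 1)) (.play 321 (.ref 626 64)))))
 (.seq (.one (.play 64 (.both (.ref 342 0) (.play 132 (.ref 3 64)))))
 (.seq (.one (.play 257 (.both (.play 0 (.ref 4 0)) (.play 321 (.both (.play 256 (.ref 4 64)) (.play 385 (.ref 5 129)))))))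
 (.one (.play 192 (.both (.play 256 (.ref 6 0)) (.play 132 (.ref 1 128))))))))
 (.seq (.seq (.one (.play 64 (.both (.play 194 (.both (.play 65 (.both (.play 0 (.ref 7 0)) (.play 1 (.ref 4 1)))) (.play 385 (.ref 86 129)))) (.play 128 (.ref 7 64)))))
 (.one (.play 194 (.both (.play 65 (.ref 87 1)) (.play 128 (.ref 3 128))))))
 (.seq (.one (.both (.play 258 (.ref 6 2)) (.play 193 (.ref 90 128))))
 (.seq (.one (.play 322 (.both (.play 64 (.both (.play 0 (.ref 7 0)) (.ref 201 64))) (.play 258 (.ref 4 65)))))
 (.one (.both (.play 0 (.ref 7 0)) (.ref 11 64)))))))))))))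
 (.seq (.seq (.seq (.seq (.seq (.seq (.seq (.seq (.seq (.one (.play 321 (.both (.play 65 (.ref 220 0)) (.both (.play 65 (.ref 533 0)) (.ref 76 128)))))
 (.one (.play 65 (.both (.play 0 (.ref 7 0)) (.play 258 (.ref 4 65))))))
 (.seq (.one (.play 64 (.both (.ref 637 0) (.play 128 (.ref 7 64)))))
 (.one (.both (.ref 638 0) (.play 386 (.ref 4 129))))))
 (.seq (.seq (.one (.play 323 (.both (.play 324 (.ref 639 2)) (.both (.ref 585 64) (.both (.ref 20 66) (.ref 16 66))))))
 (.one (.play 256 (.both (.ref 408 0) (.play 320 (.ref 6 64))))))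
 (.seq (.one (.play 129 (.both (.ref 347 0) (.both (.ref 15 64) (.ref 641 64)))))
 (.seq (.one (.play 385 (.both (.ref 642 0) (.both (.ref 347 64) (.both (.ref 16 128) (.ref 455 192))))))
 (.one (.both (.play 0 (.ref 4 0)) (.play 256 (.ref 4 64))))))))
 (.seq (.seq (.seq (.one (.both (.play 64 (.ref 644 0)) (.play 385 (.ref 7 128))))
 (.one (.play 130 (.both (.play 194 (.ref 645 2)) (.both (.play 131 (.both (.ref 234 64) (.play 66 (.ref 7 66)))) (.play 387 (.both (.ref 73 128) (.play 194 (.ref 7 130)))))))))
 (.seq (.one (.both (.play 0 (.ref 7 0)) (.ref 76 64)))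
 (.seq (.one (.play 192 (.both (.play 256 (.ref 6 0)) (.play 321 (.ref 61 64)))))
 (.one (.play 257 (.both (.ref 12 0) (.both (.ref 648 0) (.play 321 (.ref 647 64)))))))))
 (.seq (.seq (.one (.play 321 (.both (.play 193 (.ref 405 0)) (.play 256 (.ref 4 64)))))
 (.one (.play 388 (.both (.play 131 (.both (.ref 347 2) (.play 324 (.ref 4 131)))) (.both (.play 387 (.both (.play 386 (.both (.play 322 (.ref 355 128)) (.play 450 (.ref 6 194)))) (.play 452 (.ref 4 195)))) (.both (.ref 650 131) (.play 387 (.both (.play 322 (.both (.ref 649 194) (.play 321 (.ref 45 320)))) (.play 452 (.ref 4 195))))))))))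
 (.seq (.one (.play 195 (.both (.play 259 (.ref 46 2)) (.play 196 (.ref 0 128)))))
 (.seq (.one (.both (.play 1 (.ref 3 0)) (.ref 237 64)))
 (.one (.both (.play 257 (.ref 555 0)) (.play 132 (.ref 1 128)))))))))
 (.seq (.seq (.seq (.seq (.one (.both (.play 322 (.ref 639 0)) (.play 384 (.ref 6 128))))
 (.one (.both (.play 64 (.ref 2 0)) (.play 5 (.ref 420 1)))))
 (.seq (.one (.play 259 (.both (.play 323 (.ref 169 2)) (.play 260 (.ref 45 192)))))
 (.seq (.one (.play 193 (.both (.ref 363 0) (.both (.play 129 (.ref 269 64)) (.both (.play 129 (.both (.ref 15 64) (.play 258 (.both (.play 65 (.ref 4 65)) (.play 194 (.ref 5 193)))))) (.play 194 (.ref 17 129)))))))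
 (.one (.play 449 (.both (.ref 658 0) (.play 512 (.ref 159 256))))))))
 (.seq (.seq (.one (.both (.ref 659 0) (.play 384 (.ref 1 320))))
 (.one (.play 257 (.both (.play 385 (.ref 660 0)) (.play 256 (.ref 3 256))))))
 (.seq (.one (.play 259 (.both (.play 4 (.ref 5 3)) (.play 323 (.both (.ref 234 64) (.both (.ref 63 66) (.both (.ref 96 66) (.both (.ref 76 130) (.ref 221 130)))))))))
 (.seq (.one (.both (.play 257 (.ref 6 1)) (.play 129 (.ref 140 128))))
 (.one (.play 197 (.both (.ref 239 0) (.both (.ref 174 4) (.ref 450 5)))))))))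
 (.seq (.seq (.seq (.one (.play 66 (.both (.play 2 (.ref 7 2)) (.play 65 (.ref 45 64)))))
 (.one (.play 132 (.both (.ref 665 0) (.play 323 (.ref 5 67))))))
 (.seq (.one (.play 129 (.both (.ref 358 0) (.play 130 (.ref 1 65)))))
 (.seq (.one (.play 259 (.both (.play 323 (.ref 645 2)) (.play 260 (.ref 0 192)))))
 (.one (.play 195 (.both (.ref 494 0) (.play 259 (.both (.ref 12 2) (.both (.ref 648 2) (.ref 342 66))))))))))
 (.seq (.seq (.one (.play 257 (.both (.ref 8 1) (.play 321 (.ref 7 64)))))
 (.one (.both (.play 69 (.ref 3 1)) (.play 128 (.ref 1 64)))))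
 (.seq (.one (.play 194 (.both (.play 258 (.ref 6 2)) (.play 193 (.ref 67 128)))))
 (.seq (.one (.play 259 (.both (.ref 22 2) (.both (.ref 575 2) (.ref 672 64)))))
 (.one (.play 259 (.both (.play 195 (.both (.play 4 (.ref 6 3)) (.ref 111 64))) (.both (.play 195 (.ref 184 3)) (.play 260 (.ref 414 67))))))))))))
 (.seq (.seq (.seq (.seq (.seq (.one (.play 196 (.both (.ref 674 0) (.both (.play 197 (.both (.play 195 (.both (.ref 673 0) (.both (.play 259 (.both (.ref 22 2) (.play 198 (.ref 671 130)))) (.play 198 (.ref 140 130))))) (.play 261 (.ref 4 4)))) (.both (.play 259 (.ref 159 3)) (.both (.ref 670 3) (.ref 264 3)))))))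
 (.one (.both (.play 0 (.ref 3 0)) (.play 64 (.ref 2 0)))))
 (.seq (.one (.play 193 (.both (.play 257 (.ref 436 0)) (.play 258 (.ref 4 1)))))
 (.one (.both (.play 0 (.ref 7 0)) (.ref 264 64)))))
 (.seq (.seq (.one (.play 259 (.both (.play 192 (.both (.play 131 (.both (.play 2 (.ref 7 2)) (.play 132 (.ref 2 128)))) (.play 260 (.ref 0 192)))) (.both (.play 131 (.ref 678 2)) (.play 260 (.ref 41 192))))))
 (.one (.both (.play 0 (.ref 7 0)) (.play 322 (.ref 4 65)))))
 (.seq (.one (.play 196 (.both (.play 260 (.both (.play 261 (.both (.play 132 (.ref 680 3)) (.play 193 (.ref 0 193)))) (.both (.play 132 (.ref 678 3)) (.play 261 (.ref 259 192))))) (.both (.ref 679 1) (.both (.play 132 (.both (.play 260 (.ref 678 3)) (.play 133 (.ref 468 65)))) (.both (.play 197 (.both (.play 261 (.both (.play 325 (.both (.play 133 (.both (.play 132 (.ref 7 68)) (.play 134 (.ref 2 130)))) (.both (.play 132 (.ref 245 68)) (.ref 14 132)))) (.play 262 (.ref 0 194)))) (.both (.play 198 (.ref 35 129)) (.play 198 (.ref 25 193))))) (.both (.play 197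 (.ref 422 128)) (.both (.ref 36 128) (.play 197 (.both (.play 193 (.ref 35 128)) (.both (.play 134 (.ref 27 130)) (.ref 237 193))))))))))))
 (.seq (.one (.play 132 (.both (.ref 478 0) (.play 260 (.ref 7 3)))))
 (.one (.both (.play 0 (.ref 7 0)) (.play 321 (.ref 5 65))))))))
 (.seq (.seq (.seq (.one (.play 260 (.both (.play 69 (.ref 86 4)) (.both (.ref 85 64) (.play 324 (.ref 13 67))))))
 (.one (.play 385 (.both (.play 257 (.both (.play 449 (.both (.ref 658 0) (.ref 360 256))) (.play 256 (.ref 3 256)))) (.play 384 (.ref 1 320))))))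
 (.seq (.one (.play 323 (.both (.play 322 (.both (.ref 685 1) (.both (.play 321 (.ref 285 256)) (.ref 182 320)))) (.play 326 (.ref 2 259)))))
 (.seq (.one (.play 391 (.both (.play 327 (.both (.play 264 (.both (.play 326 (.both (.ref 686 2) (.both (.play 266 (.both (.play 267 (.ref 286 199)) (.play 263 (.ref 1 262)))) (.play 263 (.ref 68 260))))) (.both (.ref 611 135) (.play 263 (.both (.play 266 (.both (.ref 481 199) (.play 326 (.ref 1 262)))) (.play 455 (.ref 5 199))))))) (.both (.play 455 (.both (.ref 512 198) (.both (.play 264 (.ref 508 199)) (.both (.ref 93 259) (.ref 684 259))))) (.play 393 (.both (.ref 614 199) (.play 326 (.ref 3 326))))))) (.both (.play 455 (.both (.play 456 (.both (.play 390 (.both (.play 389 (.both (.ref 661 68) (.play 388 (.ref 0 388)))) (.both (.play 583 (.both (.play 519 (.both (.play 326 (.ref 7 326)) (.ref 204 386))) (.both (.play 519 (.ref 683 326)) (.play 457 (.both (.play 584 (.both (.ref 479 388) (.both (.ref 682 388) (.both (.ref 681 389) (.play 520 (.ref 414 391)))))) (.play 458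 (.ref 3 390))))))) (.ref 465 323)))) (.both (.play 328 (.both (.play 264 (.ref 6 199)) (.play 457 (.both (.ref 127 324) (.both (.play 454 (.both (.play 583 (.both (.play 519 (.ref 5 327)) (.play 390 (.both (.play 389 (.ref 3 389)) (.play 518 (.both (.ref 677 389) (.play 517 (.ref 1 453)))))))) (.both (.ref 667 388) (.play 389 (.both (.play 453 (.ref 676 388)) (.play 390 (.ref 3 389))))))) (.play 458 (.ref 140 390))))))) (.both (.play 328 (.both (.play 264 (.ref 6 199)) (.ref 675 324))) (.both (.play 328 (.both (.play 264 (.ref 6 199)) (.ref 669 325))) (.play 457 (.both (.play 454 (.both (.ref 668 262) (.ref 667 388))) (.play 458 (.ref 140 390))))))))) (.both (.ref 623 194) (.both (.play 519 (.both (.play 327 (.both (.play 262 (.both (.play 263 (.ref 626 198)) (.play 326 (.ref 7 262)))) (.ref 85 323))) (.both (.play 583 (.both (.ref 347 262) (.both (.ref 666 324) (.ref 435 390)))) (.both (.play 583 (.both (.play 584 (.ref 639 262)) (.both (.ref 666 324) (.ref 435 390)))) (.both (.ref 636 262) (.both (.ref 123 326) (.ref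 664 386))))))) (.both (.play 519 (.both (.play 327 (.both (.ref 347 198) (.both (.play 520 (.ref 639 198)) (.play 520 (.both (.play 521 (.both (.play 518 (.ref 663 325)) (.both (.play 518 (.both (.play 582 (.ref 6 326)) (.ref 377 390))) (.play 522 (.ref 313 454))))) (.play 584 (.ref 4 327))))))) (.both (.play 583 (.both (.ref 584 262) (.play 328 (.ref 5 327)))) (.both (.play 583 (.both (.ref 583 263) (.play 328 (.ref 5 327)))) (.both (.ref 662 324) (.ref 502 326)))))) (.play 264 (.ref 625 196))))))) (.both (.play 393 (.both (.play 328 (.both (.play 264 (.ref 429 136)) (.ref 115 323))) (.ref 427 199))) (.both (.play 455 (.both (.play 519 (.both (.play 518 (.both (.play 517 (.both (.play 520 (.both (.ref 661 196) (.ref 657 325))) (.both (.ref 106 450) (.both (.ref 100 450) (.play 456 (.ref 656 452)))))) (.both (.play 327 (.ref 655 198)) (.both (.play 517 (.both (.play 452 (.both (.play 516 (.both (.play 581 (.both (.play 645 (.ref 169 324)) (.ref 562 448))) (.play 451 (.ref 3 451)))) (.both (.play 516 (.both (.play 580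 (.both (.play 581 (.ref 654 388)) (.play 579 (.ref 1 515)))) (.play 451 (.ref 3 451)))) (.both (.ref 132 450) (.play 520 (.ref 653 452)))))) (.both (.play 520 (.both (.ref 248 324) (.ref 652 389))) (.both (.ref 133 386) (.both (.ref 130 387) (.ref 100 450)))))) (.play 582 (.ref 135 326)))))) (.both (.play 327 (.both (.ref 347 198) (.both (.ref 234 260) (.play 326 (.ref 368 262))))) (.both (.ref 651 196) (.both (.ref 646 196) (.both (.ref 643 198) (.both (.ref 579 260) (.both (.ref 640 260) (.both (.ref 636 262) (.ref 553 322)))))))))) (.both (.ref 623 194) (.both (.play 454 (.both (.play 519 (.both (.play 453 (.both (.play 389 (.both (.play 325 (.both (.ref 632 196) (.both (.play 518 (.ref 345 197)) (.both (.play 517 (.both (.play 324 (.ref 635 260)) (.both (.ref 16 260) (.both (.ref 634 260) (.both (.play 518 (.both (.play 516 (.ref 633 322)) (.play 582 (.ref 4 325)))) (.ref 361 324)))))) (.play 517 (.both (.ref 531 258) (.both (.ref 534 260) (.ref 529 324)))))))) (.both (.play 325 (.both (.ref 632 196) (.both (.play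 517 (.both (.ref 631 196) (.ref 630 324))) (.both (.play 324 (.both (.ref 342 260) (.play 390 (.ref 3 324)))) (.ref 629 261))))) (.both (.play 517 (.both (.ref 452 322) (.both (.ref 628 324) (.play 456 (.ref 81 388))))) (.play 388 (.ref 441 386)))))) (.play 452 (.ref 2 388)))) (.both (.play 583 (.ref 627 326)) (.ref 502 326)))) (.play 393 (.ref 1 390)))) (.play 264 (.ref 625 196)))))) (.both (.play 455 (.both (.ref 623 194) (.both (.play 519 (.both (.play 327 (.both (.play 264 (.both (.play 263 (.ref 5 199)) (.play 328 (.ref 5 263)))) (.ref 85 323))) (.both (.play 328 (.ref 617 199)) (.both (.ref 123 326) (.ref 502 326))))) (.play 393 (.both (.ref 427 199) (.play 454 (.ref 1 390))))))) (.both (.play 393 (.both (.ref 427 199) (.both (.play 330 (.both (.ref 615 323) (.play 331 (.ref 2 327)))) (.ref 182 389)))) (.both (.play 393 (.ref 428 197)) (.play 393 (.both (.ref 509 198) (.ref 614 199))))))))))))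
 (.one (.both (.play 2 (.ref 5 1)) (.play 258 (.both (.play 322 (.ref 4 65)) (.play 260 (.ref 313 192)))))))))
 (.seq (.seq (.one (.play 68 (.both (.play 4 (.ref 31 0)) (.play 69 (.ref 285 0)))))
 (.one (.play 66 (.both (.play 67 (.both (.play 68 (.ref 162 0)) (.play 131 (.ref 178 2)))) (.play 130 (.ref 7 1))))))
 (.seq (.one (.play 66 (.both (.play 67 (.both (.play 68 (.ref 3 0)) (.play 131 (.ref 178 2)))) (.play 130 (.ref 7 1)))))
 (.seq (.one (.both (.ref 160 1) (.play 128 (.ref 1 64))))
 (.one (.play 69 (.both (.ref 101 0) (.ref 237 65)))))))))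
 (.seq (.seq (.seq (.seq (.one (.play 68 (.both (.play 4 (.ref 31 0)) (.ref 693 0))))
 (.one (.play 133 (.both (.play 129 (.both (.play 257 (.both (.play 65 (.ref 7 0)) (.play 256 (.ref 1 192)))) (.play 197 (.ref 77 129)))) (.play 132 (.ref 2 129))))))
 (.seq (.one (.both (.play 0 (.ref 3 0)) (.play 129 (.ref 1 64))))
 (.seq (.one (.play 321 (.both (.play 194 (.both (.play 130 (.ref 617 1)) (.both (.play 322 (.both (.play 130 (.ref 94 65)) (.play 261 (.ref 1 257)))) (.both (.play 193 (.both (.play 130 (.ref 184 65)) (.play 261 (.ref 3 193)))) (.play 261 (.ref 696 193)))))) (.play 320 (.ref 1 256)))))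
 (.one (.both (.play 192 (.ref 4 0)) (.play 65 (.ref 7 0)))))))
 (.seq (.seq (.one (.play 257 (.both (.play 0 (.ref 413 0)) (.both (.play 128 (.ref 246 0)) (.both (.play 129 (.ref 678 0)) (.play 321 (.both (.play 128 (.ref 698 64)) (.both (.ref 14 128) (.ref 342 128)))))))))
 (.one (.play 193 (.both (.play 195 (.both (.play 259 (.ref 4 2)) (.play 196 (.ref 3 128)))) (.play 257 (.ref 6 1))))))
 (.seq (.one (.play 256 (.both (.play 192 (.ref 6 0)) (.play 257 (.ref 404 0)))))
 (.seq (.one (.play 257 (.both (.ref 8 1) (.ref 701 64))))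
 (.one (.play 321 (.both (.play 66 (.ref 17 1)) (.ref 702 128))))))))
 (.seq (.seq (.seq (.one (.play 129 (.both (.play 64 (.ref 351 0)) (.play 320 (.ref 6 128)))))
 (.one (.play 129 (.both (.play 65 (.ref 18 1)) (.ref 15 64)))))
 (.seq (.one (.play 65 (.both (.ref 15 0) (.play 258 (.ref 87 1)))))
 (.seq (.one (.play 194 (.both (.ref 706 0) (.play 130 (.ref 5 129)))))
 (.one (.play 193 (.both (.ref 705 0) (.both (.play 128 (.ref 351 64)) (.both (.ref 707 64) (.play 194 (.ref 17 129))))))))))
 (.seq (.seq (.one (.both (.ref 273 0) (.play 512 (.ref 6 256))))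
 (.one (.play 385 (.both (.play 257 (.ref 709 0)) (.both (.play 256 (.ref 169 128)) (.both (.play 512 (.ref 178 256)) (.play 513 (.ref 678 256))))))))
 (.seq (.one (.play 257 (.both (.play 385 (.ref 709 0)) (.both (.play 193 (.both (.ref 403 0) (.both (.ref 401 0) (.play 384 (.ref 244 192))))) (.both (.play 384 (.ref 188 128)) (.play 512 (.ref 415 256)))))))
 (.seq (.one (.play 129 (.both (.ref 266 0) (.play 386 (.ref 4 129)))))
 (.one (.play 65 (.both (.ref 15 0) (.play 258 (.ref 4 65))))))))))))
 (.seq (.seq (.seq (.seq (.seq (.seq (.one (.play 129 (.both (.ref 713 0) (.both (.ref 362 1) (.play 385 (.ref 269 64))))))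
 (.one (.both (.ref 658 0) (.play 514 (.ref 4 257)))))
 (.seq (.one (.play 257 (.both (.play 385 (.ref 715 0)) (.both (.play 193 (.both (.ref 714 0) (.both (.ref 712 0) (.play 386 (.ref 698 193))))) (.both (.play 386 (.ref 169 129)) (.play 514 (.ref 413 257)))))))
 (.one (.play 458 (.both (.play 392 (.both (.play 459 (.both (.play 460 (.both (.play 332 (.both (.play 331 (.both (.play 395 (.both (.play 267 (.both (.ref 658 10) (.play 522 (.ref 6 266)))) (.both (.play 268 (.ref 188 139)) (.both (.play 522 (.ref 178 266)) (.ref 502 266))))) (.play 330 (.ref 3 264)))) (.both (.play 331 (.both (.ref 716 10) (.play 330 (.ref 3 264)))) (.both (.play 331 (.both (.ref 711 11) (.play 330 (.ref 3 264)))) (.both (.play 331 (.both (.ref 710 11) (.play 330 (.ref 3 264)))) (.both (.play 396 (.both (.play 268 (.both (.ref 708 11) (.both (.play 204 (.both (.ref 705 11) (.play 395 (.ref 6 203)))) (.both (.ref 704 75) (.both (.ref 402 139) (.ref 703 203)))))) (.both (.ref 400 202) (.both (.play 524 (.both (.ref 397 202) (.ref 700 330)))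 (.play 523 (.ref 135 267)))))) (.play 331 (.both (.play 330 (.ref 3 264)) (.ref 699 267))))))))) (.both (.play 461 (.both (.ref 307 138) (.both (.ref 695 265) (.both (.play 526 (.ref 42 394)) (.ref 385 394))))) (.both (.play 461 (.both (.ref 309 138) (.ref 697 201))) (.both (.play 461 (.both (.ref 309 138) (.both (.play 398 (.ref 27 394)) (.both (.ref 689 394) (.both (.ref 385 394) (.ref 694 394)))))) (.both (.play 461 (.both (.ref 697 201) (.both (.play 522 (.both (.ref 690 264) (.play 521 (.ref 1 457)))) (.both (.ref 695 265) (.both (.ref 515 393) (.ref 694 394)))))) (.both (.play 461 (.both (.play 525 (.both (.play 522 (.both (.play 397 (.ref 268 202)) (.play 521 (.ref 1 457)))) (.play 526 (.ref 0 458)))) (.both (.play 462 (.ref 35 393)) (.both (.play 462 (.ref 32 394)) (.play 462 (.ref 25 457)))))) (.both (.play 522 (.both (.ref 691 264) (.both (.play 461 (.ref 692 393)) (.play 521 (.ref 58 455))))) (.both (.play 522 (.both (.ref 691 264) (.both (.play 461 (.both (.ref 385 394) (.play 521 (.ref 1 457)))) (.play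 521 (.ref 58 455))))) (.play 522 (.both (.ref 690 264) (.both (.play 461 (.both (.ref 689 394) (.play 521 (.ref 1 457)))) (.play 521 (.ref 58 455)))))))))))))) (.both (.play 457 (.both (.ref 491 326) (.play 391 (.ref 3 391)))) (.both (.play 457 (.ref 162 391)) (.both (.play 457 (.ref 506 391)) (.play 457 (.ref 516 391))))))) (.both (.play 328 (.ref 688 199)) (.play 328 (.ref 86 200))))) (.both (.ref 687 64) (.both (.play 522 (.both (.play 394 (.ref 518 199)) (.both (.play 394 (.both (.play 330 (.ref 7 265)) (.ref 613 325))) (.both (.play 394 (.both (.play 330 (.ref 7 265)) (.play 586 (.both (.play 587 (.both (.play 395 (.both (.play 331 (.ref 5 330)) (.play 585 (.ref 84 390)))) (.play 651 (.ref 4 394)))) (.both (.play 650 (.ref 97 329)) (.both (.play 650 (.ref 18 330)) (.play 650 (.ref 13 393)))))))) (.play 520 (.ref 545 387)))))) (.both (.play 522 (.both (.play 328 (.both (.ref 611 199) (.play 330 (.both (.play 331 (.both (.ref 177 264) (.both (.ref 50 264) (.ref 610 264)))) (.play 394 (.ref 7 265)))))) (.both (.play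 520 (.both (.play 392 (.both (.play 328 (.ref 5 264)) (.ref 609 323))) (.both (.play 392 (.both (.play 328 (.ref 5 264)) (.play 584 (.both (.play 521 (.both (.play 585 (.both (.play 649 (.ref 4 392)) (.play 523 (.ref 28 519)))) (.both (.play 519 (.both (.ref 433 451) (.play 459 (.ref 2 455)))) (.play 459 (.ref 66 455))))) (.both (.ref 602 389) (.both (.ref 76 391) (.play 521 (.both (.ref 361 391) (.play 459 (.ref 66 455)))))))))) (.both (.play 392 (.both (.play 328 (.ref 5 264)) (.ref 608 324))) (.both (.ref 597 263) (.both (.play 521 (.both (.play 519 (.both (.play 455 (.ref 606 326)) (.play 459 (.ref 2 455)))) (.both (.play 455 (.both (.play 519 (.ref 606 326)) (.play 523 (.ref 3 455)))) (.both (.play 459 (.ref 66 455)) (.play 523 (.ref 162 455)))))) (.play 521 (.ref 538 451)))))))) (.both (.play 520 (.both (.play 586 (.both (.play 584 (.both (.play 649 (.both (.play 394 (.both (.play 330 (.ref 7 265)) (.play 585 (.ref 6 393)))) (.play 713 (.both (.play 648 (.ref 4 456)) (.play 650 (.ref 6 457)))))) (.both (.ref 604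 387) (.play 583 (.both (.play 647 (.ref 178 391)) (.play 521 (.ref 68 517))))))) (.both (.play 394 (.both (.play 330 (.both (.play 265 (.ref 7 265)) (.play 331 (.ref 17 266)))) (.play 649 (.ref 159 393)))) (.both (.ref 603 391) (.play 584 (.ref 545 451)))))) (.both (.play 584 (.both (.play 394 (.both (.play 330 (.ref 7 265)) (.play 648 (.both (.play 647 (.both (.play 455 (.both (.play 391 (.ref 7 391)) (.play 649 (.ref 117 451)))) (.play 711 (.ref 6 455)))) (.both (.play 712 (.ref 220 391)) (.both (.play 712 (.ref 533 391)) (.play 712 (.ref 13 455)))))))) (.both (.play 392 (.both (.play 328 (.ref 5 264)) (.ref 602 389))) (.both (.play 455 (.both (.play 392 (.both (.play 328 (.ref 5 264)) (.play 391 (.ref 61 327)))) (.play 521 (.ref 232 453)))) (.play 392 (.both (.play 328 (.ref 5 264)) (.ref 16 327))))))) (.both (.play 392 (.both (.play 328 (.ref 5 264)) (.ref 535 324))) (.both (.play 394 (.both (.play 330 (.ref 7 265)) (.play 586 (.both (.ref 600 389) (.both (.ref 598 391) (.both (.play 649 (.ref 159 393)) (.play 521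 (.both (.play 455 (.ref 232 453)) (.both (.ref 465 453) (.both (.play 523 (.ref 601 455)) (.play 587 (.ref 45 519)))))))))))) (.both (.play 394 (.both (.play 330 (.ref 7 265)) (.play 586 (.both (.ref 600 389) (.both (.play 521 (.both (.play 585 (.both (.play 649 (.ref 6 393)) (.play 519 (.ref 29 518)))) (.both (.play 585 (.both (.play 649 (.ref 6 393)) (.play 523 (.both (.play 455 (.ref 3 455)) (.ref 599 520))))) (.play 455 (.ref 232 453))))) (.both (.ref 598 391) (.play 649 (.ref 159 393)))))))) (.both (.ref 597 263) (.play 521 (.both (.play 519 (.both (.ref 595 326) (.both (.ref 252 452) (.ref 34 454)))) (.both (.play 519 (.ref 594 387)) (.both (.play 455 (.ref 232 453)) (.play 523 (.both (.play 455 (.ref 3 455)) (.ref 33 455)))))))))))))) (.both (.play 586 (.both (.play 394 (.ref 382 261)) (.both (.ref 589 265) (.both (.ref 585 327) (.both (.ref 580 327) (.both (.play 650 (.ref 219 329)) (.ref 574 389))))))) (.both (.play 586 (.both (.play 395 (.both (.play 459 (.ref 337 266)) (.both (.play 394 (.both (.ref 199 327)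 (.play 331 (.ref 5 330)))) (.play 650 (.both (.ref 356 390) (.play 459 (.ref 5 394))))))) (.both (.play 587 (.both (.ref 374 262) (.both (.play 394 (.ref 592 265)) (.both (.ref 190 390) (.play 651 (.ref 146 394)))))) (.both (.ref 591 263) (.both (.play 394 (.ref 590 263)) (.both (.ref 589 265) (.both (.ref 585 327) (.both (.ref 580 327) (.both (.play 650 (.ref 219 329)) (.ref 574 389)))))))))) (.play 394 (.both (.play 330 (.ref 7 265)) (.ref 261 327))))))))) (.both (.play 457 (.both (.ref 510 199) (.both (.ref 573 259) (.both (.play 520 (.both (.play 392 (.both (.play 328 (.ref 5 264)) (.play 584 (.both (.ref 550 327) (.both (.play 583 (.both (.play 585 (.both (.play 649 (.ref 4 392)) (.play 518 (.both (.play 519 (.both (.play 521 (.ref 2 454)) (.play 586 (.ref 3 518)))) (.both (.ref 568 515) (.ref 566 516)))))) (.play 647 (.ref 6 391)))) (.both (.ref 552 389) (.both (.play 647 (.ref 159 391)) (.ref 547 391)))))))) (.both (.play 392 (.both (.play 328 (.ref 5 264)) (.play 584 (.both (.ref 239 387) (.both (.play 647 (.ref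 159 391)) (.both (.ref 360 391) (.both (.play 648 (.both (.ref 8 392) (.ref 174 455))) (.both (.ref 565 391) (.play 648 (.both (.ref 12 391) (.both (.ref 435 455) (.ref 367 455)))))))))))) (.both (.play 328 (.both (.play 455 (.both (.ref 425 262) (.both (.ref 564 387) (.both (.ref 562 387) (.ref 561 388))))) (.play 392 (.ref 5 264)))) (.both (.play 392 (.both (.play 328 (.ref 5 264)) (.play 584 (.both (.play 391 (.both (.play 327 (.ref 7 327)) (.play 390 (.ref 231 389)))) (.play 647 (.ref 159 391)))))) (.play 455 (.both (.ref 564 387) (.both (.ref 562 387) (.both (.ref 561 388) (.both (.play 519 (.both (.play 391 (.both (.play 583 (.both (.play 582 (.both (.play 584 (.both (.play 648 (.both (.ref 16 391) (.ref 558 516))) (.both (.play 648 (.both (.ref 20 391) (.both (.ref 16 391) (.ref 557 454)))) (.play 581 (.ref 90 516))))) (.play 646 (.ref 6 390)))) (.both (.ref 556 389) (.both (.ref 76 390) (.both (.ref 554 390) (.ref 361 390)))))) (.play 390 (.ref 3 390)))) (.play 518 (.ref 1 454)))) (.ref 82 389))))))))))) (.both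 (.ref 505 261) (.ref 423 389)))))) (.both (.play 392 (.both (.play 328 (.ref 175 199)) (.both (.play 328 (.both (.play 201 (.ref 5 200)) (.play 457 (.both (.play 523 (.both (.play 455 (.both (.play 519 (.ref 6 263)) (.play 522 (.ref 0 455)))) (.play 459 (.ref 176 391)))) (.play 521 (.ref 4 264)))))) (.both (.play 328 (.ref 429 200)) (.play 520 (.both (.ref 553 323) (.both (.play 584 (.both (.play 457 (.both (.ref 548 327) (.ref 552 389))) (.both (.ref 550 327) (.both (.play 457 (.both (.ref 548 327) (.ref 547 391))) (.both (.ref 239 387) (.ref 76 391)))))) (.both (.ref 532 325) (.play 522 (.ref 545 387)))))))))) (.both (.play 394 (.both (.play 392 (.both (.play 328 (.ref 175 199)) (.both (.play 328 (.ref 429 200)) (.play 457 (.ref 538 387))))) (.both (.play 392 (.both (.play 328 (.ref 536 195)) (.both (.play 328 (.ref 175 199)) (.both (.play 328 (.ref 429 200)) (.play 522 (.both (.play 330 (.ref 7 265)) (.play 520 (.both (.ref 535 324) (.both (.ref 532 325) (.both (.play 521 (.both (.play 584 (.both (.ref 530 388) (.both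 (.ref 452 389) (.both (.ref 529 391) (.ref 527 391))))) (.both (.play 519 (.both (.play 583 (.both (.play 647 (.ref 124 391)) (.play 582 (.ref 1 518)))) (.both (.ref 524 390) (.ref 182 517)))) (.play 459 (.ref 53 455))))) (.ref 523 451))))))))))) (.both (.play 330 (.both (.play 331 (.both (.play 328 (.both (.play 392 (.ref 86 200)) (.ref 519 261))) (.play 332 (.ref 3 264)))) (.play 522 (.ref 7 265)))) (.play 522 (.ref 518 199)))))) (.both (.play 457 (.both (.play 392 (.both (.play 328 (.ref 507 200)) (.both (.play 328 (.ref 86 200)) (.play 459 (.ref 516 391))))) (.both (.ref 505 261) (.both (.ref 514 261) (.both (.play 455 (.both (.ref 252 388) (.both (.play 459 (.ref 35 390)) (.play 459 (.both (.play 395 (.ref 31 391)) (.ref 30 454)))))) (.both (.play 455 (.both (.play 454 (.ref 285 389)) (.both (.play 459 (.ref 149 390)) (.play 454 (.ref 25 453))))) (.ref 423 389))))))) (.both (.play 457 (.both (.ref 511 197) (.both (.ref 510 199) (.both (.ref 189 261) (.both (.play 455 (.both (.ref 509 262) (.both (.ref 300 389)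 (.ref 182 453)))) (.ref 291 390)))))) (.both (.play 457 (.both (.play 392 (.both (.play 328 (.ref 429 200)) (.play 459 (.ref 162 391)))) (.both (.ref 505 261) (.both (.ref 504 263) (.ref 291 390))))) (.both (.play 457 (.both (.play 392 (.both (.play 328 (.ref 507 200)) (.both (.play 328 (.ref 86 200)) (.play 459 (.ref 506 391))))) (.both (.ref 505 261) (.both (.ref 504 263) (.ref 424 389))))) (.play 457 (.ref 501 261)))))))))))))))))
 (.seq (.seq (.one (.play 456 (.both (.ref 717 0) (.both (.play 393 (.both (.play 394 (.both (.play 395 (.both (.ref 276 72) (.both (.ref 500 72) (.both (.ref 499 73) (.both (.play 392 (.both (.ref 331 200) (.play 455 (.ref 1 391)))) (.both (.play 392 (.both (.ref 325 264) (.play 455 (.ref 1 391)))) (.both (.play 392 (.both (.ref 319 328) (.play 455 (.ref 1 391)))) (.play 392 (.ref 430 327))))))))) (.both (.play 392 (.ref 212 199)) (.play 458 (.ref 146 201))))) (.both (.ref 498 200) (.play 457 (.both (.ref 478 261) (.both (.play 520 (.ref 178 264)) (.play 521 (.both (.play 455 (.both (.play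 584 (.both (.play 520 (.ref 6 328)) (.play 458 (.both (.play 648 (.both (.ref 497 390) (.play 585 (.ref 178 392)))) (.ref 496 391))))) (.both (.ref 495 388) (.both (.ref 465 388) (.play 522 (.ref 259 453)))))) (.both (.ref 494 326) (.ref 264 328)))))))))) (.both (.play 457 (.both (.play 458 (.both (.play 459 (.both (.ref 493 136) (.both (.play 395 (.both (.play 455 (.both (.ref 252 388) (.play 394 (.ref 2 391)))) (.play 396 (.ref 2 392)))) (.both (.ref 34 391) (.ref 296 392))))) (.both (.play 459 (.both (.ref 493 136) (.both (.ref 153 389) (.ref 237 455)))) (.both (.play 455 (.both (.play 522 (.ref 472 263)) (.play 454 (.ref 102 389)))) (.both (.play 455 (.both (.play 390 (.both (.play 522 (.both (.ref 471 263) (.ref 298 389))) (.play 391 (.ref 3 390)))) (.both (.ref 427 263) (.both (.ref 489 389) (.ref 296 391))))) (.both (.play 459 (.both (.ref 491 326) (.both (.play 460 (.ref 35 391)) (.both (.play 460 (.ref 32 392)) (.play 460 (.ref 25 455)))))) (.both (.ref 490 388) (.both (.ref 488 388) (.ref 418 390)))))))))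 (.both (.play 455 (.both (.play 458 (.both (.play 393 (.both (.play 394 (.both (.play 201 (.ref 4 201)) (.play 395 (.ref 2 391)))) (.play 522 (.ref 4 265)))) (.both (.play 328 (.both (.ref 425 262) (.play 393 (.both (.play 521 (.ref 7 264)) (.ref 80 391))))) (.both (.ref 486 263) (.play 523 (.ref 42 391)))))) (.both (.play 454 (.both (.play 521 (.both (.play 393 (.both (.play 328 (.ref 7 264)) (.play 394 (.ref 2 390)))) (.play 522 (.ref 0 454)))) (.ref 82 388))) (.both (.ref 424 388) (.both (.ref 423 388) (.both (.ref 291 389) (.play 458 (.ref 422 389)))))))) (.both (.play 393 (.both (.play 455 (.both (.play 328 (.both (.play 327 (.both (.ref 485 260) (.both (.ref 484 260) (.play 330 (.both (.ref 482 262) (.ref 481 263)))))) (.play 521 (.ref 7 264)))) (.both (.play 521 (.both (.play 328 (.ref 7 264)) (.ref 480 326))) (.ref 100 388)))) (.play 520 (.ref 6 264)))) (.both (.ref 479 261) (.both (.ref 477 262) (.both (.play 393 (.both (.play 521 (.both (.play 328 (.ref 7 264)) (.ref 476 326))) (.play 520 (.ref 6 264)))) (.play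 393 (.both (.play 521 (.both (.play 328 (.ref 7 264)) (.play 585 (.both (.ref 199 326) (.both (.ref 475 328) (.both (.ref 89 328) (.both (.ref 19 392) (.play 648 (.ref 159 392))))))))) (.play 520 (.ref 6 264))))))))))) (.both (.play 392 (.both (.ref 434 195) (.both (.play 328 (.ref 119 195)) (.both (.play 201 (.ref 322 200)) (.play 457 (.both (.play 455 (.both (.ref 473 260) (.both (.play 458 (.both (.play 519 (.ref 464 262)) (.play 523 (.ref 42 391)))) (.play 328 (.ref 75 263))))) (.both (.play 328 (.ref 469 260)) (.both (.play 458 (.both (.ref 466 261) (.both (.play 455 (.both (.play 519 (.ref 464 262)) (.ref 463 389))) (.both (.play 393 (.ref 461 263)) (.play 391 (.ref 232 389)))))) (.both (.play 458 (.both (.play 522 (.both (.play 394 (.both (.play 330 (.ref 7 265)) (.play 586 (.both (.play 650 (.both (.play 395 (.ref 17 330)) (.ref 460 457))) (.both (.ref 39 330) (.ref 204 389)))))) (.play 393 (.ref 4 265)))) (.both (.play 459 (.both (.play 393 (.ref 459 264)) (.play 391 (.ref 3 391)))) (.both (.play 522 (.both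 (.ref 458 263) (.play 393 (.ref 4 265)))) (.play 459 (.ref 162 391)))))) (.both (.play 521 (.both (.play 328 (.ref 4 264)) (.play 585 (.both (.play 393 (.both (.ref 443 326) (.ref 199 326))) (.play 649 (.ref 7 392)))))) (.ref 442 324))))))))))) (.both (.play 392 (.both (.ref 434 195) (.both (.play 328 (.ref 86 200)) (.play 520 (.both (.play 328 (.ref 436 263)) (.both (.play 585 (.both (.ref 195 264) (.ref 38 328))) (.ref 435 327))))))) (.both (.play 392 (.both (.ref 434 195) (.both (.play 328 (.ref 175 199)) (.both (.play 328 (.ref 429 200)) (.play 328 (.both (.ref 239 259) (.play 520 (.ref 5 264)))))))) (.both (.play 392 (.ref 323 200)) (.play 457 (.both (.play 393 (.both (.play 458 (.ref 117 260)) (.both (.play 521 (.both (.play 328 (.ref 7 264)) (.play 585 (.both (.play 394 (.both (.play 330 (.ref 5 329)) (.play 455 (.ref 53 390)))) (.both (.play 649 (.ref 13 392)) (.ref 324 392)))))) (.ref 202 264)))) (.both (.play 458 (.both (.play 455 (.ref 428 261)) (.both (.ref 426 263) (.both (.ref 424 389) (.both (.ref 423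 389) (.both (.play 455 (.both (.play 454 (.ref 102 389)) (.both (.play 459 (.ref 102 390)) (.both (.ref 33 390) (.ref 295 390))))) (.both (.ref 291 390) (.play 459 (.ref 422 390))))))))) (.both (.play 458 (.both (.ref 421 262) (.both (.ref 419 263) (.both (.play 393 (.ref 75 264)) (.ref 418 390))))) (.play 328 (.ref 416 264)))))))))))))))
 (.one (.play 3 (.both (.play 65 (.ref 28 0)) (.play 69 (.ref 0 1))))))
 (.seq (.one (.play 195 (.both (.ref 503 0) (.both (.ref 389 1) (.play 128 (.ref 26 64))))))
 (.seq (.one (.play 385 (.both (.ref 576 0) (.both (.ref 12 128) (.ref 203 192)))))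
 (.one (.play 322 (.both (.ref 721 1) (.both (.ref 346 128) (.both (.play 386 (.both (.play 323 (.both (.play 387 (.ref 4 130)) (.play 257 (.both (.play 450 (.ref 7 193)) (.play 324 (.ref 40 256)))))) (.both (.ref 8 130) (.ref 460 193)))) (.both (.play 385 (.ref 159 129)) (.ref 263 129)))))))))))
 (.seq (.seq (.seq (.one (.play 131 (.both (.ref 722 1) (.play 132 (.ref 2 128)))))
 (.one (.play 195 (.both (.ref 723 1) (.play 257 (.ref 28 192))))))
 (.seq (.one (.play 70 (.both (.play 68 (.both (.play 67 (.both (.ref 114 0) (.play 135 (.ref 23 67)))) (.play 8 (.ref 2 4)))) (.play 72 (.ref 3 4)))))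
 (.seq (.one (.play 67 (.both (.ref 621 0) (.play 135 (.ref 23 67)))))
 (.one (.play 70 (.both (.ref 726 0) (.play 8 (.ref 2 4))))))))
 (.seq (.seq (.one (.play 129 (.both (.play 64 (.ref 351 0)) (.ref 361 128))))
 (.one (.both (.ref 728 0) (.play 192 (.ref 3 192)))))
 (.seq (.one (.play 321 (.both (.play 193 (.ref 729 0)) (.play 320 (.ref 1 256)))))
 (.seq (.one (.play 259 (.both (.play 258 (.both (.ref 730 1) (.both (.ref 129 192) (.ref 483 192)))) (.play 198 (.ref 1 195)))))
 (.one (.play 260 (.both (.ref 731 0) (.both (.ref 727 192) (.play 200 (.ref 520 196)))))))))))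
 (.seq (.seq (.seq (.seq (.one (.both (.play 0 (.ref 698 0)) (.play 321 (.ref 7 64))))
 (.one (.play 257 (.both (.play 64 (.ref 7 0)) (.play 321 (.ref 5 65))))))
 (.seq (.one (.play 65 (.both (.play 1 (.ref 4 1)) (.play 320 (.ref 6 64)))))
 (.seq (.one (.play 129 (.both (.play 257 (.ref 457 0)) (.play 258 (.ref 4 1)))))
 (.one (.play 132 (.both (.ref 377 1) (.both (.play 133 (.ref 35 64)) (.ref 237 128))))))))
 (.seq (.seq (.one (.both (.play 2 (.ref 5 1)) (.ref 264 64)))
 (.one (.both (.play 4 (.ref 5 3)) (.play 132 (.both (.play 323 (.ref 5 67)) (.play 192 (.ref 2 128)))))))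
 (.seq (.one (.play 257 (.both (.play 130 (.ref 6 1)) (.play 196 (.ref 211 128)))))
 (.seq (.one (.play 68 (.both (.ref 253 0) (.both (.ref 252 1) (.both (.play 67 (.ref 285 2)) (.both (.ref 99 2) (.play 72 (.ref 25 67))))))))
 (.one (.play 68 (.both (.play 0 (.ref 0 0)) (.play 69 (.ref 371 1)))))))))
 (.seq (.seq (.seq (.one (.play 197 (.both (.play 261 (.both (.play 134 (.ref 6 5)) (.play 260 (.ref 58 194)))) (.both (.play 263 (.both (.play 134 (.ref 4 6)) (.ref 742 196))) (.both (.play 134 (.ref 75 5)) (.ref 741 128))))))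
 (.one (.both (.play 130 (.ref 6 1)) (.play 256 (.ref 1 192)))))
 (.seq (.one (.play 68 (.both (.play 66 (.ref 3 0)) (.play 4 (.ref 5 3)))))
 (.seq (.one (.play 3 (.both (.play 4 (.ref 2 0)) (.play 258 (.ref 5 2)))))
 (.one (.play 196 (.both (.play 132 (.ref 337 3)) (.both (.play 194 (.both (.play 128 (.ref 3 128)) (.ref 746 129))) (.play 194 (.ref 601 128)))))))))
 (.seq (.seq (.one (.play 131 (.both (.ref 487 1) (.play 132 (.ref 0 64)))))
 (.one (.play 68 (.both (.ref 748 0) (.both (.play 5 (.ref 27 1)) (.both (.ref 296 1) (.play 132 (.ref 23 64))))))))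
 (.seq (.one (.both (.ref 362 0) (.play 385 (.ref 4 128))))
 (.seq (.one (.play 65 (.both (.play 1 (.ref 6 0)) (.play 66 (.ref 17 1)))))
 (.one (.play 193 (.both (.play 386 (.both (.play 129 (.both (.ref 751 0) (.play 322 (.ref 4 129)))) (.play 450 (.ref 4 193)))) (.play 128 (.ref 7 128)))))))))))
 (.seq (.seq (.seq (.seq (.seq (.one (.play 324 (.both (.play 325 (.both (.ref 685 1) (.both (.play 326 (.ref 285 257)) (.play 326 (.ref 25 321))))) (.both (.play 260 (.ref 31 256)) (.ref 296 257)))))
 (.one (.both (.ref 496 1) (.play 129 (.ref 1 64)))))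
 (.seq (.one (.play 68 (.both (.play 66 (.both (.play 65 (.ref 754 0)) (.play 2 (.ref 7 2)))) (.play 4 (.ref 5 3)))))
 (.seq (.one (.play 195 (.both (.ref 714 2) (.both (.ref 712 2) (.both (.play 388 (.ref 345 67)) (.play 387 (.both (.ref 755 128) (.both (.ref 39 131) (.ref 361 194)))))))))
 (.one (.play 259 (.both (.ref 756 0) (.play 258 (.ref 0 256))))))))
 (.seq (.seq (.one (.play 324 (.both (.ref 757 0) (.both (.play 322 (.both (.play 325 (.both (.ref 309 2) (.both (.play 326 (.both (.play 327 (.both (.ref 364 3) (.both (.play 328 (.ref 35 259)) (.play 328 (.ref 149 259))))) (.both (.ref 160 259) (.play 390 (.ref 23 322))))) (.both (.ref 753 2) (.both (.play 326 (.both (.ref 283 3) (.both (.play 327 (.both (.ref 661 3) (.play 391 (.ref 23 323)))) (.both (.ref 386 258) (.play 391 (.ref 42 259)))))) (.both (.play 326 (.both (.ref 280 67) (.both (.play 327 (.both (.ref 730 67) (.play 263 (.ref 31 259)))) (.both (.ref 34 258) (.play 263 (.ref 27 259)))))) (.play 262 (.ref 27 258)))))))) (.play 321 (.ref 3 256)))) (.both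 (.play 322 (.both (.play 321 (.ref 3 256)) (.ref 318 257))) (.play 322 (.ref 257 256)))))))
 (.one (.both (.play 3 (.ref 45 0)) (.both (.play 66 (.ref 140 0)) (.both (.play 0 (.both (.play 3 (.ref 0 0)) (.play 66 (.ref 3 0)))) (.play 69 (.ref 257 1)))))))
 (.seq (.one (.both (.play 4 (.ref 31 0)) (.play 128 (.ref 1 64))))
 (.seq (.one (.play 67 (.both (.play 68 (.ref 760 0)) (.play 132 (.ref 0 64)))))
 (.one (.both (.play 3 (.ref 5 2)) (.play 68 (.ref 52 64))))))))
 (.seq (.seq (.seq (.one (.play 194 (.both (.ref 397 0) (.both (.play 386 (.both (.play 195 (.ref 762 128)) (.ref 264 193))) (.play 385 (.ref 184 129))))))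
 (.one (.both (.play 1 (.ref 1 0)) (.play 66 (.ref 2 0)))))
 (.seq (.one (.play 68 (.both (.ref 295 0) (.play 129 (.ref 1 64)))))
 (.seq (.one (.play 68 (.both (.play 4 (.ref 31 0)) (.both (.ref 340 1) (.ref 765 1)))))
 (.one (.both (.play 257 (.ref 7 0)) (.play 258 (.ref 4 1)))))))
 (.seq (.seq (.one (.play 259 (.both (.play 4 (.both (.play 5 (.ref 2 1)) (.play 195 (.both (.play 2 (.ref 4 2)) (.play 131 (.ref 5 3)))))) (.play 129 (.both (.play 128 (.ref 1 64)) (.play 258 (.ref 767 65)))))))
 (.one (.play 65 (.both (.play 66 (.ref 17 1)) (.play 320 (.ref 6 64))))))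
 (.seq (.one (.play 129 (.both (.ref 769 0) (.play 64 (.ref 7 64)))))
 (.seq (.one (.play 131 (.both (.play 196 (.both (.ref 770 3) (.play 197 (.ref 2 193)))) (.both (.play 195 (.ref 135 66)) (.play 386 (.both (.play 195 (.ref 244 130)) (.both (.play 195 (.ref 126 130)) (.both (.play 195 (.ref 124 130)) (.ref 768 192)))))))))
 (.one (.both (.ref 771 1) (.both (.ref 515 193) (.both (.ref 766 194) (.play 322 (.both (.ref 69 256) (.both (.play 259 (.ref 68 256)) (.both (.play 324 (.ref 90 257)) (.play 262 (.ref 764 258)))))))))))))))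
 (.seq (.seq (.seq (.seq (.one (.play 260 (.both (.play 261 (.ref 772 0)) (.both (.play 324 (.both (.ref 763 2) (.play 326 (.ref 3 258)))) (.both (.ref 761 194) (.play 326 (.ref 759 258)))))))
 (.one (.play 66 (.both (.play 2 (.ref 7 2)) (.play 65 (.ref 1 64))))))
 (.seq (.one (.both (.ref 774 0) (.play 4 (.ref 5 3))))
 (.seq (.one (.play 132 (.both (.play 196 (.ref 188 3)) (.both (.play 131 (.ref 775 64)) (.ref 108 130)))))
 (.one (.play 324 (.both (.ref 712 2) (.play 256 (.ref 0 256))))))))
 (.seq (.seq (.one (.play 65 (.both (.play 5 (.ref 2 1)) (.play 64 (.ref 0 64)))))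
 (.one (.play 196 (.both (.play 323 (.both (.ref 401 3) (.ref 778 192))) (.both (.ref 267 3) (.both (.ref 393 3) (.both (.play 323 (.both (.play 387 (.ref 184 131)) (.ref 778 192))) (.ref 503 129))))))))
 (.seq (.one (.both (.ref 85 0) (.both (.ref 203 3) (.ref 9 3))))
 (.seq (.one (.play 196 (.both (.play 260 (.ref 6 4)) (.ref 116 128))))
 (.one (.both (.ref 781 0) (.play 262 (.ref 4 5))))))))
 (.seq (.seq (.seq (.one (.play 1 (.both (.play 192 (.ref 6 0)) (.play 194 (.ref 4 1)))))
 (.one (.play 262 (.both (.play 260 (.both (.play 196 (.ref 178 4)) (.both (.ref 783 4) (.play 261 (.ref 84 65))))) (.both (.play 198 (.ref 146 5)) (.play 261 (.ref 782 64)))))))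
 (.seq (.one (.play 65 (.both (.play 64 (.ref 507 0)) (.play 129 (.ref 5 64)))))
 (.seq (.one (.play 64 (.both (.play 65 (.ref 404 0)) (.play 128 (.ref 7 64)))))
 (.one (.play 129 (.both (.ref 786 0) (.play 130 (.ref 17 65))))))))
 (.seq (.seq (.one (.play 129 (.both (.play 65 (.ref 269 0)) (.ref 8 129))))
 (.one (.play 129 (.both (.play 65 (.ref 269 0)) (.ref 12 128)))))
 (.seq (.one (.play 193 (.both (.ref 789 0) (.ref 8 193))))
 (.seq (.one (.play 324 (.both (.play 389 (.both (.play 453 (.both (.play 261 (.both (.ref 790 4) (.both (.ref 788 68) (.both (.ref 789 68) (.play 262 (.both (.play 198 (.ref 5 197)) (.play 264 (.both (.ref 449 259) (.play 263 (.ref 1 260)))))))))) (.both (.play 261 (.both (.ref 788 68) (.both (.ref 787 68) (.both (.play 197 (.both (.ref 786 68) (.ref 8 197))) (.play 262 (.both (.play 198 (.ref 5 197)) (.ref 445 260))))))) (.both (.play 390 (.both (.play 517 (.both (.play 261 (.both (.ref 785 133) (.ref 12 260))) (.both (.ref 376 324) (.ref 451 324)))) (.both (.ref 453 258) (.play 391 (.ref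 40 323))))) (.both (.ref 784 256) (.both (.play 517 (.both (.ref 96 260) (.both (.ref 118 320) (.ref 9 324)))) (.both (.ref 14 260) (.play 517 (.ref 780 321))))))))) (.both (.ref 779 65) (.both (.play 261 (.both (.ref 777 66) (.both (.ref 776 66) (.play 322 (.ref 26 258))))) (.play 390 (.ref 41 322)))))) (.play 326 (.ref 3 258)))))
 (.one (.play 322 (.both (.play 323 (.both (.ref 284 0) (.play 387 (.ref 4 130)))) (.both (.play 386 (.ref 97 65)) (.both (.play 386 (.ref 18 66)) (.play 386 (.ref 13 129)))))))))))))))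
 (.seq (.seq (.seq (.seq (.seq (.seq (.seq (.one (.play 129 (.both (.ref 707 0) (.ref 12 128))))
 (.one (.play 385 (.both (.ref 793 0) (.both (.ref 39 129) (.ref 76 192))))))
 (.seq (.one (.play 131 (.both (.play 66 (.ref 351 2)) (.both (.play 67 (.ref 533 2)) (.both (.ref 196 3) (.ref 755 64))))))
 (.one (.play 449 (.both (.play 193 (.both (.ref 705 0) (.ref 12 192))) (.both (.ref 89 192) (.ref 76 256)))))))
 (.seq (.seq (.one (.play 193 (.both (.ref 705 0) (.both (.play 129 (.ref 269 64)) (.both (.play 322 (.both (.play 128 (.both (.play 129 (.ref 680 64)) (.play 192 (.ref 7 128)))) (.ref 474 192))) (.play 449 (.ref 97 128)))))))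
 (.one (.play 259 (.both (.ref 274 2) (.both (.play 451 (.both (.ref 612 192) (.ref 76 258))) (.play 260 (.ref 53 256)))))))
 (.seq (.one (.play 322 (.both (.ref 798 0) (.play 388 (.ref 0 320)))))
 (.seq (.one (.play 323 (.both (.ref 798 1) (.play 385 (.ref 28 320)))))
 (.one (.play 324 (.both (.ref 800 0) (.both (.ref 799 1) (.both (.play 452 (.both (.ref 797 67) (.both (.ref 796 67) (.both (.ref 795 129) (.both (.ref 794 131) (.both (.play 260 (.both (.ref 266 131) (.ref 76 259))) (.both (.play 516 (.both (.ref 789 131) (.both (.ref 39 260) (.ref 76 323)))) (.both (.ref 792 194) (.play 516 (.ref 219 195)))))))))) (.ref 719 320))))))))))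
 (.seq (.seq (.seq (.one (.play 66 (.both (.play 68 (.both (.play 4 (.ref 5 3)) (.play 65 (.ref 1 64)))) (.play 2 (.ref 7 2)))))
 (.one (.play 259 (.both (.ref 802 0) (.play 322 (.ref 159 66))))))
 (.seq (.one (.both (.play 64 (.ref 351 0)) (.both (.play 385 (.ref 533 64)) (.play 385 (.ref 18 65)))))
 (.seq (.one (.both (.ref 266 0) (.both (.play 385 (.ref 220 64)) (.play 385 (.ref 97 64)))))
 (.one (.play 131 (.both (.play 66 (.ref 351 2)) (.play 322 (.both (.play 324 (.both (.play 388 (.ref 4 131)) (.play 321 (.ref 3 256)))) (.play 386 (.ref 6 130))))))))))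
 (.seq (.seq (.one (.play 195 (.both (.ref 806 0) (.both (.play 131 (.ref 805 2)) (.both (.play 387 (.both (.ref 788 2) (.both (.ref 789 2) (.both (.play 131 (.ref 13 130)) (.play 451 (.ref 13 194)))))) (.both (.play 131 (.ref 804 2)) (.both (.ref 636 66) (.both (.play 387 (.ref 219 66)) (.ref 803 128)))))))))
 (.one (.both (.play 65 (.both (.play 1 (.ref 6 0)) (.play 257 (.ref 4 65)))) (.play 386 (.ref 7 129)))))
 (.seq (.one (.play 449 (.both (.play 194 (.both (.ref 397 0) (.play 385 (.ref 6 193)))) (.both (.ref 498 193) (.play 450 (.ref 404 193))))))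
 (.seq (.one (.play 387 (.both (.ref 809 1) (.both (.play 195 (.both (.ref 234 128) (.play 196 (.ref 762 129)))) (.both (.ref 14 194) (.both (.ref 342 194) (.play 451 (.both (.play 194 (.ref 7 194)) (.ref 221 258)))))))))
 (.one (.both (.play 2 (.ref 6 1)) (.play 321 (.both (.play 258 (.ref 6 65)) (.play 385 (.ref 7 128)))))))))))
 (.seq (.seq (.seq (.seq (.one (.play 195 (.both (.play 386 (.both (.ref 704 2) (.both (.play 322 (.ref 811 129)) (.play 450 (.both (.play 385 (.ref 246 193)) (.play 387 (.ref 6 194))))))) (.play 196 (.ref 2 192)))))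
 (.one (.play 195 (.both (.play 131 (.both (.play 66 (.ref 351 2)) (.both (.ref 769 2) (.play 387 (.both (.ref 15 66) (.ref 263 194)))))) (.play 196 (.ref 2 192))))))
 (.seq (.one (.play 386 (.both (.play 256 (.both (.play 65 (.ref 94 0)) (.play 385 (.ref 767 192)))) (.play 322 (.ref 4 129)))))
 (.seq (.one (.play 259 (.both (.ref 273 2) (.play 260 (.ref 2 256)))))
 (.one (.play 451 (.both (.ref 815 0) (.both (.play 259 (.both (.ref 814 130) (.play 260 (.ref 2 256)))) (.play 258 (.ref 808 129)))))))))
 (.seq (.seq (.one (.play 324 (.both (.ref 798 2) (.both (.ref 816 2) (.both (.ref 771 65) (.both (.ref 813 66) (.both (.ref 812 66) (.both (.ref 810 66) (.play 386 (.both (.play 260 (.both (.play 451 (.ref 188 131)) (.both (.play 453 (.ref 808 131)) (.play 453 (.both (.play 451 (.both (.play 452 (.both (.play 515 (.both (.play 324 (.ref 5 259)) (.ref 452 320))) (.play 454 (.ref 3 386)))) (.both (.ref 435 258) (.both (.play 452 (.both (.play 516 (.ref 146 259)) (.play 454 (.ref 3 386)))) (.play 515 (.both (.play 324 (.ref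 5 259)) (.play 452 (.both (.ref 529 322) (.play 454 (.ref 3 386)))))))))) (.play 517 (.ref 7 260))))))) (.play 385 (.ref 1 321))))))))))))
 (.one (.play 130 (.both (.play 65 (.ref 351 1)) (.ref 346 128)))))
 (.seq (.one (.both (.ref 818 0) (.both (.play 130 (.ref 805 1)) (.both (.play 130 (.ref 804 1)) (.both (.ref 636 65) (.both (.play 386 (.ref 219 65)) (.play 386 (.both (.ref 287 128) (.play 449 (.ref 159 193))))))))))
 (.seq (.one (.play 259 (.both (.ref 612 0) (.ref 263 66))))
 (.one (.play 130 (.both (.ref 820 0) (.both (.ref 389 1) (.play 128 (.ref 26 64))))))))))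
 (.seq (.seq (.seq (.one (.play 131 (.both (.play 67 (.ref 220 2)) (.both (.play 67 (.ref 97 2)) (.ref 802 64)))))
 (.one (.both (.ref 394 1) (.play 128 (.ref 1 64)))))
 (.seq (.one (.play 324 (.both (.ref 712 2) (.play 258 (.ref 0 256)))))
 (.seq (.one (.play 323 (.both (.ref 824 0) (.both (.ref 776 0) (.play 258 (.ref 26 192))))))
 (.one (.play 392 (.both (.play 328 (.both (.ref 817 3) (.both (.ref 800 4) (.both (.play 327 (.ref 772 67)) (.both (.ref 732 129) (.both (.play 389 (.both (.ref 731 129) (.both (.ref 825 133) (.play 327 (.ref 823 260))))) (.both (.play 456 (.both (.ref 822 133) (.both (.ref 776 133) (.both (.play 391 (.both (.ref 389 262) (.both (.play 455 (.both (.ref 778 324) (.ref 675 324))) (.play 389 (.ref 26 325))))) (.both (.ref 821 261) (.play 391 (.both (.ref 503 261) (.both (.play 389 (.ref 26 325)) (.play 520 (.both (.ref 454 325) (.both (.ref 449 326) (.both (.play 583 (.ref 159 327)) (.both (.play 584 (.both (.ref 12 327) (.ref 202 391))) (.ref 445 327)))))))))))))) (.play 456 (.ref 819 134)))))))))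 (.both (.play 328 (.both (.ref 817 3) (.both (.ref 799 5) (.both (.ref 807 69) (.play 393 (.ref 540 325)))))) (.both (.ref 801 4) (.both (.ref 791 67) (.both (.ref 773 67) (.both (.ref 758 69) (.both (.play 519 (.both (.play 391 (.both (.play 455 (.both (.ref 752 134) (.both (.play 454 (.both (.play 262 (.ref 4 262)) (.play 518 (.both (.ref 198 323) (.play 582 (.both (.play 389 (.ref 7 325)) (.play 646 (.ref 86 390)))))))) (.both (.play 262 (.ref 698 262)) (.ref 217 322))))) (.play 393 (.ref 3 325)))) (.both (.play 391 (.both (.play 455 (.both (.ref 752 134) (.play 583 (.ref 7 326)))) (.play 393 (.ref 3 325)))) (.both (.play 518 (.both (.play 454 (.both (.ref 362 198) (.ref 203 325))) (.both (.play 454 (.ref 750 198)) (.both (.ref 743 320) (.play 520 (.both (.play 517 (.both (.play 456 (.both (.play 584 (.both (.ref 264 391) (.play 585 (.ref 0 517)))) (.play 457 (.ref 2 453)))) (.both (.play 516 (.ref 35 451)) (.ref 182 515)))) (.both (.play 521 (.both (.ref 377 390) (.both (.ref 304 452) (.both (.play 458 (.ref 27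 454)) (.both (.ref 296 454) (.ref 303 516)))))) (.both (.ref 737 389) (.both (.play 517 (.both (.ref 253 449) (.both (.play 516 (.both (.ref 252 449) (.play 456 (.ref 31 452)))) (.both (.play 516 (.ref 35 451)) (.play 521 (.ref 35 452)))))) (.both (.play 521 (.both (.ref 33 453) (.both (.ref 749 454) (.both (.ref 570 515) (.ref 182 516))))) (.both (.play 517 (.ref 422 451)) (.both (.play 521 (.ref 422 452)) (.ref 36 452))))))))))))) (.both (.play 518 (.both (.play 520 (.both (.play 456 (.both (.ref 747 197) (.both (.play 517 (.both (.play 581 (.ref 744 324)) (.play 457 (.ref 2 453)))) (.play 584 (.both (.ref 745 325) (.ref 480 389)))))) (.both (.play 456 (.both (.ref 747 197) (.both (.play 584 (.both (.ref 745 325) (.ref 494 389))) (.play 457 (.ref 66 453))))) (.both (.play 581 (.both (.play 580 (.both (.ref 686 256) (.play 517 (.ref 1 516)))) (.both (.play 517 (.ref 744 324)) (.play 582 (.both (.play 454 (.ref 10 325)) (.play 521 (.ref 1 517))))))) (.both (.play 391 (.both (.play 393 (.ref 3 325)) (.play 582 (.both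 (.play 454 (.ref 457 325)) (.play 521 (.ref 211 453)))))) (.play 521 (.ref 422 452))))))) (.both (.ref 743 320) (.both (.play 517 (.both (.play 393 (.both (.play 584 (.both (.play 520 (.both (.play 456 (.both (.play 329 (.ref 5 328)) (.play 457 (.ref 2 453)))) (.play 585 (.ref 0 517)))) (.ref 470 450))) (.play 391 (.ref 3 325)))) (.both (.ref 740 324) (.play 454 (.ref 75 325))))) (.both (.play 393 (.both (.play 520 (.both (.play 584 (.both (.play 456 (.both (.play 329 (.ref 5 328)) (.ref 480 389))) (.both (.play 456 (.ref 738 327)) (.play 585 (.ref 41 517))))) (.both (.play 456 (.both (.play 584 (.ref 739 325)) (.both (.play 584 (.ref 738 327)) (.play 457 (.ref 66 453))))) (.both (.ref 737 389) (.both (.play 521 (.ref 422 452)) (.ref 36 452)))))) (.play 391 (.ref 3 325)))) (.play 391 (.both (.play 393 (.ref 3 325)) (.ref 736 325)))))))) (.both (.play 391 (.both (.play 454 (.both (.play 518 (.both (.play 517 (.both (.play 455 (.both (.ref 735 261) (.ref 100 450))) (.both (.play 455 (.both (.ref 735 261) (.play 456 (.ref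 71 452)))) (.both (.play 581 (.ref 212 324)) (.both (.ref 83 450) (.ref 139 450)))))) (.both (.play 455 (.both (.play 262 (.ref 4 262)) (.ref 734 325))) (.ref 11 325)))) (.both (.play 455 (.ref 555 262)) (.play 518 (.both (.ref 11 325) (.play 583 (.ref 4 326))))))) (.play 393 (.ref 3 325)))) (.play 391 (.both (.play 455 (.ref 733 262)) (.play 393 (.ref 3 325)))))))))) (.both (.play 328 (.both (.ref 732 129) (.both (.ref 725 321) (.both (.ref 719 324) (.play 393 (.ref 540 325)))))) (.play 328 (.both (.ref 724 132) (.both (.play 391 (.both (.ref 720 261) (.play 393 (.ref 3 325)))) (.both (.ref 719 324) (.play 393 (.ref 540 325)))))))))))))))))))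
 (.seq (.seq (.one (.play 66 (.both (.ref 105 0) (.both (.play 65 (.both (.play 4 (.ref 2 1)) (.play 133 (.ref 23 65)))) (.ref 237 65)))))
 (.one (.play 67 (.both (.ref 827 0) (.play 6 (.ref 1 3))))))
 (.seq (.one (.play 68 (.both (.ref 828 0) (.both (.ref 727 0) (.both (.play 6 (.ref 28 3)) (.play 8 (.ref 520 4)))))))
 (.seq (.one (.play 131 (.both (.play 67 (.ref 533 2)) (.both (.play 67 (.ref 18 3)) (.play 132 (.ref 775 64))))))
 (.one (.play 258 (.both (.play 194 (.ref 4 1)) (.play 257 (.ref 767 64)))))))))))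
 (.seq (.seq (.seq (.seq (.seq (.one (.play 194 (.both (.play 132 (.both (.ref 596 1) (.play 131 (.ref 3 64)))) (.both (.ref 831 1) (.play 257 (.both (.play 193 (.ref 6 1)) (.play 258 (.ref 414 65))))))))
 (.one (.play 66 (.both (.play 6 (.ref 2 2)) (.ref 560 64)))))
 (.seq (.one (.play 196 (.both (.play 260 (.ref 178 4)) (.ref 568 128))))
 (.one (.both (.ref 822 4) (.both (.ref 776 4) (.both (.play 391 (.ref 219 70)) (.both (.ref 834 130) (.both (.ref 821 132) (.play 326 (.both (.play 391 (.both (.ref 494 196) (.both (.ref 264 198) (.play 325 (.both (.play 324 (.both (.ref 115 256) (.play 392 (.ref 0 324)))) (.both (.play 260 (.ref 232 258)) (.both (.play 328 (.ref 601 260)) (.play 392 (.ref 45 324))))))))) (.both (.play 262 (.both (.ref 833 194) (.ref 675 195))) (.both (.play 262 (.both (.ref 833 194) (.ref 832 197))) (.both (.play 262 (.both (.ref 675 195) (.play 328 (.ref 354 260)))) (.both (.ref 669 196) (.ref 568 258)))))))))))))))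
 (.seq (.seq (.one (.play 69 (.both (.play 65 (.ref 149 0)) (.both (.play 70 (.ref 285 1)) (.both (.ref 295 1) (.both (.ref 386 1) (.play 134 (.ref 42 2))))))))
 (.one (.play 196 (.both (.play 194 (.both (.play 258 (.ref 6 2)) (.ref 836 128))) (.play 260 (.ref 4 3))))))
 (.seq (.one (.play 259 (.both (.play 68 (.ref 175 2)) (.both (.ref 39 3) (.ref 837 64)))))
 (.seq (.one (.play 129 (.both (.play 64 (.ref 351 0)) (.play 384 (.ref 159 128)))))
 (.one (.play 192 (.both (.play 256 (.ref 312 0)) (.play 128 (.ref 7 128)))))))))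
 (.seq (.seq (.seq (.one (.play 195 (.both (.play 388 (.both (.play 322 (.both (.ref 272 2) (.play 320 (.ref 0 320)))) (.play 452 (.ref 4 195)))) (.both (.play 130 (.ref 351 66)) (.both (.play 451 (.both (.play 131 (.both (.ref 840 66) (.play 132 (.ref 17 67)))) (.ref 8 195))) (.play 451 (.ref 533 130)))))))
 (.one (.play 389 (.both (.ref 841 2) (.both (.ref 822 66) (.both (.ref 636 132) (.both (.ref 834 192) (.play 453 (.both (.play 260 (.ref 368 196)) (.both (.ref 534 196) (.ref 837 258)))))))))))
 (.seq (.one (.play 196 (.both (.ref 572 0) (.play 135 (.ref 1 132)))))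
 (.seq (.one (.play 67 (.both (.play 66 (.both (.ref 104 0) (.play 6 (.ref 2 2)))) (.ref 24 66))))
 (.one (.both (.ref 844 0) (.play 136 (.ref 0 68)))))))
 (.seq (.seq (.one (.both (.ref 24 0) (.play 68 (.ref 0 1))))
 (.one (.play 194 (.both (.play 258 (.ref 246 1)) (.play 132 (.ref 447 128))))))
 (.seq (.one (.both (.play 2 (.ref 5 1)) (.play 67 (.ref 1 64))))
 (.seq (.one (.play 193 (.both (.ref 788 0) (.both (.play 194 (.ref 17 129)) (.ref 88 129)))))
 (.one (.play 257 (.both (.ref 849 0) (.both (.ref 788 64) (.both (.play 192 (.ref 351 128)) (.both (.play 193 (.ref 533 128)) (.play 513 (.ref 18 193)))))))))))))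
 (.seq (.seq (.seq (.seq (.one (.both (.play 4 (.ref 2 0)) (.play 68 (.ref 1 64))))
 (.one (.play 257 (.both (.play 0 (.ref 7 0)) (.ref 528 65)))))
 (.seq (.one (.play 131 (.both (.play 258 (.ref 188 2)) (.play 132 (.ref 2 128)))))
 (.seq (.one (.both (.play 2 (.ref 5 1)) (.ref 361 64)))
 (.one (.play 257 (.both (.play 129 (.ref 854 0)) (.both (.play 2 (.ref 415 1)) (.both (.play 130 (.ref 178 1)) (.play 321 (.both (.play 130 (.ref 244 65)) (.both (.ref 123 128) (.ref 502 128))))))))))))
 (.seq (.seq (.one (.play 385 (.both (.play 257 (.ref 715 0)) (.both (.play 258 (.ref 188 129)) (.both (.play 513 (.ref 854 256)) (.play 514 (.ref 246 257)))))))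
 (.one (.both (.ref 856 0) (.both (.ref 716 0) (.both (.ref 711 1) (.both (.ref 710 1) (.both (.ref 855 256) (.ref 699 257))))))))
 (.seq (.one (.play 456 (.both (.play 518 (.both (.play 457 (.both (.play 329 (.both (.play 327 (.both (.play 330 (.both (.play 458 (.ref 857 8)) (.both (.play 328 (.both (.ref 853 135) (.play 391 (.ref 1 326)))) (.both (.play 328 (.both (.play 331 (.both (.play 268 (.both (.play 394 (.both (.play 393 (.both (.ref 852 264) (.play 332 (.ref 851 265)))) (.play 395 (.ref 0 327)))) (.play 267 (.ref 2 264)))) (.both (.play 396 (.ref 42 264)) (.both (.play 332 (.both (.play 268 (.ref 31 264)) (.play 397 (.both (.play 393 (.both (.ref 342 264) (.play 333 (.ref 236 329)))) (.play 396 (.ref 0 329)))))) (.play 395 (.ref 23 327)))))) (.play 391 (.ref 1 326)))) (.play 328 (.ref 286 262)))))) (.both (.play 391 (.ref 188 198)) (.play 326 (.ref 848 261))))) (.both (.play 393 (.both (.ref 850 8) (.both (.ref 796 72) (.both (.ref 401 136) (.both (.ref 794 136) (.ref 792 199)))))) (.play 582 (.both (.play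 327 (.both (.play 326 (.ref 848 261)) (.play 391 (.ref 5 326)))) (.ref 221 389)))))) (.play 455 (.ref 3 389)))) (.both (.ref 197 261) (.both (.play 519 (.both (.play 583 (.ref 246 326)) (.play 520 (.ref 538 449)))) (.both (.ref 847 325) (.play 520 (.both (.play 453 (.both (.play 455 (.ref 845 385)) (.both (.play 452 (.both (.play 451 (.ref 90 386)) (.play 455 (.ref 846 451)))) (.both (.play 519 (.ref 232 451)) (.play 521 (.ref 540 453)))))) (.both (.play 455 (.both (.play 453 (.ref 845 385)) (.play 457 (.ref 3 389)))) (.both (.ref 543 389) (.both (.ref 523 449) (.both (.play 519 (.ref 538 449)) (.ref 541 453)))))))))))) (.both (.play 392 (.both (.ref 800 68) (.both (.ref 842 131) (.both (.play 391 (.ref 772 131)) (.both (.play 453 (.both (.ref 825 197) (.both (.ref 843 256) (.play 391 (.ref 823 324))))) (.both (.play 520 (.ref 835 193)) (.both (.play 520 (.ref 819 198)) (.ref 829 385)))))))) (.both (.play 392 (.both (.ref 799 69) (.both (.ref 842 131) (.both (.ref 807 133) (.play 457 (.ref 540 389)))))) (.both (.play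 392 (.both (.ref 800 68) (.both (.ref 799 69) (.both (.play 520 (.both (.ref 797 135) (.both (.ref 796 135) (.both (.ref 795 197) (.both (.ref 839 199) (.both (.play 584 (.both (.ref 789 199) (.both (.ref 39 328) (.play 647 (.ref 159 391))))) (.both (.play 584 (.ref 219 263)) (.play 584 (.both (.play 648 (.ref 97 327)) (.both (.ref 39 328) (.ref 837 389))))))))))) (.ref 719 388))))) (.both (.play 520 (.both (.play 392 (.both (.ref 797 135) (.both (.ref 796 135) (.both (.ref 776 197) (.both (.ref 830 197) (.ref 838 325)))))) (.both (.play 392 (.ref 835 193)) (.both (.play 455 (.both (.ref 779 196) (.play 457 (.ref 3 389)))) (.both (.play 392 (.both (.ref 776 197) (.both (.ref 830 197) (.play 455 (.both (.play 457 (.ref 3 389)) (.play 453 (.ref 26 389))))))) (.play 455 (.both (.play 457 (.ref 3 389)) (.play 521 (.ref 41 453))))))))) (.both (.ref 773 131) (.both (.ref 758 133) (.play 392 (.both (.ref 725 385) (.both (.ref 829 385) (.both (.ref 719 388) (.play 457 (.ref 540 389)))))))))))))))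
 (.seq (.one (.play 129 (.both (.ref 593 0) (.play 69 (.ref 2 65)))))
 (.one (.play 131 (.both (.ref 859 0) (.play 133 (.ref 3 65)))))))))
 (.seq (.seq (.seq (.one (.play 260 (.both (.ref 731 0) (.both (.play 198 (.ref 823 131)) (.play 324 (.both (.ref 502 131) (.play 262 (.ref 128 195))))))))
 (.one (.play 260 (.both (.play 262 (.both (.ref 783 4) (.both (.play 198 (.ref 246 5)) (.play 261 (.ref 117 64))))) (.both (.play 196 (.ref 135 4)) (.play 261 (.ref 357 65)))))))
 (.seq (.one (.play 325 (.both (.ref 800 1) (.both (.ref 799 2) (.both (.play 453 (.both (.play 517 (.both (.play 516 (.both (.play 261 (.both (.ref 788 68) (.play 452 (.ref 6 260)))) (.play 580 (.ref 6 324)))) (.both (.ref 89 260) (.both (.ref 862 320) (.ref 19 324))))) (.both (.ref 797 68) (.both (.ref 776 130) (.both (.ref 830 130) (.play 517 (.both (.play 581 (.ref 97 260)) (.both (.ref 39 261) (.ref 204 320))))))))) (.ref 719 321))))))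
 (.seq (.one (.play 68 (.both (.play 6 (.ref 2 2)) (.ref 182 64))))
 (.one (.play 259 (.both (.play 130 (.both (.play 66 (.ref 61 2)) (.play 196 (.ref 0 128)))) (.both (.play 196 (.both (.ref 111 64) (.play 130 (.ref 0 128)))) (.play 322 (.ref 159 66)))))))))
 (.seq (.seq (.one (.both (.play 4 (.ref 5 3)) (.play 130 (.ref 2 64))))
 (.one (.both (.play 260 (.ref 4 3)) (.play 130 (.ref 0 128)))))
 (.seq (.one (.both (.play 68 (.ref 866 0)) (.play 322 (.ref 159 66))))
 (.seq (.one (.play 256 (.both (.play 192 (.ref 6 0)) (.play 257 (.ref 398 0)))))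
 (.one (.play 197 (.both (.ref 118 0) (.both (.ref 869 4) (.ref 528 5))))))))))))
 (.seq (.seq (.seq (.seq (.seq (.seq (.one (.play 196 (.both (.play 260 (.ref 4 3)) (.play 129 (.ref 0 128)))))
 (.one (.play 323 (.both (.play 196 (.both (.ref 401 3) (.both (.play 388 (.both (.ref 802 129) (.ref 871 193))) (.play 387 (.ref 178 131))))) (.play 384 (.ref 1 320))))))
 (.seq (.one (.play 258 (.both (.play 322 (.ref 97 1)) (.both (.play 322 (.ref 18 2)) (.play 259 (.both (.play 260 (.both (.play 257 (.both (.play 321 (.ref 6 65)) (.play 193 (.ref 3 192)))) (.both (.play 193 (.ref 44 192)) (.ref 164 193)))) (.play 323 (.ref 4 66))))))))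
 (.one (.both (.play 1 (.ref 3 0)) (.ref 80 1)))))
 (.seq (.seq (.one (.both (.play 194 (.both (.play 258 (.ref 6 2)) (.play 129 (.ref 3 128)))) (.play 260 (.ref 4 3))))
 (.one (.play 321 (.both (.play 65 (.ref 97 0)) (.both (.ref 39 65) (.play 384 (.ref 159 128)))))))
 (.seq (.one (.play 321 (.both (.play 65 (.ref 18 1)) (.both (.ref 22 64) (.both (.play 385 (.ref 97 64)) (.both (.ref 89 64) (.play 384 (.ref 159 128))))))))
 (.seq (.one (.play 131 (.both (.play 260 (.both (.play 324 (.ref 345 3)) (.both (.play 324 (.both (.play 67 (.ref 4 67)) (.play 258 (.ref 437 192)))) (.play 258 (.ref 874 192))))) (.both (.play 323 (.ref 219 2)) (.both (.ref 877 2) (.both (.ref 876 2) (.both (.play 260 (.both (.play 67 (.ref 875 64)) (.both (.play 324 (.ref 146 67)) (.play 258 (.ref 874 192))))) (.both (.play 258 (.both (.play 322 (.ref 178 66)) (.play 260 (.ref 874 192)))) (.ref 873 65)))))))))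
 (.one (.play 257 (.both (.play 0 (.ref 4 0)) (.play 321 (.ref 698 64)))))))))
 (.seq (.seq (.seq (.one (.play 323 (.both (.ref 850 2) (.both (.play 324 (.both (.play 260 (.ref 337 131)) (.play 386 (.ref 2 320)))) (.both (.play 452 (.both (.ref 879 259) (.play 386 (.ref 0 384)))) (.play 386 (.ref 26 320)))))))
 (.one (.play 387 (.both (.ref 880 0) (.both (.ref 878 192) (.both (.play 515 (.ref 819 193)) (.play 452 (.ref 540 384))))))))
 (.seq (.one (.play 259 (.both (.play 66 (.both (.play 130 (.both (.ref 233 0) (.play 323 (.ref 7 66)))) (.play 2 (.ref 7 2)))) (.both (.ref 16 2) (.ref 8 3)))))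
 (.seq (.one (.play 68 (.both (.play 5 (.ref 27 1)) (.play 129 (.ref 1 64)))))
 (.one (.play 259 (.both (.play 131 (.ref 7 2)) (.play 260 (.ref 0 192))))))))
 (.seq (.seq (.one (.both (.play 257 (.ref 744 0)) (.play 133 (.ref 27 129))))
 (.one (.play 257 (.both (.play 130 (.ref 178 1)) (.play 256 (.ref 1 192))))))
 (.seq (.one (.play 196 (.both (.play 198 (.both (.play 132 (.both (.play 260 (.ref 5 4)) (.ref 166 64))) (.both (.play 195 (.ref 885 2)) (.both (.play 195 (.both (.ref 886 2) (.ref 884 3))) (.both (.play 132 (.both (.play 260 (.ref 5 4)) (.play 199 (.ref 162 131)))) (.play 199 (.ref 422 130))))))) (.both (.play 198 (.both (.play 132 (.both (.play 261 (.ref 4 4)) (.ref 166 64))) (.both (.play 195 (.ref 885 2)) (.both (.ref 679 3) (.both (.play 132 (.both (.play 261 (.ref 4 4)) (.play 199 (.ref 162 131)))) (.play 195 (.both (.ref 884 3) (.play 132 (.ref 75 3))))))))) (.both (.ref 681 2) (.play 132 (.ref 412 4)))))))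
 (.seq (.one (.play 193 (.both (.play 0 (.ref 7 0)) (.ref 9 64))))
 (.one (.both (.play 64 (.ref 1 0)) (.ref 335 1))))))))
 (.seq (.seq (.seq (.seq (.one (.both (.play 259 (.ref 61 2)) (.play 196 (.ref 0 128))))
 (.one (.play 195 (.both (.ref 513 2) (.both (.ref 251 128) (.both (.ref 99 129) (.both (.ref 571 129) (.ref 570 192))))))))
 (.seq (.one (.play 196 (.both (.play 199 (.both (.play 260 (.ref 91 3)) (.play 264 (.ref 42 132)))) (.both (.play 260 (.ref 135 4)) (.ref 116 128)))))
 (.seq (.one (.play 133 (.both (.ref 892 0) (.play 262 (.ref 4 5)))))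
 (.one (.play 0 (.both (.play 192 (.ref 4 0)) (.play 129 (.ref 7 0))))))))
 (.seq (.seq (.one (.both (.play 192 (.ref 246 0)) (.both (.play 129 (.ref 61 0)) (.both (.ref 894 0) (.play 321 (.ref 343 64))))))
 (.one (.play 261 (.both (.play 69 (.ref 7 4)) (.ref 574 64)))))
 (.seq (.one (.play 197 (.both (.play 5 (.ref 4 5)) (.play 196 (.both (.ref 127 65) (.both (.play 199 (.both (.play 132 (.ref 384 67)) (.ref 496 132))) (.both (.play 195 (.both (.ref 114 128) (.play 263 (.ref 0 195)))) (.play 263 (.ref 45 195)))))))))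
 (.seq (.one (.play 321 (.both (.play 64 (.ref 168 0)) (.play 385 (.ref 5 129)))))
 (.one (.play 65 (.both (.play 1 (.ref 4 1)) (.play 64 (.ref 3 64)))))))))
 (.seq (.seq (.seq (.one (.play 70 (.both (.play 262 (.both (.play 198 (.both (.ref 897 0) (.both (.play 134 (.ref 607 2)) (.both (.ref 894 5) (.play 261 (.both (.play 325 (.both (.play 389 (.both (.play 260 (.both (.play 196 (.both (.play 132 (.ref 644 68)) (.play 195 (.ref 232 193)))) (.both (.play 263 (.both (.play 324 (.both (.ref 899 131) (.play 323 (.ref 1 259)))) (.ref 80 196))) (.both (.play 259 (.both (.ref 432 192) (.play 199 (.ref 2 195)))) (.play 199 (.ref 66 195)))))) (.play 453 (.ref 5 197)))) (.play 134 (.ref 6 69)))) (.both (.play 260 (.both (.play 197 (.ref 633 66)) (.both (.play 263 (.ref 885 67)) (.both (.ref 106 193) (.play 199 (.ref 66 195)))))) (.both (.play 325 (.both (.play 260 (.both (.play 196 (.both (.ref 898 68) (.play 195 (.ref 232 193)))) (.both (.play 196 (.both (.ref 898 68) (.play 263 (.ref 537 195)))) (.both (.play 199 (.ref 53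 195)) (.play 199 (.ref 66 195)))))) (.play 134 (.ref 6 69)))) (.play 325 (.both (.play 197 (.both (.play 132 (.ref 7 68)) (.ref 360 132))) (.play 134 (.ref 6 69)))))))))))) (.both (.play 198 (.both (.ref 897 0) (.both (.play 134 (.ref 61 5)) (.ref 896 65)))) (.both (.play 134 (.both (.play 132 (.both (.play 196 (.both (.ref 502 3) (.play 135 (.both (.play 136 (.ref 0 68)) (.play 195 (.ref 1 131)))))) (.play 131 (.ref 2 67)))) (.both (.ref 888 5) (.play 198 (.ref 780 66))))) (.both (.play 198 (.ref 895 5)) (.play 261 (.both (.ref 893 64) (.both (.play 260 (.both (.ref 891 64) (.both (.play 196 (.both (.play 259 (.both (.play 323 (.ref 464 66)) (.both (.play 132 (.ref 75 67)) (.ref 252 192)))) (.both (.play 195 (.ref 232 193)) (.play 263 (.ref 162 195))))) (.both (.ref 514 65) (.both (.play 263 (.both (.play 324 (.both (.play 196 (.both (.play 132 (.both (.play 325 (.ref 4 68)) (.play 69 (.ref 5 68)))) (.play 195 (.ref 3 195)))) (.play 323 (.ref 1 259)))) (.play 200 (.ref 27 196)))) (.both (.ref 424 193) (.both (.ref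 36 194) (.play 263 (.both (.play 259 (.ref 285 194)) (.both (.play 325 (.both (.ref 249 194) (.play 200 (.both (.play 199 (.ref 2 196)) (.play 264 (.ref 128 196)))))) (.both (.play 264 (.ref 32 196)) (.ref 296 196)))))))))))) (.both (.play 132 (.both (.play 131 (.ref 1 67)) (.play 260 (.ref 416 68)))) (.play 132 (.both (.play 131 (.ref 1 67)) (.play 197 (.ref 767 68))))))))))))) (.both (.play 72 (.both (.play 134 (.both (.play 262 (.both (.play 198 (.both (.play 5 (.ref 7 5)) (.play 261 (.both (.play 260 (.both (.play 197 (.ref 633 66)) (.both (.ref 359 66) (.both (.ref 740 67) (.play 199 (.ref 468 131)))))) (.both (.play 260 (.both (.play 197 (.ref 633 66)) (.both (.play 263 (.both (.ref 886 67) (.both (.ref 51 196) (.ref 237 259)))) (.both (.play 263 (.both (.play 199 (.both (.play 327 (.ref 890 132)) (.play 200 (.ref 2 196)))) (.both (.ref 33 195) (.both (.ref 417 195) (.both (.ref 80 196) (.play 324 (.ref 889 259))))))) (.play 199 (.ref 70 194)))))) (.both (.ref 213 68) (.play 325 (.ref 135 69)))))))) (.both (.ref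 888 5) (.both (.play 135 (.both (.ref 887 65) (.play 136 (.ref 3 68)))) (.play 261 (.ref 416 69)))))) (.play 73 (.ref 1 69)))) (.both (.ref 883 5) (.play 136 (.ref 23 68))))) (.play 132 (.ref 28 67))))))
 (.one (.play 197 (.both (.ref 421 2) (.both (.play 262 (.both (.play 133 (.ref 4 5)) (.play 263 (.ref 45 195)))) (.both (.play 133 (.ref 75 4)) (.ref 490 128)))))))
 (.seq (.one (.play 195 (.both (.play 260 (.both (.play 196 (.ref 156 1)) (.play 259 (.ref 0 192)))) (.play 132 (.ref 2 128)))))
 (.seq (.one (.play 132 (.both (.ref 902 1) (.play 131 (.ref 2 128)))))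
 (.one (.play 196 (.both (.play 3 (.ref 4 3)) (.play 257 (.ref 90 192))))))))
 (.seq (.seq (.one (.both (.play 6 (.ref 5 5)) (.ref 239 64)))
 (.one (.play 66 (.both (.ref 99 0) (.both (.play 70 (.ref 285 1)) (.ref 182 64))))))
 (.seq (.one (.play 131 (.both (.play 259 (.ref 854 2)) (.ref 618 64))))
 (.seq (.one (.play 259 (.both (.play 131 (.ref 854 2)) (.both (.play 198 (.both (.play 131 (.both (.play 4 (.ref 5 3)) (.play 130 (.ref 3 130)))) (.play 258 (.ref 1 194)))) (.play 258 (.ref 58 192))))))
 (.one (.play 197 (.both (.ref 908 2) (.both (.ref 907 2) (.both (.play 261 (.both (.play 133 (.ref 854 4)) (.both (.play 260 (.both (.play 133 (.ref 398 4)) (.play 200 (.ref 1 196)))) (.play 260 (.ref 70 194))))) (.both (.play 196 (.both (.ref 125 67) (.both (.play 195 (.ref 285 130)) (.play 195 (.ref 25 194))))) (.both (.ref 741 128) (.both (.ref 424 130) (.ref 906 130)))))))))))))))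
 (.seq (.seq (.seq (.seq (.seq (.one (.play 325 (.both (.play 260 (.both (.play 69 (.ref 94 4)) (.ref 670 132))) (.both (.ref 721 4) (.both (.ref 118 128) (.both (.play 389 (.ref 13 132)) (.ref 263 132)))))))
 (.one (.play 193 (.both (.play 257 (.ref 323 1)) (.play 131 (.ref 128 64))))))
 (.seq (.one (.play 196 (.both (.ref 85 0) (.play 260 (.ref 7 3)))))
 (.seq (.one (.play 197 (.both (.ref 118 0) (.play 261 (.ref 7 4)))))
 (.one (.play 195 (.both (.play 193 (.both (.play 2 (.ref 75 1)) (.play 196 (.ref 140 128)))) (.both (.play 259 (.ref 146 2)) (.play 196 (.ref 372 128)))))))))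
 (.seq (.seq (.one (.play 258 (.both (.play 257 (.ref 680 0)) (.play 194 (.ref 4 1)))))
 (.one (.play 132 (.both (.play 129 (.both (.play 193 (.both (.ref 915 0) (.both (.ref 701 0) (.play 192 (.both (.play 256 (.ref 6 0)) (.play 194 (.both (.play 258 (.ref 4 1)) (.play 195 (.ref 2 128))))))))) (.play 130 (.ref 3 64)))) (.play 66 (.ref 0 64))))))
 (.seq (.one (.play 68 (.both (.ref 502 2) (.play 130 (.ref 2 64)))))
 (.seq (.one (.play 259 (.both (.play 323 (.ref 219 2)) (.both (.ref 917 64) (.both (.play 194 (.ref 26 128)) (.ref 916 128))))))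
 (.one (.both (.play 129 (.both (.play 65 (.ref 5 1)) (.play 128 (.ref 3 128)))) (.play 256 (.ref 1 192))))))))
 (.seq (.seq (.seq (.one (.play 257 (.both (.play 193 (.ref 919 0)) (.play 197 (.ref 286 129)))))
 (.one (.play 197 (.both (.ref 466 0) (.both (.ref 920 1) (.play 132 (.ref 75 3)))))))
 (.seq (.one (.play 194 (.both (.play 258 (.ref 919 1)) (.both (.play 193 (.ref 285 128)) (.play 193 (.ref 25 192))))))
 (.seq (.one (.play 198 (.both (.play 262 (.ref 178 6)) (.play 197 (.ref 538 128)))))
 (.one (.play 196 (.both (.play 259 (.both (.play 130 (.both (.play 66 (.ref 146 2)) (.play 197 (.ref 3 129)))) (.play 260 (.ref 0 192)))) (.both (.ref 318 129) (.play 260 (.ref 23 192)))))))))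
 (.seq (.seq (.one (.play 258 (.both (.ref 280 2) (.both (.play 257 (.ref 35 192)) (.play 257 (.ref 25 256))))))
 (.one (.play 198 (.both (.play 195 (.both (.ref 230 3) (.ref 114 128))) (.play 199 (.ref 140 131))))))
 (.seq (.one (.both (.play 130 (.ref 4 2)) (.play 260 (.ref 0 192))))
 (.seq (.one (.play 129 (.both (.play 65 (.ref 146 1)) (.play 128 (.ref 3 128)))))
 (.one (.play 259 (.both (.play 132 (.ref 6 3)) (.play 258 (.ref 68 192))))))))))
 (.seq (.seq (.seq (.seq (.one (.play 321 (.both (.play 65 (.ref 220 0)) (.both (.ref 16 64) (.both (.play 385 (.ref 533 64)) (.both (.ref 96 64) (.ref 76 128)))))))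
 (.one (.both (.play 259 (.both (.play 67 (.both (.play 66 (.ref 7 2)) (.play 258 (.ref 94 2)))) (.both (.play 68 (.both (.play 67 (.ref 457 2)) (.play 323 (.ref 5 67)))) (.ref 502 66)))) (.play 192 (.ref 2 128)))))
 (.seq (.one (.play 131 (.both (.play 67 (.ref 135 2)) (.play 132 (.ref 2 128)))))
 (.seq (.one (.play 195 (.both (.ref 932 0) (.play 196 (.both (.play 197 (.ref 211 129)) (.both (.play 260 (.ref 23 192)) (.ref 185 192)))))))
 (.one (.play 134 (.both (.ref 902 3) (.both (.play 194 (.ref 183 128)) (.play 133 (.ref 66 130)))))))))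
 (.seq (.seq (.one (.play 68 (.both (.play 4 (.ref 31 0)) (.play 69 (.ref 889 65)))))
 (.one (.play 322 (.both (.play 131 (.ref 617 2)) (.both (.play 323 (.both (.play 324 (.both (.play 321 (.both (.play 385 (.ref 464 128)) (.ref 377 193))) (.both (.play 325 (.ref 162 257)) (.both (.ref 387 257) (.ref 161 257))))) (.play 387 (.ref 4 130)))) (.both (.ref 76 129) (.ref 360 129)))))))
 (.seq (.one (.play 64 (.both (.play 65 (.ref 17 0)) (.play 321 (.ref 4 64)))))
 (.seq (.one (.both (.play 68 (.ref 3 0)) (.play 4 (.ref 2 0))))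
 (.one (.play 195 (.both (.ref 932 1) (.play 256 (.ref 2 192)))))))))
 (.seq (.seq (.seq (.one (.play 196 (.both (.ref 939 0) (.both (.play 195 (.ref 71 192)) (.play 260 (.ref 938 193))))))
 (.one (.play 195 (.both (.ref 932 0) (.play 196 (.ref 1 192))))))
 (.seq (.one (.play 66 (.both (.play 4 (.ref 31 0)) (.play 133 (.ref 0 65)))))
 (.seq (.one (.play 256 (.both (.play 1 (.ref 5 0)) (.ref 8 0))))
 (.one (.play 195 (.both (.play 131 (.ref 639 2)) (.both (.play 387 (.both (.ref 363 2) (.both (.play 451 (.ref 220 130)) (.play 451 (.both (.ref 12 194) (.ref 943 259)))))) (.both (.play 387 (.both (.play 451 (.ref 220 130)) (.both (.play 451 (.ref 533 130)) (.play 386 (.both (.play 388 (.both (.play 452 (.ref 4 195)) (.play 385 (.ref 90 320)))) (.play 450 (.ref 6 194))))))) (.play 388 (.ref 146 131))))))))))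
 (.seq (.seq (.one (.play 68 (.both (.play 4 (.ref 31 0)) (.play 69 (.ref 1 65)))))
 (.one (.both (.play 68 (.ref 0 0)) (.play 4 (.ref 1 0)))))
 (.seq (.one (.play 196 (.both (.play 195 (.both (.ref 668 1) (.play 128 (.ref 0 128)))) (.both (.play 195 (.ref 354 128)) (.play 132 (.ref 946 129))))))
 (.seq (.one (.play 132 (.both (.play 196 (.both (.play 260 (.ref 245 3)) (.play 197 (.ref 0 129)))) (.both (.ref 295 64) (.ref 297 64)))))
 (.one (.play 65 (.both (.play 1 (.ref 6 0)) (.play 322 (.ref 4 65))))))))))))))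
 (.seq (.seq (.seq (.seq (.seq (.seq (.seq (.seq (.one (.play 195 (.both (.play 131 (.both (.play 259 (.both (.play 260 (.both (.ref 949 2) (.ref 295 192))) (.both (.play 67 (.ref 94 2)) (.ref 948 128)))) (.play 132 (.ref 2 128)))) (.both (.ref 947 64) (.both (.play 260 (.ref 42 128)) (.both (.ref 945 128) (.ref 496 128)))))))
 (.one (.play 130 (.both (.play 66 (.ref 94 1)) (.both (.ref 389 64) (.ref 832 128))))))
 (.seq (.one (.play 67 (.both (.play 3 (.ref 5 2)) (.play 68 (.ref 64 64)))))
 (.one (.play 68 (.both (.play 4 (.ref 31 0)) (.ref 599 65))))))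
 (.seq (.seq (.one (.play 323 (.both (.ref 309 0) (.both (.play 260 (.ref 27 256)) (.both (.ref 953 256) (.both (.ref 935 256) (.ref 186 256)))))))
 (.one (.both (.ref 283 1) (.play 384 (.ref 1 320)))))
 (.seq (.one (.play 324 (.both (.play 325 (.ref 955 1)) (.both (.play 321 (.both (.ref 280 65) (.play 257 (.both (.play 193 (.ref 644 129)) (.play 256 (.ref 3 256)))))) (.both (.ref 395 257) (.both (.play 325 (.ref 823 257)) (.play 325 (.both (.play 385 (.ref 1 321)) (.ref 326 322)))))))))
 (.seq (.one (.both (.play 323 (.both (.ref 956 0) (.play 259 (.ref 5 258)))) (.both (.play 258 (.ref 269 193)) (.both (.play 258 (.ref 533 193)) (.play 258 (.ref 18 194))))))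
 (.one (.play 66 (.both (.play 65 (.ref 90 0)) (.play 134 (.ref 23 66)))))))))
 (.seq (.seq (.seq (.one (.play 133 (.both (.play 131 (.both (.ref 593 2) (.ref 958 64))) (.play 135 (.ref 3 67)))))
 (.one (.play 195 (.both (.play 131 (.both (.play 259 (.ref 5 3)) (.play 130 (.both (.play 70 (.ref 1 66)) (.play 198 (.ref 3 130)))))) (.both (.ref 465 128) (.play 262 (.ref 45 194)))))))
 (.seq (.one (.play 262 (.both (.play 198 (.ref 905 1)) (.both (.ref 611 5) (.both (.play 263 (.both (.ref 909 64) (.both (.play 327 (.both (.ref 960 66) (.play 199 (.ref 7 70)))) (.both (.ref 921 67) (.both (.ref 477 68) (.play 199 (.ref 414 70))))))) (.play 263 (.ref 416 70)))))))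
 (.seq (.one (.play 133 (.both (.ref 961 0) (.play 132 (.ref 90 67)))))
 (.one (.play 393 (.both (.play 457 (.both (.ref 880 6) (.both (.play 454 (.both (.ref 962 320) (.both (.play 392 (.ref 823 325)) (.ref 911 325)))) (.both (.ref 860 325) (.play 458 (.ref 540 390)))))) (.both (.play 457 (.both (.ref 880 6) (.both (.play 454 (.both (.play 392 (.ref 823 325)) (.both (.ref 828 386) (.both (.ref 727 386) (.play 394 (.ref 520 390)))))) (.both (.ref 959 323) (.both (.ref 725 386) (.ref 541 390)))))) (.both (.play 458 (.both (.play 394 (.both (.play 522 (.both (.play 330 (.ref 957 8)) (.both (.play 330 (.ref 805 201)) (.both (.play 586 (.both (.play 585 (.both (.play 587 (.both (.play 588 (.both (.ref 283 265) (.both (.play 521 (.ref 140 520)) (.play 589 (.ref 32 521))))) (.play 651 (.ref 4 394)))) (.play 649 (.ref 6 393)))) (.both (.play 650 (.ref 97 329)) (.both (.play 650 (.ref 18 330)) (.play 650 (.ref 13 393)))))) (.ref 636 265))))) (.both (.play 330 (.both (.ref 274 73) (.both (.ref 476 263) (.play 392 (.ref 31 326)))))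 (.both (.play 459 (.both (.play 395 (.both (.ref 954 73) (.both (.play 331 (.both (.ref 401 138) (.both (.play 523 (.both (.ref 751 202) (.ref 702 330))) (.both (.play 523 (.both (.ref 952 265) (.ref 76 330))) (.play 522 (.ref 184 266)))))) (.both (.ref 933 201) (.both (.ref 951 201) (.ref 950 201)))))) (.play 392 (.ref 0 391)))) (.both (.play 459 (.both (.ref 944 135) (.play 392 (.ref 0 391)))) (.ref 942 326)))))) (.both (.play 457 (.both (.play 521 (.both (.ref 591 198) (.both (.play 522 (.both (.play 523 (.both (.play 459 (.both (.play 587 (.both (.play 395 (.both (.ref 272 202) (.ref 480 392))) (.play 651 (.ref 61 394)))) (.both (.ref 941 265) (.play 460 (.ref 28 456))))) (.both (.play 524 (.both (.ref 283 201) (.play 525 (.ref 3 457)))) (.both (.ref 940 264) (.both (.play 524 (.both (.ref 280 265) (.play 525 (.ref 3 457)))) (.both (.play 587 (.both (.play 651 (.ref 169 330)) (.play 524 (.both (.play 525 (.ref 3 457)) (.play 588 (.ref 29 520)))))) (.ref 164 456))))))) (.play 586 (.ref 555 329)))) (.both (.play 329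 (.both (.ref 937 201) (.both (.play 330 (.ref 175 264)) (.play 585 (.both (.ref 12 328) (.play 649 (.ref 429 393))))))) (.both (.ref 585 262) (.both (.ref 936 263) (.both (.ref 876 264) (.play 329 (.both (.play 330 (.ref 175 264)) (.play 522 (.ref 87 265))))))))))) (.both (.play 521 (.both (.play 329 (.ref 219 200)) (.both (.play 456 (.both (.ref 932 263) (.play 391 (.ref 3 390)))) (.both (.play 585 (.ref 219 264)) (.play 456 (.both (.play 391 (.ref 3 390)) (.ref 935 391))))))) (.both (.play 456 (.both (.ref 668 263) (.play 391 (.ref 3 390)))) (.play 456 (.ref 874 390)))))) (.play 457 (.ref 540 390))))) (.both (.play 454 (.both (.play 392 (.both (.ref 280 134) (.play 453 (.ref 1 389)))) (.both (.ref 843 257) (.both (.play 582 (.both (.play 583 (.both (.play 584 (.both (.play 581 (.both (.play 520 (.both (.play 519 (.both (.play 327 (.ref 4 327)) (.play 580 (.ref 2 516)))) (.play 521 (.ref 2 517)))) (.both (.ref 903 389) (.ref 99 515)))) (.both (.play 519 (.both (.ref 904 324) (.play 648 (.ref 4 391)))) (.both (.ref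 466 387) (.both (.ref 934 387) (.play 648 (.both (.ref 933 390) (.play 519 (.ref 4 391))))))))) (.both (.play 584 (.both (.ref 573 385) (.both (.play 581 (.both (.ref 614 389) (.ref 99 515))) (.both (.ref 305 388) (.both (.play 585 (.both (.play 520 (.both (.play 647 (.both (.play 456 (.ref 178 391)) (.play 646 (.ref 28 581)))) (.both (.play 521 (.ref 931 389)) (.ref 129 516)))) (.both (.play 521 (.both (.play 520 (.ref 931 389)) (.play 522 (.ref 2 518)))) (.both (.play 645 (.both (.play 521 (.both (.play 581 (.ref 207 516)) (.play 522 (.ref 2 518)))) (.play 646 (.ref 1 581)))) (.ref 33 517))))) (.both (.play 585 (.both (.play 649 (.both (.play 521 (.both (.ref 930 392) (.play 522 (.ref 2 518)))) (.play 650 (.ref 0 582)))) (.both (.ref 515 517) (.ref 237 581)))) (.both (.ref 741 513) (.play 585 (.ref 422 516))))))))) (.both (.ref 479 387) (.play 519 (.ref 414 390)))))) (.both (.ref 611 325) (.both (.play 583 (.both (.ref 893 385) (.both (.play 581 (.both (.ref 929 386) (.both (.play 580 (.both (.play 645 (.both (.ref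 928 387) (.play 518 (.ref 6 389)))) (.both (.play 518 (.both (.play 645 (.ref 6 389)) (.play 519 (.ref 90 515)))) (.ref 99 514)))) (.both (.play 580 (.both (.play 584 (.both (.play 519 (.both (.play 648 (.ref 4 391)) (.play 520 (.ref 2 516)))) (.ref 101 515))) (.both (.ref 99 514) (.play 579 (.ref 35 514))))) (.both (.play 584 (.both (.play 648 (.ref 927 389)) (.ref 99 515))) (.play 584 (.both (.play 518 (.ref 663 388)) (.play 648 (.ref 927 389))))))))) (.both (.ref 682 387) (.play 647 (.ref 413 390)))))) (.play 583 (.ref 416 390)))))) (.play 519 (.both (.play 518 (.both (.ref 926 322) (.both (.play 582 (.ref 86 326)) (.play 582 (.both (.ref 111 387) (.play 646 (.ref 5 390))))))) (.both (.ref 674 323) (.both (.play 520 (.both (.play 583 (.both (.play 584 (.ref 87 327)) (.play 647 (.ref 7 390)))) (.play 521 (.ref 232 452)))) (.both (.ref 14 326) (.both (.ref 913 386) (.ref 912 387))))))))))) (.both (.play 392 (.both (.ref 280 134) (.both (.ref 515 325) (.play 454 (.ref 70 388))))) (.both (.play 392 (.both (.play 457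 (.both (.ref 812 134) (.play 458 (.ref 0 390)))) (.both (.ref 515 325) (.ref 237 389)))) (.both (.play 457 (.both (.play 521 (.both (.play 522 (.both (.play 523 (.both (.ref 276 200) (.both (.ref 500 200) (.both (.ref 925 262) (.both (.play 524 (.both (.ref 280 265) (.both (.ref 78 457) (.ref 438 457)))) (.both (.play 520 (.both (.ref 924 328) (.both (.ref 47 391) (.both (.play 583 (.both (.play 519 (.both (.play 458 (.ref 90 454)) (.play 582 (.ref 1 518)))) (.play 584 (.ref 1 519)))) (.ref 182 518))))) (.both (.play 586 (.both (.ref 330 328) (.both (.play 650 (.ref 46 393)) (.play 524 (.both (.play 520 (.both (.play 460 (.ref 31 456)) (.ref 560 518))) (.both (.ref 318 457) (.ref 327 457))))))) (.ref 164 456)))))))) (.both (.play 520 (.both (.play 458 (.both (.ref 735 264) (.play 519 (.ref 676 454)))) (.both (.play 584 (.both (.play 329 (.ref 6 328)) (.play 519 (.both (.play 454 (.ref 3 454)) (.play 583 (.ref 28 518)))))) (.both (.ref 92 327) (.play 519 (.both (.ref 129 453) (.play 454 (.ref 3 454)))))))) (.both (.play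 520 (.both (.play 586 (.both (.play 329 (.ref 4 329)) (.play 519 (.ref 176 454)))) (.both (.play 584 (.ref 212 327)) (.both (.play 329 (.ref 75 328)) (.play 519 (.ref 506 454)))))) (.play 586 (.ref 146 329)))))) (.both (.play 585 (.both (.ref 588 201) (.both (.ref 196 265) (.both (.ref 585 326) (.ref 22 328))))) (.both (.play 585 (.ref 219 264)) (.both (.ref 923 322) (.ref 120 324)))))) (.both (.ref 878 198) (.both (.play 454 (.both (.play 582 (.both (.play 583 (.both (.play 584 (.both (.play 585 (.both (.play 521 (.both (.play 457 (.both (.ref 402 264) (.play 648 (.ref 6 392)))) (.play 522 (.ref 2 518)))) (.both (.play 586 (.ref 35 517)) (.ref 237 581)))) (.both (.ref 922 387) (.both (.ref 305 388) (.both (.ref 920 388) (.ref 488 514)))))) (.both (.play 581 (.ref 501 386)) (.both (.ref 921 387) (.play 519 (.ref 414 390)))))) (.both (.ref 611 325) (.both (.play 583 (.both (.play 581 (.both (.play 645 (.ref 625 386)) (.both (.ref 740 388) (.both (.ref 255 512) (.ref 423 514))))) (.both (.play 581 (.ref 501 386)) (.both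 (.play 581 (.both (.ref 466 386) (.both (.play 645 (.ref 625 386)) (.both (.play 518 (.ref 75 389)) (.ref 424 514))))) (.play 647 (.ref 413 390)))))) (.play 583 (.ref 416 390)))))) (.both (.ref 918 262) (.both (.play 519 (.both (.ref 674 323) (.both (.play 583 (.both (.play 520 (.both (.play 584 (.ref 87 327)) (.play 453 (.ref 259 451)))) (.play 647 (.ref 7 390)))) (.both (.ref 914 325) (.both (.ref 14 326) (.both (.ref 913 386) (.ref 912 387))))))) (.both (.ref 911 325) (.ref 864 388)))))) (.both (.play 456 (.both (.play 521 (.both (.ref 910 260) (.both (.play 522 (.both (.play 586 (.ref 246 329)) (.play 454 (.ref 0 454)))) (.play 522 (.ref 41 454))))) (.play 458 (.ref 3 390)))) (.ref 860 325)))))) (.both (.play 392 (.both (.ref 338 198) (.both (.play 329 (.both (.play 584 (.both (.play 454 (.both (.play 582 (.both (.play 518 (.ref 536 321)) (.both (.play 518 (.ref 86 326)) (.ref 901 386)))) (.play 453 (.ref 1 389)))) (.both (.play 520 (.both (.play 454 (.both (.play 582 (.both (.play 521 (.both (.play 457 (.ref 6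 328)) (.play 583 (.both (.play 581 (.ref 183 515)) (.both (.play 520 (.ref 66 517)) (.play 585 (.both (.play 522 (.ref 2 518)) (.ref 237 581)))))))) (.both (.ref 611 325) (.play 518 (.ref 688 325))))) (.play 453 (.ref 1 389)))) (.play 456 (.ref 5 328)))) (.both (.play 520 (.both (.play 521 (.both (.play 454 (.both (.play 582 (.both (.play 518 (.ref 525 325)) (.both (.play 518 (.both (.play 327 (.ref 5 326)) (.play 581 (.both (.play 645 (.ref 6 389)) (.play 519 (.ref 1 517)))))) (.both (.play 583 (.both (.play 518 (.ref 507 326)) (.play 522 (.ref 52 518)))) (.play 583 (.ref 53 517)))))) (.play 453 (.ref 1 389)))) (.play 457 (.ref 6 328)))) (.play 456 (.ref 5 328)))) (.both (.play 454 (.both (.play 520 (.both (.play 521 (.both (.play 519 (.both (.play 327 (.ref 4 327)) (.play 522 (.ref 3 454)))) (.play 457 (.ref 178 328)))) (.both (.play 456 (.ref 265 327)) (.both (.play 456 (.ref 368 327)) (.play 456 (.ref 429 328)))))) (.play 453 (.ref 1 389)))) (.both (.play 520 (.ref 895 327)) (.play 454 (.both (.play 583 (.both (.ref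 909 385) (.both (.play 582 (.both (.play 646 (.ref 415 390)) (.both (.play 519 (.ref 75 390)) (.both (.play 581 (.both (.ref 150 514) (.both (.play 580 (.ref 102 515)) (.both (.play 519 (.both (.ref 129 515) (.ref 292 517))) (.play 585 (.ref 285 516)))))) (.ref 424 515))))) (.both (.play 582 (.ref 416 390)) (.play 519 (.ref 767 390)))))) (.play 453 (.ref 1 389)))))))))) (.play 330 (.ref 2 326)))) (.both (.ref 515 325) (.play 454 (.ref 70 388)))))) (.both (.play 392 (.both (.play 519 (.both (.ref 148 321) (.both (.play 583 (.both (.ref 96 326) (.both (.ref 118 386) (.ref 202 390)))) (.both (.play 454 (.both (.ref 674 323) (.play 453 (.ref 1 389)))) (.both (.ref 768 325) (.ref 664 386)))))) (.both (.ref 336 326) (.play 454 (.ref 28 389))))) (.both (.play 392 (.both (.play 454 (.both (.play 582 (.both (.play 518 (.ref 905 321)) (.both (.play 584 (.both (.play 583 (.both (.play 519 (.both (.ref 904 324) (.play 646 (.ref 6 390)))) (.both (.play 646 (.both (.play 519 (.ref 178 390)) (.play 645 (.ref 68 579)))) (.both (.play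 581 (.both (.ref 903 389) (.ref 99 515))) (.ref 740 389))))) (.both (.play 329 (.both (.play 330 (.ref 2 326)) (.play 457 (.both (.play 521 (.ref 159 328)) (.play 458 (.ref 0 390)))))) (.both (.play 520 (.both (.ref 610 326) (.play 519 (.ref 246 327)))) (.ref 901 386))))) (.both (.ref 611 325) (.play 583 (.ref 416 390)))))) (.play 453 (.ref 1 389)))) (.both (.ref 515 325) (.both (.play 330 (.ref 27 326)) (.ref 237 389))))) (.both (.ref 900 322) (.play 392 (.both (.play 519 (.both (.play 457 (.both (.play 518 (.both (.play 520 (.both (.play 327 (.ref 75 326)) (.ref 467 451))) (.both (.play 582 (.ref 135 326)) (.play 517 (.both (.ref 106 450) (.both (.ref 423 450) (.both (.play 456 (.ref 67 452)) (.play 456 (.ref 420 453))))))))) (.play 458 (.ref 0 390)))) (.both (.play 457 (.both (.play 518 (.both (.play 582 (.ref 178 326)) (.ref 521 450))) (.play 458 (.ref 0 390)))) (.both (.play 583 (.both (.ref 234 324) (.both (.ref 96 326) (.both (.ref 882 388) (.both (.ref 221 390) (.play 646 (.ref 159 390))))))) (.both (.ref 768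 325) (.ref 664 386)))))) (.both (.ref 515 325) (.both (.play 330 (.ref 27 326)) (.ref 237 389)))))))))))))))))))))
 (.seq (.seq (.one (.play 130 (.both (.ref 443 0) (.play 323 (.ref 7 66)))))
 (.one (.play 197 (.both (.play 261 (.ref 6 5)) (.ref 145 64)))))
 (.seq (.one (.both (.ref 965 0) (.play 263 (.ref 4 6))))
 (.seq (.one (.play 3 (.both (.play 65 (.ref 90 0)) (.play 2 (.ref 3 2)))))
 (.one (.play 66 (.both (.ref 82 0) (.play 6 (.ref 2 2))))))))))
 (.seq (.seq (.seq (.seq (.one (.play 67 (.both (.ref 968 0) (.both (.ref 967 1) (.ref 101 2)))))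
 (.one (.both (.play 4 (.ref 5 3)) (.ref 672 64))))
 (.seq (.one (.play 65 (.both (.play 0 (.both (.play 64 (.ref 7 0)) (.play 1 (.ref 3 0)))) (.play 322 (.ref 4 65)))))
 (.seq (.one (.play 68 (.both (.ref 160 1) (.play 129 (.ref 1 64)))))
 (.one (.play 195 (.both (.play 259 (.ref 4 2)) (.play 196 (.ref 40 128))))))))
 (.seq (.seq (.one (.play 193 (.both (.play 256 (.ref 6 0)) (.ref 202 0))))
 (.one (.play 68 (.both (.ref 50 1) (.play 128 (.ref 1 64))))))
 (.seq (.one (.play 131 (.both (.play 259 (.ref 7 2)) (.play 132 (.ref 0 64)))))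
 (.seq (.one (.both (.play 196 (.both (.play 260 (.ref 4 3)) (.play 129 (.ref 354 128)))) (.play 258 (.ref 6 2))))
 (.one (.play 324 (.both (.play 385 (.ref 955 0)) (.both (.play 325 (.ref 35 256)) (.both (.play 325 (.ref 32 257)) (.play 325 (.ref 25 320)))))))))))
 (.seq (.seq (.seq (.one (.play 68 (.both (.play 4 (.ref 31 0)) (.both (.play 69 (.ref 286 1)) (.ref 972 1)))))
 (.one (.play 1 (.both (.play 0 (.ref 3 0)) (.play 258 (.ref 7 1))))))
 (.seq (.one (.play 1 (.both (.play 0 (.ref 3 0)) (.ref 749 1))))
 (.seq (.one (.play 130 (.both (.play 66 (.both (.play 2 (.ref 6 1)) (.ref 47 64))) (.both (.play 66 (.ref 328 1)) (.play 196 (.both (.play 197 (.both (.play 198 (.ref 277 130)) (.play 258 (.ref 1 193)))) (.play 260 (.ref 23 192))))))))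
 (.one (.play 1 (.both (.play 68 (.ref 3 0)) (.play 258 (.ref 7 1))))))))
 (.seq (.seq (.one (.both (.play 0 (.ref 3 0)) (.ref 78 1)))
 (.one (.both (.play 67 (.ref 94 2)) (.play 132 (.ref 2 128)))))
 (.seq (.one (.play 193 (.both (.ref 788 0) (.play 448 (.ref 6 192)))))
 (.seq (.one (.play 323 (.both (.play 451 (.both (.ref 410 1) (.play 452 (.ref 0 384)))) (.play 324 (.ref 2 320)))))
 (.one (.both (.ref 987 0) (.both (.play 322 (.both (.ref 940 128) (.play 258 (.ref 5 257)))) (.both (.ref 924 192) (.both (.play 388 (.both (.play 322 (.both (.play 258 (.ref 5 257)) (.play 389 (.ref 3 321)))) (.play 452 (.ref 23 384)))) (.both (.ref 79 320) (.both (.play 324 (.ref 27 320)) (.play 388 (.both (.play 324 (.ref 31 320)) (.ref 438 321))))))))))))))))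
 (.seq (.seq (.seq (.seq (.seq (.one (.play 519 (.both (.play 520 (.both (.play 393 (.both (.play 327 (.both (.play 392 (.ref 988 6)) (.play 584 (.ref 4 327)))) (.both (.play 327 (.both (.play 330 (.both (.play 394 (.both (.play 264 (.both (.play 266 (.both (.ref 986 9) (.both (.play 267 (.both (.play 265 (.both (.play 331 (.both (.play 203 (.ref 985 72)) (.play 332 (.ref 0 264)))) (.both (.play 200 (.ref 984 199)) (.both (.play 332 (.both (.play 200 (.both (.play 199 (.ref 3 199)) (.play 268 (.ref 437 200)))) (.play 331 (.ref 0 264)))) (.both (.ref 295 199) (.ref 496 200)))))) (.both (.play 203 (.ref 337 74)) (.both (.play 265 (.both (.play 200 (.both (.play 199 (.ref 3 199)) (.ref 983 200))) (.both (.play 331 (.both (.play 458 (.ref 683 201)) (.play 332 (.ref 0 264)))) (.ref 496 200)))) (.play 265 (.both (.ref 295 199) (.both (.ref 746 200) (.play 458 (.ref 265 201))))))))) (.both (.ref 401 73) (.play 202 (.both (.ref 583 74) (.play 457 (.ref 6 201)))))))) (.play 328 (.ref 5 263)))) (.both (.play 328 (.both (.play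 264 (.ref 5 263)) (.play 392 (.ref 671 326)))) (.play 392 (.ref 128 326))))) (.both (.play 328 (.ref 848 262)) (.play 392 (.ref 27 326))))) (.play 584 (.ref 4 327)))) (.both (.play 392 (.both (.play 454 (.both (.play 521 (.both (.play 457 (.both (.ref 815 70) (.play 458 (.ref 0 390)))) (.play 522 (.ref 3 454)))) (.play 453 (.ref 1 389)))) (.both (.ref 515 325) (.both (.play 330 (.ref 27 326)) (.ref 237 389))))) (.both (.play 394 (.both (.play 522 (.both (.play 395 (.both (.ref 308 72) (.both (.play 396 (.both (.ref 309 73) (.both (.play 458 (.both (.ref 982 201) (.ref 980 328))) (.both (.ref 981 328) (.both (.play 458 (.both (.ref 980 328) (.ref 979 329))) (.play 461 (.ref 42 329))))))) (.both (.play 523 (.ref 857 73)) (.play 396 (.both (.play 329 (.both (.play 458 (.ref 169 201)) (.play 328 (.ref 3 328)))) (.play 333 (.ref 27 329)))))))) (.both (.play 521 (.both (.play 458 (.both (.play 330 (.ref 289 201)) (.play 459 (.ref 2 455)))) (.play 454 (.ref 3 454)))) (.both (.play 521 (.both (.play 523 (.both (.ref 978 200)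 (.both (.ref 748 455) (.both (.play 460 (.ref 27 456)) (.play 587 (.ref 23 519)))))) (.play 454 (.ref 3 454)))) (.both (.play 521 (.both (.play 458 (.both (.play 329 (.ref 169 201)) (.both (.ref 401 201) (.both (.play 586 (.both (.play 329 (.ref 7 329)) (.play 585 (.ref 977 391)))) (.play 585 (.both (.play 330 (.ref 6 329)) (.play 586 (.ref 977 391)))))))) (.play 454 (.ref 3 454)))) (.play 521 (.ref 313 454))))))) (.both (.play 327 (.both (.play 395 (.both (.ref 308 72) (.both (.ref 243 199) (.both (.ref 291 327) (.both (.play 392 (.ref 277 327)) (.play 328 (.ref 257 327))))))) (.play 584 (.ref 4 327)))) (.both (.play 392 (.ref 760 326)) (.both (.play 392 (.ref 56 326)) (.both (.play 392 (.ref 692 326)) (.play 392 (.both (.ref 293 326) (.play 454 (.ref 1 390)))))))))) (.both (.play 327 (.both (.play 328 (.both (.play 264 (.ref 5 263)) (.play 392 (.both (.play 521 (.both (.ref 976 326) (.play 454 (.both (.play 453 (.ref 1 389)) (.play 522 (.ref 3 454)))))) (.both (.ref 79 326) (.ref 975 326)))))) (.play 584 (.ref 4 327))))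 (.both (.play 454 (.both (.play 521 (.both (.play 584 (.both (.play 327 (.ref 4 327)) (.play 648 (.both (.play 457 (.ref 328 328)) (.play 712 (.ref 7 455)))))) (.play 522 (.ref 3 454)))) (.play 453 (.both (.play 392 (.ref 1 389)) (.play 452 (.ref 0 452)))))) (.play 584 (.both (.play 712 (.both (.play 521 (.both (.play 522 (.both (.ref 486 327) (.play 454 (.ref 3 454)))) (.both (.play 457 (.both (.play 585 (.both (.play 649 (.both (.play 394 (.ref 17 329)) (.ref 974 520))) (.both (.play 649 (.ref 18 329)) (.ref 973 391)))) (.play 329 (.ref 6 328)))) (.both (.play 522 (.ref 162 454)) (.play 522 (.both (.play 454 (.ref 3 454)) (.play 523 (.both (.play 459 (.ref 31 455)) (.both (.ref 972 456) (.ref 883 456)))))))))) (.play 648 (.ref 7 455)))) (.play 327 (.ref 4 327))))))))))) (.both (.ref 352 196) (.both (.play 518 (.both (.play 582 (.both (.play 454 (.both (.play 581 (.both (.play 580 (.both (.ref 365 257) (.both (.play 517 (.both (.play 516 (.both (.play 452 (.both (.play 388 (.both (.play 387 (.both (.play 323 (.ref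 7 323)) (.play 644 (.both (.play 451 (.ref 7 387)) (.ref 554 451))))) (.play 324 (.ref 4 324)))) (.both (.play 388 (.both (.play 324 (.ref 4 324)) (.play 453 (.ref 49 387)))) (.play 453 (.ref 90 387))))) (.play 515 (.ref 2 451)))) (.play 519 (.ref 1 516)))) (.both (.ref 100 513) (.play 519 (.ref 67 515)))))) (.play 645 (.ref 6 389)))) (.play 646 (.ref 5 390)))) (.both (.play 517 (.both (.play 581 (.both (.play 645 (.both (.play 454 (.ref 6 389)) (.ref 870 512))) (.play 580 (.ref 1 516)))) (.both (.play 516 (.both (.play 515 (.both (.play 454 (.ref 2 451)) (.play 514 (.ref 846 513)))) (.ref 101 451))) (.both (.play 584 (.both (.play 516 (.both (.ref 150 449) (.both (.ref 82 450) (.both (.play 453 (.both (.play 515 (.both (.play 454 (.ref 90 450)) (.ref 24 514))) (.play 452 (.ref 3 452)))) (.ref 101 451))))) (.play 585 (.ref 0 517)))) (.ref 99 451))))) (.both (.play 646 (.ref 126 390)) (.play 584 (.both (.play 581 (.both (.play 710 (.both (.play 709 (.both (.play 645 (.both (.ref 971 452) (.both (.ref 892 512) (.play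 711 (.both (.ref 934 514) (.both (.play 708 (.ref 594 576)) (.both (.ref 166 577) (.play 712 (.ref 162 644))))))))) (.both (.play 712 (.both (.play 648 (.ref 7 455)) (.play 711 (.both (.ref 253 641) (.both (.ref 252 642) (.both (.ref 33 644) (.both (.ref 34 644) (.ref 237 708)))))))) (.both (.play 645 (.both (.ref 971 452) (.play 773 (.ref 5 517)))) (.play 645 (.both (.ref 892 512) (.play 773 (.ref 5 517)))))))) (.play 646 (.ref 5 454)))) (.both (.play 648 (.both (.play 646 (.both (.play 710 (.ref 5 454)) (.play 580 (.both (.play 579 (.ref 2 515)) (.play 647 (.ref 40 580)))))) (.play 712 (.ref 7 455)))) (.play 580 (.ref 67 515))))) (.both (.play 646 (.both (.play 648 (.both (.play 712 (.ref 7 455)) (.play 647 (.ref 538 577)))) (.play 710 (.ref 5 454)))) (.both (.ref 465 451) (.play 585 (.both (.play 646 (.both (.play 648 (.both (.play 712 (.ref 7 455)) (.play 586 (.both (.play 587 (.ref 3 519)) (.play 647 (.ref 57 581)))))) (.play 710 (.ref 5 454)))) (.play 517 (.ref 0 517)))))))))))) (.both (.play 454 (.both (.ref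 662 323) (.both (.ref 673 323) (.both (.play 582 (.ref 970 323)) (.both (.play 582 (.both (.play 327 (.ref 5 326)) (.ref 529 389))) (.both (.play 582 (.both (.play 327 (.ref 5 326)) (.ref 435 389))) (.both (.play 582 (.both (.play 327 (.ref 5 326)) (.ref 546 389))) (.play 517 (.both (.ref 127 386) (.both (.ref 109 388) (.both (.ref 969 449) (.both (.ref 621 450) (.ref 99 451))))))))))))) (.both (.ref 619 323) (.play 327 (.ref 75 326)))))) (.both (.play 327 (.ref 966 321)) (.both (.ref 892 322) (.both (.ref 190 323) (.ref 620 323)))))))) (.both (.play 583 (.ref 240 258)) (.both (.play 583 (.both (.ref 196 263) (.both (.ref 964 324) (.ref 376 390)))) (.both (.play 583 (.both (.ref 196 263) (.both (.ref 964 324) (.ref 882 388)))) (.both (.play 583 (.both (.play 582 (.ref 193 262)) (.both (.ref 964 324) (.ref 96 326)))) (.both (.ref 14 326) (.ref 205 386)))))))))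
 (.one (.play 69 (.both (.play 70 (.ref 3 2)) (.play 129 (.ref 57 64))))))
 (.seq (.one (.play 194 (.both (.play 258 (.ref 178 2)) (.play 193 (.ref 66 128)))))
 (.one (.play 68 (.both (.play 70 (.both (.play 71 (.both (.ref 433 0) (.play 8 (.ref 27 4)))) (.play 6 (.ref 5 5)))) (.play 4 (.ref 7 4)))))))
 (.seq (.seq (.one (.play 70 (.both (.play 68 (.both (.play 71 (.both (.ref 433 0) (.ref 336 4))) (.play 4 (.ref 7 4)))) (.play 6 (.ref 5 5)))))
 (.one (.play 261 (.both (.ref 12 4) (.both (.play 325 (.both (.ref 993 64) (.both (.play 389 (.ref 533 68)) (.play 389 (.ref 18 69))))) (.ref 19 68))))))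
 (.seq (.one (.both (.play 68 (.both (.play 70 (.both (.play 67 (.both (.ref 432 0) (.ref 496 3))) (.play 6 (.ref 5 5)))) (.play 4 (.ref 7 4)))) (.both (.play 325 (.ref 220 4)) (.play 325 (.ref 97 4)))))
 (.seq (.one (.both (.play 69 (.ref 7 4)) (.play 325 (.both (.ref 239 128) (.both (.play 389 (.both (.ref 8 133) (.both (.play 453 (.ref 995 192)) (.ref 221 196)))) (.both (.ref 994 128) (.both (.play 389 (.both (.ref 96 132) (.both (.ref 118 192) (.both (.play 453 (.both (.ref 992 192) (.ref 8 197))) (.ref 76 196))))) (.both (.play 389 (.both (.ref 89 132) (.both (.ref 85 193) (.both (.play 453 (.both (.play 262 (.both (.play 260 (.both (.play 259 (.both (.ref 99 193) (.ref 496 195))) (.play 196 (.ref 7 196)))) (.play 198 (.ref 5 197)))) (.ref 12 196))) (.play 452 (.ref 159 196)))))) (.play 388 (.ref 159 132))))))))))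
 (.one (.play 67 (.both (.ref 443 0) (.play 2 (.ref 7 2)))))))))
 (.seq (.seq (.seq (.one (.play 197 (.both (.play 195 (.both (.play 259 (.ref 6 3)) (.ref 566 128))) (.play 261 (.ref 4 4)))))
 (.one (.both (.play 67 (.ref 2 0)) (.play 2 (.ref 52 0)))))
 (.seq (.one (.play 65 (.both (.play 193 (.ref 328 0)) (.play 128 (.ref 5 64)))))
 (.seq (.one (.play 131 (.both (.play 195 (.both (.play 67 (.ref 328 2)) (.play 132 (.ref 2 128)))) (.both (.ref 1000 2) (.both (.play 130 (.ref 762 64)) (.play 132 (.ref 999 128)))))))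
 (.one (.play 68 (.both (.play 1 (.ref 3 0)) (.play 129 (.ref 1 64))))))))
 (.seq (.seq (.one (.play 129 (.both (.ref 1002 1) (.play 128 (.ref 1 64)))))
 (.one (.both (.play 194 (.both (.play 258 (.ref 6 2)) (.play 128 (.ref 3 128)))) (.play 260 (.ref 4 3)))))
 (.seq (.one (.both (.ref 932 1) (.play 256 (.ref 1 192))))
 (.seq (.one (.play 196 (.both (.play 195 (.both (.ref 170 1) (.play 256 (.ref 1 192)))) (.both (.play 195 (.both (.ref 379 129) (.play 256 (.ref 1 192)))) (.play 132 (.ref 946 129))))))
 (.one (.play 195 (.both (.play 323 (.both (.ref 704 2) (.play 324 (.ref 0 256)))) (.play 196 (.ref 2 192))))))))))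
 (.seq (.seq (.seq (.seq (.one (.play 129 (.both (.ref 616 0) (.both (.play 192 (.ref 188 0)) (.both (.play 257 (.ref 94 64)) (.play 384 (.ref 508 128)))))))
 (.one (.both (.ref 844 0) (.play 72 (.ref 3 4)))))
 (.seq (.one (.play 71 (.both (.ref 215 0) (.both (.ref 378 2) (.both (.play 72 (.ref 242 2)) (.both (.ref 50 4) (.play 72 (.ref 984 4))))))))
 (.seq (.one (.play 65 (.both (.play 66 (.ref 1 1)) (.play 64 (.ref 3 64)))))
 (.one (.play 134 (.both (.ref 965 0) (.play 262 (.ref 5 6))))))))
 (.seq (.seq (.one (.play 197 (.both (.play 199 (.both (.play 263 (.ref 4 6)) (.ref 145 64))) (.play 261 (.ref 6 5)))))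
 (.one (.play 67 (.both (.play 3 (.ref 5 2)) (.play 68 (.ref 1 64))))))
 (.seq (.one (.play 327 (.both (.ref 853 5) (.both (.play 263 (.both (.ref 1014 69) (.ref 1013 129))) (.both (.play 326 (.both (.ref 1012 128) (.both (.play 325 (.both (.play 389 (.both (.play 261 (.ref 5 133)) (.play 388 (.ref 70 322)))) (.both (.ref 482 132) (.both (.play 324 (.both (.ref 1011 195) (.ref 182 322))) (.ref 741 256))))) (.both (.play 391 (.both (.ref 960 130) (.play 262 (.ref 4 134)))) (.play 262 (.ref 412 134)))))) (.play 326 (.ref 416 134)))))))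
 (.seq (.one (.play 257 (.both (.play 2 (.ref 5 1)) (.ref 701 64))))
 (.one (.play 128 (.both (.ref 344 0) (.both (.play 193 (.ref 169 0)) (.both (.play 256 (.ref 87 64)) (.play 385 (.ref 260 128)))))))))))
 (.seq (.seq (.seq (.one (.play 322 (.both (.play 324 (.both (.ref 380 0) (.play 388 (.ref 4 131)))) (.play 386 (.ref 6 130)))))
 (.one (.play 323 (.both (.ref 1018 0) (.both (.play 387 (.ref 97 66)) (.both (.play 387 (.ref 18 67)) (.play 386 (.ref 159 130))))))))
 (.seq (.one (.both (.play 1 (.ref 1 0)) (.play 66 (.ref 1 1))))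
 (.seq (.one (.play 68 (.both (.ref 666 0) (.play 4 (.ref 5 3)))))
 (.one (.play 65 (.both (.ref 15 0) (.ref 587 1)))))))
 (.seq (.seq (.one (.play 195 (.both (.ref 705 2) (.both (.ref 588 3) (.both (.ref 266 66) (.both (.ref 1022 66) (.ref 1021 128)))))))
 (.one (.play 321 (.both (.ref 15 0) (.ref 22 64)))))
 (.seq (.one (.play 321 (.both (.play 65 (.ref 533 0)) (.both (.play 385 (.ref 533 64)) (.both (.ref 89 64) (.ref 1024 64))))))
 (.seq (.one (.play 129 (.both (.ref 266 0) (.both (.ref 196 1) (.play 385 (.ref 533 64))))))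
 (.one (.play 129 (.both (.ref 266 0) (.play 322 (.ref 4 129))))))))))))
 (.seq (.seq (.seq (.seq (.seq (.seq (.one (.both (.play 260 (.both (.play 452 (.both (.play 261 (.both (.play 258 (.both (.play 194 (.both (.play 322 (.both (.ref 1027 1) (.play 321 (.ref 1 257)))) (.play 193 (.ref 3 193)))) (.play 325 (.both (.play 197 (.both (.play 198 (.ref 2 194)) (.play 388 (.ref 322 196)))) (.play 326 (.ref 0 258)))))) (.both (.ref 395 194) (.both (.play 262 (.ref 211 194)) (.play 322 (.ref 70 256)))))) (.play 516 (.ref 4 259)))) (.play 196 (.ref 5 195)))) (.both (.play 452 (.ref 639 130)) (.both (.ref 266 130) (.ref 196 131)))))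
 (.one (.play 68 (.both (.play 69 (.ref 3 1)) (.play 129 (.ref 1 64))))))
 (.seq (.one (.play 132 (.both (.play 197 (.both (.play 194 (.both (.ref 425 1) (.both (.ref 129 128) (.ref 483 128)))) (.play 261 (.ref 4 4)))) (.play 260 (.ref 7 3)))))
 (.one (.play 261 (.both (.play 133 (.ref 7 4)) (.ref 465 128))))))
 (.seq (.seq (.one (.play 3 (.both (.play 4 (.ref 2 0)) (.play 130 (.ref 5 2)))))
 (.one (.play 131 (.both (.play 67 (.ref 184 2)) (.play 132 (.ref 71 128))))))
 (.seq (.one (.play 129 (.both (.play 64 (.ref 351 0)) (.both (.ref 196 1) (.play 385 (.ref 533 64))))))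
 (.seq (.one (.play 130 (.both (.play 66 (.ref 533 1)) (.both (.play 66 (.ref 18 2)) (.ref 396 64)))))
 (.one (.both (.play 66 (.ref 339 0)) (.play 259 (.ref 5 3))))))))
 (.seq (.seq (.seq (.one (.both (.play 66 (.both (.play 2 (.ref 7 2)) (.play 129 (.ref 1 64)))) (.play 4 (.ref 5 3))))
 (.one (.play 323 (.both (.ref 850 2) (.both (.play 324 (.both (.play 260 (.ref 337 131)) (.both (.play 515 (.ref 1037 256)) (.play 322 (.ref 754 256))))) (.both (.play 322 (.both (.play 258 (.ref 169 130)) (.play 324 (.ref 754 256)))) (.both (.play 324 (.both (.play 260 (.ref 617 131)) (.both (.play 322 (.ref 754 256)) (.play 260 (.ref 1036 256))))) (.both (.ref 1035 129) (.both (.play 259 (.ref 804 130)) (.ref 1034 130))))))))))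
 (.seq (.one (.play 457 (.both (.play 455 (.both (.play 393 (.both (.play 459 (.both (.play 395 (.both (.play 329 (.both (.ref 1038 8) (.play 520 (.ref 337 200)))) (.play 394 (.ref 1 391)))) (.play 458 (.ref 3 391)))) (.both (.play 520 (.both (.play 394 (.both (.play 329 (.both (.ref 1033 199) (.play 265 (.ref 6 264)))) (.play 395 (.ref 28 391)))) (.both (.ref 502 327) (.both (.play 584 (.ref 323 328)) (.ref 664 387))))) (.both (.ref 933 199) (.both (.play 458 (.both (.ref 1015 258) (.play 459 (.ref 3 391)))) (.ref 961 322)))))) (.both (.play 584 (.both (.play 583 (.both (.play 393 (.both (.ref 941 199) (.both (.play 585 (.both (.ref 922 388) (.both (.ref 1031 388) (.both (.play 586 (.both (.play 650 (.ref 927 391)) (.both (.play 521 (.ref 75 392)) (.ref 33 518)))) (.play 521 (.ref 414 392)))))) (.play 394 (.ref 28 390))))) (.both (.play 393 (.both (.ref 941 199) (.both (.play 648 (.both (.play 585 (.both (.ref 922 388) (.play 521 (.ref 6 392)))) (.play 519 (.ref 4 391)))) (.play 394 (.ref 28 390))))) (.both (.play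 519 (.both (.play 585 (.both (.play 582 (.both (.play 646 (.ref 6 390)) (.ref 884 390))) (.play 518 (.both (.play 517 (.ref 67 452)) (.play 586 (.ref 3 518)))))) (.play 647 (.ref 5 391)))) (.play 519 (.ref 412 391)))))) (.both (.play 393 (.both (.play 520 (.ref 905 323)) (.play 394 (.ref 28 390)))) (.both (.play 393 (.both (.play 394 (.ref 28 390)) (.play 585 (.ref 416 392)))) (.play 583 (.ref 416 391)))))) (.both (.ref 940 198) (.both (.play 583 (.both (.play 584 (.both (.play 582 (.both (.play 518 (.both (.play 581 (.both (.play 646 (.both (.play 454 (.ref 5 390)) (.ref 562 513))) (.both (.play 454 (.both (.play 646 (.ref 5 390)) (.ref 109 452))) (.both (.play 580 (.both (.play 579 (.both (.ref 150 512) (.play 647 (.ref 23 579)))) (.both (.ref 252 513) (.ref 101 515)))) (.ref 99 515))))) (.both (.play 646 (.both (.play 454 (.ref 5 390)) (.play 645 (.ref 70 579)))) (.both (.play 646 (.both (.play 454 (.ref 5 390)) (.play 585 (.ref 81 517)))) (.play 517 (.ref 232 515)))))) (.both (.play 458 (.both (.play 649 (.both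 (.play 585 (.both (.ref 1032 391) (.ref 571 516))) (.both (.play 394 (.both (.play 585 (.both (.play 521 (.ref 5 393)) (.play 650 (.ref 0 582)))) (.play 395 (.ref 2 391)))) (.play 648 (.ref 41 581))))) (.play 459 (.ref 3 391)))) (.both (.play 585 (.both (.ref 513 389) (.ref 884 390))) (.both (.play 581 (.both (.play 517 (.both (.play 645 (.both (.ref 684 449) (.play 644 (.ref 1 580)))) (.play 516 (.ref 3 516)))) (.both (.play 580 (.ref 285 515)) (.both (.play 580 (.ref 102 515)) (.play 580 (.ref 25 579)))))) (.both (.play 581 (.both (.ref 615 513) (.both (.ref 252 514) (.both (.ref 303 579) (.ref 237 580))))) (.both (.ref 424 515) (.ref 906 515)))))))) (.both (.play 585 (.both (.ref 929 388) (.both (.ref 1031 388) (.play 520 (.ref 75 391))))) (.both (.ref 1030 388) (.play 520 (.ref 414 391)))))) (.both (.ref 485 388) (.both (.play 584 (.both (.ref 1030 388) (.both (.play 518 (.both (.play 585 (.both (.play 649 (.ref 413 392)) (.play 517 (.both (.play 454 (.ref 1 453)) (.play 582 (.ref 3 517)))))) (.ref 1029 390))) (.both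 (.play 458 (.both (.play 519 (.both (.play 648 (.ref 4 391)) (.play 518 (.ref 1 454)))) (.play 459 (.ref 3 391)))) (.play 648 (.both (.play 519 (.ref 4 391)) (.play 520 (.both (.play 456 (.ref 7 391)) (.ref 435 455))))))))) (.play 584 (.ref 416 391)))))) (.play 458 (.ref 1009 387))))))) (.both (.play 395 (.both (.play 459 (.both (.play 331 (.both (.play 267 (.ref 1028 8)) (.both (.play 332 (.both (.ref 956 9) (.both (.play 268 (.ref 337 139)) (.play 523 (.both (.ref 16 266) (.play 268 (.ref 5 267))))))) (.both (.play 267 (.ref 804 138)) (.both (.ref 1026 138) (.both (.ref 589 138) (.both (.ref 1025 202) (.play 523 (.both (.play 266 (.ref 351 202)) (.both (.ref 22 266) (.ref 16 266))))))))))) (.play 458 (.ref 3 391)))) (.both (.play 393 (.both (.ref 763 135) (.play 394 (.ref 28 391)))) (.both (.play 459 (.both (.play 523 (.both (.ref 1023 136) (.both (.play 331 (.both (.play 524 (.ref 639 202)) (.both (.ref 196 203) (.play 330 (.both (.play 332 (.both (.play 268 (.ref 5 267)) (.play 329 (.ref 1020 327)))) (.play 266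 (.ref 7 266))))))) (.both (.ref 795 200) (.both (.play 332 (.both (.play 331 (.both (.play 330 (.both (.play 266 (.ref 7 266)) (.play 329 (.ref 1020 327)))) (.play 268 (.ref 5 267)))) (.ref 435 330))) (.both (.ref 585 264) (.both (.ref 1019 264) (.ref 877 266)))))))) (.play 458 (.ref 3 391)))) (.both (.play 393 (.both (.ref 763 135) (.play 459 (.both (.play 458 (.ref 3 391)) (.play 394 (.ref 559 391)))))) (.play 394 (.ref 447 391))))))) (.both (.play 455 (.both (.play 394 (.both (.play 583 (.both (.play 393 (.both (.play 520 (.both (.play 458 (.both (.play 330 (.both (.play 265 (.both (.ref 1017 73) (.both (.ref 770 137) (.play 329 (.ref 244 264))))) (.play 331 (.ref 2 327)))) (.play 459 (.ref 0 391)))) (.both (.ref 1016 327) (.ref 974 391)))) (.play 454 (.ref 2 390)))) (.both (.play 393 (.both (.play 458 (.both (.play 328 (.both (.play 330 (.both (.play 266 (.both (.ref 287 200) (.play 202 (.ref 6 201)))) (.play 331 (.ref 2 327)))) (.play 519 (.ref 5 327)))) (.play 459 (.ref 3 391)))) (.play 454 (.ref 2 390)))) (.play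 584 (.ref 416 391))))) (.both (.play 393 (.ref 823 326)) (.play 458 (.ref 938 391))))) (.both (.play 454 (.both (.ref 1015 257) (.both (.ref 621 387) (.play 393 (.ref 90 389))))) (.both (.play 519 (.both (.play 583 (.ref 323 327)) (.ref 975 390))) (.both (.ref 1010 387) (.play 458 (.ref 1009 387))))))) (.both (.play 521 (.both (.play 520 (.both (.play 393 (.both (.play 394 (.both (.ref 1007 135) (.both (.ref 329 199) (.both (.play 331 (.ref 27 327)) (.both (.ref 336 327) (.ref 186 327)))))) (.both (.ref 1001 199) (.ref 1008 200)))) (.both (.play 584 (.both (.play 393 (.both (.play 394 (.both (.ref 1007 135) (.both (.ref 329 199) (.both (.ref 1006 263) (.both (.play 459 (.ref 42 327)) (.both (.ref 336 327) (.ref 496 327))))))) (.play 329 (.ref 5 328)))) (.both (.play 393 (.ref 175 327)) (.ref 360 391)))) (.both (.play 329 (.both (.play 330 (.both (.play 458 (.both (.play 266 (.ref 415 265)) (.play 459 (.ref 3 391)))) (.both (.play 519 (.both (.play 328 (.both (.play 583 (.ref 6 327)) (.play 331 (.ref 1 327)))) (.play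 458 (.both (.play 459 (.ref 3 391)) (.play 518 (.ref 2 454)))))) (.play 331 (.ref 65 327))))) (.both (.play 458 (.both (.play 519 (.both (.play 328 (.ref 398 263)) (.play 518 (.ref 2 454)))) (.play 459 (.ref 3 391)))) (.both (.play 393 (.both (.ref 952 263) (.play 265 (.ref 6 264)))) (.play 265 (.ref 508 264)))))) (.both (.play 584 (.both (.play 583 (.ref 193 263)) (.both (.ref 360 391) (.play 648 (.ref 86 392))))) (.ref 991 325)))))) (.both (.play 393 (.both (.ref 933 199) (.both (.ref 1001 199) (.play 585 (.both (.play 328 (.ref 7 328)) (.ref 118 388)))))) (.both (.play 459 (.both (.play 585 (.both (.play 393 (.both (.play 394 (.both (.play 330 (.ref 188 201)) (.ref 761 328))) (.both (.play 394 (.both (.play 395 (.both (.play 396 (.ref 1005 200)) (.both (.play 460 (.both (.play 586 (.both (.play 588 (.both (.play 524 (.both (.play 331 (.ref 644 267)) (.play 587 (.ref 49 520)))) (.both (.play 524 (.ref 645 267)) (.both (.play 587 (.both (.play 652 (.ref 927 393)) (.play 520 (.ref 3 520)))) (.play 587 (.ref 313 520))))))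 (.play 650 (.ref 4 393)))) (.play 392 (.ref 0 392)))) (.play 396 (.ref 211 328))))) (.play 330 (.ref 5 329)))) (.both (.play 584 (.ref 193 264)) (.ref 234 326))))) (.play 649 (.ref 7 392)))) (.both (.play 458 (.both (.play 395 (.both (.play 523 (.both (.play 587 (.both (.play 585 (.both (.play 394 (.both (.play 330 (.ref 7 330)) (.play 649 (.ref 5 393)))) (.play 588 (.ref 1004 392)))) (.both (.play 394 (.ref 61 330)) (.ref 76 394)))) (.play 524 (.ref 0 456)))) (.play 396 (.ref 2 392)))) (.play 391 (.ref 3 391)))) (.both (.play 458 (.ref 279 391)) (.play 458 (.both (.play 391 (.ref 3 391)) (.ref 1003 391))))))) (.both (.play 393 (.both (.ref 933 199) (.both (.ref 1001 199) (.ref 342 328)))) (.both (.play 458 (.both (.play 520 (.both (.ref 452 325) (.both (.play 585 (.ref 555 328)) (.play 584 (.both (.play 518 (.both (.ref 998 388) (.play 519 (.ref 2 454)))) (.both (.ref 556 390) (.both (.ref 554 391) (.ref 361 391)))))))) (.play 459 (.ref 3 391)))) (.play 585 (.ref 733 328)))))))) (.both (.play 458 (.both (.play 455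 (.both (.play 394 (.both (.ref 939 198) (.play 395 (.ref 2 391)))) (.ref 593 326))) (.play 459 (.ref 3 391)))) (.both (.play 585 (.both (.play 584 (.both (.play 583 (.both (.play 582 (.both (.play 581 (.both (.play 580 (.both (.play 647 (.both (.ref 661 259) (.play 648 (.ref 0 580)))) (.both (.play 579 (.ref 285 514)) (.both (.play 579 (.ref 102 514)) (.play 579 (.ref 25 578)))))) (.both (.ref 99 515) (.both (.ref 250 515) (.ref 24 580))))) (.both (.ref 252 515) (.both (.ref 34 517) (.play 586 (.ref 25 581)))))) (.both (.ref 511 324) (.both (.play 519 (.both (.play 647 (.both (.play 455 (.ref 17 327)) (.play 586 (.ref 81 518)))) (.both (.play 455 (.ref 507 327)) (.play 586 (.ref 506 518))))) (.both (.ref 514 388) (.ref 424 516)))))) (.both (.play 520 (.ref 592 263)) (.both (.play 520 (.both (.play 583 (.ref 193 263)) (.both (.ref 96 327) (.play 648 (.ref 457 391))))) (.ref 736 391))))) (.both (.play 521 (.both (.play 520 (.both (.play 328 (.ref 4 328)) (.play 584 (.both (.play 586 (.both (.play 583 (.both (.ref 595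 390) (.play 582 (.both (.ref 100 515) (.both (.ref 967 516) (.ref 101 517)))))) (.both (.play 583 (.both (.play 647 (.ref 464 390)) (.ref 79 519))) (.play 587 (.ref 162 519))))) (.both (.ref 734 391) (.play 586 (.both (.play 583 (.both (.ref 127 452) (.both (.ref 109 454) (.both (.ref 969 515) (.both (.ref 114 516) (.ref 99 517)))))) (.both (.ref 216 516) (.play 587 (.ref 162 519)))))))))) (.both (.ref 997 326) (.both (.play 393 (.both (.ref 443 326) (.ref 234 326))) (.play 328 (.ref 698 328)))))) (.both (.play 521 (.both (.ref 997 326) (.play 649 (.ref 7 392)))) (.both (.play 521 (.ref 733 328)) (.play 649 (.both (.play 521 (.ref 996 388)) (.both (.play 584 (.both (.play 583 (.both (.play 586 (.both (.ref 513 390) (.both (.ref 496 519) (.ref 237 582)))) (.both (.ref 495 516) (.both (.ref 465 516) (.play 650 (.ref 259 581)))))) (.play 520 (.ref 4 392)))) (.both (.play 521 (.ref 343 392)) (.play 521 (.both (.play 457 (.ref 7 392)) (.ref 376 456)))))))))))) (.both (.play 520 (.both (.ref 370 263) (.both (.ref 197 263)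 (.both (.ref 574 323) (.both (.ref 991 325) (.play 519 (.both (.play 583 (.ref 135 327)) (.ref 990 389)))))))) (.play 519 (.both (.play 520 (.both (.play 583 (.ref 178 327)) (.ref 990 389))) (.both (.play 455 (.both (.ref 502 326) (.ref 975 390))) (.both (.play 583 (.ref 323 327)) (.play 518 (.ref 70 452)))))))))))))))
 (.seq (.one (.play 257 (.both (.ref 1006 0) (.ref 502 64))))
 (.one (.play 196 (.both (.play 197 (.both (.ref 171 1) (.both (.ref 293 129) (.both (.ref 386 129) (.both (.play 262 (.ref 42 130)) (.ref 160 130)))))) (.play 256 (.ref 1 192))))))))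
 (.seq (.seq (.one (.play 195 (.both (.ref 502 2) (.play 194 (.ref 66 128)))))
 (.one (.both (.play 5 (.ref 5 4)) (.ref 998 64))))
 (.seq (.one (.play 259 (.both (.play 2 (.ref 4 2)) (.play 192 (.ref 0 192)))))
 (.seq (.one (.play 263 (.both (.play 261 (.both (.play 260 (.both (.play 262 (.both (.play 196 (.both (.ref 949 4) (.play 195 (.ref 3 195)))) (.both (.play 327 (.both (.ref 1044 67) (.play 328 (.ref 0 260)))) (.ref 115 192)))) (.both (.play 262 (.both (.play 324 (.ref 91 67)) (.both (.play 69 (.ref 75 68)) (.ref 252 193)))) (.both (.play 324 (.ref 135 68)) (.play 262 (.ref 594 128)))))) (.both (.ref 636 4) (.both (.ref 930 4) (.both (.ref 535 65) (.both (.play 262 (.both (.play 326 (.ref 246 69)) (.play 196 (.ref 232 194)))) (.play 325 (.both (.play 196 (.both (.play 132 (.ref 61 68)) (.play 262 (.ref 232 194)))) (.both (.ref 16 68) (.ref 602 130)))))))))) (.both (.play 199 (.ref 1043 3)) (.both (.ref 611 6) (.play 264 (.ref 416 71)))))))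
 (.one (.play 65 (.both (.play 1 (.ref 244 0)) (.play 320 (.ref 5 64))))))))))
 (.seq (.seq (.seq (.seq (.one (.play 260 (.both (.ref 1046 4) (.both (.play 259 (.both (.play 323 (.ref 86 67)) (.play 258 (.ref 49 192)))) (.ref 1016 67)))))
 (.one (.both (.play 2 (.ref 5 1)) (.play 321 (.ref 7 64)))))
 (.seq (.one (.both (.ref 115 0) (.play 7 (.ref 2 4))))
 (.seq (.one (.play 321 (.both (.play 65 (.ref 533 0)) (.both (.ref 534 64) (.ref 76 128)))))
 (.one (.play 263 (.both (.play 133 (.both (.play 260 (.both (.play 324 (.ref 617 4)) (.both (.play 324 (.both (.play 69 (.ref 6 68)) (.play 262 (.ref 207 195)))) (.play 262 (.ref 1049 192))))) (.both (.ref 636 4) (.both (.ref 930 4) (.both (.ref 1050 4) (.both (.ref 609 64) (.both (.play 260 (.both (.play 324 (.ref 135 68)) (.both (.play 69 (.both (.play 324 (.ref 6 68)) (.play 262 (.both (.play 326 (.ref 4 69)) (.play 199 (.ref 2 196)))))) (.play 262 (.ref 1049 192))))) (.play 262 (.both (.play 326 (.ref 246 69)) (.play 260 (.ref 1049 192))))))))))) (.both (.play 327 (.ref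 1043 67)) (.play 264 (.both (.play 328 (.ref 1048 71)) (.play 262 (.ref 49 196)))))))))))
 (.seq (.seq (.one (.both (.ref 730 0) (.play 197 (.ref 2 193))))
 (.one (.play 323 (.both (.play 326 (.both (.ref 661 2) (.ref 652 195))) (.both (.play 322 (.ref 1052 65)) (.both (.play 322 (.both (.ref 105 256) (.play 262 (.ref 2 258)))) (.both (.play 322 (.both (.ref 142 256) (.play 262 (.ref 2 258)))) (.ref 106 256))))))))
 (.seq (.one (.play 193 (.both (.ref 789 0) (.both (.ref 347 64) (.both (.play 449 (.ref 533 128)) (.play 449 (.both (.ref 95 128) (.ref 8 193))))))))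
 (.seq (.one (.play 325 (.both (.play 323 (.both (.play 322 (.both (.ref 661 1) (.both (.play 321 (.ref 102 256)) (.play 261 (.ref 90 257))))) (.play 387 (.ref 6 131)))) (.play 389 (.ref 4 132)))))
 (.one (.play 261 (.both (.play 260 (.both (.play 68 (.both (.play 4 (.ref 7 4)) (.play 259 (.both (.play 262 (.both (.ref 509 66) (.ref 377 131))) (.both (.ref 106 192) (.both (.ref 100 192) (.play 198 (.ref 70 193)))))))) (.play 324 (.ref 6 68)))) (.both (.play 68 (.ref 368 4)) (.both (.ref 534 4) (.play 324 (.ref 159 68)))))))))))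
 (.seq (.seq (.seq (.one (.play 388 (.both (.ref 986 4) (.both (.ref 1053 64) (.play 452 (.ref 135 196))))))
 (.one (.play 193 (.both (.ref 789 0) (.both (.ref 15 128) (.ref 95 128))))))
 (.seq (.one (.play 65 (.both (.play 256 (.ref 94 0)) (.play 66 (.ref 17 1)))))
 (.seq (.one (.play 129 (.both (.play 65 (.ref 220 0)) (.play 130 (.ref 17 65)))))
 (.one (.play 257 (.both (.play 193 (.both (.ref 1060 0) (.both (.ref 266 64) (.both (.play 256 (.both (.ref 1059 64) (.play 192 (.ref 7 192)))) (.ref 15 128))))) (.both (.ref 789 64) (.both (.ref 578 128) (.ref 534 192)))))))))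
 (.seq (.seq (.one (.play 68 (.both (.ref 765 1) (.play 132 (.ref 23 64)))))
 (.one (.play 68 (.both (.ref 340 1) (.play 132 (.ref 23 64))))))
 (.seq (.one (.play 129 (.both (.play 65 (.both (.play 1 (.ref 6 0)) (.play 130 (.ref 7 65)))) (.play 386 (.ref 7 129)))))
 (.seq (.one (.play 64 (.both (.play 322 (.both (.ref 637 0) (.play 386 (.ref 4 129)))) (.play 128 (.ref 7 64)))))
 (.one (.play 258 (.both (.ref 273 1) (.both (.ref 788 65) (.both (.ref 1065 129) (.both (.play 451 (.ref 750 130)) (.play 257 (.both (.play 259 (.both (.play 195 (.ref 5 194)) (.play 260 (.ref 28 256)))) (.play 193 (.ref 7 193))))))))))))))))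
 (.seq (.seq (.seq (.seq (.seq (.one (.play 129 (.both (.play 258 (.ref 1048 1)) (.play 128 (.ref 1 64)))))
 (.one (.play 132 (.both (.ref 391 3) (.both (.play 131 (.ref 507 67)) (.play 387 (.both (.play 196 (.ref 5 131)) (.ref 198 192))))))))
 (.seq (.one (.play 197 (.both (.play 133 (.both (.play 69 (.ref 533 4)) (.both (.ref 196 5) (.ref 993 64)))) (.play 389 (.ref 6 196)))))
 (.seq (.one (.play 261 (.both (.ref 1069 0) (.play 324 (.ref 5 260)))))
 (.one (.both (.play 3 (.ref 5 2)) (.play 132 (.both (.play 193 (.both (.play 260 (.both (.play 259 (.ref 459 65)) (.ref 976 65))) (.play 192 (.ref 1 128)))) (.both (.play 133 (.ref 671 65)) (.ref 379 65)))))))))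
 (.seq (.seq (.one (.play 393 (.both (.play 520 (.both (.play 328 (.both (.play 583 (.both (.play 394 (.ref 988 7)) (.play 519 (.ref 6 327)))) (.both (.play 329 (.ref 1071 262)) (.both (.ref 1013 322) (.play 519 (.both (.play 521 (.both (.play 394 (.both (.play 331 (.ref 27 327)) (.play 518 (.both (.ref 144 386) (.both (.ref 1011 389) (.both (.ref 114 451) (.ref 99 452))))))) (.play 585 (.ref 4 328)))) (.play 583 (.ref 6 327)))))))) (.both (.play 329 (.ref 188 200)) (.both (.play 455 (.both (.ref 674 324) (.play 394 (.ref 211 326)))) (.play 584 (.both (.play 455 (.both (.play 394 (.ref 211 326)) (.play 648 (.both (.play 456 (.ref 7 391)) (.ref 460 455))))) (.play 329 (.ref 5 328)))))))) (.both (.play 394 (.both (.play 521 (.both (.play 520 (.both (.play 329 (.both (.ref 1070 4) (.both (.play 457 (.both (.play 330 (.both (.play 266 (.ref 5 265)) (.play 331 (.ref 2 327)))) (.ref 233 326))) (.play 265 (.ref 244 264))))) (.both (.ref 1008 200) (.both (.ref 1067 326) (.play 455 (.both (.play 583 (.both (.play 522 (.both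 (.play 519 (.ref 91 326)) (.play 523 (.ref 3 455)))) (.both (.play 519 (.ref 184 327)) (.play 584 (.ref 414 391))))) (.play 454 (.ref 1 390)))))))) (.both (.play 520 (.both (.ref 1068 197) (.both (.ref 620 324) (.ref 1067 326)))) (.both (.ref 853 199) (.play 585 (.both (.ref 897 323) (.ref 1032 327))))))) (.both (.ref 336 327) (.play 455 (.ref 28 390))))) (.both (.play 394 (.both (.play 455 (.both (.play 458 (.both (.play 522 (.both (.ref 1066 72) (.both (.play 330 (.both (.ref 787 137) (.both (.ref 196 202) (.ref 598 327)))) (.both (.play 329 (.ref 345 201)) (.play 457 (.ref 890 327)))))) (.both (.play 330 (.both (.ref 777 135) (.both (.ref 397 136) (.play 391 (.ref 26 327))))) (.both (.play 522 (.both (.play 330 (.both (.ref 814 201) (.ref 612 263))) (.both (.ref 824 199) (.both (.ref 1064 200) (.play 457 (.ref 890 327)))))) (.play 459 (.ref 41 391)))))) (.both (.play 454 (.ref 67 389)) (.play 454 (.ref 57 389))))) (.both (.ref 395 327) (.both (.play 395 (.ref 211 327)) (.play 455 (.ref 70 389)))))) (.both (.play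 394 (.both (.play 458 (.both (.ref 816 71) (.play 459 (.ref 0 391)))) (.both (.play 331 (.ref 27 327)) (.both (.ref 1063 327) (.both (.ref 1062 327) (.ref 766 327)))))) (.both (.play 455 (.both (.play 453 (.both (.play 517 (.both (.play 581 (.both (.ref 1061 132) (.both (.play 389 (.both (.ref 1058 132) (.both (.ref 790 132) (.both (.play 325 (.ref 533 260)) (.play 645 (.ref 533 324)))))) (.both (.ref 1057 192) (.both (.play 389 (.both (.ref 788 196) (.both (.ref 789 196) (.ref 76 388)))) (.both (.ref 636 324) (.both (.play 645 (.both (.play 389 (.ref 533 324)) (.both (.ref 534 388) (.play 708 (.ref 159 452))))) (.ref 1056 384)))))))) (.both (.play 581 (.both (.play 389 (.both (.ref 788 196) (.both (.ref 789 196) (.both (.ref 1055 257) (.play 325 (.ref 13 324)))))) (.both (.ref 1054 196) (.both (.ref 651 258) (.both (.ref 643 260) (.both (.play 645 (.both (.play 644 (.both (.ref 1053 320) (.play 708 (.ref 6 452)))) (.both (.play 709 (.ref 220 388)) (.both (.play 709 (.ref 533 388)) (.play 709 (.ref 13 452)))))) (.both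 (.ref 579 322) (.both (.ref 640 322) (.ref 636 324))))))))) (.both (.ref 1051 256) (.both (.ref 1047 260) (.both (.ref 1045 320) (.ref 1042 324))))))) (.play 454 (.ref 2 389)))) (.both (.ref 1041 198) (.both (.ref 1040 262) (.both (.play 394 (.ref 211 326)) (.play 394 (.ref 447 390))))))) (.both (.play 520 (.both (.ref 366 195) (.both (.play 329 (.ref 337 200)) (.play 329 (.ref 188 200))))) (.both (.play 394 (.both (.play 457 (.both (.ref 179 199) (.both (.ref 932 199) (.play 520 (.both (.play 455 (.both (.play 519 (.both (.play 583 (.ref 184 327)) (.play 518 (.ref 71 453)))) (.play 454 (.ref 2 390)))) (.play 584 (.ref 86 328))))))) (.both (.ref 515 326) (.both (.ref 766 327) (.play 455 (.ref 70 389)))))) (.play 394 (.both (.play 455 (.both (.play 519 (.both (.play 518 (.both (.play 517 (.both (.play 520 (.both (.ref 248 324) (.ref 316 389))) (.play 516 (.ref 2 452)))) (.play 458 (.both (.play 459 (.ref 0 391)) (.play 457 (.ref 1 454)))))) (.play 583 (.ref 86 327)))) (.play 454 (.ref 1 390)))) (.both (.ref 515 326)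 (.play 331 (.ref 27 327))))))))))))))
 (.one (.play 324 (.both (.ref 309 1) (.both (.play 325 (.ref 35 256)) (.ref 237 320))))))
 (.seq (.one (.play 69 (.both (.play 70 (.ref 3 2)) (.ref 24 64))))
 (.seq (.one (.both (.play 4 (.ref 520 0)) (.both (.play 68 (.ref 540 0)) (.both (.play 2 (.ref 946 0)) (.play 66 (.ref 938 0))))))
 (.one (.play 259 (.both (.play 132 (.both (.ref 1046 3) (.play 194 (.ref 2 128)))) (.both (.ref 877 2) (.both (.play 260 (.both (.play 324 (.ref 146 67)) (.play 194 (.ref 0 192)))) (.play 194 (.ref 26 128)))))))))))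
 (.seq (.seq (.seq (.one (.play 195 (.both (.ref 705 2) (.both (.ref 588 3) (.both (.play 130 (.ref 351 66)) (.both (.ref 1022 66) (.ref 755 128)))))))
 (.one (.both (.ref 309 1) (.play 384 (.ref 1 320)))))
 (.seq (.one (.play 193 (.both (.ref 1060 0) (.ref 8 193))))
 (.seq (.one (.play 257 (.both (.ref 1058 0) (.both (.ref 789 64) (.both (.play 193 (.ref 97 128)) (.both (.ref 266 128) (.play 513 (.ref 220 192))))))))
 (.one (.play 389 (.both (.play 453 (.both (.play 325 (.both (.ref 1080 4) (.both (.play 517 (.both (.ref 1079 68) (.both (.ref 96 260) (.play 580 (.ref 159 324))))) (.both (.play 261 (.both (.play 454 (.both (.play 197 (.both (.play 132 (.ref 351 68)) (.play 452 (.both (.play 388 (.ref 6 196)) (.play 455 (.ref 2 388)))))) (.play 518 (.ref 4 261)))) (.both (.play 197 (.ref 269 132)) (.both (.play 324 (.both (.ref 1059 132) (.ref 915 260))) (.ref 634 196))))) (.both (.play 261 (.both (.ref 347 132) (.both (.play 196 (.ref 351 132)) (.play 452 (.both (.play 454 (.both (.play 518 (.ref 4 261)) (.play 455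 (.ref 1049 384)))) (.play 516 (.ref 6 260))))))) (.both (.ref 636 196) (.both (.play 517 (.both (.play 518 (.ref 639 196)) (.both (.ref 534 260) (.play 580 (.ref 159 324))))) (.ref 1056 256)))))))) (.both (.play 517 (.both (.ref 1061 68) (.both (.ref 1057 128) (.both (.ref 1054 132) (.both (.ref 651 194) (.both (.play 581 (.both (.ref 1055 257) (.both (.play 645 (.ref 220 324)) (.both (.play 645 (.ref 533 324)) (.play 645 (.ref 13 388)))))) (.both (.ref 579 258) (.both (.ref 640 258) (.ref 636 260))))))))) (.both (.ref 1051 192) (.both (.ref 1047 196) (.both (.ref 1045 256) (.ref 1042 260))))))) (.play 390 (.ref 2 325))))))))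
 (.seq (.seq (.one (.play 387 (.both (.play 194 (.both (.ref 1017 2) (.both (.ref 770 66) (.play 258 (.both (.play 386 (.ref 6 193)) (.play 451 (.ref 7 194))))))) (.play 388 (.ref 0 320)))))
 (.one (.play 259 (.both (.ref 1082 0) (.play 260 (.ref 2 256))))))
 (.seq (.one (.play 261 (.both (.play 196 (.ref 4 4)) (.ref 896 64))))
 (.seq (.one (.both (.play 259 (.ref 265 2)) (.play 65 (.ref 1 64))))
 (.one (.play 65 (.both (.play 257 (.ref 5 1)) (.play 68 (.ref 1 64))))))))))
 (.seq (.seq (.seq (.seq (.one (.play 194 (.both (.play 130 (.both (.play 66 (.ref 168 2)) (.ref 1086 128))) (.both (.play 196 (.both (.play 132 (.ref 188 3)) (.play 193 (.ref 1 192)))) (.both (.play 130 (.ref 169 2)) (.play 196 (.ref 1085 128)))))))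
 (.one (.play 4 (.both (.play 1 (.ref 1 0)) (.play 68 (.ref 5 3))))))
 (.seq (.one (.play 258 (.both (.play 257 (.both (.ref 381 0) (.play 193 (.ref 7 193)))) (.both (.play 194 (.ref 269 129)) (.both (.play 194 (.ref 533 129)) (.play 194 (.ref 18 130)))))))
 (.seq (.one (.play 259 (.both (.ref 774 0) (.ref 450 67))))
 (.one (.play 323 (.both (.play 324 (.both (.play 322 (.both (.ref 349 2) (.play 321 (.ref 1 320)))) (.both (.play 260 (.ref 337 131)) (.both (.play 322 (.ref 1085 256)) (.ref 1090 256))))) (.both (.ref 1089 1) (.both (.ref 1087 128) (.both (.ref 1034 130) (.both (.ref 589 130) (.play 515 (.both (.play 516 (.ref 639 194)) (.both (.ref 1022 194) (.both (.ref 583 195) (.play 322 (.both (.play 258 (.ref 7 258)) (.play 579 (.both (.ref 1088 320) (.play 642 (.ref 159 386))))))))))))))))))))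
 (.seq (.seq (.one (.play 196 (.both (.play 194 (.both (.play 258 (.ref 6 2)) (.play 193 (.ref 874 128)))) (.play 260 (.ref 4 3)))))
 (.one (.play 259 (.both (.play 323 (.ref 97 2)) (.both (.ref 39 3) (.ref 1092 64))))))
 (.seq (.one (.both (.play 66 (.ref 351 2)) (.both (.play 132 (.ref 866 64)) (.play 130 (.ref 368 66)))))
 (.seq (.one (.play 259 (.both (.ref 841 0) (.both (.play 195 (.ref 804 66)) (.both (.play 451 (.ref 1094 128)) (.play 322 (.ref 26 256)))))))
 (.one (.play 452 (.both (.play 388 (.both (.play 516 (.both (.play 325 (.both (.ref 1070 0) (.both (.play 324 (.ref 866 257)) (.play 389 (.ref 1036 321))))) (.both (.play 324 (.both (.play 387 (.both (.ref 273 67) (.play 389 (.ref 1 385)))) (.both (.play 259 (.ref 351 195)) (.play 387 (.ref 851 321))))) (.both (.ref 776 193) (.both (.play 324 (.ref 1094 193)) (.play 387 (.both (.ref 342 323) (.play 389 (.ref 1 385))))))))) (.both (.ref 1095 65) (.both (.play 516 (.both (.ref 1077 129) (.both (.ref 776 193) (.both (.ref 830 193) (.both (.play 580 (.both (.ref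 584 259) (.both (.ref 583 260) (.both (.ref 1092 385) (.both (.ref 19 387) (.play 643 (.ref 159 387))))))) (.ref 1093 321)))))) (.play 387 (.ref 946 385)))))) (.both (.play 451 (.ref 955 128)) (.play 451 (.ref 671 384))))))))))
 (.seq (.seq (.seq (.one (.both (.play 66 (.ref 128 0)) (.play 259 (.ref 5 3))))
 (.one (.play 323 (.both (.ref 850 2) (.both (.play 324 (.both (.play 260 (.ref 337 131)) (.both (.play 322 (.ref 542 256)) (.play 515 (.both (.play 322 (.both (.play 258 (.ref 7 258)) (.play 384 (.ref 1 320)))) (.play 260 (.ref 5 259))))))) (.both (.play 322 (.both (.ref 1064 129) (.play 324 (.ref 542 256)))) (.both (.play 324 (.both (.play 260 (.ref 617 131)) (.both (.play 322 (.ref 542 256)) (.play 260 (.ref 1097 256))))) (.both (.ref 1035 129) (.both (.play 259 (.ref 804 130)) (.ref 1034 130))))))))))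
 (.seq (.one (.play 456 (.both (.play 517 (.both (.play 326 (.both (.play 392 (.both (.ref 1098 5) (.both (.play 457 (.both (.play 328 (.both (.ref 712 135) (.both (.play 327 (.both (.play 263 (.both (.play 518 (.ref 5 262)) (.play 520 (.ref 7 263)))) (.play 329 (.ref 1 325)))) (.play 521 (.ref 246 264))))) (.play 455 (.ref 3 389)))) (.both (.ref 825 197) (.both (.ref 1076 261) (.play 455 (.ref 938 389))))))) (.play 581 (.ref 5 325)))) (.both (.play 581 (.ref 905 320)) (.both (.play 455 (.ref 823 388)) (.play 455 (.ref 56 388)))))) (.both (.play 392 (.both (.ref 1091 5) (.both (.play 391 (.ref 823 324)) (.play 391 (.ref 559 388))))) (.both (.play 392 (.both (.play 391 (.both (.ref 813 133) (.play 452 (.ref 1 388)))) (.both (.ref 825 197) (.both (.play 391 (.ref 823 324)) (.play 391 (.ref 447 388)))))) (.both (.play 455 (.ref 1009 385)) (.play 392 (.ref 1075 389))))))))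
 (.seq (.one (.both (.play 3 (.ref 2 0)) (.play 132 (.ref 0 64))))
 (.one (.play 455 (.both (.play 519 (.both (.ref 1096 6) (.both (.play 457 (.own 391 (.both (.play 517 (.both (.play 518 (.both (.play 516 (.both (.ref 661 195) (.both (.play 515 (.ref 285 450)) (.play 583 (.ref 563 514))))) (.play 520 (.ref 2 453)))) (.both (.play 453 (.both (.play 583 (.both (.play 581 (.both (.play 580 (.both (.play 644 (.ref 617 324)) (.both (.play 644 (.both (.play 389 (.ref 6 388)) (.play 582 (.ref 128 515)))) (.play 582 (.ref 522 512))))) (.both (.ref 636 324) (.both (.ref 930 324) (.both (.ref 1050 324) (.both (.ref 609 384) (.both (.ref 604 384) (.play 582 (.both (.ref 629 389) (.play 580 (.ref 522 512))))))))))) (.play 647 (.ref 5 391)))) (.both (.play 454 (.ref 128 388)) (.play 454 (.both (.play 452 (.ref 1100 388)) (.play 393 (.ref 2 389))))))) (.both (.play 454 (.both (.play 453 (.both (.ref 142 387) (.play 516 (.ref 1 452)))) (.play 518 (.ref 1 453)))) (.play 518 (.ref 420 453)))))) (.both (.ref 243 261) (.ref 975 390)))))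 (.play 583 (.ref 86 327))))) (.both (.play 519 (.both (.ref 1096 6) (.both (.play 583 (.ref 86 327)) (.ref 664 386)))) (.both (.ref 1099 2) (.both (.play 519 (.both (.ref 1096 6) (.both (.play 393 (.both (.play 584 (.both (.play 520 (.both (.play 329 (.ref 5 328)) (.ref 233 389))) (.both (.play 520 (.both (.play 329 (.ref 5 328)) (.ref 670 391))) (.play 583 (.ref 412 391))))) (.play 394 (.ref 447 390)))) (.play 583 (.ref 86 327))))) (.both (.play 394 (.both (.play 458 (.both (.ref 1091 7) (.both (.play 330 (.both (.play 459 (.both (.ref 712 137) (.play 457 (.ref 3 391)))) (.both (.ref 1087 135) (.both (.play 523 (.both (.play 459 (.both (.play 266 (.ref 4 266)) (.play 457 (.ref 3 391)))) (.both (.ref 1084 326) (.play 522 (.ref 867 327))))) (.play 522 (.both (.ref 802 263) (.ref 598 327))))))) (.both (.ref 825 199) (.play 457 (.ref 938 391)))))) (.both (.play 393 (.ref 1078 70)) (.both (.play 393 (.ref 823 326)) (.play 458 (.ref 1075 391)))))) (.both (.play 393 (.both (.ref 1081 64) (.both (.play 520 (.both (.play 394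 (.both (.ref 1083 71) (.play 395 (.ref 1 391)))) (.both (.play 584 (.both (.ref 234 325) (.play 648 (.ref 7 391)))) (.ref 1016 327)))) (.both (.ref 1041 198) (.play 394 (.ref 447 390)))))) (.both (.play 393 (.both (.ref 1081 64) (.both (.ref 1040 262) (.play 454 (.ref 71 389))))) (.both (.play 394 (.both (.play 393 (.ref 1078 70)) (.both (.play 458 (.both (.play 522 (.both (.ref 1077 135) (.both (.ref 776 199) (.both (.ref 830 199) (.both (.ref 585 263) (.ref 1019 263)))))) (.both (.ref 825 199) (.both (.ref 1076 263) (.play 519 (.both (.ref 502 326) (.play 457 (.ref 671 390)))))))) (.both (.play 393 (.ref 823 326)) (.play 458 (.ref 1075 391)))))) (.both (.play 454 (.both (.ref 572 258) (.both (.play 583 (.both (.play 519 (.both (.play 328 (.ref 5 327)) (.ref 157 384))) (.both (.play 393 (.both (.play 584 (.both (.play 520 (.ref 398 327)) (.both (.play 520 (.ref 1048 327)) (.play 582 (.both (.ref 908 387) (.both (.ref 907 387) (.both (.play 646 (.both (.play 518 (.ref 970 387)) (.both (.play 518 (.ref 854 389)) (.play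 645 (.ref 58 579))))) (.both (.play 581 (.both (.ref 109 452) (.both (.play 580 (.ref 285 515)) (.ref 182 579)))) (.both (.ref 741 513) (.ref 424 515)))))))))) (.play 394 (.ref 1 390)))) (.both (.ref 611 326) (.play 584 (.ref 416 391)))))) (.play 393 (.ref 71 389))))) (.both (.play 454 (.both (.play 457 (.both (.ref 1015 257) (.both (.ref 1074 389) (.play 394 (.both (.play 393 (.ref 2 390)) (.play 458 (.ref 938 391))))))) (.both (.ref 572 258) (.play 393 (.ref 71 389))))) (.both (.ref 962 321) (.play 583 (.both (.play 519 (.ref 905 322)) (.both (.play 584 (.both (.play 582 (.both (.play 649 (.both (.play 650 (.both (.play 651 (.both (.ref 1073 328) (.play 648 (.ref 3 583)))) (.play 585 (.ref 0 582)))) (.both (.play 648 (.both (.play 520 (.ref 7 391)) (.play 581 (.ref 0 581)))) (.play 585 (.ref 927 390))))) (.both (.ref 1031 387) (.both (.play 646 (.both (.ref 624 387) (.both (.play 518 (.both (.play 645 (.both (.play 454 (.ref 398 389)) (.play 585 (.ref 1 581)))) (.both (.play 454 (.both (.ref 534 389) (.play 391 (.ref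 5 390)))) (.both (.ref 628 453) (.play 585 (.ref 81 517)))))) (.play 645 (.ref 68 579))))) (.play 585 (.both (.ref 425 389) (.ref 486 390))))))) (.both (.play 585 (.both (.ref 891 387) (.both (.ref 922 388) (.both (.ref 305 389) (.both (.ref 920 389) (.play 586 (.both (.play 522 (.both (.play 650 (.both (.ref 910 389) (.play 651 (.ref 0 583)))) (.play 523 (.ref 2 519)))) (.both (.play 587 (.ref 35 518)) (.both (.play 523 (.ref 27 519)) (.play 587 (.ref 25 582))))))))))) (.both (.ref 921 388) (.play 520 (.ref 414 391)))))) (.both (.ref 611 326) (.play 584 (.ref 416 391))))))))))))))))))))))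
 (.seq (.seq (.one (.play 259 (.both (.play 194 (.both (.play 258 (.ref 6 2)) (.play 132 (.both (.play 323 (.ref 5 67)) (.play 133 (.ref 58 128)))))) (.both (.ref 12 2) (.ref 108 66)))))
 (.one (.play 196 (.both (.ref 85 0) (.both (.ref 1102 1) (.both (.ref 360 3) (.ref 943 4)))))))
 (.seq (.one (.both (.ref 562 0) (.play 8 (.ref 2 4))))
 (.seq (.one (.play 257 (.both (.play 66 (.both (.play 67 (.ref 42 0)) (.play 2 (.ref 5 1)))) (.ref 76 64))))
 (.one (.play 133 (.both (.ref 118 0) (.both (.ref 11 4) (.ref 202 4)))))))))))))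
 (.seq (.seq (.seq (.seq (.seq (.seq (.seq (.one (.play 198 (.both (.play 262 (.ref 4 5)) (.play 199 (.both (.play 196 (.both (.ref 377 68) (.both (.ref 115 128) (.ref 223 130)))) (.both (.play 132 (.ref 259 130)) (.both (.ref 164 132) (.play 200 (.ref 162 132)))))))))
 (.one (.play 131 (.both (.ref 677 2) (.play 130 (.ref 68 64))))))
 (.seq (.one (.play 260 (.both (.play 259 (.ref 507 3)) (.play 196 (.ref 176 128)))))
 (.one (.play 196 (.both (.play 322 (.both (.play 259 (.both (.play 323 (.both (.play 132 (.ref 337 3)) (.both (.ref 1109 128) (.play 324 (.ref 162 256))))) (.both (.play 323 (.both (.play 132 (.ref 337 3)) (.both (.play 387 (.both (.play 132 (.ref 5 131)) (.ref 557 193))) (.play 324 (.both (.play 388 (.both (.play 260 (.both (.play 452 (.ref 7 195)) (.play 261 (.ref 2 257)))) (.play 389 (.ref 0 321)))) (.both (.ref 47 193) (.both (.ref 51 257) (.ref 315 257)))))))) (.both (.play 323 (.both (.ref 1109 128) (.both (.play 387 (.both (.play 132 (.ref 5 131)) (.ref 702 194))) (.play 256 (.both (.play 258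 (.ref 2 192)) (.play 324 (.ref 3 256))))))) (.play 258 (.ref 66 192)))))) (.play 386 (.ref 4 129)))) (.play 194 (.ref 3 128)))))))
 (.seq (.seq (.one (.play 134 (.both (.play 262 (.both (.play 263 (.both (.play 199 (.ref 398 6)) (.both (.play 199 (.ref 627 6)) (.play 133 (.both (.ref 909 64) (.play 132 (.ref 2 68))))))) (.both (.play 198 (.both (.play 70 (.ref 5 6)) (.play 326 (.both (.play 133 (.ref 635 69)) (.both (.play 390 (.ref 533 69)) (.ref 85 130)))))) (.both (.play 198 (.ref 244 6)) (.play 199 (.both (.play 198 (.ref 6 6)) (.play 263 (.both (.play 326 (.ref 6 70)) (.ref 450 71))))))))) (.play 73 (.ref 1 70)))))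
 (.one (.both (.play 65 (.ref 269 0)) (.both (.ref 22 64) (.both (.play 385 (.ref 269 64)) (.ref 16 64))))))
 (.seq (.one (.play 323 (.both (.ref 806 0) (.both (.play 131 (.ref 805 2)) (.both (.play 131 (.ref 804 2)) (.both (.play 131 (.ref 1112 2)) (.both (.ref 636 66) (.both (.play 387 (.ref 219 66)) (.ref 803 128)))))))))
 (.seq (.one (.play 66 (.both (.play 2 (.ref 5 1)) (.play 67 (.ref 0 64)))))
 (.one (.play 194 (.both (.play 130 (.both (.play 195 (.both (.play 66 (.both (.play 2 (.ref 6 1)) (.play 323 (.ref 46 66)))) (.play 260 (.ref 45 192)))) (.play 385 (.ref 5 129)))) (.both (.play 130 (.ref 337 1)) (.play 260 (.ref 759 192))))))))))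
 (.seq (.seq (.seq (.one (.play 66 (.both (.ref 483 0) (.play 134 (.ref 23 66)))))
 (.one (.play 259 (.both (.play 195 (.both (.ref 403 2) (.both (.ref 401 2) (.both (.play 386 (.ref 617 66)) (.play 387 (.both (.ref 287 129) (.both (.ref 534 130) (.ref 264 194)))))))) (.play 260 (.ref 2 256))))))
 (.seq (.one (.play 458 (.both (.ref 881 7) (.both (.play 394 (.both (.play 522 (.both (.ref 850 73) (.both (.ref 797 137) (.both (.play 330 (.both (.play 523 (.ref 639 201)) (.both (.ref 266 201) (.ref 998 326)))) (.both (.ref 585 263) (.both (.play 586 (.ref 219 265)) (.ref 120 325))))))) (.both (.ref 800 70) (.both (.ref 799 71) (.ref 719 390))))) (.both (.play 457 (.ref 411 71)) (.both (.play 457 (.both (.play 455 (.both (.ref 290 135) (.both (.ref 844 387) (.ref 182 453)))) (.play 459 (.ref 3 391)))) (.both (.play 457 (.both (.play 455 (.both (.ref 1117 135) (.both (.play 454 (.both (.ref 1116 387) (.ref 24 453))) (.play 394 (.ref 209 389))))) (.play 459 (.ref 3 391)))) (.both (.play 584 (.both (.play 457 (.both (.play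 455 (.both (.ref 283 135) (.both (.ref 1108 388) (.play 394 (.ref 209 389))))) (.play 459 (.ref 3 391)))) (.both (.play 520 (.both (.ref 1115 199) (.both (.ref 39 328) (.ref 882 389)))) (.both (.play 520 (.both (.ref 1115 199) (.both (.ref 39 328) (.ref 221 391)))) (.both (.play 520 (.both (.ref 1115 199) (.ref 203 391))) (.both (.play 459 (.both (.play 520 (.both (.ref 1114 327) (.ref 118 387))) (.play 457 (.ref 3 391)))) (.both (.play 459 (.both (.play 393 (.both (.play 520 (.ref 525 327)) (.play 394 (.ref 0 391)))) (.play 457 (.ref 3 391)))) (.ref 1106 387)))))))) (.both (.play 455 (.both (.play 454 (.both (.play 453 (.both (.ref 730 196) (.play 452 (.ref 2 388)))) (.both (.play 393 (.ref 71 389)) (.play 457 (.both (.play 394 (.both (.play 393 (.ref 1 390)) (.play 395 (.ref 2 391)))) (.ref 24 453)))))) (.both (.play 394 (.both (.ref 1113 199) (.both (.play 522 (.both (.ref 824 199) (.both (.ref 636 265) (.both (.ref 930 265) (.ref 916 391))))) (.both (.ref 918 263) (.play 395 (.ref 520 391)))))) (.both (.play 519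 (.both (.play 457 (.both (.ref 180 262) (.play 518 (.ref 1 454)))) (.both (.ref 1111 384) (.both (.ref 1103 387) (.play 518 (.both (.play 582 (.both (.play 520 (.both (.play 584 (.both (.play 648 (.ref 895 391)) (.ref 558 452))) (.both (.play 517 (.both (.play 516 (.ref 2 452)) (.play 581 (.ref 28 516)))) (.play 581 (.ref 58 515))))) (.play 646 (.ref 126 390)))) (.play 457 (.ref 1 454)))))))) (.both (.play 454 (.both (.play 584 (.both (.play 520 (.both (.ref 1014 326) (.ref 239 387))) (.both (.play 393 (.both (.play 520 (.ref 1048 327)) (.play 394 (.ref 1 390)))) (.play 583 (.both (.ref 909 385) (.both (.play 519 (.ref 966 385)) (.both (.ref 1012 385) (.play 519 (.ref 412 391))))))))) (.both (.play 520 (.both (.play 584 (.both (.ref 1013 386) (.play 648 (.ref 7 391)))) (.ref 558 388))) (.play 453 (.ref 90 388))))) (.play 454 (.both (.play 453 (.ref 90 388)) (.play 457 (.ref 25 453))))))))) (.both (.play 584 (.both (.play 520 (.both (.ref 1110 263) (.both (.play 455 (.both (.play 457 (.both (.ref 726 387) (.play 459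 (.ref 3 391)))) (.play 648 (.ref 7 391)))) (.ref 882 389)))) (.both (.play 520 (.both (.ref 1110 263) (.both (.ref 9 391) (.both (.ref 376 391) (.both (.ref 444 391) (.play 648 (.both (.play 455 (.ref 7 391)) (.ref 475 391)))))))) (.both (.play 457 (.both (.play 455 (.both (.play 583 (.both (.ref 743 385) (.both (.play 582 (.both (.ref 473 387) (.both (.ref 740 389) (.play 519 (.ref 75 390))))) (.both (.play 647 (.both (.play 585 (.both (.play 521 (.both (.play 649 (.ref 7 392)) (.play 522 (.both (.play 454 (.ref 0 454)) (.play 582 (.ref 2 518)))))) (.both (.play 586 (.ref 211 518)) (.play 646 (.ref 68 580))))) (.play 519 (.ref 5 391)))) (.both (.ref 681 389) (.play 519 (.ref 412 391))))))) (.both (.ref 887 387) (.both (.ref 519 388) (.both (.ref 1108 388) (.ref 182 453)))))) (.play 459 (.ref 3 391)))) (.both (.play 457 (.both (.play 520 (.both (.ref 239 387) (.both (.ref 1107 387) (.both (.play 648 (.both (.ref 89 391) (.both (.ref 85 452) (.ref 174 455)))) (.both (.ref 1102 389) (.both (.play 647 (.ref 159 391)) (.ref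 360 391))))))) (.play 459 (.ref 3 391)))) (.both (.play 457 (.both (.play 585 (.both (.ref 893 387) (.both (.play 583 (.ref 501 388)) (.both (.play 583 (.both (.play 582 (.both (.ref 513 389) (.both (.ref 82 516) (.both (.play 581 (.ref 35 516)) (.ref 223 516))))) (.both (.play 586 (.both (.play 647 (.ref 744 390)) (.both (.ref 82 517) (.ref 295 518)))) (.both (.ref 740 390) (.both (.ref 423 516) (.ref 836 517)))))) (.play 649 (.ref 413 392)))))) (.play 459 (.ref 3 391)))) (.both (.play 520 (.ref 228 387)) (.both (.ref 1106 387) (.both (.play 520 (.ref 780 388)) (.play 457 (.both (.play 455 (.both (.ref 519 388) (.play 583 (.ref 416 391)))) (.play 459 (.ref 3 391))))))))))))) (.both (.play 520 (.both (.play 459 (.both (.ref 1105 327) (.play 457 (.ref 3 391)))) (.both (.play 584 (.both (.ref 239 387) (.both (.ref 203 391) (.ref 21 391)))) (.play 394 (.both (.play 455 (.both (.play 457 (.ref 1104 387)) (.both (.play 454 (.both (.ref 558 388) (.play 393 (.ref 1 390)))) (.play 395 (.ref 520 391))))) (.both (.play 457 (.both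 (.play 455 (.ref 1104 387)) (.play 459 (.ref 3 391)))) (.both (.ref 719 390) (.play 459 (.both (.play 393 (.ref 0 391)) (.play 457 (.both (.play 456 (.ref 3 391)) (.ref 883 392)))))))))))) (.play 457 (.both (.play 455 (.both (.ref 844 387) (.both (.play 519 (.both (.ref 1103 387) (.play 518 (.ref 1 454)))) (.ref 958 388)))) (.play 459 (.ref 3 391)))))))))))))))
 (.seq (.one (.play 197 (.both (.ref 843 0) (.both (.play 135 (.ref 823 68)) (.ref 911 68)))))
 (.one (.play 323 (.both (.play 195 (.both (.play 131 (.both (.ref 399 2) (.both (.ref 786 2) (.ref 802 64)))) (.play 196 (.ref 2 192)))) (.play 324 (.ref 0 256))))))))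
 (.seq (.seq (.one (.play 196 (.both (.play 260 (.ref 4 3)) (.play 130 (.ref 41 128)))))
 (.one (.both (.play 66 (.ref 351 2)) (.ref 1121 128))))
 (.seq (.one (.play 66 (.both (.ref 964 0) (.play 2 (.ref 7 2)))))
 (.seq (.one (.play 195 (.both (.ref 1060 2) (.both (.ref 642 2) (.both (.play 130 (.ref 351 66)) (.both (.play 131 (.both (.ref 641 66) (.play 132 (.ref 17 67)))) (.ref 1123 128)))))))
 (.one (.play 193 (.both (.play 64 (.ref 87 0)) (.play 129 (.ref 5 128))))))))))
 (.seq (.seq (.seq (.seq (.one (.play 129 (.both (.play 64 (.ref 351 0)) (.play 386 (.ref 4 129)))))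
 (.one (.play 193 (.both (.ref 1126 0) (.both (.ref 1125 65) (.play 194 (.ref 17 129)))))))
 (.seq (.one (.play 324 (.both (.play 322 (.both (.play 325 (.both (.ref 1083 2) (.both (.ref 982 130) (.both (.play 390 (.ref 42 258)) (.both (.ref 1063 258) (.ref 979 258)))))) (.play 321 (.ref 1 320)))) (.both (.play 260 (.ref 337 131)) (.both (.play 322 (.ref 1085 256)) (.ref 1090 256))))))
 (.seq (.one (.play 323 (.both (.ref 1128 0) (.both (.play 324 (.both (.play 259 (.both (.play 195 (.both (.play 131 (.ref 750 3)) (.ref 15 130))) (.both (.ref 1127 2) (.both (.play 195 (.both (.ref 785 67) (.ref 15 130))) (.both (.play 260 (.both (.play 258 (.both (.ref 950 66) (.play 194 (.ref 7 194)))) (.play 196 (.ref 5 195)))) (.ref 266 130)))))) (.play 386 (.ref 2 320)))) (.both (.play 324 (.both (.play 260 (.ref 337 131)) (.both (.play 260 (.ref 188 131)) (.play 386 (.ref 66 320))))) (.both (.play 322 (.both (.play 258 (.both (.play 387 (.ref 169 130)) (.ref 1086 256))) (.both (.play 258 (.both (.play 387 (.ref 169 130)) (.ref 321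 257))) (.both (.play 386 (.both (.play 513 (.ref 337 193)) (.play 324 (.ref 64 320)))) (.both (.play 324 (.both (.ref 883 257) (.play 321 (.ref 1 320)))) (.play 324 (.ref 65 320))))))) (.play 258 (.both (.play 322 (.ref 169 130)) (.both (.play 259 (.both (.play 450 (.ref 193 130)) (.play 194 (.ref 7 194)))) (.play 322 (.both (.ref 321 257) (.play 515 (.ref 7 258)))))))))))))
 (.one (.play 67 (.both (.play 66 (.ref 61 2)) (.play 68 (.ref 2 64))))))))
 (.seq (.seq (.one (.play 516 (.both (.play 325 (.both (.ref 1070 0) (.both (.play 324 (.ref 866 257)) (.play 389 (.ref 1097 321))))) (.both (.play 387 (.both (.ref 815 65) (.play 449 (.ref 28 384)))) (.both (.play 581 (.both (.play 324 (.both (.play 260 (.ref 269 195)) (.play 517 (.ref 4 324)))) (.both (.play 325 (.both (.play 324 (.ref 775 257)) (.ref 38 324))) (.ref 1084 384)))) (.both (.play 387 (.both (.play 323 (.both (.play 514 (.ref 188 194)) (.play 580 (.ref 7 323)))) (.play 449 (.ref 28 384)))) (.both (.play 324 (.ref 1094 193)) (.play 387 (.both (.ref 1130 257)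 (.play 449 (.ref 28 384)))))))))))
 (.one (.play 66 (.both (.play 2 (.ref 7 2)) (.play 323 (.both (.ref 1088 64) (.ref 8 67)))))))
 (.seq (.one (.play 196 (.both (.play 3 (.ref 1004 0)) (.both (.play 260 (.ref 146 3)) (.play 194 (.ref 537 128))))))
 (.seq (.one (.play 131 (.both (.ref 266 2) (.play 324 (.ref 875 128)))))
 (.one (.play 257 (.both (.ref 1079 0) (.both (.ref 788 64) (.ref 15 192)))))))))
 (.seq (.seq (.seq (.one (.play 386 (.both (.play 323 (.both (.ref 1135 2) (.both (.play 388 (.both (.ref 1127 66) (.play 385 (.ref 1 384)))) (.both (.play 258 (.ref 351 194)) (.play 385 (.both (.ref 287 257) (.play 388 (.ref 1 384)))))))) (.both (.play 388 (.both (.play 324 (.ref 617 195)) (.play 385 (.ref 1 384)))) (.both (.play 322 (.ref 169 194)) (.play 388 (.ref 1085 320)))))))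
 (.one (.play 257 (.both (.ref 708 0) (.both (.ref 788 64) (.both (.ref 583 129) (.ref 39 193)))))))
 (.seq (.one (.play 384 (.both (.ref 581 0) (.both (.ref 8 128) (.ref 450 192)))))
 (.seq (.one (.both (.play 1 (.ref 4 1)) (.play 131 (.both (.play 64 (.ref 3 64)) (.play 133 (.ref 1 129))))))
 (.one (.play 259 (.both (.play 260 (.both (.play 324 (.ref 345 3)) (.both (.play 324 (.both (.play 67 (.ref 4 67)) (.play 258 (.ref 176 192)))) (.play 258 (.ref 537 192))))) (.both (.play 323 (.ref 219 2)) (.both (.ref 877 2) (.both (.ref 876 2) (.both (.ref 1133 64) (.both (.play 258 (.both (.play 322 (.ref 811 65)) (.play 260 (.ref 537 192)))) (.ref 873 65))))))))))))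
 (.seq (.seq (.one (.play 323 (.both (.play 131 (.both (.ref 266 2) (.ref 480 128))) (.both (.ref 267 2) (.play 324 (.ref 41 256))))))
 (.one (.play 258 (.both (.ref 1141 0) (.play 196 (.ref 2 192))))))
 (.seq (.one (.play 520 (.both (.play 456 (.both (.play 392 (.both (.ref 1136 5) (.both (.ref 1128 69) (.both (.play 328 (.both (.play 393 (.both (.play 521 (.both (.play 395 (.both (.play 394 (.ref 388 71)) (.both (.play 457 (.both (.play 459 (.both (.ref 1142 200) (.both (.play 458 (.both (.ref 1141 200) (.play 460 (.ref 3 392)))) (.both (.ref 1140 264) (.play 458 (.ref 938 392)))))) (.play 264 (.ref 4 264)))) (.play 457 (.ref 1139 263))))) (.play 585 (.ref 4 328)))) (.both (.play 391 (.both (.play 327 (.both (.play 264 (.both (.ref 949 135) (.both (.ref 751 135) (.play 394 (.both (.play 457 (.both (.play 266 (.both (.ref 350 199) (.play 330 (.both (.play 202 (.ref 6 201)) (.play 331 (.ref 2 327)))))) (.play 521 (.ref 4 264)))) (.play 395 (.ref 3 327))))))) (.play 584 (.ref 7 327)))) (.play 390 (.ref 1 389)))) (.both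 (.ref 1138 200) (.both (.ref 1090 325) (.play 584 (.both (.ref 774 325) (.ref 8 328)))))))) (.both (.ref 788 135) (.both (.play 521 (.ref 639 199)) (.play 327 (.both (.play 263 (.ref 7 263)) (.play 391 (.both (.ref 1086 325) (.play 584 (.ref 7 327)))))))))) (.both (.ref 1089 70) (.both (.ref 1137 71) (.both (.play 328 (.ref 804 199)) (.both (.ref 1034 199) (.play 584 (.both (.play 585 (.ref 639 263)) (.both (.ref 755 325) (.ref 39 328)))))))))))) (.both (.ref 1131 68) (.both (.ref 1095 133) (.ref 719 452))))) (.both (.play 456 (.both (.play 392 (.both (.ref 1136 5) (.both (.ref 1128 69) (.both (.ref 1134 197) (.ref 1133 325))))) (.both (.ref 880 69) (.both (.ref 1129 69) (.play 521 (.ref 540 453)))))) (.both (.play 456 (.both (.play 392 (.both (.ref 1128 69) (.both (.play 519 (.both (.ref 401 199) (.ref 859 388))) (.both (.play 519 (.both (.play 327 (.both (.play 263 (.ref 406 199)) (.both (.play 328 (.ref 404 263)) (.play 584 (.both (.play 391 (.ref 7 327)) (.ref 233 389)))))) (.both (.play 584 (.both (.ref 392 263)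 (.both (.ref 1132 325) (.ref 389 390)))) (.ref 859 388)))) (.both (.play 584 (.both (.play 519 (.both (.ref 399 263) (.both (.play 517 (.both (.play 583 (.both (.play 328 (.ref 6 327)) (.play 516 (.ref 0 516)))) (.play 457 (.ref 2 453)))) (.play 393 (.ref 739 325))))) (.both (.ref 39 328) (.ref 1121 389)))) (.play 584 (.ref 1122 261))))))) (.both (.ref 1131 68) (.both (.ref 1129 69) (.both (.play 584 (.both (.ref 1124 197) (.both (.play 517 (.both (.ref 731 257) (.both (.play 581 (.both (.play 645 (.ref 323 389)) (.play 519 (.ref 559 516)))) (.both (.play 583 (.ref 259 515)) (.play 519 (.ref 563 515)))))) (.both (.play 392 (.ref 1122 261)) (.play 392 (.ref 1094 261)))))) (.both (.ref 1119 320) (.ref 829 449))))))) (.both (.play 519 (.ref 411 133)) (.both (.play 519 (.both (.play 517 (.both (.ref 1120 261) (.both (.ref 593 388) (.ref 519 450)))) (.play 521 (.ref 3 453)))) (.both (.play 456 (.both (.ref 1119 320) (.both (.ref 860 388) (.both (.ref 719 452) (.play 521 (.ref 540 453)))))) (.ref 959 386)))))))))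
 (.seq (.one (.play 196 (.both (.play 260 (.ref 246 3)) (.play 197 (.ref 232 128)))))
 (.one (.play 196 (.both (.play 132 (.ref 188 3)) (.play 197 (.ref 68 192)))))))))))
 (.seq (.seq (.seq (.seq (.seq (.one (.play 132 (.both (.ref 383 0) (.play 133 (.ref 3 65)))))
 (.one (.play 257 (.both (.play 0 (.ref 4 0)) (.play 2 (.ref 6 1))))))
 (.seq (.one (.play 194 (.both (.ref 1147 1) (.play 192 (.ref 2 128)))))
 (.one (.play 131 (.both (.ref 383 0) (.ref 325 1))))))
 (.seq (.seq (.one (.play 193 (.both (.play 257 (.ref 5 1)) (.play 131 (.ref 671 64)))))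
 (.one (.play 257 (.both (.play 2 (.ref 5 1)) (.play 256 (.both (.play 320 (.ref 6 64)) (.play 258 (.both (.play 259 (.both (.ref 427 64) (.both (.ref 177 192) (.ref 50 192)))) (.play 322 (.ref 4 65))))))))))
 (.seq (.one (.play 260 (.both (.play 5 (.ref 5 4)) (.play 194 (.both (.ref 998 64) (.both (.play 195 (.both (.ref 914 66) (.play 134 (.ref 52 130)))) (.play 195 (.ref 53 129))))))))
 (.seq (.one (.play 260 (.both (.play 5 (.ref 5 4)) (.play 261 (.ref 469 64)))))
 (.one (.play 196 (.both (.play 195 (.both (.play 198 (.both (.play 262 (.ref 4 5)) (.play 134 (.ref 90 130)))) (.both (.play 198 (.both (.play 262 (.ref 4 5)) (.ref 109 66))) (.ref 968 128)))) (.play 260 (.ref 6 4)))))))))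
 (.seq (.seq (.seq (.one (.play 261 (.both (.play 6 (.ref 5 5)) (.ref 1154 64))))
 (.one (.both (.play 256 (.ref 94 0)) (.play 322 (.ref 4 65)))))
 (.seq (.one (.play 257 (.both (.play 0 (.ref 7 0)) (.ref 360 64))))
 (.seq (.one (.play 323 (.both (.ref 309 0) (.both (.ref 340 256) (.ref 326 320)))))
 (.one (.play 387 (.both (.ref 880 0) (.both (.play 323 (.both (.play 516 (.both (.ref 1027 130) (.both (.play 452 (.ref 246 259)) (.play 515 (.both (.play 514 (.both (.play 578 (.ref 6 322)) (.play 513 (.ref 3 448)))) (.play 580 (.ref 4 323))))))) (.both (.ref 917 256) (.play 386 (.ref 26 320))))) (.both (.play 388 (.both (.play 515 (.both (.play 324 (.ref 188 195)) (.both (.play 514 (.both (.ref 1147 321) (.play 516 (.ref 3 448)))) (.ref 502 322)))) (.play 386 (.ref 1 384)))) (.both (.ref 1140 256) (.play 386 (.ref 946 384)))))))))))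
 (.seq (.seq (.one (.play 195 (.both (.ref 494 0) (.play 259 (.ref 7 2)))))
 (.one (.play 66 (.both (.play 4 (.ref 2 0)) (.ref 163 0)))))
 (.seq (.one (.play 196 (.both (.ref 1134 1) (.both (.play 132 (.ref 805 3)) (.both (.play 132 (.ref 804 3)) (.both (.ref 636 67) (.both (.play 388 (.ref 219 67)) (.play 388 (.both (.play 258 (.both (.ref 802 129) (.play 323 (.both (.ref 264 195) (.play 325 (.ref 3 257)))))) (.both (.play 323 (.both (.play 387 (.both (.play 451 (.ref 6 195)) (.play 320 (.ref 0 320)))) (.play 389 (.ref 0 321)))) (.both (.ref 598 193) (.ref 76 195))))))))))))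
 (.seq (.one (.play 68 (.both (.play 4 (.ref 5 3)) (.play 130 (.ref 66 64)))))
 (.one (.both (.ref 788 2) (.both (.ref 1163 128) (.play 324 (.both (.play 388 (.ref 87 131)) (.play 258 (.ref 45 256))))))))))))
 (.seq (.seq (.seq (.seq (.one (.play 68 (.both (.ref 78 1) (.play 129 (.ref 1 64)))))
 (.one (.play 196 (.both (.play 197 (.both (.ref 928 1) (.play 262 (.ref 42 130)))) (.play 257 (.ref 1 192))))))
 (.seq (.one (.play 323 (.both (.ref 410 1) (.play 324 (.ref 2 320)))))
 (.seq (.one (.play 386 (.both (.ref 1167 0) (.play 452 (.ref 0 384)))))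
 (.one (.play 387 (.both (.ref 880 0) (.both (.ref 1098 0) (.both (.ref 1168 0) (.both (.play 386 (.both (.ref 1167 0) (.both (.ref 1166 192) (.both (.play 323 (.both (.play 322 (.both (.play 258 (.ref 555 194)) (.ref 1029 320))) (.play 324 (.ref 2 320)))) (.both (.ref 340 320) (.ref 1165 320)))))) (.both (.play 386 (.both (.ref 1166 192) (.play 452 (.ref 0 384)))) (.play 386 (.both (.ref 1165 320) (.play 452 (.ref 0 384))))))))))))))
 (.seq (.seq (.one (.play 518 (.both (.play 520 (.both (.play 456 (.both (.play 392 (.both (.play 328 (.both (.play 264 (.both (.ref 849 7) (.both (.ref 705 71) (.both (.play 199 (.ref 351 135)) (.both (.ref 707 135) (.ref 1021 197)))))) (.play 583 (.ref 6 327)))) (.both (.ref 397 198) (.both (.play 457 (.both (.ref 1033 262) (.play 458 (.ref 1 454)))) (.play 583 (.ref 617 263)))))) (.both (.play 392 (.both (.play 517 (.both (.play 393 (.both (.play 584 (.both (.play 329 (.ref 5 328)) (.play 585 (.ref 0 517)))) (.play 394 (.ref 52 390)))) (.play 516 (.ref 2 452)))) (.play 583 (.ref 184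 327)))) (.play 457 (.ref 71 453))))) (.both (.play 521 (.both (.play 457 (.both (.play 585 (.both (.ref 1124 198) (.play 586 (.ref 0 518)))) (.play 458 (.ref 2 454)))) (.both (.play 586 (.ref 42 454)) (.both (.play 522 (.ref 277 454)) (.both (.ref 160 454) (.ref 385 454)))))) (.both (.ref 1010 450) (.both (.play 517 (.both (.ref 621 450) (.ref 379 453))) (.ref 164 453)))))) (.both (.play 582 (.both (.play 521 (.both (.play 391 (.both (.ref 1169 70) (.play 646 (.ref 5 390)))) (.both (.play 520 (.both (.ref 1120 262) (.play 581 (.ref 1 517)))) (.play 520 (.ref 671 453))))) (.both (.play 521 (.both (.play 583 (.both (.play 585 (.both (.ref 1038 134) (.both (.play 457 (.both (.play 393 (.ref 1164 198)) (.both (.ref 1134 262) (.play 522 (.both (.play 456 (.ref 0 454)) (.play 584 (.ref 2 518))))))) (.both (.ref 1162 261) (.both (.play 522 (.both (.play 457 (.both (.play 393 (.both (.ref 266 264) (.both (.play 329 (.both (.ref 15 264) (.play 586 (.ref 4 329)))) (.play 649 (.both (.play 394 (.ref 17 329)) (.ref 360 456))))))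 (.play 456 (.ref 0 454)))) (.play 584 (.ref 2 518)))) (.both (.ref 1142 326) (.ref 1161 518))))))) (.both (.play 456 (.both (.play 647 (.ref 1048 390)) (.ref 761 390))) (.ref 1160 452)))) (.both (.play 457 (.both (.play 585 (.both (.ref 1080 136) (.both (.play 393 (.both (.ref 789 200) (.both (.play 586 (.ref 867 390)) (.ref 76 392)))) (.both (.ref 824 262) (.both (.ref 636 328) (.play 649 (.both (.ref 534 392) (.both (.play 713 (.ref 533 392)) (.ref 1092 454))))))))) (.both (.ref 1142 262) (.both (.ref 1113 262) (.play 458 (.ref 520 454)))))) (.play 520 (.ref 671 453))))) (.both (.play 646 (.both (.play 391 (.ref 5 390)) (.ref 256 448))) (.both (.play 646 (.ref 905 385)) (.both (.play 646 (.both (.play 391 (.ref 5 390)) (.ref 622 449))) (.both (.play 646 (.both (.play 391 (.ref 5 390)) (.ref 85 450))) (.ref 1151 389)))))))) (.both (.ref 1099 65) (.both (.play 582 (.both (.play 583 (.both (.play 585 (.both (.play 647 (.both (.ref 1159 134) (.play 711 (.ref 7 454)))) (.both (.play 584 (.ref 388 261)) (.both (.play 584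 (.ref 279 517)) (.play 521 (.ref 1075 518)))))) (.both (.play 520 (.both (.ref 305 324) (.both (.play 517 (.both (.ref 621 450) (.both (.ref 484 450) (.play 581 (.both (.play 647 (.both (.play 711 (.ref 7 454)) (.ref 558 515))) (.ref 1146 452)))))) (.ref 975 453)))) (.both (.play 581 (.both (.ref 127 450) (.both (.play 584 (.both (.ref 167 452) (.ref 80 517))) (.play 520 (.ref 71 516))))) (.play 647 (.both (.ref 233 452) (.play 711 (.ref 7 454)))))))) (.both (.play 520 (.both (.play 521 (.both (.ref 1120 262) (.play 522 (.ref 3 454)))) (.both (.play 517 (.both (.ref 1155 385) (.both (.ref 621 450) (.both (.ref 1116 450) (.ref 182 515))))) (.ref 975 453)))) (.both (.play 520 (.both (.ref 341 261) (.both (.play 517 (.both (.play 581 (.both (.play 584 (.both (.play 583 (.both (.ref 668 389) (.ref 383 452))) (.play 585 (.ref 0 517)))) (.play 580 (.ref 1 516)))) (.both (.ref 621 450) (.both (.ref 1116 450) (.ref 182 515))))) (.both (.play 521 (.ref 211 453)) (.play 581 (.ref 70 515)))))) (.both (.play 646 (.ref 119 385))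 (.both (.ref 1153 386) (.both (.ref 1152 386) (.both (.play 391 (.both (.play 520 (.both (.play 584 (.both (.play 648 (.ref 245 391)) (.play 517 (.both (.ref 667 451) (.play 585 (.ref 0 517)))))) (.both (.play 521 (.both (.ref 524 389) (.play 522 (.ref 3 454)))) (.ref 975 453)))) (.play 646 (.ref 5 390)))) (.ref 1151 389))))))))) (.both (.play 456 (.both (.ref 1158 134) (.both (.play 583 (.both (.play 392 (.ref 337 263)) (.both (.play 392 (.ref 188 263)) (.play 584 (.both (.play 648 (.ref 146 391)) (.play 517 (.both (.play 516 (.ref 2 452)) (.play 585 (.ref 40 517))))))))) (.both (.play 457 (.ref 211 389)) (.play 457 (.ref 447 453)))))) (.both (.play 582 (.both (.play 581 (.both (.play 646 (.both (.play 580 (.both (.play 516 (.both (.play 515 (.both (.play 644 (.both (.play 452 (.both (.ref 273 195) (.play 645 (.both (.play 643 (.both (.play 707 (.ref 6 451)) (.play 642 (.ref 2 578)))) (.play 709 (.ref 4 452)))))) (.both (.play 451 (.ref 169 323)) (.both (.ref 452 449) (.ref 1157 451))))) (.play 583 (.ref 3 515))))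 (.both (.ref 944 257) (.both (.play 709 (.both (.play 644 (.both (.play 452 (.both (.ref 363 259) (.ref 630 451))) (.both (.play 643 (.both (.play 708 (.ref 1156 451)) (.play 583 (.ref 1 579)))) (.both (.play 708 (.both (.ref 869 515) (.play 773 (.ref 4 516)))) (.play 517 (.both (.play 583 (.ref 671 515)) (.play 708 (.ref 412 516)))))))) (.play 645 (.ref 6 453)))) (.play 515 (.ref 441 513)))))) (.play 579 (.ref 2 515)))) (.play 391 (.ref 5 390)))) (.both (.play 391 (.both (.play 584 (.both (.play 583 (.ref 461 389)) (.both (.play 520 (.both (.play 648 (.ref 46 391)) (.play 521 (.ref 1 517)))) (.play 585 (.ref 759 517))))) (.play 646 (.ref 5 390)))) (.both (.play 580 (.ref 53 515)) (.play 580 (.both (.play 579 (.ref 2 515)) (.play 583 (.both (.play 644 (.both (.play 584 (.both (.ref 379 517) (.play 645 (.ref 1 580)))) (.play 643 (.ref 1 579)))) (.play 520 (.ref 2 516)))))))))) (.both (.play 517 (.both (.play 646 (.ref 1071 388)) (.both (.play 520 (.both (.play 516 (.both (.ref 432 449) (.play 584 (.ref 23 516)))) (.both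 (.play 521 (.both (.ref 301 515) (.both (.play 585 (.ref 23 517)) (.ref 326 518)))) (.both (.play 521 (.ref 302 515)) (.both (.play 521 (.ref 889 517)) (.ref 599 517)))))) (.ref 833 450)))) (.both (.play 517 (.both (.ref 1155 385) (.play 516 (.ref 90 451)))) (.both (.ref 1153 386) (.both (.ref 1152 386) (.both (.ref 1151 389) (.play 517 (.both (.ref 827 450) (.both (.play 516 (.ref 90 451)) (.play 581 (.both (.play 583 (.both (.play 580 (.both (.ref 316 452) (.play 579 (.ref 2 515)))) (.play 645 (.both (.play 709 (.ref 5 453)) (.play 584 (.ref 671 516)))))) (.both (.play 584 (.both (.ref 1150 452) (.both (.ref 1149 452) (.play 520 (.ref 946 517))))) (.play 580 (.ref 71 515))))))))))))))) (.both (.play 517 (.both (.play 520 (.both (.play 456 (.both (.ref 763 198) (.play 457 (.ref 1 453)))) (.both (.ref 515 452) (.play 521 (.both (.ref 43 454) (.ref 24 516)))))) (.both (.ref 572 321) (.play 456 (.ref 71 452))))) (.both (.play 583 (.both (.play 582 (.both (.play 516 (.both (.play 517 (.ref 1052 259)) (.both (.play 646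 (.both (.play 580 (.both (.play 515 (.both (.play 644 (.both (.play 451 (.ref 169 323)) (.both (.ref 1148 451) (.ref 342 451)))) (.play 581 (.ref 3 515)))) (.both (.play 581 (.both (.play 644 (.both (.play 708 (.both (.ref 1138 388) (.both (.ref 530 512) (.both (.play 772 (.both (.play 707 (.both (.play 771 (.ref 6 515)) (.play 645 (.both (.play 836 (.ref 5 580)) (.play 706 (.ref 57 641)))))) (.both (.ref 12 515) (.ref 435 579)))) (.both (.ref 76 515) (.ref 360 515)))))) (.play 643 (.ref 1 579)))) (.play 579 (.ref 2 515)))) (.both (.play 644 (.both (.play 643 (.both (.play 707 (.ref 617 387)) (.play 645 (.ref 2 579)))) (.both (.ref 930 387) (.both (.play 645 (.both (.play 709 (.ref 6 453)) (.play 643 (.ref 2 579)))) (.play 708 (.both (.ref 534 451) (.play 709 (.both (.play 645 (.ref 6 453)) (.play 773 (.ref 4 516)))))))))) (.play 581 (.ref 676 515)))))) (.play 391 (.ref 5 390)))) (.play 517 (.ref 90 451))))) (.both (.play 581 (.both (.play 516 (.both (.play 517 (.both (.ref 247 323) (.play 456 (.ref 2 452)))) (.both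 (.play 517 (.both (.play 515 (.both (.ref 101 450) (.play 514 (.ref 0 514)))) (.play 456 (.ref 2 452)))) (.play 580 (.ref 676 515))))) (.both (.play 580 (.both (.ref 248 387) (.play 579 (.ref 2 515)))) (.both (.ref 127 450) (.both (.play 517 (.both (.play 516 (.both (.play 451 (.both (.play 515 (.both (.play 450 (.ref 3 450)) (.play 514 (.ref 0 514)))) (.play 452 (.ref 3 451)))) (.play 456 (.ref 2 452)))) (.ref 1146 452))) (.play 580 (.both (.play 516 (.both (.play 517 (.both (.play 456 (.ref 2 452)) (.play 584 (.ref 3 516)))) (.play 515 (.ref 3 515)))) (.play 579 (.ref 2 515))))))))) (.both (.ref 112 387) (.play 391 (.both (.ref 233 388) (.play 646 (.ref 5 390)))))))) (.both (.ref 1145 260) (.both (.play 647 (.both (.ref 196 327) (.play 711 (.ref 7 454)))) (.both (.ref 1144 388) (.play 456 (.both (.play 647 (.both (.play 392 (.ref 5 391)) (.play 711 (.both (.ref 8 455) (.both (.ref 460 518) (.ref 444 518)))))) (.play 517 (.ref 53 452))))))))) (.both (.play 517 (.both (.play 520 (.both (.play 584 (.both (.ref 810 261)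 (.play 585 (.ref 0 517)))) (.both (.ref 515 452) (.both (.play 457 (.ref 27 453)) (.ref 237 516))))) (.both (.ref 305 323) (.both (.ref 100 450) (.ref 827 450))))) (.both (.play 517 (.both (.play 520 (.both (.play 456 (.both (.play 584 (.both (.play 392 (.both (.play 328 (.ref 94 263)) (.play 393 (.ref 762 326)))) (.both (.play 648 (.both (.play 392 (.both (.play 328 (.ref 94 263)) (.ref 8 392))) (.play 712 (.ref 7 455)))) (.play 648 (.ref 61 391))))) (.play 457 (.ref 1 453)))) (.ref 1074 452))) (.both (.ref 827 450) (.play 456 (.ref 71 452))))) (.ref 210 386)))))))))))))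
 (.one (.play 197 (.both (.ref 843 0) (.both (.play 135 (.ref 823 68)) (.both (.play 261 (.both (.play 325 (.ref 86 69)) (.play 199 (.ref 128 132)))) (.play 137 (.ref 520 133))))))))
 (.seq (.one (.play 194 (.both (.play 196 (.both (.play 260 (.ref 4 3)) (.play 129 (.ref 567 128)))) (.play 258 (.ref 6 2)))))
 (.seq (.one (.play 131 (.both (.play 194 (.ref 985 0)) (.both (.play 323 (.both (.play 68 (.both (.play 194 (.both (.ref 54 2) (.play 387 (.ref 61 130)))) (.play 132 (.ref 5 67)))) (.ref 480 128))) (.both (.ref 917 64) (.play 322 (.ref 811 65)))))))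
 (.one (.play 258 (.both (.ref 22 1) (.both (.play 321 (.both (.play 67 (.both (.play 3 (.ref 5 2)) (.ref 173 65))) (.play 257 (.ref 6 65)))) (.both (.play 67 (.ref 429 2)) (.both (.play 257 (.both (.play 259 (.ref 461 64)) (.play 321 (.ref 6 65)))) (.ref 264 65)))))))))))
 (.seq (.seq (.seq (.one (.play 257 (.both (.play 129 (.both (.ref 877 0) (.play 128 (.ref 3 128)))) (.play 256 (.ref 1 192)))))
 (.one (.play 69 (.both (.ref 160 2) (.ref 24 64)))))
 (.seq (.one (.play 68 (.both (.play 4 (.ref 31 0)) (.both (.ref 33 0) (.ref 1176 0)))))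
 (.seq (.one (.play 260 (.both (.play 193 (.ref 281 0)) (.both (.play 261 (.ref 285 192)) (.both (.play 261 (.ref 149 192)) (.play 261 (.ref 32 193)))))))
 (.one (.play 132 (.both (.play 68 (.ref 97 3)) (.both (.play 68 (.ref 18 4)) (.ref 85 128))))))))
 (.seq (.seq (.one (.play 260 (.both (.ref 1179 0) (.both (.play 67 (.ref 644 3)) (.play 67 (.ref 168 3))))))
 (.one (.play 192 (.both (.play 65 (.ref 86 0)) (.play 321 (.ref 4 64))))))
 (.seq (.one (.play 197 (.both (.play 70 (.ref 86 5)) (.ref 781 64))))
 (.seq (.one (.play 258 (.both (.play 322 (.ref 97 1)) (.both (.ref 39 2) (.ref 346 64)))))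
 (.one (.play 194 (.both (.play 130 (.ref 188 1)) (.play 195 (.ref 42 128))))))))))))
 (.seq (.seq (.seq (.seq (.seq (.seq (.one (.play 64 (.both (.play 65 (.ref 17 0)) (.play 257 (.ref 4 64)))))
 (.one (.play 321 (.both (.play 66 (.ref 17 1)) (.ref 16 64)))))
 (.seq (.one (.play 256 (.both (.ref 399 0) (.ref 62 128))))
 (.one (.play 321 (.both (.play 65 (.ref 97 0)) (.both (.ref 1187 0) (.ref 16 64)))))))
 (.seq (.seq (.one (.play 66 (.both (.play 320 (.both (.ref 192 0) (.play 384 (.ref 6 128)))) (.play 130 (.ref 5 65)))))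
 (.one (.play 388 (.both (.play 260 (.both (.play 261 (.both (.play 258 (.both (.ref 1007 2) (.play 194 (.both (.play 193 (.ref 3 193)) (.play 387 (.ref 7 194)))))) (.both (.play 262 (.ref 211 194)) (.both (.play 262 (.both (.ref 296 195) (.play 322 (.ref 1 258)))) (.play 262 (.both (.ref 34 194) (.play 322 (.ref 1 258)))))))) (.play 196 (.ref 5 195)))) (.ref 111 256)))))
 (.seq (.one (.play 195 (.both (.ref 1173 0) (.both (.play 131 (.both (.play 194 (.ref 985 0)) (.both (.play 322 (.ref 617 2)) (.both (.play 323 (.both (.ref 1163 64) (.both (.ref 39 67) (.ref 702 130)))) (.ref 1174 65))))) (.both (.ref 720 128) (.play 196 (.ref 53 192)))))))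
 (.seq (.one (.play 324 (.both (.ref 1158 2) (.both (.play 325 (.ref 422 256)) (.play 385 (.ref 420 320))))))
 (.one (.play 194 (.both (.play 192 (.both (.play 256 (.ref 6 0)) (.play 195 (.ref 2 128)))) (.play 258 (.ref 4 1)))))))))
 (.seq (.seq (.seq (.one (.both (.ref 225 0) (.play 133 (.ref 2 129))))
 (.one (.play 258 (.both (.play 259 (.both (.play 324 (.both (.ref 1127 2) (.play 325 (.ref 232 256)))) (.play 194 (.ref 7 194)))) (.both (.play 194 (.ref 406 130)) (.both (.play 259 (.both (.play 260 (.both (.play 196 (.ref 5 195)) (.play 324 (.both (.play 325 (.ref 354 257)) (.play 515 (.ref 5 259)))))) (.play 194 (.ref 7 194)))) (.play 515 (.ref 310 258))))))))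
 (.seq (.one (.play 323 (.both (.play 259 (.both (.ref 1058 2) (.play 514 (.ref 6 258)))) (.both (.play 259 (.both (.ref 1060 66) (.play 514 (.ref 6 258)))) (.both (.ref 401 130) (.play 515 (.both (.ref 287 257) (.ref 871 320))))))))
 (.seq (.one (.play 456 (.both (.play 389 (.both (.play 392 (.both (.play 453 (.both (.play 517 (.both (.play 455 (.both (.ref 1196 5) (.play 516 (.ref 1 452)))) (.ref 502 324))) (.both (.play 391 (.ref 823 324)) (.ref 864 387)))) (.both (.play 455 (.both (.play 328 (.both (.ref 1195 5) (.both (.ref 401 135) (.both (.ref 1174 262) (.play 519 (.ref 178 263)))))) (.both (.ref 1141 197) (.play 453 (.ref 1194 260))))) (.both (.play 328 (.both (.ref 1080 7) (.both (.play 329 (.both (.play 326 (.both (.play 262 (.both (.ref 399 133) (.both (.ref 786 133) (.play 261 (.both (.play 197 (.ref 7 197)) (.ref 1114 197)))))) (.play 327 (.ref 1 325)))) (.play 391 (.ref 2 325)))) (.both (.play 264 (.ref 805 135)) (.ref 917 261))))) (.both (.play 453 (.both (.play 391 (.both (.ref 348 70) (.play 452 (.ref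 1 388)))) (.both (.ref 864 387) (.both (.play 391 (.ref 28 388)) (.play 393 (.ref 520 389)))))) (.both (.ref 800 68) (.both (.play 391 (.both (.ref 813 133) (.play 453 (.ref 28 388)))) (.both (.play 453 (.both (.play 455 (.both (.play 391 (.ref 1005 196)) (.ref 225 260))) (.both (.play 455 (.ref 1194 260)) (.play 391 (.ref 823 324))))) (.both (.ref 724 196) (.both (.play 520 (.ref 819 198)) (.play 453 (.both (.play 517 (.both (.play 326 (.both (.play 262 (.ref 6 261)) (.play 455 (.both (.ref 47 324) (.play 516 (.ref 1 452)))))) (.both (.ref 502 324) (.ref 870 384)))) (.both (.play 520 (.both (.ref 803 325) (.both (.ref 865 325) (.play 455 (.ref 26 389))))) (.both (.ref 864 387) (.play 391 (.ref 28 388)))))))))))))))) (.play 388 (.ref 3 322)))) (.both (.play 389 (.both (.ref 863 67) (.play 388 (.ref 3 322)))) (.both (.play 455 (.ref 411 69)) (.both (.play 392 (.both (.play 393 (.both (.ref 1192 70) (.both (.play 391 (.ref 211 325)) (.both (.play 453 (.ref 520 389)) (.play 455 (.ref 66 389)))))) (.both (.play 391 (.both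 (.play 520 (.both (.ref 1066 70) (.both (.ref 591 197) (.both (.play 327 (.ref 169 199)) (.ref 342 327))))) (.both (.play 393 (.both (.play 520 (.both (.play 458 (.both (.play 328 (.both (.ref 658 71) (.play 459 (.both (.ref 1193 327) (.play 394 (.ref 45 391)))))) (.play 457 (.ref 0 390)))) (.both (.play 329 (.ref 617 200)) (.both (.ref 123 327) (.ref 502 327))))) (.play 453 (.ref 1 389)))) (.both (.play 393 (.ref 1005 197)) (.play 393 (.ref 542 325)))))) (.both (.play 393 (.both (.ref 1192 70) (.both (.play 455 (.both (.play 457 (.both (.ref 170 262) (.play 394 (.ref 2 390)))) (.play 453 (.ref 2 389)))) (.both (.play 391 (.ref 542 325)) (.play 453 (.ref 520 389)))))) (.both (.play 520 (.both (.ref 850 71) (.both (.ref 1137 71) (.both (.play 328 (.both (.ref 705 135) (.both (.ref 588 136) (.both (.play 263 (.ref 351 199)) (.both (.ref 1022 199) (.ref 287 262)))))) (.both (.play 328 (.both (.play 263 (.ref 351 199)) (.both (.play 264 (.ref 533 199)) (.both (.ref 196 200) (.ref 287 262))))) (.both (.play 328 (.ref 804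 199)) (.both (.play 584 (.ref 804 263)) (.both (.ref 1025 263) (.play 584 (.both (.play 391 (.both (.play 393 (.both (.ref 496 326) (.play 329 (.ref 5 328)))) (.play 327 (.ref 7 327)))) (.both (.play 648 (.ref 533 327)) (.ref 39 328)))))))))))) (.both (.play 455 (.both (.play 328 (.both (.ref 401 135) (.both (.play 264 (.ref 804 135)) (.both (.ref 636 199) (.ref 1174 262))))) (.both (.ref 1141 197) (.play 393 (.ref 66 389))))) (.both (.play 328 (.ref 819 134)) (.both (.play 393 (.both (.play 520 (.both (.play 328 (.both (.ref 347 199) (.both (.play 264 (.ref 533 199)) (.ref 346 326)))) (.both (.ref 585 261) (.both (.ref 636 263) (.both (.play 584 (.both (.ref 347 263) (.both (.play 648 (.both (.ref 15 327) (.play 457 (.ref 5 392)))) (.ref 122 391)))) (.both (.play 521 (.both (.play 585 (.ref 246 328)) (.ref 539 454))) (.play 584 (.both (.play 585 (.both (.play 583 (.both (.ref 243 389) (.play 647 (.ref 6 391)))) (.play 649 (.ref 4 392)))) (.both (.ref 19 391) (.both (.play 647 (.ref 159 391)) (.both (.play 648 (.both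 (.ref 12 391) (.both (.ref 22 391) (.ref 575 391)))) (.ref 450 392)))))))))))) (.both (.play 520 (.both (.ref 818 198) (.both (.play 329 (.ref 188 200)) (.both (.play 455 (.ref 551 325)) (.play 584 (.ref 525 327)))))) (.both (.play 391 (.ref 1005 197)) (.play 453 (.ref 520 389)))))) (.play 520 (.ref 819 198)))))))))) (.both (.play 389 (.both (.ref 758 133) (.play 388 (.ref 3 322)))) (.both (.play 389 (.both (.play 455 (.both (.play 453 (.both (.ref 280 197) (.both (.ref 373 258) (.ref 182 451)))) (.play 457 (.ref 3 389)))) (.play 388 (.ref 3 322)))) (.both (.play 389 (.both (.play 455 (.both (.play 453 (.both (.play 392 (.both (.play 391 (.ref 1005 196)) (.play 393 (.ref 2 389)))) (.ref 225 260))) (.play 457 (.ref 3 389)))) (.play 388 (.ref 3 322)))) (.play 389 (.both (.play 455 (.both (.play 453 (.both (.ref 605 260) (.both (.ref 657 260) (.ref 182 451)))) (.play 457 (.ref 3 389)))) (.play 388 (.ref 3 322)))))))))))))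
 (.one (.play 261 (.both (.play 70 (.ref 86 5)) (.play 262 (.ref 782 64))))))))
 (.seq (.seq (.one (.play 259 (.both (.play 325 (.both (.play 133 (.both (.play 69 (.ref 328 4)) (.both (.play 69 (.ref 187 4)) (.play 134 (.both (.play 326 (.both (.play 261 (.ref 507 69)) (.play 327 (.ref 3 259)))) (.play 195 (.ref 53 130))))))) (.play 389 (.ref 4 132)))) (.both (.ref 233 129) (.play 258 (.ref 70 192))))))
 (.one (.play 193 (.both (.ref 595 0) (.play 132 (.ref 90 128))))))
 (.seq (.one (.play 68 (.both (.play 1 (.ref 3 0)) (.ref 33 0))))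
 (.seq (.one (.play 68 (.both (.play 4 (.ref 31 0)) (.ref 1201 1))))
 (.one (.play 65 (.both (.play 1 (.ref 3 0)) (.play 4 (.ref 2 1))))))))))
 (.seq (.seq (.seq (.seq (.one (.both (.play 1 (.ref 3 0)) (.play 128 (.ref 1 64))))
 (.one (.play 257 (.both (.play 0 (.ref 7 0)) (.ref 12 0)))))
 (.seq (.one (.play 194 (.both (.play 130 (.ref 193 1)) (.both (.play 386 (.both (.ref 272 1) (.both (.play 450 (.ref 18 130)) (.play 450 (.both (.ref 8 194) (.ref 1205 257)))))) (.both (.play 386 (.both (.play 450 (.ref 97 129)) (.both (.play 450 (.ref 18 130)) (.play 387 (.both (.play 385 (.both (.play 449 (.ref 6 193)) (.play 388 (.ref 140 320)))) (.play 451 (.ref 4 194))))))) (.play 385 (.ref 135 129)))))))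
 (.seq (.one (.play 387 (.both (.ref 1196 0) (.play 388 (.ref 2 384)))))
 (.one (.play 259 (.both (.ref 280 0) (.play 260 (.ref 1 256))))))))
 (.seq (.seq (.one (.play 323 (.both (.ref 283 0) (.play 324 (.ref 1 320)))))
 (.one (.both (.play 1 (.ref 6 0)) (.play 320 (.ref 244 64)))))
 (.seq (.one (.play 388 (.both (.play 324 (.both (.play 454 (.both (.play 390 (.both (.ref 1098 3) (.both (.ref 799 67) (.both (.play 389 (.both (.ref 798 67) (.play 391 (.ref 1 387)))) (.play 389 (.ref 946 387)))))) (.both (.play 390 (.both (.play 326 (.both (.play 325 (.both (.ref 809 68) (.play 327 (.ref 1 323)))) (.both (.ref 1188 197) (.both (.play 518 (.ref 868 259)) (.both (.play 518 (.both (.ref 16 261) (.both (.ref 96 261) (.play 519 (.ref 867 323))))) (.play 327 (.ref 520 323))))))) (.both (.play 389 (.both (.ref 275 67) (.play 391 (.ref 1 387)))) (.both (.play 453 (.ref 492 195)) (.play 391 (.ref 520 387)))))) (.ref 1150 322)))) (.both (.play 260 (.both (.ref 402 131) (.both (.play 196 (.both (.play 387 (.ref 6 195)) (.ref 8 196)))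 (.ref 39 196)))) (.play 515 (.ref 184 259))))) (.both (.play 386 (.both (.play 389 (.both (.play 325 (.both (.play 515 (.both (.ref 1082 66) (.ref 852 322))) (.play 326 (.ref 2 322)))) (.both (.ref 945 322) (.play 454 (.both (.play 453 (.ref 3 386)) (.play 390 (.ref 946 387))))))) (.play 385 (.ref 0 384)))) (.both (.play 389 (.both (.ref 1209 67) (.both (.ref 1208 131) (.both (.play 325 (.both (.play 453 (.both (.play 261 (.ref 94 196)) (.play 386 (.ref 26 322)))) (.both (.play 261 (.ref 1210 196)) (.play 326 (.ref 53 322))))) (.both (.play 390 (.both (.play 325 (.both (.play 516 (.ref 617 196)) (.play 326 (.ref 90 322)))) (.play 391 (.ref 1 387)))) (.both (.ref 947 258) (.ref 395 322))))))) (.both (.play 389 (.both (.ref 1209 67) (.both (.ref 1208 131) (.both (.play 453 (.both (.play 325 (.both (.play 261 (.ref 94 196)) (.ref 820 258))) (.both (.play 454 (.both (.ref 668 259) (.play 455 (.ref 3 387)))) (.play 454 (.ref 140 386))))) (.both (.play 325 (.both (.play 261 (.ref 178 196)) (.play 390 (.both (.play 326 (.ref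 90 322)) (.play 391 (.ref 1 387)))))) (.both (.ref 947 258) (.ref 395 322))))))) (.both (.play 386 (.both (.ref 951 194) (.play 385 (.ref 0 384)))) (.both (.play 386 (.both (.ref 933 194) (.play 385 (.ref 0 384)))) (.play 324 (.both (.play 260 (.ref 94 195)) (.play 516 (.both (.ref 59 257) (.ref 831 323)))))))))))))
 (.seq (.one (.play 454 (.both (.play 455 (.both (.ref 1211 3) (.both (.play 456 (.both (.play 453 (.both (.ref 1207 5) (.ref 82 387))) (.both (.play 389 (.ref 259 387)) (.both (.ref 164 389) (.play 457 (.ref 162 389)))))) (.both (.play 389 (.both (.play 453 (.both (.play 391 (.both (.play 327 (.both (.play 519 (.both (.ref 272 134) (.ref 263 326))) (.both (.play 263 (.ref 94 198)) (.play 582 (.both (.play 519 (.both (.ref 480 324) (.play 583 (.ref 414 390)))) (.play 518 (.ref 5 326))))))) (.both (.ref 1206 133) (.play 392 (.ref 28 388))))) (.both (.ref 1200 259) (.play 517 (.both (.ref 452 322) (.both (.ref 556 323) (.both (.play 518 (.both (.play 516 (.both (.play 519 (.both (.play 580 (.ref 91 323)) (.ref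 47 388))) (.play 515 (.ref 2 451)))) (.both (.play 582 (.ref 61 325)) (.ref 1160 387)))) (.both (.ref 123 324) (.both (.play 581 (.both (.ref 118 384) (.play 645 (.ref 5 389)))) (.play 581 (.both (.ref 85 385) (.play 645 (.ref 5 389))))))))))))) (.play 388 (.ref 3 322)))) (.both (.play 453 (.both (.play 456 (.both (.ref 307 133) (.both (.play 457 (.ref 35 388)) (.ref 237 452)))) (.both (.ref 305 259) (.both (.play 516 (.both (.play 452 (.ref 1204 387)) (.both (.play 392 (.both (.ref 1203 387) (.play 456 (.ref 339 388)))) (.play 517 (.ref 58 450))))) (.both (.play 452 (.both (.play 388 (.ref 3 387)) (.ref 182 450))) (.play 456 (.ref 422 387))))))) (.both (.play 388 (.both (.play 453 (.both (.ref 978 132) (.play 452 (.ref 3 387)))) (.play 389 (.ref 3 322)))) (.both (.play 388 (.both (.play 453 (.both (.play 456 (.both (.ref 290 133) (.both (.play 521 (.ref 42 389)) (.both (.ref 296 389) (.both (.ref 1202 389) (.play 457 (.both (.ref 1003 389) (.play 521 (.ref 23 453))))))))) (.play 452 (.ref 3 387)))) (.play 389 (.ref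 3 322)))) (.both (.play 389 (.both (.play 582 (.both (.play 453 (.both (.ref 940 196) (.both (.ref 1200 259) (.both (.ref 1108 386) (.play 517 (.both (.play 581 (.both (.ref 174 388) (.play 646 (.ref 4 389)))) (.ref 975 388))))))) (.both (.play 518 (.both (.ref 1199 258) (.both (.play 391 (.ref 617 262)) (.both (.ref 39 326) (.both (.play 391 (.ref 86 326)) (.ref 565 389)))))) (.both (.play 518 (.both (.ref 1199 258) (.play 325 (.ref 7 325)))) (.both (.ref 888 325) (.both (.play 518 (.ref 647 325)) (.play 518 (.both (.play 325 (.ref 7 325)) (.ref 98 325))))))))) (.play 388 (.ref 3 322)))) (.both (.play 456 (.both (.play 389 (.both (.ref 1191 197) (.both (.play 388 (.ref 440 387)) (.play 388 (.ref 231 387))))) (.both (.play 389 (.ref 259 387)) (.both (.ref 164 389) (.play 457 (.ref 162 389)))))) (.both (.play 456 (.both (.ref 925 195) (.both (.play 457 (.ref 281 197)) (.both (.play 457 (.ref 279 389)) (.ref 278 389))))) (.both (.play 456 (.both (.play 453 (.both (.ref 280 197) (.ref 82 387))) (.both (.ref 424 387) (.both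 (.ref 423 387) (.both (.play 457 (.ref 422 388)) (.play 457 (.ref 162 389))))))) (.play 388 (.both (.play 452 (.both (.play 518 (.both (.ref 936 260) (.both (.ref 1198 321) (.both (.ref 684 322) (.play 516 (.both (.play 580 (.ref 7 323)) (.play 517 (.ref 66 451)))))))) (.play 453 (.ref 3 387)))) (.play 389 (.ref 3 322))))))))))))))) (.both (.ref 1197 0) (.both (.play 389 (.both (.play 518 (.both (.play 326 (.ref 957 4)) (.both (.play 582 (.both (.ref 849 133) (.both (.play 326 (.ref 18 262)) (.both (.ref 22 325) (.play 646 (.both (.ref 475 389) (.both (.ref 8 390) (.both (.ref 120 449) (.play 709 (.ref 159 453)))))))))) (.both (.play 325 (.ref 169 197)) (.play 582 (.both (.play 325 (.ref 7 325)) (.ref 39 326))))))) (.play 388 (.ref 3 322)))) (.both (.play 326 (.both (.play 262 (.both (.ref 790 5) (.both (.ref 788 69) (.play 518 (.ref 97 197))))) (.both (.ref 1023 67) (.both (.play 262 (.both (.ref 788 69) (.both (.play 198 (.ref 220 133)) (.ref 837 259)))) (.both (.play 518 (.both (.ref 1190 67) (.both (.ref 1123 259)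 (.both (.play 327 (.ref 175 261)) (.ref 534 261))))) (.both (.ref 646 131) (.play 262 (.ref 805 133)))))))) (.both (.play 389 (.both (.play 326 (.both (.play 518 (.both (.ref 1190 67) (.both (.play 327 (.both (.play 325 (.both (.ref 375 69) (.play 261 (.ref 7 261)))) (.play 263 (.ref 5 262)))) (.both (.ref 118 321) (.both (.ref 239 321) (.ref 1154 321)))))) (.both (.play 455 (.both (.play 456 (.both (.play 262 (.both (.play 197 (.ref 351 133)) (.both (.play 263 (.both (.play 327 (.both (.play 261 (.both (.play 197 (.ref 7 197)) (.play 328 (.both (.play 260 (.ref 0 260)) (.play 329 (.ref 1 325)))))) (.play 453 (.both (.play 517 (.ref 6 261)) (.play 520 (.ref 927 261)))))) (.play 199 (.ref 5 198)))) (.ref 353 197)))) (.play 457 (.ref 3 389)))) (.both (.ref 712 133) (.both (.play 262 (.both (.ref 786 133) (.play 519 (.ref 4 262)))) (.play 456 (.both (.ref 1191 197) (.play 457 (.ref 3 389)))))))) (.both (.play 262 (.ref 805 133)) (.both (.play 262 (.ref 804 133)) (.ref 784 257)))))) (.play 388 (.ref 3 322)))) (.both (.play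 518 (.both (.play 326 (.both (.ref 1190 67) (.both (.ref 347 197) (.both (.play 517 (.ref 193 197)) (.play 261 (.ref 351 197)))))) (.both (.ref 1124 131) (.both (.play 326 (.ref 805 197)) (.both (.ref 930 261) (.both (.play 582 (.ref 1112 261)) (.ref 120 321))))))) (.both (.play 389 (.both (.play 518 (.both (.play 326 (.both (.ref 273 69) (.both (.play 262 (.ref 533 197)) (.ref 85 322)))) (.both (.ref 1179 194) (.play 325 (.ref 645 197))))) (.play 388 (.ref 3 322)))) (.both (.play 518 (.both (.play 326 (.both (.ref 789 133) (.both (.play 261 (.ref 351 197)) (.both (.ref 1189 197) (.play 582 (.ref 220 261)))))) (.both (.play 326 (.both (.ref 1060 133) (.both (.play 262 (.ref 269 197)) (.both (.ref 1187 197) (.play 582 (.ref 533 261)))))) (.both (.play 326 (.both (.play 262 (.ref 269 197)) (.ref 118 321))) (.both (.play 326 (.both (.play 262 (.ref 269 197)) (.play 582 (.ref 13 325)))) (.both (.ref 862 321) (.ref 608 322))))))) (.both (.play 326 (.both (.play 262 (.both (.play 455 (.ref 639 133)) (.both (.play 197 (.ref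 351 133)) (.ref 1092 259)))) (.both (.play 262 (.ref 805 133)) (.both (.play 262 (.ref 804 133)) (.both (.ref 636 197) (.ref 838 259)))))) (.both (.play 518 (.both (.play 326 (.ref 240 193)) (.both (.play 582 (.both (.play 326 (.ref 18 262)) (.play 646 (.ref 220 325)))) (.both (.play 582 (.ref 219 261)) (.both (.play 582 (.both (.play 326 (.ref 18 262)) (.both (.ref 1186 325) (.ref 221 389)))) (.both (.ref 1188 261) (.both (.play 582 (.both (.play 326 (.ref 97 261)) (.both (.ref 16 325) (.ref 1024 325)))) (.ref 553 321)))))))) (.both (.play 389 (.both (.play 518 (.both (.play 326 (.both (.ref 347 197) (.both (.play 262 (.ref 533 197)) (.ref 1154 321)))) (.both (.play 325 (.ref 345 197)) (.both (.ref 14 325) (.ref 342 325))))) (.play 388 (.ref 3 322)))) (.play 518 (.both (.play 582 (.both (.play 326 (.both (.play 327 (.ref 17 262)) (.ref 204 321))) (.both (.play 646 (.ref 97 325)) (.both (.ref 96 325) (.play 646 (.both (.play 391 (.ref 17 326)) (.ref 534 389))))))) (.both (.play 582 (.ref 219 261)) (.both (.ref 877 261)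 (.both (.ref 369 261) (.both (.play 582 (.both (.ref 196 262) (.both (.ref 1186 325) (.ref 21 389)))) (.both (.ref 574 321) (.both (.play 519 (.both (.ref 892 321) (.both (.play 583 (.ref 146 326)) (.ref 442 386)))) (.both (.play 582 (.both (.play 391 (.both (.play 327 (.ref 5 326)) (.play 453 (.both (.play 452 (.ref 70 386)) (.both (.play 455 (.both (.play 452 (.ref 90 387)) (.play 646 (.ref 5 390)))) (.both (.play 389 (.both (.play 452 (.ref 71 387)) (.play 646 (.ref 7 389)))) (.play 646 (.ref 626 389)))))))) (.both (.ref 234 323) (.play 391 (.ref 175 325))))) (.ref 74 323)))))))))))))))))))))))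
 (.one (.play 66 (.both (.play 68 (.both (.play 4 (.ref 5 3)) (.play 129 (.ref 764 64)))) (.play 2 (.ref 7 2)))))))))
 (.seq (.seq (.seq (.one (.play 129 (.both (.play 65 (.ref 533 0)) (.both (.play 65 (.ref 18 1)) (.play 385 (.ref 220 64))))))
 (.one (.play 259 (.both (.ref 722 1) (.play 260 (.ref 0 192))))))
 (.seq (.one (.play 129 (.both (.play 258 (.both (.play 322 (.ref 345 1)) (.both (.play 130 (.both (.play 322 (.ref 61 65)) (.play 197 (.ref 3 129)))) (.both (.play 257 (.ref 654 65)) (.play 197 (.ref 1204 129)))))) (.play 128 (.ref 3 128)))))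
 (.seq (.one (.play 260 (.both (.ref 730 0) (.both (.play 261 (.ref 102 192)) (.both (.play 261 (.ref 285 192)) (.play 261 (.ref 25 256)))))))
 (.one (.play 325 (.both (.play 389 (.both (.play 197 (.both (.ref 1145 2) (.ref 118 192))) (.both (.play 196 (.ref 733 132)) (.both (.ref 14 196) (.ref 342 196))))) (.both (.play 389 (.both (.ref 809 3) (.both (.play 197 (.both (.ref 397 3) (.both (.play 133 (.ref 18 69)) (.ref 915 196)))) (.both (.ref 591 66) (.both (.play 197 (.both (.ref 199 130) (.play 198 (.ref 762 131)))) (.ref 342 196)))))) (.both (.play 326 (.both (.play 197 (.both (.ref 397 3) (.both (.play 133 (.ref 1156 68)) (.play 389 (.both (.play 198 (.ref 762 131)) (.ref 263 196)))))) (.play 258 (.ref 0 258)))) (.play 326 (.ref 41 258))))))))))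
 (.seq (.seq (.one (.play 69 (.both (.play 70 (.both (.ref 295 2) (.ref 24 65))) (.both (.ref 160 2) (.play 65 (.ref 25 64))))))
 (.one (.play 69 (.both (.ref 101 0) (.ref 33 1)))))
 (.seq (.one (.play 69 (.both (.play 65 (.ref 149 0)) (.both (.ref 1220 1) (.ref 296 2)))))
 (.seq (.one (.play 69 (.both (.play 70 (.ref 285 1)) (.both (.play 70 (.ref 149 1)) (.play 65 (.ref 25 64))))))
 (.one (.play 69 (.both (.play 65 (.ref 149 0)) (.play 70 (.ref 25 65)))))))))))
 (.seq (.seq (.seq (.seq (.seq (.one (.play 386 (.both (.play 322 (.both (.play 258 (.both (.ref 659 1) (.play 257 (.ref 3 257)))) (.play 385 (.ref 1 321)))) (.both (.play 258 (.both (.play 322 (.ref 729 65)) (.both (.play 259 (.ref 232 256)) (.ref 1002 258)))) (.play 387 (.ref 58 320))))))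
 (.one (.play 325 (.both (.play 389 (.both (.play 197 (.both (.ref 788 4) (.both (.ref 1065 68) (.play 198 (.ref 762 131))))) (.both (.play 196 (.ref 169 68)) (.both (.ref 784 192) (.play 453 (.ref 607 193)))))) (.both (.play 197 (.both (.ref 267 4) (.play 198 (.ref 53 194)))) (.play 326 (.ref 41 258)))))))
 (.seq (.one (.play 66 (.both (.play 2 (.ref 7 2)) (.play 65 (.ref 0 64)))))
 (.seq (.one (.play 68 (.both (.play 66 (.both (.play 2 (.ref 7 2)) (.play 129 (.both (.play 65 (.ref 1 64)) (.play 130 (.ref 0 128)))))) (.play 4 (.ref 5 3)))))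
 (.one (.play 194 (.both (.play 130 (.ref 169 2)) (.play 193 (.ref 0 192))))))))
 (.seq (.seq (.one (.both (.play 194 (.both (.play 130 (.both (.ref 392 1) (.play 131 (.ref 17 66)))) (.both (.play 130 (.ref 18 66)) (.ref 263 193)))) (.both (.play 194 (.both (.play 130 (.ref 269 65)) (.both (.play 130 (.ref 533 65)) (.both (.play 130 (.ref 18 66)) (.play 195 (.both (.play 193 (.both (.play 129 (.ref 7 129)) (.play 196 (.ref 28 192)))) (.play 131 (.ref 5 130)))))))) (.both (.play 193 (.ref 645 65)) (.play 450 (.ref 368 193))))))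
 (.one (.play 448 (.both (.ref 708 0) (.play 512 (.ref 6 256))))))
 (.seq (.one (.play 389 (.both (.play 455 (.both (.play 517 (.both (.play 325 (.both (.play 261 (.both (.play 197 (.both (.ref 1060 4) (.play 390 (.ref 4 197)))) (.both (.ref 1027 68) (.ref 15 196)))) (.both (.play 388 (.both (.play 261 (.both (.play 197 (.both (.ref 409 68) (.play 390 (.ref 4 197)))) (.play 262 (.ref 17 197)))) (.both (.play 387 (.both (.ref 397 131) (.play 386 (.ref 0 386)))) (.play 387 (.ref 440 386))))) (.both (.ref 1230 68) (.both (.ref 266 196) (.ref 1227 258)))))) (.both (.ref 1228 194) (.ref 1198 320)))) (.both (.play 517 (.both (.ref 659 132) (.both (.play 580 (.both (.play 325 (.both (.ref 363 132) (.play 516 (.ref 6 324)))) (.both (.ref 498 324) (.play 581 (.both (.play 644 (.ref 6 388)) (.ref 943 389)))))) (.both (.play 516 (.both (.ref 401 196) (.play 456 (.ref 1 452)))) (.both (.play 390 (.both (.play 326 (.ref 184 261)) (.play 456 (.ref 671 388)))) (.play 390 (.both (.ref 502 324) (.play 456 (.ref 671 388))))))))) (.play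 456 (.ref 162 388))))) (.both (.ref 1211 2) (.both (.play 388 (.both (.play 390 (.both (.play 518 (.both (.play 456 (.both (.ref 1159 5) (.both (.play 455 (.ref 388 132)) (.both (.play 455 (.ref 279 388)) (.play 392 (.ref 1075 389)))))) (.play 582 (.ref 61 325)))) (.both (.ref 954 68) (.both (.play 391 (.both (.play 455 (.both (.ref 348 69) (.play 456 (.ref 3 388)))) (.both (.play 392 (.both (.ref 928 196) (.play 393 (.ref 1 389)))) (.ref 947 260)))) (.both (.play 518 (.both (.play 326 (.both (.play 262 (.both (.play 198 (.ref 289 69)) (.both (.play 325 (.both (.play 198 (.ref 94 133)) (.play 261 (.ref 7 261)))) (.ref 15 197)))) (.both (.ref 397 132) (.both (.ref 272 133) (.both (.play 261 (.ref 351 197)) (.ref 287 260)))))) (.both (.play 583 (.both (.play 326 (.both (.ref 272 133) (.play 519 (.ref 4 326)))) (.both (.ref 650 326) (.play 582 (.both (.ref 1205 389) (.play 647 (.ref 4 390))))))) (.ref 342 325)))) (.both (.play 518 (.ref 1229 132)) (.both (.ref 933 196) (.both (.ref 950 196) (.play 391 (.both (.play 455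 (.both (.play 519 (.both (.ref 1130 260) (.both (.play 327 (.both (.play 328 (.ref 2 324)) (.ref 346 325))) (.play 583 (.ref 647 326))))) (.play 456 (.ref 0 388)))) (.both (.ref 160 324) (.both (.play 328 (.ref 27 324)) (.both (.ref 1062 324) (.play 392 (.both (.play 328 (.ref 31 324)) (.play 325 (.both (.play 324 (.ref 3 324)) (.ref 1002 325)))))))))))))))))) (.play 387 (.ref 0 386)))) (.both (.play 325 (.both (.play 517 (.both (.play 326 (.both (.play 327 (.both (.play 324 (.both (.ref 1007 68) (.play 260 (.ref 7 260)))) (.both (.play 324 (.both (.play 260 (.ref 7 260)) (.play 388 (.ref 28 323)))) (.play 328 (.ref 56 260))))) (.play 262 (.ref 5 261)))) (.ref 198 322))) (.both (.ref 714 132) (.both (.ref 712 132) (.play 518 (.ref 345 197)))))) (.both (.play 325 (.both (.play 261 (.both (.ref 713 132) (.both (.ref 1185 133) (.ref 1123 194)))) (.both (.ref 712 132) (.both (.play 517 (.both (.play 388 (.both (.play 324 (.ref 169 196)) (.play 387 (.ref 45 386)))) (.both (.ref 534 260) (.ref 198 322)))) (.ref 879 261)))))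 (.both (.ref 756 130) (.both (.play 517 (.both (.ref 1228 194) (.both (.play 325 (.both (.ref 1227 258) (.ref 198 322))) (.both (.ref 991 322) (.play 581 (.both (.ref 1226 322) (.ref 943 389))))))) (.both (.play 388 (.both (.play 517 (.both (.play 516 (.both (.play 325 (.ref 289 196)) (.ref 990 386))) (.both (.play 324 (.ref 169 196)) (.both (.ref 453 322) (.ref 1157 324))))) (.play 387 (.ref 0 386)))) (.play 582 (.both (.play 581 (.both (.play 583 (.both (.ref 276 260) (.both (.ref 978 260) (.both (.play 580 (.both (.ref 280 324) (.play 579 (.ref 102 514)))) (.both (.ref 490 513) (.both (.ref 488 513) (.play 580 (.both (.play 579 (.ref 102 514)) (.play 584 (.ref 32 516)))))))))) (.both (.ref 1182 320) (.both (.ref 1181 325) (.play 517 (.ref 782 384)))))) (.both (.ref 1180 258) (.both (.play 518 (.ref 169 261)) (.play 518 (.ref 645 261))))))))))))))))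
 (.seq (.one (.play 323 (.both (.play 131 (.both (.ref 1138 3) (.ref 1226 64))) (.both (.play 131 (.both (.ref 196 3) (.ref 1226 64))) (.both (.play 132 (.ref 337 3)) (.play 132 (.ref 188 3)))))))
 (.one (.play 324 (.both (.play 325 (.ref 857 3)) (.play 322 (.ref 848 256)))))))))
 (.seq (.seq (.seq (.one (.play 516 (.both (.play 323 (.both (.ref 1233 2) (.play 580 (.ref 4 323)))) (.both (.play 518 (.both (.ref 1232 259) (.play 517 (.ref 2 451)))) (.both (.play 514 (.both (.play 578 (.both (.play 323 (.ref 6 322)) (.play 517 (.ref 207 449)))) (.both (.play 581 (.both (.ref 1044 321) (.play 517 (.ref 1100 450)))) (.both (.play 323 (.ref 75 322)) (.play 517 (.ref 183 448)))))) (.play 514 (.both (.play 323 (.ref 75 322)) (.play 517 (.both (.play 453 (.ref 2 450)) (.play 518 (.ref 2 451)))))))))))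
 (.one (.play 457 (.both (.play 517 (.both (.ref 1234 2) (.both (.play 582 (.both (.play 518 (.both (.play 585 (.both (.play 584 (.both (.ref 856 135) (.play 583 (.ref 3 517)))) (.both (.play 584 (.both (.ref 711 136) (.play 583 (.ref 3 517)))) (.both (.play 584 (.both (.ref 710 136) (.play 583 (.ref 3 517)))) (.both (.play 584 (.both (.ref 716 135) (.play 583 (.ref 3 517)))) (.both (.play 521 (.ref 1229 199)) (.both (.play 584 (.both (.ref 855 391) (.play 583 (.ref 3 517)))) (.play 584 (.both (.ref 699 392) (.play 583 (.ref 3 517))))))))))) (.play 325 (.ref 4 325)))) (.both (.ref 650 325) (.play 581 (.both (.ref 892 384) (.both (.play 646 (.ref 246 389)) (.play 645 (.both (.play 583 (.both (.play 710 (.both (.play 646 (.ref 4 453)) (.play 580 (.both (.ref 433 512) (.play 774 (.both (.play 647 (.both (.play 519 (.both (.play 520 (.ref 2 516)) (.play 711 (.ref 6 518)))) (.play 648 (.ref 0 580)))) (.play 709 (.ref 246 517)))))))) (.both (.ref 395 516) (.both (.play 584 (.ref 211 516)) (.play 644 (.ref 70 578)))))) (.both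 (.ref 111 450) (.ref 361 452)))))))))) (.both (.ref 1184 196) (.both (.play 581 (.ref 219 260)) (.ref 1105 324)))))) (.both (.play 517 (.both (.ref 1234 2) (.both (.play 325 (.both (.ref 1233 4) (.play 580 (.ref 159 324)))) (.both (.play 518 (.both (.play 520 (.both (.play 584 (.both (.play 392 (.both (.ref 658 135) (.both (.ref 789 199) (.both (.play 583 (.both (.ref 271 263) (.play 647 (.ref 6 391)))) (.both (.ref 1189 263) (.play 393 (.both (.play 391 (.both (.play 327 (.ref 7 327)) (.play 390 (.ref 29 389)))) (.play 329 (.ref 5 328))))))))) (.both (.play 393 (.ref 188 264)) (.both (.play 392 (.both (.ref 1226 325) (.play 647 (.ref 159 391)))) (.play 648 (.ref 525 391)))))) (.both (.ref 1232 261) (.play 519 (.ref 66 453))))) (.play 582 (.ref 246 325)))) (.both (.ref 1184 196) (.both (.play 581 (.ref 219 260)) (.ref 1105 324))))))) (.both (.ref 1231 3) (.both (.play 458 (.both (.play 394 (.both (.play 330 (.both (.ref 1195 7) (.both (.ref 407 136) (.both (.ref 401 137) (.both (.ref 400 200) (.play 522 (.both (.ref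 1021 263) (.ref 973 328)))))))) (.both (.play 330 (.both (.ref 403 137) (.both (.ref 401 137) (.both (.play 522 (.both (.ref 992 261) (.ref 1144 327))) (.play 521 (.ref 1210 265)))))) (.both (.play 395 (.both (.play 522 (.both (.play 330 (.both (.ref 272 137) (.ref 973 328))) (.both (.play 331 (.ref 188 202)) (.both (.ref 389 328) (.play 586 (.both (.play 393 (.ref 61 329)) (.play 331 (.ref 5 330)))))))) (.play 455 (.ref 2 391)))) (.play 395 (.ref 53 391)))))) (.both (.ref 1224 133) (.both (.ref 308 135) (.play 459 (.ref 422 390)))))) (.both (.play 458 (.both (.play 455 (.both (.play 392 (.both (.ref 1207 7) (.ref 595 262))) (.both (.ref 364 134) (.both (.play 394 (.both (.play 391 (.both (.play 330 (.both (.ref 403 137) (.both (.ref 401 137) (.both (.play 521 (.ref 617 201)) (.play 522 (.both (.ref 1213 263) (.ref 346 328))))))) (.play 390 (.ref 3 390)))) (.play 395 (.ref 2 391)))) (.ref 730 198))))) (.both (.ref 1224 133) (.both (.ref 1073 135) (.ref 291 390))))) (.both (.play 458 (.both (.play 459 (.both (.play 460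 (.both (.play 393 (.both (.play 521 (.both (.ref 850 72) (.play 520 (.ref 1 456)))) (.play 392 (.ref 3 392)))) (.both (.ref 107 392) (.ref 748 392)))) (.both (.play 523 (.both (.play 394 (.both (.play 330 (.ref 345 202)) (.both (.play 522 (.both (.play 330 (.ref 87 266)) (.play 455 (.ref 0 455)))) (.both (.play 395 (.both (.play 330 (.ref 555 266)) (.play 455 (.ref 2 391)))) (.play 455 (.both (.play 395 (.ref 2 391)) (.play 522 (.ref 0 455)))))))) (.play 524 (.ref 0 456)))) (.ref 107 391)))) (.both (.play 459 (.both (.play 455 (.both (.ref 309 135) (.ref 101 390))) (.both (.play 460 (.ref 285 391)) (.both (.ref 34 391) (.ref 693 391))))) (.both (.ref 308 135) (.both (.play 394 (.both (.ref 1206 136) (.both (.ref 1141 199) (.play 395 (.ref 53 391))))) (.both (.play 459 (.both (.ref 180 263) (.both (.ref 1216 263) (.play 392 (.ref 439 391))))) (.both (.ref 291 390) (.both (.ref 836 390) (.both (.play 459 (.both (.ref 300 390) (.both (.ref 295 391) (.both (.ref 34 391) (.play 460 (.both (.ref 101 391) (.ref 515 392)))))))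 (.play 459 (.both (.ref 223 390) (.both (.ref 1220 391) (.ref 1177 392))))))))))))) (.both (.play 458 (.both (.play 455 (.both (.play 394 (.both (.play 522 (.both (.ref 1080 73) (.play 523 (.ref 0 455)))) (.play 395 (.ref 2 391)))) (.ref 685 134))) (.both (.ref 1217 199) (.both (.ref 291 390) (.both (.play 459 (.ref 422 390)) (.ref 1221 390)))))) (.both (.play 458 (.both (.play 522 (.both (.play 586 (.both (.play 394 (.both (.ref 273 137) (.ref 85 390))) (.both (.play 393 (.ref 169 265)) (.both (.ref 784 389) (.play 650 (.ref 607 390)))))) (.both (.play 586 (.both (.play 394 (.both (.ref 273 137) (.ref 118 389))) (.both (.play 393 (.ref 345 265)) (.both (.ref 636 329) (.both (.ref 608 390) (.ref 14 393)))))) (.both (.play 586 (.both (.play 329 (.both (.play 394 (.both (.ref 788 201) (.both (.ref 770 201) (.ref 239 389)))) (.both (.play 393 (.ref 168 265)) (.both (.play 393 (.ref 644 265)) (.play 393 (.ref 698 329)))))) (.both (.play 393 (.ref 345 265)) (.both (.ref 14 393) (.ref 342 393))))) (.both (.play 523 (.ref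 41 455)) (.ref 742 455)))))) (.both (.play 519 (.both (.play 455 (.ref 1078 134)) (.both (.play 459 (.both (.ref 753 136) (.play 520 (.ref 1 455)))) (.play 520 (.ref 68 453))))) (.both (.play 459 (.both (.ref 309 136) (.both (.play 455 (.ref 35 390)) (.play 455 (.ref 25 454))))) (.both (.ref 1073 135) (.both (.ref 1225 197) (.both (.play 459 (.both (.ref 243 263) (.both (.play 395 (.ref 209 390)) (.both (.ref 33 391) (.ref 1176 391))))) (.both (.play 459 (.ref 422 390)) (.ref 36 390))))))))) (.both (.play 458 (.both (.play 392 (.both (.play 328 (.both (.play 264 (.both (.play 199 (.ref 351 135)) (.both (.ref 37 197) (.play 395 (.both (.play 393 (.both (.play 200 (.ref 4 200)) (.play 394 (.both (.play 327 (.ref 3 327)) (.play 455 (.ref 2 391)))))) (.both (.play 393 (.both (.play 200 (.ref 4 200)) (.play 459 (.ref 938 392)))) (.play 394 (.ref 66 391)))))))) (.both (.ref 712 135) (.play 521 (.both (.ref 333 263) (.both (.play 459 (.both (.play 395 (.both (.play 394 (.both (.play 330 (.both (.play 266 (.ref 6 265)) (.play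 327 (.ref 540 327)))) (.play 455 (.ref 2 391)))) (.play 396 (.ref 2 392)))) (.both (.ref 336 392) (.ref 327 392)))) (.play 585 (.ref 46 328)))))))) (.both (.play 455 (.both (.ref 1117 135) (.ref 225 262))) (.play 391 (.both (.play 390 (.ref 0 389)) (.play 459 (.ref 3 391))))))) (.both (.play 455 (.both (.ref 309 135) (.both (.ref 226 262) (.ref 107 390)))) (.both (.play 455 (.both (.ref 309 135) (.both (.ref 226 262) (.play 391 (.ref 439 390))))) (.both (.ref 308 135) (.both (.ref 1225 197) (.both (.ref 306 262) (.both (.ref 291 390) (.ref 836 390))))))))) (.both (.play 458 (.both (.play 391 (.both (.play 519 (.both (.play 455 (.ref 660 134)) (.both (.ref 1002 391) (.play 520 (.ref 68 453))))) (.both (.play 455 (.both (.play 519 (.both (.ref 728 198) (.play 518 (.ref 1 454)))) (.play 390 (.ref 3 390)))) (.play 392 (.ref 441 389))))) (.both (.play 455 (.both (.ref 685 134) (.ref 283 135))) (.both (.ref 308 135) (.play 459 (.ref 422 390)))))) (.both (.play 458 (.both (.ref 1224 133) (.both (.play 455 (.both (.ref 685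 134) (.ref 280 199))) (.both (.ref 1073 135) (.ref 291 390))))) (.both (.play 458 (.both (.ref 1224 133) (.both (.ref 308 135) (.both (.ref 1218 197) (.play 459 (.ref 422 390)))))) (.both (.play 458 (.both (.play 455 (.both (.ref 685 134) (.ref 307 135))) (.both (.ref 308 135) (.both (.ref 1223 390) (.both (.ref 1222 390) (.both (.play 459 (.ref 422 390)) (.both (.ref 1221 390) (.ref 1219 390)))))))) (.both (.play 458 (.both (.play 455 (.both (.ref 685 134) (.ref 309 135))) (.both (.ref 308 135) (.both (.ref 1223 390) (.both (.ref 1222 390) (.both (.play 459 (.ref 422 390)) (.both (.ref 1221 390) (.ref 1219 390)))))))) (.play 458 (.both (.ref 1218 197) (.both (.ref 1217 199) (.both (.play 395 (.both (.play 455 (.both (.ref 1216 262) (.play 394 (.ref 2 391)))) (.both (.play 459 (.both (.ref 226 263) (.play 396 (.ref 2 392)))) (.play 394 (.ref 53 391))))) (.ref 291 390))))))))))))))))))))))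
 (.seq (.one (.both (.play 2 (.ref 7 2)) (.play 132 (.both (.play 65 (.ref 0 64)) (.ref 360 66)))))
 (.seq (.one (.play 134 (.both (.ref 1226 2) (.ref 1107 64))))
 (.one (.play 194 (.both (.play 258 (.ref 178 2)) (.play 193 (.ref 2 128))))))))
 (.seq (.seq (.one (.play 257 (.both (.play 193 (.ref 91 0)) (.play 258 (.ref 1 193)))))
 (.one (.both (.ref 1239 0) (.play 134 (.ref 2 130)))))
 (.seq (.one (.play 196 (.both (.play 197 (.ref 1240 1)) (.both (.play 260 (.ref 146 3)) (.play 259 (.both (.ref 111 64) (.play 323 (.both (.ref 8 67) (.both (.ref 526 67) (.ref 502 130))))))))))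
 (.seq (.one (.play 131 (.both (.play 66 (.ref 351 2)) (.both (.ref 196 3) (.play 387 (.both (.ref 15 66) (.ref 585 128)))))))
 (.one (.both (.play 256 (.ref 6 0)) (.play 131 (.ref 1 128)))))))))
 (.seq (.seq (.seq (.seq (.one (.play 67 (.both (.play 3 (.ref 7 3)) (.play 131 (.ref 2 64)))))
 (.one (.play 323 (.both (.play 324 (.ref 639 2)) (.both (.ref 1021 64) (.ref 39 67))))))
 (.seq (.one (.both (.play 68 (.both (.play 1 (.both (.play 65 (.ref 696 0)) (.play 69 (.ref 3 1)))) (.both (.play 69 (.ref 162 1)) (.play 65 (.both (.play 132 (.ref 29 64)) (.play 129 (.ref 1 64))))))) (.play 259 (.ref 7 2))))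
 (.seq (.one (.play 1 (.both (.play 68 (.ref 162 0)) (.play 258 (.ref 7 1)))))
 (.one (.play 65 (.both (.ref 107 0) (.play 129 (.ref 1 64))))))))
 (.seq (.seq (.one (.play 324 (.both (.play 322 (.both (.play 325 (.both (.ref 1083 2) (.both (.ref 982 130) (.both (.ref 981 257) (.both (.play 262 (.ref 27 258)) (.ref 979 258)))))) (.both (.play 321 (.both (.ref 1007 65) (.play 385 (.ref 1 320)))) (.both (.ref 329 129) (.both (.ref 1248 256) (.play 389 (.both (.play 257 (.both (.play 321 (.ref 696 256)) (.play 325 (.ref 437 257)))) (.both (.play 321 (.both (.play 385 (.ref 1 320)) (.play 388 (.ref 0 321)))) (.play 390 (.ref 759 322)))))))))) (.both (.play 260 (.ref 337 131)) (.both (.play 322 (.both (.ref 1248 256) (.both (.play 321 (.both (.ref 746 257) (.play 385 (.ref 1 320)))) (.both (.ref 1247 257) (.play 515 (.ref 265 258)))))) (.play 322 (.both (.play 321 (.ref 754 256)) (.both (.play 257 (.both (.play 321 (.ref 696 256)) (.ref 983 257))) (.both (.play 388 (.both (.ref 852 258) (.play 321 (.ref 236 320)))) (.ref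 1247 257))))))))))
 (.one (.play 257 (.both (.play 66 (.ref 175 0)) (.both (.ref 39 1) (.play 258 (.both (.play 256 (.both (.play 320 (.ref 6 64)) (.play 195 (.ref 446 192)))) (.play 322 (.ref 4 65)))))))))
 (.seq (.one (.play 130 (.both (.play 194 (.both (.play 66 (.ref 328 1)) (.play 131 (.ref 64 128)))) (.both (.ref 1000 1) (.both (.play 129 (.ref 848 64)) (.play 131 (.ref 65 128)))))))
 (.seq (.one (.play 259 (.both (.ref 1023 0) (.both (.ref 401 66) (.both (.play 451 (.both (.ref 755 192) (.both (.play 260 (.ref 175 194)) (.ref 264 258)))) (.play 450 (.ref 178 194)))))))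
 (.one (.play 324 (.both (.ref 712 2) (.ref 1238 192))))))))
 (.seq (.seq (.seq (.one (.play 257 (.both (.play 2 (.ref 5 1)) (.ref 221 64))))
 (.one (.play 260 (.both (.play 324 (.ref 97 3)) (.both (.ref 39 4) (.ref 998 64))))))
 (.seq (.one (.play 193 (.both (.ref 924 1) (.play 257 (.ref 1 192)))))
 (.seq (.one (.play 517 (.both (.play 456 (.both (.play 454 (.both (.play 457 (.both (.ref 1207 6) (.both (.play 522 (.ref 42 390)) (.both (.play 394 (.both (.play 393 (.ref 2 390)) (.play 458 (.both (.play 395 (.ref 2 391)) (.ref 438 391))))) (.both (.ref 1202 390) (.play 458 (.both (.ref 438 391) (.both (.ref 1201 391) (.play 522 (.ref 23 454)))))))))) (.play 453 (.ref 1204 388)))) (.both (.play 453 (.both (.play 454 (.both (.ref 307 133) (.play 516 (.ref 1 452)))) (.both (.play 581 (.ref 996 320)) (.play 389 (.both (.play 581 (.ref 7 324)) (.play 454 (.ref 3 388))))))) (.both (.play 457 (.both (.play 454 (.both (.ref 1117 134) (.play 518 (.ref 1 453)))) (.both (.play 454 (.both (.ref 309 134) (.play 518 (.ref 1 453))))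 (.both (.ref 276 134) (.both (.ref 500 134) (.both (.ref 499 135) (.both (.ref 1256 261) (.play 454 (.ref 137 389))))))))) (.both (.play 457 (.both (.play 454 (.both (.ref 283 134) (.play 518 (.ref 1 453)))) (.both (.ref 499 135) (.both (.ref 1256 261) (.both (.play 458 (.ref 422 389)) (.both (.play 454 (.ref 137 389)) (.play 458 (.both (.ref 386 390) (.both (.ref 320 390) (.play 518 (.ref 1020 453))))))))))) (.both (.play 519 (.both (.ref 1255 323) (.both (.play 518 (.both (.ref 1174 325) (.play 516 (.ref 2 452)))) (.both (.play 518 (.both (.ref 1174 325) (.play 457 (.ref 64 453)))) (.play 518 (.ref 66 452)))))) (.play 518 (.ref 70 451)))))))) (.both (.play 519 (.both (.play 516 (.both (.play 452 (.ref 592 195)) (.both (.play 518 (.both (.play 452 (.both (.play 581 (.ref 4 324)) (.play 451 (.ref 3 451)))) (.play 456 (.ref 2 452)))) (.play 518 (.ref 209 450))))) (.both (.ref 1255 323) (.both (.ref 1183 325) (.play 583 (.both (.ref 923 384) (.both (.play 647 (.both (.play 711 (.both (.play 582 (.both (.play 646 (.both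 (.play 391 (.ref 6 390)) (.ref 926 450))) (.play 518 (.ref 61 454)))) (.both (.ref 16 454) (.ref 8 455)))) (.both (.ref 96 390) (.both (.ref 118 450) (.both (.ref 221 454) (.play 710 (.ref 159 454))))))) (.both (.play 584 (.both (.play 582 (.both (.play 646 (.ref 178 390)) (.ref 566 515))) (.both (.ref 620 387) (.both (.ref 879 391) (.play 647 (.both (.play 646 (.both (.play 648 (.both (.play 455 (.ref 75 454)) (.play 645 (.ref 90 580)))) (.both (.play 710 (.ref 135 454)) (.play 645 (.ref 656 580))))) (.both (.ref 76 454) (.both (.ref 527 454) (.both (.play 711 (.both (.ref 12 454) (.both (.play 775 (.ref 525 518)) (.ref 1254 518)))) (.play 711 (.both (.ref 8 455) (.both (.ref 526 455) (.ref 1254 518))))))))))))) (.both (.ref 603 388) (.both (.play 584 (.both (.play 582 (.both (.play 391 (.ref 75 390)) (.ref 318 517))) (.both (.play 648 (.ref 146 391)) (.play 585 (.both (.play 518 (.ref 371 517)) (.both (.play 518 (.ref 44 517)) (.both (.ref 291 517) (.ref 164 518)))))))) (.play 647 (.both (.ref 239 450) (.both (.play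 710 (.ref 159 454)) (.both (.play 711 (.both (.ref 12 454) (.play 775 (.ref 533 454)))) (.both (.ref 21 454) (.play 711 (.both (.ref 12 454) (.play 775 (.both (.ref 15 454) (.ref 39 519)))))))))))))))))))) (.both (.play 452 (.both (.play 260 (.both (.play 261 (.ref 175 195)) (.play 453 (.ref 4 260)))) (.both (.ref 876 195) (.both (.play 453 (.ref 146 260)) (.play 581 (.both (.play 516 (.ref 4 324)) (.play 453 (.ref 46 324)))))))) (.both (.play 519 (.both (.play 452 (.both (.play 516 (.both (.play 325 (.ref 175 259)) (.play 518 (.ref 49 451)))) (.both (.play 453 (.both (.play 260 (.ref 4 260)) (.play 520 (.ref 540 452)))) (.play 453 (.both (.play 260 (.ref 4 260)) (.play 454 (.ref 26 388))))))) (.both (.play 583 (.both (.play 584 (.both (.play 585 (.both (.ref 500 262) (.both (.play 582 (.both (.ref 283 262) (.play 646 (.ref 6 390)))) (.both (.play 586 (.both (.ref 493 263) (.both (.play 582 (.both (.play 646 (.ref 6 390)) (.play 522 (.ref 31 518)))) (.play 582 (.both (.play 646 (.ref 6 390)) (.play 650 (.ref 23 582)))))))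 (.both (.ref 499 263) (.both (.play 392 (.both (.play 520 (.both (.play 456 (.both (.ref 59 325) (.play 649 (.ref 4 392)))) (.play 582 (.both (.play 646 (.ref 6 390)) (.ref 315 518))))) (.play 328 (.ref 5 327)))) (.both (.play 582 (.both (.play 646 (.ref 6 390)) (.ref 924 390))) (.play 582 (.both (.play 646 (.ref 6 390)) (.ref 79 518)))))))))) (.play 648 (.ref 4 391)))) (.both (.play 392 (.ref 175 326)) (.both (.ref 39 327) (.play 646 (.ref 159 390)))))) (.both (.play 518 (.both (.ref 227 321) (.both (.play 516 (.both (.play 520 (.both (.ref 305 324) (.ref 101 451))) (.both (.play 515 (.ref 285 450)) (.both (.ref 99 450) (.ref 182 514))))) (.both (.play 583 (.both (.ref 233 388) (.both (.ref 702 390) (.both (.ref 264 390) (.ref 465 450))))) (.both (.ref 948 388) (.ref 669 388)))))) (.ref 1183 325))))) (.play 453 (.both (.play 519 (.both (.play 518 (.both (.play 520 (.both (.play 521 (.both (.ref 280 262) (.both (.play 583 (.both (.ref 338 326) (.both (.play 646 (.ref 159 390)) (.ref 630 390)))) (.both (.play 583 (.both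 (.ref 630 390) (.both (.ref 361 390) (.ref 847 390)))) (.both (.play 586 (.ref 42 454)) (.ref 296 454)))))) (.play 452 (.ref 3 452)))) (.both (.play 583 (.both (.ref 389 389) (.both (.ref 346 389) (.both (.ref 76 390) (.both (.ref 702 390) (.ref 649 390)))))) (.play 452 (.ref 441 450))))) (.both (.play 583 (.both (.ref 1163 324) (.ref 76 390))) (.both (.ref 1183 325) (.ref 541 452))))) (.both (.play 581 (.ref 406 260)) (.play 389 (.both (.play 325 (.both (.play 260 (.ref 7 260)) (.play 454 (.both (.play 518 (.ref 246 261)) (.play 456 (.ref 3 388)))))) (.play 581 (.ref 7 324)))))))))))))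
 (.one (.play 193 (.both (.play 260 (.ref 156 1)) (.play 129 (.ref 3 128))))))))
 (.seq (.seq (.one (.play 1 (.both (.ref 12 0) (.play 194 (.ref 4 1)))))
 (.one (.play 519 (.both (.play 518 (.both (.play 454 (.both (.play 390 (.both (.play 326 (.both (.ref 1135 5) (.both (.ref 534 261) (.ref 1259 261)))) (.both (.ref 1080 69) (.both (.play 326 (.both (.ref 849 69) (.both (.play 582 (.ref 97 261)) (.ref 1259 261)))) (.both (.play 389 (.both (.play 388 (.both (.play 391 (.both (.ref 1007 132) (.both (.ref 329 196) (.both (.play 456 (.ref 42 324)) (.both (.ref 953 324) (.ref 186 324)))))) (.both (.play 387 (.both (.ref 299 321) (.play 450 (.ref 1 386)))) (.play 391 (.both (.play 387 (.both (.ref 101 322) (.play 450 (.ref 1 386)))) (.play 392 (.ref 32 324))))))) (.both (.play 325 (.both (.play 391 (.both (.ref 329 196) (.both (.play 388 (.both (.play 455 (.both (.play 327 (.ref 55 260)) (.play 456 (.ref 0 388)))) (.ref 115 320))) (.both (.play 324 (.ref 232 322)) (.play 392 (.both (.play 324 (.ref 3 324)) (.ref 336 325)))))))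 (.play 582 (.ref 7 325)))) (.play 325 (.ref 645 197))))) (.both (.play 326 (.both (.ref 638 197) (.both (.ref 1185 198) (.ref 993 257)))) (.both (.ref 714 197) (.play 326 (.ref 995 257))))))))) (.play 583 (.ref 7 454)))) (.both (.play 520 (.both (.play 521 (.both (.ref 309 198) (.both (.ref 107 453) (.ref 385 454)))) (.both (.play 456 (.both (.play 521 (.both (.ref 668 326) (.play 522 (.both (.play 458 (.ref 31 454)) (.both (.ref 314 454) (.play 523 (.ref 162 455))))))) (.play 583 (.ref 5 455)))) (.both (.play 454 (.both (.play 521 (.ref 162 453)) (.play 583 (.ref 7 454)))) (.play 583 (.ref 265 454)))))) (.play 581 (.ref 999 515))))) (.both (.play 583 (.ref 957 197)) (.both (.play 708 (.both (.play 709 (.both (.play 648 (.both (.play 520 (.both (.play 712 (.both (.play 521 (.both (.play 522 (.both (.play 457 (.both (.ref 668 327) (.play 584 (.ref 5 456)))) (.both (.play 584 (.both (.play 457 (.ref 5 456)) (.play 583 (.ref 28 518)))) (.play 587 (.ref 42 455))))) (.both (.play 522 (.both (.ref 497 454) (.play 587 (.ref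 42 455)))) (.play 584 (.ref 265 455))))) (.both (.play 583 (.ref 87 455)) (.both (.play 584 (.both (.play 455 (.ref 7 455)) (.ref 703 455))) (.play 776 (.both (.play 583 (.ref 4 519)) (.ref 197 519))))))) (.both (.play 456 (.ref 415 455)) (.both (.play 583 (.both (.play 456 (.ref 5 455)) (.play 712 (.ref 87 455)))) (.play 584 (.both (.play 456 (.ref 6 455)) (.play 712 (.both (.play 455 (.ref 7 455)) (.play 776 (.both (.play 521 (.ref 17 456)) (.ref 263 583))))))))))) (.play 710 (.ref 2 644)))) (.play 773 (.ref 146 516)))) (.both (.play 581 (.own 580 (.both (.play 583 (.ref 1164 324)) (.play 517 (.ref 617 388))))) (.both (.play 772 (.ref 219 451)) (.both (.ref 876 451) (.ref 1250 515)))))) (.both (.play 708 (.both (.ref 1251 387) (.both (.play 772 (.ref 219 451)) (.both (.ref 1241 513) (.ref 1250 515))))) (.both (.play 710 (.both (.play 712 (.both (.play 583 (.both (.ref 713 390) (.play 776 (.ref 4 519)))) (.both (.ref 1258 516) (.play 709 (.both (.play 645 (.ref 3 644)) (.play 648 (.ref 90 644))))))) (.both (.play 583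 (.ref 655 390)) (.both (.play 708 (.both (.play 516 (.both (.play 517 (.ref 848 451)) (.play 709 (.both (.play 773 (.ref 4 516)) (.play 648 (.ref 2 644)))))) (.both (.ref 1241 513) (.both (.play 772 (.both (.play 836 (.ref 97 515)) (.both (.play 836 (.ref 18 516)) (.ref 1193 579)))) (.play 772 (.both (.ref 22 515) (.play 709 (.ref 128 643)))))))) (.play 712 (.both (.ref 1258 516) (.both (.play 774 (.both (.play 583 (.ref 6 518)) (.play 713 (.ref 211 645)))) (.both (.play 583 (.ref 75 518)) (.play 709 (.ref 653 644)))))))))) (.play 583 (.both (.ref 1018 388) (.both (.play 454 (.ref 351 390)) (.play 455 (.ref 533 390)))))))))))))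
 (.seq (.one (.play 712 (.both (.ref 1260 1) (.both (.ref 1257 257) (.both (.play 709 (.both (.play 584 (.both (.play 520 (.both (.ref 1230 263) (.both (.ref 705 327) (.both (.ref 1251 388) (.play 455 (.ref 351 391)))))) (.both (.play 520 (.both (.ref 1230 263) (.both (.ref 1253 325) (.both (.ref 588 328) (.both (.ref 584 391) (.play 521 (.ref 175 455))))))) (.both (.play 520 (.both (.ref 1253 325) (.both (.ref 1251 388) (.play 455 (.ref 351 391))))) (.both (.ref 1023 325) (.both (.play 520 (.both (.ref 1253 325) (.both (.ref 705 327) (.both (.ref 534 455) (.play 649 (.both (.ref 198 517) (.play 776 (.both (.ref 1226 517) (.ref 502 583))))))))) (.both (.play 520 (.ref 805 391)) (.play 710 (.both (.play 774 (.ref 146 517)) (.play 649 (.both (.play 583 (.both (.play 776 (.both (.play 519 (.ref 7 519)) (.play 585 (.ref 86 520)))) (.both (.ref 1157 519) (.play 582 (.ref 45 581))))) (.play 711 (.ref 2 645))))))))))))) (.both (.play 711 (.both (.ref 1252 325) (.both (.play 649 (.both (.play 776 (.both (.play 584 (.both (.play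 520 (.both (.ref 937 392) (.ref 15 455))) (.both (.play 520 (.ref 220 455)) (.ref 360 583)))) (.both (.play 584 (.both (.play 520 (.ref 220 455)) (.both (.play 520 (.ref 97 455)) (.play 583 (.both (.play 585 (.both (.play 521 (.ref 5 520)) (.play 582 (.ref 29 581)))) (.play 519 (.ref 7 519))))))) (.both (.play 585 (.ref 337 456)) (.play 840 (.ref 175 583)))))) (.play 710 (.ref 2 645)))) (.both (.play 773 (.both (.ref 22 516) (.both (.ref 602 578) (.play 710 (.both (.play 646 (.both (.play 837 (.ref 86 581)) (.play 713 (.ref 3 645)))) (.play 772 (.ref 1 708))))))) (.play 710 (.ref 1240 515)))))) (.both (.play 711 (.both (.ref 1252 325) (.both (.play 710 (.both (.ref 1068 386) (.play 649 (.ref 2 645)))) (.both (.play 710 (.both (.ref 334 514) (.play 649 (.ref 2 645)))) (.both (.play 710 (.both (.ref 334 514) (.both (.ref 1239 515) (.both (.play 713 (.both (.play 774 (.both (.play 517 (.ref 4 517)) (.play 773 (.ref 1 709)))) (.play 646 (.ref 3 645)))) (.ref 570 706))))) (.play 710 (.both (.play 649 (.ref 2 645)) (.ref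 570 706)))))))) (.both (.play 773 (.ref 219 452)) (.both (.ref 876 452) (.both (.ref 1241 514) (.ref 1250 516)))))))) (.both (.play 584 (.both (.play 520 (.both (.ref 849 263) (.both (.ref 266 391) (.ref 20 455)))) (.both (.play 520 (.both (.play 455 (.ref 351 391)) (.both (.ref 196 392) (.both (.play 583 (.both (.play 713 (.both (.play 649 (.both (.play 456 (.ref 4 456)) (.play 582 (.ref 0 581)))) (.play 777 (.ref 4 520)))) (.both (.play 582 (.both (.play 519 (.both (.play 580 (.ref 2 516)) (.play 776 (.ref 7 519)))) (.play 649 (.ref 0 581)))) (.ref 915 519)))) (.ref 1213 453))))) (.both (.ref 795 389) (.both (.play 520 (.ref 804 391)) (.both (.ref 877 455) (.both (.play 776 (.both (.play 649 (.both (.ref 706 455) (.ref 869 583))) (.both (.play 520 (.ref 533 455)) (.both (.ref 19 583) (.play 840 (.ref 13 583)))))) (.play 776 (.both (.ref 755 517) (.play 839 (.ref 159 583))))))))))) (.both (.play 709 (.both (.play 584 (.both (.play 520 (.both (.ref 1230 263) (.both (.ref 1251 388) (.both (.play 582 (.both (.play 518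 (.ref 617 389)) (.ref 1244 452))) (.play 455 (.ref 351 391)))))) (.both (.ref 1249 261) (.both (.play 582 (.both (.play 518 (.ref 617 389)) (.play 583 (.both (.play 519 (.both (.play 520 (.ref 2 516)) (.play 776 (.ref 7 519)))) (.play 649 (.ref 0 581)))))) (.both (.play 520 (.ref 805 391)) (.ref 876 455)))))) (.both (.play 773 (.ref 219 452)) (.both (.ref 876 452) (.both (.play 710 (.both (.ref 1142 453) (.play 774 (.ref 146 517)))) (.ref 1250 516)))))) (.both (.play 520 (.both (.play 584 (.ref 1028 261)) (.both (.play 709 (.both (.ref 1251 388) (.both (.play 773 (.ref 219 452)) (.both (.ref 1250 516) (.play 710 (.both (.play 711 (.both (.play 708 (.both (.play 517 (.ref 75 516)) (.play 776 (.ref 23 708)))) (.play 649 (.ref 2 645)))) (.both (.play 774 (.ref 146 517)) (.ref 1161 645)))))))) (.both (.play 584 (.ref 590 389)) (.both (.play 584 (.both (.play 713 (.ref 639 391)) (.both (.ref 199 453) (.ref 534 455)))) (.play 584 (.ref 805 391))))))) (.both (.play 584 (.both (.ref 1249 261) (.both (.ref 1023 325) (.both (.play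 520 (.both (.ref 788 327) (.both (.play 519 (.both (.play 455 (.ref 7 455)) (.play 583 (.ref 1246 517)))) (.both (.play 583 (.both (.play 649 (.both (.play 713 (.ref 87 456)) (.play 582 (.ref 45 581)))) (.both (.play 519 (.ref 1246 517)) (.ref 915 519)))) (.ref 634 455))))) (.both (.ref 795 389) (.both (.ref 1242 389) (.both (.play 520 (.ref 804 391)) (.both (.ref 589 391) (.ref 1245 453))))))))) (.both (.play 776 (.both (.play 584 (.both (.play 709 (.both (.play 649 (.both (.play 520 (.both (.ref 712 327) (.play 711 (.both (.play 775 (.ref 6 519)) (.play 710 (.ref 2 645)))))) (.ref 665 517))) (.both (.play 773 (.ref 219 452)) (.both (.play 773 (.both (.play 772 (.ref 193 452)) (.both (.ref 39 517) (.play 836 (.ref 159 580))))) (.ref 1241 514))))) (.both (.play 841 (.both (.play 649 (.both (.ref 1228 389) (.play 840 (.ref 507 584)))) (.play 777 (.ref 4 584)))) (.both (.play 777 (.ref 639 455)) (.both (.ref 583 456) (.ref 1237 515)))))) (.both (.play 584 (.both (.play 520 (.ref 220 455)) (.both (.play 520 (.ref 533 455))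 (.ref 118 579)))) (.both (.ref 651 453) (.both (.play 840 (.both (.ref 793 455) (.both (.ref 579 581) (.both (.play 649 (.ref 175 583)) (.both (.ref 22 583) (.play 904 (.both (.play 968 (.both (.ref 840 583) (.ref 8 712))) (.play 649 (.ref 17 584))))))))) (.both (.ref 585 517) (.ref 120 579))))))) (.both (.play 584 (.both (.play 520 (.both (.play 519 (.both (.play 455 (.ref 169 327)) (.play 518 (.both (.play 521 (.ref 754 453)) (.play 517 (.ref 1 516)))))) (.both (.play 713 (.ref 639 391)) (.ref 1092 517)))) (.both (.ref 1245 453) (.both (.play 776 (.both (.ref 347 455) (.both (.ref 1021 517) (.play 585 (.ref 175 519))))) (.both (.ref 636 455) (.ref 574 515)))))) (.both (.play 709 (.both (.play 773 (.both (.play 582 (.both (.play 646 (.both (.ref 807 389) (.play 837 (.ref 5 581)))) (.play 518 (.ref 5 517)))) (.both (.play 772 (.ref 193 452)) (.play 837 (.both (.ref 234 578) (.both (.play 710 (.both (.play 836 (.both (.play 772 (.both (.play 581 (.ref 6 580)) (.play 711 (.ref 1 708)))) (.play 900 (.ref 6 644)))) (.both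 (.ref 869 644) (.play 711 (.both (.play 646 (.both (.play 901 (.ref 5 645)) (.play 713 (.ref 3 645)))) (.play 772 (.ref 1 708))))))) (.both (.play 772 (.both (.ref 233 642) (.play 901 (.both (.play 710 (.ref 848 644)) (.ref 342 708))))) (.both (.ref 76 644) (.play 901 (.both (.play 964 (.both (.play 772 (.both (.play 710 (.ref 848 644)) (.play 965 (.ref 404 708)))) (.play 900 (.ref 6 708)))) (.ref 8 645))))))))))) (.both (.play 584 (.both (.play 582 (.both (.play 520 (.both (.play 455 (.ref 351 391)) (.both (.ref 1244 452) (.ref 1163 453)))) (.play 518 (.ref 617 389)))) (.both (.play 520 (.ref 804 391)) (.both (.play 773 (.both (.ref 196 453) (.both (.ref 585 514) (.play 582 (.both (.play 518 (.ref 5 517)) (.play 776 (.both (.play 585 (.ref 1037 517)) (.ref 76 583)))))))) (.both (.ref 636 455) (.play 776 (.ref 219 455))))))) (.both (.play 710 (.both (.ref 1162 388) (.both (.play 517 (.both (.play 708 (.both (.play 776 (.both (.play 584 (.both (.play 519 (.ref 351 455)) (.play 775 (.both (.play 839 (.ref 6 583)) (.play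 711 (.ref 0 708)))))) (.both (.play 584 (.both (.play 519 (.ref 351 455)) (.ref 598 581))) (.both (.ref 839 455) (.play 711 (.ref 23 708)))))) (.play 772 (.ref 6 516)))) (.play 774 (.ref 4 517)))) (.play 774 (.ref 146 517))))) (.both (.play 517 (.both (.play 710 (.both (.ref 1162 388) (.play 774 (.ref 4 517)))) (.both (.play 518 (.ref 175 452)) (.both (.play 710 (.both (.play 773 (.both (.play 518 (.ref 17 453)) (.play 772 (.ref 1243 580)))) (.play 774 (.ref 4 517)))) (.play 772 (.both (.play 708 (.ref 6 516)) (.play 710 (.both (.play 774 (.ref 4 517)) (.play 773 (.ref 1243 580)))))))))) (.both (.play 773 (.ref 219 452)) (.both (.ref 784 512) (.ref 120 512)))))))) (.both (.play 584 (.both (.play 583 (.both (.play 519 (.ref 169 391)) (.both (.ref 942 516) (.both (.play 649 (.both (.ref 991 517) (.play 582 (.ref 0 581)))) (.play 776 (.ref 1236 517)))))) (.both (.play 713 (.both (.play 711 (.both (.play 649 (.both (.play 520 (.both (.ref 785 392) (.play 775 (.ref 6 519)))) (.play 710 (.ref 77 645)))) (.both (.play 774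 (.both (.play 775 (.both (.play 520 (.ref 6 519)) (.play 714 (.ref 1 710)))) (.play 710 (.ref 1204 645)))) (.both (.play 775 (.ref 212 518)) (.play 710 (.ref 874 645)))))) (.both (.play 711 (.both (.play 710 (.both (.ref 230 518) (.play 646 (.ref 3 645)))) (.both (.play 775 (.ref 212 518)) (.both (.play 520 (.ref 75 519)) (.play 710 (.ref 653 645)))))) (.both (.play 711 (.both (.ref 332 518) (.both (.play 710 (.both (.ref 377 582) (.play 646 (.ref 3 645)))) (.both (.ref 47 582) (.both (.play 710 (.ref 653 645)) (.play 650 (.both (.play 774 (.both (.play 710 (.ref 1204 645)) (.play 714 (.ref 339 646)))) (.both (.ref 1203 645) (.play 651 (.ref 447 647)))))))))) (.play 777 (.ref 146 520)))))) (.both (.ref 1242 389) (.both (.ref 1214 391) (.both (.play 583 (.both (.play 709 (.both (.ref 876 452) (.both (.ref 1241 514) (.play 649 (.both (.ref 1238 517) (.play 582 (.ref 0 581))))))) (.both (.ref 942 516) (.ref 342 519)))) (.both (.ref 636 455) (.play 776 (.both (.ref 1237 515) (.both (.play 583 (.both (.play 519 (.ref 7 519))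 (.play 649 (.both (.play 582 (.ref 0 581)) (.ref 1102 581))))) (.both (.play 583 (.ref 1236 517)) (.both (.ref 550 519) (.both (.ref 239 579) (.play 839 (.ref 159 583))))))))))))))) (.both (.play 584 (.both (.play 520 (.both (.play 455 (.ref 351 391)) (.ref 1092 517))) (.both (.play 520 (.ref 805 391)) (.both (.play 520 (.ref 804 391)) (.both (.ref 636 455) (.both (.play 776 (.ref 219 455)) (.play 776 (.both (.ref 755 517) (.both (.play 840 (.ref 97 519)) (.play 839 (.ref 159 583))))))))))) (.play 776 (.both (.play 777 (.both (.play 778 (.both (.play 775 (.both (.ref 283 455) (.ref 115 707))) (.both (.ref 1178 519) (.both (.play 711 (.ref 259 709)) (.both (.ref 291 710) (.ref 164 711)))))) (.both (.play 778 (.both (.ref 276 455) (.both (.play 775 (.both (.ref 280 519) (.ref 115 707))) (.both (.play 779 (.ref 281 519)) (.play 711 (.ref 232 709)))))) (.both (.play 778 (.both (.play 710 (.both (.play 775 (.both (.ref 309 455) (.both (.ref 252 708) (.ref 566 708)))) (.both (.play 711 (.ref 440 709)) (.both (.play 711 (.ref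 231 709)) (.play 711 (.ref 371 710)))))) (.both (.play 711 (.ref 259 709)) (.both (.ref 164 711) (.play 779 (.ref 162 711)))))) (.ref 879 584))))) (.both (.play 585 (.both (.play 649 (.ref 188 456)) (.both (.play 584 (.ref 905 515)) (.play 840 (.both (.play 649 (.ref 5 584)) (.ref 994 643)))))) (.both (.play 777 (.both (.play 778 (.both (.ref 276 455) (.both (.play 779 (.ref 281 519)) (.both (.play 775 (.both (.ref 167 646) (.both (.ref 252 708) (.ref 489 709)))) (.play 711 (.ref 232 709)))))) (.both (.play 775 (.both (.play 839 (.ref 135 583)) (.ref 83 708))) (.play 841 (.ref 146 584))))) (.both (.play 840 (.ref 240 515)) (.both (.ref 580 517) (.both (.play 840 (.ref 219 519)) (.both (.ref 877 519) (.ref 574 579)))))))))))))))))))))))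
 (.seq (.one (.play 648 (.both (.ref 1261 0) (.both (.ref 1235 192) (.both (.play 582 (.both (.play 709 (.both (.play 518 (.both (.ref 1070 193) (.both (.ref 1169 197) (.play 454 (.ref 244 453))))) (.both (.ref 123 516) (.ref 502 516)))) (.both (.play 518 (.both (.play 646 (.both (.ref 397 324) (.play 647 (.ref 3 580)))) (.both (.play 709 (.ref 188 389)) (.both (.play 519 (.both (.play 646 (.both (.ref 662 451) (.play 647 (.ref 3 580)))) (.play 520 (.ref 52 516)))) (.play 646 (.both (.play 709 (.ref 184 453)) (.play 647 (.ref 3 580)))))))) (.both (.play 583 (.ref 42 516)) (.play 647 (.ref 759 580)))))) (.both (.play 584 (.both (.play 647 (.both (.play 583 (.both (.play 520 (.both (.play 650 (.both (.play 586 (.both (.ref 1098 199) (.both (.play 585 (.both (.ref 1167 199) (.play 587 (.ref 1 583)))) (.both (.ref 1168 199) (.play 585 (.ref 946 583)))))) (.both (.play 649 (.both (.ref 309 327) (.ref 383 518))) (.ref 1150 518)))) (.both (.play 649 (.both (.play 650 (.both (.ref 987 263) (.play 651 (.ref 3 583)))) (.ref 949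 391))) (.play 456 (.ref 94 391))))) (.play 582 (.ref 0 580)))) (.play 646 (.ref 3 580)))) (.both (.play 647 (.both (.play 583 (.both (.play 712 (.both (.play 586 (.both (.play 585 (.both (.ref 307 263) (.ref 899 454))) (.both (.play 519 (.ref 1139 454)) (.play 650 (.both (.ref 1140 455) (.both (.play 649 (.both (.ref 1215 455) (.play 587 (.ref 2 583)))) (.both (.play 649 (.both (.ref 1215 455) (.play 651 (.ref 3 583)))) (.play 649 (.ref 938 583))))))))) (.both (.play 585 (.both (.play 586 (.both (.play 650 (.both (.ref 723 391) (.play 651 (.ref 0 583)))) (.play 587 (.ref 1 583)))) (.play 776 (.ref 1048 519)))) (.play 776 (.ref 61 519))))) (.play 582 (.ref 0 580)))) (.play 646 (.ref 3 580)))) (.both (.play 520 (.both (.play 647 (.both (.ref 401 327) (.play 646 (.ref 3 580)))) (.both (.play 456 (.ref 804 327)) (.both (.ref 636 391) (.ref 1093 453))))) (.both (.play 647 (.both (.play 520 (.both (.ref 403 327) (.both (.ref 401 327) (.both (.play 711 (.ref 617 391)) (.play 712 (.both (.ref 1213 453) (.both (.ref 534 455)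 (.ref 22 455)))))))) (.play 646 (.ref 3 580)))) (.both (.play 647 (.both (.play 520 (.both (.ref 401 327) (.both (.ref 1026 327) (.play 583 (.both (.play 650 (.both (.ref 1149 518) (.both (.play 712 (.both (.ref 76 519) (.both (.ref 702 519) (.both (.ref 596 519) (.both (.play 776 (.both (.ref 8 520) (.play 840 (.ref 635 583)))) (.ref 649 519)))))) (.play 586 (.ref 1075 583))))) (.play 582 (.ref 0 580))))))) (.play 646 (.ref 3 580)))) (.both (.play 583 (.both (.play 712 (.both (.play 520 (.both (.ref 787 327) (.both (.ref 196 392) (.ref 837 517)))) (.both (.play 519 (.ref 645 391)) (.both (.ref 1214 391) (.play 776 (.both (.ref 578 455) (.play 519 (.ref 7 519)))))))) (.both (.play 582 (.ref 42 516)) (.both (.play 582 (.both (.play 520 (.ref 31 516)) (.ref 326 581))) (.play 647 (.ref 540 580)))))) (.both (.play 520 (.both (.play 456 (.both (.ref 347 327) (.both (.play 391 (.ref 351 327)) (.ref 1172 453)))) (.both (.play 456 (.ref 805 327)) (.both (.play 456 (.ref 804 327)) (.both (.ref 636 391) (.both (.play 712 (.ref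 219 391)) (.play 712 (.both (.ref 1213 453) (.play 775 (.ref 159 519)))))))))) (.both (.play 520 (.both (.play 456 (.both (.play 392 (.ref 533 327)) (.both (.ref 196 328) (.ref 37 389)))) (.both (.play 456 (.ref 805 327)) (.both (.ref 636 391) (.both (.play 712 (.ref 219 391)) (.play 712 (.both (.ref 755 453) (.ref 76 519)))))))) (.both (.play 646 (.both (.play 712 (.both (.play 583 (.both (.play 519 (.ref 169 391)) (.play 582 (.ref 946 581)))) (.both (.play 520 (.both (.ref 1213 453) (.ref 1092 517))) (.both (.play 776 (.ref 219 455)) (.play 776 (.both (.play 585 (.ref 775 517)) (.both (.ref 550 519) (.ref 39 520)))))))) (.play 647 (.ref 3 580)))) (.play 712 (.both (.play 520 (.both (.play 713 (.ref 639 391)) (.both (.ref 196 392) (.ref 37 453)))) (.both (.play 520 (.ref 805 391)) (.both (.ref 636 455) (.both (.play 776 (.ref 219 455)) (.play 776 (.both (.ref 755 517) (.both (.play 585 (.ref 175 519)) (.play 839 (.ref 159 583)))))))))))))))))))) (.both (.ref 1212 258) (.both (.play 647 (.both (.play 709 (.both (.play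 583 (.both (.play 711 (.both (.play 519 (.both (.play 520 (.both (.play 584 (.both (.play 518 (.both (.play 521 (.both (.ref 1007 262) (.both (.ref 329 326) (.both (.play 586 (.ref 42 454)) (.both (.ref 336 454) (.ref 186 454)))))) (.play 454 (.ref 7 454)))) (.play 775 (.ref 5 519)))) (.play 456 (.ref 5 455)))) (.both (.ref 363 326) (.both (.play 455 (.both (.ref 1185 327) (.both (.play 456 (.ref 17 391)) (.ref 586 391)))) (.both (.play 454 (.ref 351 390)) (.ref 631 390)))))) (.both (.ref 1148 516) (.ref 1183 517)))) (.play 582 (.ref 0 580)))) (.both (.play 710 (.both (.play 711 (.both (.play 775 (.both (.play 583 (.both (.ref 658 326) (.ref 700 581))) (.both (.play 584 (.ref 188 455)) (.both (.ref 389 581) (.ref 517 582))))) (.play 708 (.ref 2 644)))) (.both (.play 708 (.both (.play 772 (.ref 178 516)) (.play 711 (.ref 2 644)))) (.play 774 (.ref 246 517))))) (.both (.ref 1184 388) (.both (.play 773 (.ref 219 452)) (.both (.play 583 (.both (.play 711 (.both (.play 775 (.both (.play 584 (.ref 175 518)) (.both (.ref 39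 519) (.play 774 (.both (.play 776 (.both (.play 773 (.both (.play 836 (.both (.play 772 (.ref 464 579)) (.play 837 (.ref 1 772)))) (.play 708 (.ref 3 708)))) (.play 840 (.ref 4 583)))) (.play 838 (.ref 6 582))))))) (.both (.ref 1148 516) (.both (.play 775 (.both (.play 708 (.both (.play 772 (.ref 178 516)) (.play 776 (.ref 867 580)))) (.play 584 (.ref 86 519)))) (.ref 1183 517))))) (.play 582 (.ref 0 580)))) (.ref 1105 516))))))) (.play 646 (.ref 3 580)))) (.both (.play 647 (.both (.play 583 (.both (.play 519 (.both (.play 455 (.both (.ref 705 262) (.play 712 (.ref 4 455)))) (.both (.ref 1068 324) (.both (.ref 714 326) (.both (.ref 712 326) (.play 711 (.both (.ref 755 452) (.ref 198 516)))))))) (.play 582 (.ref 0 580)))) (.play 646 (.ref 3 580)))) (.both (.play 647 (.both (.play 649 (.both (.play 583 (.both (.play 776 (.both (.play 775 (.both (.play 777 (.both (.play 713 (.both (.play 585 (.ref 709 328)) (.play 714 (.ref 468 646)))) (.both (.ref 710 328) (.both (.play 774 (.both (.play 778 (.both (.ref 486 583) (.ref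 24 773))) (.both (.play 713 (.both (.play 841 (.both (.play 584 (.ref 7 584)) (.play 842 (.ref 0 774)))) (.play 714 (.ref 2 710)))) (.both (.play 778 (.ref 35 709)) (.ref 33 709))))) (.ref 490 707))))) (.both (.ref 1182 514) (.both (.ref 1181 519) (.play 711 (.ref 782 578)))))) (.both (.ref 1180 452) (.both (.play 712 (.ref 169 455)) (.play 712 (.ref 645 455)))))) (.play 582 (.ref 0 580)))) (.both (.ref 978 326) (.both (.play 650 (.both (.ref 309 327) (.both (.ref 1175 454) (.ref 107 582)))) (.both (.ref 1178 390) (.both (.play 650 (.both (.ref 1175 454) (.both (.ref 107 582) (.ref 1177 583)))) (.play 650 (.both (.ref 1175 454) (.both (.play 651 (.ref 102 582)) (.both (.play 651 (.ref 149 582)) (.ref 33 582))))))))))) (.play 646 (.ref 3 580)))) (.both (.play 647 (.both (.ref 757 324) (.play 646 (.ref 3 580)))) (.play 709 (.both (.play 773 (.ref 240 448)) (.both (.play 646 (.both (.play 773 (.both (.play 772 (.ref 193 452)) (.both (.play 582 (.ref 617 453)) (.ref 1102 578)))) (.play 647 (.ref 3 580)))) (.both (.play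 773 (.ref 219 452)) (.both (.ref 877 452) (.both (.play 646 (.both (.play 773 (.both (.play 772 (.ref 193 452)) (.both (.play 582 (.ref 86 517)) (.ref 360 580)))) (.play 647 (.ref 3 580)))) (.both (.ref 120 512) (.both (.play 710 (.both (.play 708 (.both (.play 517 (.ref 75 516)) (.play 711 (.ref 27 644)))) (.both (.play 774 (.ref 146 517)) (.play 647 (.ref 447 644))))) (.play 710 (.both (.play 774 (.ref 246 517)) (.play 647 (.ref 447 644)))))))))))))))))))))))
 (.one (.play 649 (.both (.ref 1262 4) (.both (.play 651 (.both (.play 587 (.both (.play 650 (.both (.play 523 (.both (.play 524 (.both (.play 459 (.both (.play 395 (.both (.play 331 (.both (.ref 1060 138) (.play 588 (.ref 4 331)))) (.both (.ref 1126 202) (.ref 15 330)))) (.both (.play 522 (.both (.play 525 (.both (.ref 309 202) (.both (.play 458 (.both (.play 394 (.ref 7 394)) (.play 460 (.both (.ref 761 394) (.play 396 (.ref 5 395)))))) (.both (.ref 79 458) (.both (.play 462 (.ref 27 458)) (.ref 1062 458)))))) (.both (.play 460 (.both (.play 396 (.ref 5 395))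 (.play 521 (.ref 339 456)))) (.play 521 (.both (.play 525 (.both (.play 526 (.ref 313 458)) (.both (.play 526 (.both (.play 458 (.ref 3 458)) (.ref 296 459))) (.play 589 (.ref 23 521))))) (.play 585 (.ref 1 520))))))) (.both (.ref 1127 202) (.both (.play 395 (.both (.ref 1125 267) (.ref 15 330))) (.play 394 (.ref 351 330))))))) (.both (.play 460 (.both (.ref 1069 199) (.both (.play 523 (.ref 188 331)) (.play 715 (.both (.play 523 (.ref 5 459)) (.ref 108 522)))))) (.both (.play 522 (.both (.play 458 (.ref 169 330)) (.play 521 (.ref 1 520)))) (.play 522 (.ref 1085 456)))))) (.both (.ref 401 330) (.both (.play 715 (.both (.ref 347 394) (.both (.ref 1132 456) (.ref 76 522)))) (.ref 1174 457))))) (.both (.ref 1141 392) (.ref 859 519)))) (.both (.ref 800 263) (.both (.play 648 (.both (.play 712 (.both (.ref 872 327) (.both (.play 776 (.ref 86 520)) (.ref 1111 577)))) (.both (.ref 731 388) (.both (.play 712 (.both (.play 650 (.both (.ref 1173 392) (.play 711 (.ref 1 647)))) (.play 776 (.ref 86 520)))) (.both (.play 586 (.both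 (.play 715 (.both (.play 523 (.both (.play 458 (.ref 351 394)) (.ref 1172 520))) (.both (.play 522 (.ref 345 394)) (.both (.ref 14 522) (.ref 342 522))))) (.play 647 (.ref 1 583)))) (.ref 828 580)))))) (.both (.play 715 (.ref 819 393)) (.both (.ref 1171 451) (.ref 829 580))))))) (.both (.ref 881 200) (.both (.ref 801 263) (.both (.play 587 (.both (.ref 1171 451) (.both (.ref 860 519) (.both (.ref 719 583) (.play 652 (.ref 540 584)))))) (.both (.play 650 (.both (.play 648 (.both (.ref 180 455) (.ref 593 519))) (.play 652 (.ref 3 584)))) (.ref 959 517))))))) (.both (.ref 1170 130) (.both (.ref 1143 131) (.both (.ref 1118 193) (.both (.ref 1101 193) (.both (.ref 1072 193) (.both (.ref 1039 193) (.both (.ref 989 194) (.both (.ref 963 194) (.both (.play 651 (.both (.ref 881 200) (.both (.play 587 (.both (.ref 800 263) (.both (.play 648 (.both (.play 712 (.both (.ref 872 327) (.both (.ref 502 519) (.ref 870 579)))) (.both (.ref 731 388) (.play 715 (.both (.play 523 (.ref 868 456)) (.both (.play 523 (.both (.play 524 (.ref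 866 456)) (.play 716 (.ref 867 520)))) (.both (.play 523 (.both (.play 524 (.ref 866 456)) (.play 650 (.ref 288 456)))) (.both (.play 716 (.both (.play 780 (.ref 246 523)) (.play 650 (.ref 0 648)))) (.both (.ref 865 520) (.play 779 (.both (.play 523 (.both (.play 586 (.both (.play 524 (.ref 2 520)) (.play 522 (.ref 7 522)))) (.ref 12 522))) (.both (.play 843 (.ref 533 522)) (.play 842 (.ref 159 586)))))))))))))) (.both (.play 648 (.both (.ref 731 388) (.both (.ref 864 582) (.play 588 (.ref 520 584))))) (.both (.ref 861 388) (.both (.play 715 (.both (.ref 822 392) (.both (.ref 776 392) (.both (.ref 613 518) (.both (.play 650 (.both (.play 714 (.both (.play 778 (.both (.play 523 (.ref 6 522)) (.play 842 (.ref 7 585)))) (.ref 833 582))) (.both (.ref 389 521) (.play 648 (.ref 26 584))))) (.ref 821 520)))))) (.play 715 (.ref 819 393)))))))) (.both (.ref 863 262) (.both (.ref 791 326) (.both (.play 587 (.both (.ref 861 388) (.both (.ref 860 519) (.both (.ref 719 583) (.play 652 (.ref 540 584)))))) (.play 650 (.both (.play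 648 (.both (.ref 593 519) (.play 647 (.both (.ref 100 580) (.play 715 (.ref 23 647)))))) (.play 652 (.ref 3 584)))))))))) (.both (.ref 858 195) (.both (.ref 826 259) (.both (.ref 718 320) (.both (.play 713 (.both (.play 714 (.both (.play 715 (.ref 411 328)) (.both (.play 715 (.both (.play 712 (.both (.ref 290 392) (.ref 225 519))) (.both (.play 648 (.ref 259 646)) (.both (.ref 164 648) (.play 716 (.ref 162 648)))))) (.both (.ref 284 391) (.both (.play 715 (.both (.ref 276 392) (.both (.play 712 (.both (.ref 280 456) (.play 648 (.ref 384 583)))) (.both (.play 648 (.both (.play 712 (.ref 384 583)) (.play 716 (.ref 3 648)))) (.play 716 (.ref 162 648)))))) (.play 778 (.ref 146 521))))))) (.both (.play 777 (.ref 382 452)) (.both (.ref 197 456) (.both (.ref 194 456) (.ref 205 580)))))) (.both (.play 713 (.both (.play 777 (.both (.ref 381 327) (.both (.play 776 (.ref 193 456)) (.ref 234 518)))) (.both (.play 712 (.both (.play 714 (.both (.ref 380 390) (.both (.play 778 (.both (.play 521 (.ref 4 521)) (.play 779 (.ref 45 711))))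 (.play 778 (.ref 146 521))))) (.both (.play 776 (.ref 135 520)) (.play 711 (.both (.play 714 (.both (.ref 47 583) (.both (.ref 377 583) (.both (.ref 107 646) (.ref 51 647))))) (.both (.ref 100 644) (.both (.play 710 (.both (.ref 99 644) (.both (.ref 208 644) (.play 714 (.both (.ref 101 645) (.ref 51 647)))))) (.play 650 (.ref 70 645))))))))) (.both (.ref 235 454) (.both (.ref 197 456) (.both (.ref 194 456) (.both (.ref 261 518) (.ref 14 520)))))))) (.both (.play 713 (.both (.play 777 (.both (.play 586 (.both (.ref 375 328) (.play 522 (.ref 5 521)))) (.both (.play 586 (.ref 175 520)) (.ref 76 584)))) (.both (.play 714 (.both (.ref 374 389) (.both (.ref 190 517) (.both (.play 778 (.both (.play 521 (.ref 4 521)) (.play 712 (.both (.ref 127 581) (.both (.play 715 (.both (.ref 167 583) (.ref 79 648))) (.play 711 (.both (.play 650 (.ref 90 646)) (.play 779 (.ref 0 711))))))))) (.play 778 (.ref 146 521)))))) (.both (.ref 235 454) (.both (.ref 370 456) (.both (.ref 369 456) (.both (.ref 197 456) (.both (.play 777 (.both (.ref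 73 518) (.both (.play 841 (.ref 97 520)) (.play 586 (.both (.play 522 (.ref 5 521)) (.ref 367 584)))))) (.ref 14 520))))))))) (.both (.play 713 (.both (.ref 366 388) (.both (.play 777 (.ref 240 452)) (.both (.play 777 (.both (.ref 196 457) (.both (.ref 191 520) (.play 841 (.both (.play 905 (.both (.play 714 (.both (.play 778 (.both (.play 521 (.ref 4 521)) (.play 969 (.ref 5 713)))) (.play 650 (.ref 5 649)))) (.ref 12 648))) (.play 648 (.ref 7 584))))))) (.both (.ref 218 456) (.both (.ref 311 516) (.play 777 (.both (.ref 356 517) (.ref 191 520))))))))) (.both (.play 713 (.both (.play 714 (.both (.ref 352 390) (.both (.play 712 (.both (.ref 332 519) (.both (.play 711 (.both (.ref 317 583) (.ref 114 644))) (.both (.ref 47 583) (.both (.ref 216 644) (.play 711 (.both (.ref 114 644) (.both (.ref 100 644) (.ref 315 647))))))))) (.both (.play 715 (.both (.play 712 (.both (.play 776 (.ref 91 519)) (.ref 223 646))) (.both (.play 648 (.ref 259 646)) (.both (.ref 164 648) (.play 716 (.ref 162 648)))))) (.play 778 (.ref 146 521))))))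 (.both (.play 777 (.ref 240 452)) (.both (.ref 197 456) (.both (.play 777 (.both (.play 776 (.ref 193 456)) (.both (.ref 191 520) (.play 841 (.both (.play 905 (.both (.play 776 (.both (.play 712 (.ref 312 520)) (.play 840 (.ref 6 584)))) (.ref 8 649))) (.play 648 (.ref 7 584))))))) (.both (.ref 311 516) (.both (.play 777 (.both (.ref 234 518) (.both (.ref 73 518) (.play 841 (.ref 310 584))))) (.play 777 (.both (.ref 73 518) (.ref 191 520)))))))))) (.both (.play 713 (.both (.play 714 (.both (.play 715 (.both (.play 712 (.both (.ref 309 392) (.both (.ref 171 519) (.both (.ref 300 646) (.ref 223 646))))) (.both (.ref 308 392) (.both (.ref 243 519) (.both (.ref 306 519) (.both (.play 716 (.both (.ref 224 646) (.both (.ref 223 647) (.both (.ref 295 648) (.ref 294 649))))) (.ref 291 647))))))) (.both (.play 715 (.both (.play 712 (.both (.ref 290 392) (.both (.play 711 (.ref 285 646)) (.ref 223 646)))) (.both (.play 648 (.ref 259 646)) (.both (.ref 164 648) (.play 716 (.ref 162 648)))))) (.both (.ref 284 391) (.both (.play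 715 (.both (.ref 276 392) (.both (.play 712 (.both (.ref 225 519) (.ref 180 519))) (.both (.play 648 (.both (.play 712 (.both (.ref 225 519) (.play 647 (.ref 3 647)))) (.play 716 (.ref 3 648)))) (.play 716 (.ref 162 648)))))) (.play 778 (.ref 146 521))))))) (.both (.ref 235 454) (.both (.ref 197 456) (.both (.ref 194 456) (.both (.ref 261 518) (.ref 14 520))))))) (.both (.play 713 (.both (.ref 200 454) (.both (.ref 197 456) (.both (.ref 194 456) (.both (.play 712 (.both (.ref 254 513) (.both (.play 711 (.both (.ref 238 516) (.both (.play 714 (.both (.ref 170 519) (.ref 109 582))) (.both (.ref 151 643) (.both (.ref 106 644) (.ref 100 644)))))) (.both (.play 714 (.both (.play 521 (.ref 75 520)) (.both (.play 778 (.ref 146 521)) (.ref 229 645)))) (.play 776 (.ref 135 520)))))) (.both (.play 777 (.both (.play 586 (.ref 175 520)) (.both (.ref 39 521) (.ref 256 579)))) (.ref 14 520))))))) (.both (.play 713 (.both (.ref 200 454) (.both (.play 777 (.ref 219 456)) (.both (.ref 197 456) (.both (.ref 194 456) (.both (.play 712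 (.both (.ref 254 513) (.both (.ref 147 515) (.both (.play 714 (.both (.play 711 (.both (.play 715 (.both (.ref 243 519) (.ref 24 710))) (.both (.ref 82 645) (.ref 223 645)))) (.both (.play 521 (.ref 75 520)) (.play 778 (.ref 146 521))))) (.play 776 (.ref 135 520)))))) (.play 777 (.both (.ref 158 514) (.both (.play 586 (.ref 175 520)) (.both (.ref 39 521) (.play 840 (.ref 159 584)))))))))))) (.both (.play 713 (.both (.play 777 (.ref 240 452)) (.both (.ref 197 456) (.both (.ref 194 456) (.both (.play 712 (.both (.ref 147 515) (.both (.play 711 (.both (.ref 238 516) (.both (.play 714 (.both (.play 776 (.both (.play 521 (.ref 6 520)) (.play 775 (.ref 28 710)))) (.both (.ref 230 519) (.ref 237 710)))) (.ref 100 644)))) (.both (.play 776 (.ref 135 520)) (.ref 134 580))))) (.ref 205 580)))))) (.both (.play 713 (.both (.ref 235 454) (.both (.ref 197 456) (.both (.ref 194 456) (.both (.play 712 (.both (.play 711 (.both (.play 714 (.both (.ref 230 519) (.ref 107 646))) (.both (.ref 106 644) (.both (.ref 100 644) (.play 650 (.ref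 70 645)))))) (.both (.play 714 (.both (.play 521 (.ref 75 520)) (.both (.ref 47 583) (.ref 229 645)))) (.both (.play 776 (.ref 135 520)) (.ref 134 580))))) (.play 777 (.ref 228 580))))))) (.both (.play 713 (.both (.play 777 (.ref 219 456)) (.both (.ref 197 456) (.both (.ref 218 456) (.both (.ref 217 516) (.ref 205 580)))))) (.both (.play 713 (.both (.ref 200 454) (.both (.ref 197 456) (.both (.ref 194 456) (.both (.play 714 (.both (.ref 190 517) (.both (.ref 172 517) (.play 778 (.ref 146 521))))) (.both (.play 777 (.both (.play 586 (.ref 175 520)) (.both (.ref 39 521) (.both (.play 778 (.both (.ref 172 581) (.play 842 (.ref 4 585)))) (.play 840 (.ref 159 584)))))) (.ref 14 520))))))) (.play 713 (.both (.play 777 (.both (.ref 158 514) (.both (.ref 113 516) (.both (.ref 60 518) (.both (.ref 118 580) (.ref 85 581)))))) (.both (.ref 148 515) (.both (.ref 120 516) (.both (.play 777 (.both (.ref 113 516) (.both (.ref 98 520) (.both (.play 841 (.ref 97 520)) (.ref 96 520))))) (.both (.ref 93 517) (.both (.ref 74 518) (.both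 (.play 777 (.both (.ref 60 518) (.both (.ref 39 521) (.both (.play 841 (.both (.ref 37 582) (.both (.ref 22 584) (.ref 16 584)))) (.ref 21 584))))) (.ref 14 520))))))))))))))))))))))))))))))))))))))))))))))))
    (by decide +kernel)

end Crest.Agent.Snaky
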