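import Crest.Agent.Lib_Snaky.Root

set_option autoImplicit false
set_option linter.all false
set_option maxRecDepth 1000000

namespace Crest.Agent.Snaky

theorem Cert_L43 : PW ⟨18, nat_lit 1519597986650754257267727489144712335577335574585202947343848431793315184340888049401111595507733760344010042503499399047946826042642467216309045221195664756087510872217010307072, nat_lit 31320231676337699579443356261775792918683329899950404858948716390201263591776039239831929059491275979086170381533367210285292182574029808701194187632341010240114055145946114666670029331184357754962996735440718256349537163070270671760915910395780965003747070269632724225483636011944617880533129226959353996642428704635469927875686096423626093535169408, 16, nat_lit 31320231676337699579443356261775792918683329899950404858948716390201263591776039239831929059491275979086170381533367210285292182574029808701194187632341010240114055145946114666670029331184357754962996735440718256349537163070270671760915910395780965003747070269632724225483636011944617880533129226959353996642428704635469927875686096423626093535169408⟩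 :=
  sound2 baseTbl baseTbl_ok
    (.seq (.seq (.seq (.seq (.seq (.seq (.seq (.seq (.one (.play 4 (.both (.play 3 (.ref 2 0)) (.play 5 (.ref 2 1)))))
 (.seq (.one (.play 1 (.both (.play 0 (.ref 3 0)) (.play 2 (.ref 3 1)))))
 (.one (.both (.ref 9 0) (.ref 8 1)))))
 (.seq (.one (.both (.play 64 (.ref 1 0)) (.play 66 (.ref 1 1))))
 (.seq (.one (.both (.ref 8 1) (.play 129 (.ref 11 64))))
 (.one (.both (.play 0 (.ref 3 0)) (.play 128 (.ref 1 64)))))))
 (.seq (.seq (.one (.play 129 (.both (.play 1 (.both (.play 65 (.ref 13 0)) (.play 2 (.ref 3 1)))) (.play 130 (.ref 1 65)))))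
 (.seq (.one (.play 66 (.both (.ref 14 0) (.both (.play 70 (.ref 12 1)) (.play 70 (.ref 10 1))))))
 (.one (.play 4 (.both (.play 65 (.ref 1 0)) (.play 69 (.ref 0 1)))))))
 (.seq (.seq (.one (.play 67 (.both (.play 4 (.ref 2 0)) (.play 132 (.ref 0 64)))))
 (.one (.play 4 (.both (.play 3 (.ref 2 0)) (.play 132 (.both (.ref 17 1) (.play 131 (.ref 0 64))))))))
 (.seq (.one (.both (.play 64 (.ref 1 0)) (.play 5 (.ref 1 1))))
 (.one (.play 67 (.both (.play 0 (.ref 0 0)) (.play 6 (.ref 19 2)))))))))
 (.seq (.seq (.seq (.one (.play 68 (.both (.ref 20 0) (.play 69 (.ref 0 1)))))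
 (.seq (.one (.both (.play 64 (.ref 1 0)) (.play 68 (.ref 0 1))))
 (.one (.play 65 (.both (.play 69 (.both (.play 1 (.ref 22 0)) (.play 70 (.ref 0 2)))) (.play 66 (.ref 1 1)))))))
 (.seq (.seq (.one (.play 68 (.both (.play 67 (.ref 0 0)) (.play 69 (.ref 0 1)))))
 (.one (.both (.play 65 (.ref 11 0)) (.ref 24 1))))
 (.seq (.one (.play 66 (.both (.ref 9 1) (.play 65 (.ref 25 64)))))
 (.one (.both (.play 192 (.ref 4 0)) (.play 321 (.ref 7 64)))))))
 (.seq (.seq (.one (.both (.play 0 (.ref 4 0)) (.play 321 (.ref 27 64))))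
 (.seq (.one (.play 257 (.both (.play 258 (.both (.play 129 (.both (.play 65 (.ref 28 1)) (.play 128 (.ref 3 128)))) (.play 197 (.ref 1 193)))) (.play 256 (.ref 1 192)))))
 (.one (.play 195 (.both (.ref 29 2) (.both (.ref 26 128) (.both (.ref 14 129) (.both (.play 194 (.both (.ref 9 129) (.ref 21 193))) (.play 194 (.both (.ref 23 192) (.both (.play 258 (.ref 11 193)) (.ref 21 193))))))))))))
 (.seq (.seq (.one (.play 256 (.both (.play 65 (.ref 5 0)) (.play 321 (.ref 4 64)))))
 (.one (.play 257 (.both (.play 193 (.ref 4 0)) (.ref 31 0)))))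
 (.seq (.one (.play 256 (.both (.play 192 (.ref 6 0)) (.play 320 (.ref 6 64)))))
 (.one (.play 257 (.both (.ref 33 0) (.ref 32 65)))))))))
 (.seq (.seq (.seq (.seq (.one (.play 257 (.both (.play 193 (.ref 4 0)) (.play 321 (.ref 4 64)))))
 (.seq (.one (.both (.ref 33 0) (.ref 35 1)))
 (.one (.play 257 (.both (.play 321 (.both (.play 194 (.both (.play 258 (.ref 4 1)) (.play 385 (.ref 5 129)))) (.ref 33 64))) (.both (.ref 35 1) (.both (.play 321 (.ref 36 64)) (.ref 34 64))))))))
 (.seq (.one (.both (.play 1 (.ref 6 0)) (.play 128 (.ref 5 64))))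
 (.seq (.one (.both (.play 65 (.ref 38 0)) (.play 384 (.ref 5 128))))
 (.one (.play 65 (.both (.play 1 (.ref 5 0)) (.play 129 (.ref 5 64))))))))
 (.seq (.seq (.one (.play 64 (.both (.play 0 (.ref 7 0)) (.play 128 (.ref 7 64)))))
 (.seq (.one (.both (.ref 41 0) (.ref 40 1)))
 (.one (.play 64 (.both (.play 1 (.ref 5 0)) (.play 257 (.ref 4 64)))))))
 (.seq (.seq (.one (.play 65 (.both (.ref 43 0) (.play 129 (.ref 5 64)))))
 (.one (.play 129 (.both (.ref 44 1) (.ref 41 64)))))
 (.seq (.one (.play 193 (.both (.ref 45 0) (.both (.play 129 (.ref 42 64)) (.both (.play 129 (.both (.ref 41 64) (.play 258 (.both (.play 65 (.ref 4 65)) (.play 194 (.ref 5 193)))))) (.ref 40 129))))))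
 (.one (.both (.ref 46 0) (.play 514 (.ref 4 257))))))))
 (.seq (.seq (.seq (.one (.both (.play 257 (.ref 47 0)) (.both (.play 258 (.ref 39 129)) (.both (.play 513 (.both (.play 258 (.ref 5 257)) (.ref 37 320))) (.play 514 (.ref 28 257))))))
 (.seq (.one (.play 193 (.both (.play 256 (.ref 6 0)) (.play 258 (.ref 4 1)))))
 (.one (.play 258 (.both (.play 256 (.both (.play 192 (.ref 6 0)) (.ref 49 64))) (.play 194 (.ref 4 1)))))))
 (.seq (.seq (.one (.play 192 (.both (.play 257 (.ref 4 0)) (.play 256 (.ref 5 0)))))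
 (.one (.both (.play 0 (.ref 4 0)) (.play 321 (.ref 7 64)))))
 (.seq (.one (.play 1 (.both (.play 0 (.ref 0 0)) (.play 4 (.ref 0 1)))))
 (.one (.both (.ref 53 0) (.play 70 (.ref 3 2)))))))
 (.seq (.seq (.one (.both (.play 64 (.ref 2 0)) (.play 5 (.ref 2 1))))
 (.seq (.one (.play 68 (.both (.play 3 (.ref 0 0)) (.play 69 (.ref 3 1)))))
 (.one (.play 321 (.both (.ref 41 0) (.play 385 (.ref 36 128)))))))
 (.seq (.seq (.one (.both (.ref 40 0) (.ref 35 64)))
 (.one (.play 257 (.both (.ref 33 0) (.play 321 (.ref 58 1))))))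
 (.seq (.one (.both (.play 64 (.ref 1 0)) (.play 69 (.ref 0 1))))
 (.one (.play 65 (.both (.play 1 (.ref 60 0)) (.play 66 (.ref 1 1)))))))))))
 (.seq (.seq (.seq (.seq (.seq (.one (.play 66 (.both (.ref 9 1) (.ref 61 64))))
 (.seq (.one (.both (.play 0 (.ref 0 0)) (.play 69 (.ref 0 1))))
 (.one (.play 67 (.both (.play 1 (.ref 63 0)) (.play 66 (.ref 1 2)))))))
 (.seq (.one (.both (.play 129 (.both (.play 65 (.ref 13 0)) (.play 130 (.ref 1 65)))) (.play 2 (.ref 3 1))))
 (.seq (.one (.play 66 (.both (.play 1 (.ref 65 0)) (.play 134 (.ref 0 66)))))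
 (.one (.play 67 (.both (.ref 66 0) (.both (.ref 64 65) (.play 131 (.ref 11 66)))))))))
 (.seq (.seq (.one (.play 65 (.both (.play 1 (.ref 22 0)) (.play 66 (.ref 1 1)))))
 (.seq (.one (.play 67 (.both (.ref 9 2) (.play 66 (.both (.ref 68 64) (.play 134 (.ref 0 66)))))))
 (.one (.play 64 (.both (.play 0 (.ref 4 0)) (.play 256 (.ref 4 64)))))))
 (.seq (.seq (.one (.both (.ref 70 0) (.play 385 (.ref 7 128))))
 (.one (.play 66 (.both (.play 65 (.ref 10 0)) (.play 130 (.ref 11 65))))))
 (.seq (.one (.play 67 (.both (.ref 72 0) (.play 135 (.ref 0 67)))))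
 (.one (.both (.play 192 (.ref 4 0)) (.play 65 (.ref 7 0))))))))
 (.seq (.seq (.seq (.one (.both (.play 0 (.ref 4 0)) (.play 321 (.ref 4 64))))
 (.seq (.one (.play 131 (.both (.play 259 (.both (.play 67 (.ref 75 3)) (.play 198 (.ref 13 130)))) (.both (.play 67 (.both (.play 3 (.ref 4 3)) (.play 324 (.ref 74 67)))) (.play 130 (.ref 54 128))))))
 (.one (.play 257 (.both (.ref 57 0) (.play 66 (.ref 5 1)))))))
 (.seq (.seq (.one (.play 256 (.both (.play 192 (.ref 6 0)) (.play 258 (.both (.play 194 (.ref 4 1)) (.ref 49 64))))))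
 (.one (.play 257 (.both (.play 66 (.ref 5 1)) (.ref 78 64)))))
 (.seq (.one (.play 257 (.both (.play 66 (.ref 5 1)) (.play 320 (.ref 6 64)))))
 (.one (.play 256 (.both (.play 192 (.ref 6 0)) (.ref 80 0)))))))
 (.seq (.seq (.one (.play 66 (.both (.play 65 (.both (.play 5 (.ref 2 1)) (.play 129 (.ref 11 64)))) (.play 1 (.ref 3 1)))))
 (.seq (.one (.both (.play 65 (.ref 3 0)) (.play 2 (.ref 0 0))))
 (.one (.both (.play 0 (.ref 0 0)) (.play 66 (.ref 3 1))))))
 (.seq (.seq (.one (.both (.play 67 (.ref 84 0)) (.play 4 (.ref 0 1))))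
 (.one (.both (.play 1 (.ref 84 0)) (.play 70 (.ref 3 2)))))
 (.seq (.one (.play 196 (.both (.play 198 (.both (.play 262 (.ref 4 5)) (.play 131 (.both (.play 132 (.both (.play 134 (.ref 2 67)) (.play 199 (.ref 3 131)))) (.both (.play 130 (.both (.play 195 (.ref 86 128)) (.both (.play 129 (.ref 85 128)) (.both (.play 132 (.ref 63 129)) (.play 198 (.ref 83 130)))))) (.ref 82 129)))))) (.play 260 (.ref 6 4)))))
 (.one (.play 129 (.both (.play 65 (.both (.ref 41 0) (.play 322 (.ref 4 65)))) (.play 66 (.ref 5 65))))))))))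
 (.seq (.seq (.seq (.seq (.one (.both (.play 64 (.ref 2 0)) (.play 2 (.ref 1 1))))
 (.seq (.one (.both (.play 0 (.ref 7 0)) (.play 2 (.ref 5 1))))
 (.one (.play 64 (.both (.play 66 (.both (.play 65 (.ref 90 0)) (.play 130 (.ref 5 65)))) (.play 128 (.ref 7 64)))))))
 (.seq (.seq (.one (.both (.play 1 (.ref 5 0)) (.play 320 (.ref 5 64))))
 (.one (.play 257 (.both (.ref 33 0) (.play 66 (.ref 92 1))))))
 (.seq (.one (.both (.ref 41 0) (.ref 33 64)))
 (.one (.play 257 (.both (.play 321 (.ref 94 0)) (.ref 35 1)))))))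
 (.seq (.seq (.one (.both (.play 0 (.ref 7 0)) (.play 321 (.ref 7 64))))
 (.seq (.one (.play 257 (.both (.play 64 (.ref 96 0)) (.ref 35 1))))
 (.one (.play 257 (.both (.ref 33 0) (.both (.play 192 (.both (.play 256 (.ref 6 0)) (.ref 97 64))) (.both (.ref 50 64) (.ref 95 64))))))))
 (.seq (.seq (.one (.both (.ref 9 0) (.ref 24 65)))
 (.one (.play 66 (.both (.play 65 (.ref 99 0)) (.both (.play 1 (.ref 65 0)) (.play 70 (.ref 25 65)))))))
 (.seq (.one (.play 67 (.both (.play 69 (.both (.ref 100 0) (.play 5 (.ref 5 4)))) (.play 3 (.ref 7 3)))))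
 (.one (.play 321 (.both (.ref 40 1) (.play 385 (.ref 36 128)))))))))
 (.seq (.seq (.seq (.one (.play 257 (.both (.play 64 (.ref 7 0)) (.play 320 (.ref 6 64)))))
 (.seq (.one (.play 320 (.both (.play 64 (.both (.play 0 (.ref 7 0)) (.ref 103 64))) (.play 256 (.ref 6 64)))))
 (.one (.play 257 (.both (.ref 33 0) (.play 66 (.ref 5 1)))))))
 (.seq (.seq (.one (.play 257 (.both (.play 1 (.ref 36 0)) (.both (.ref 105 64) (.ref 32 65)))))
 (.one (.play 65 (.both (.play 64 (.ref 2 0)) (.play 68 (.ref 2 1))))))
 (.seq (.one (.play 68 (.both (.play 65 (.ref 3 0)) (.play 69 (.ref 3 1)))))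
 (.one (.play 257 (.both (.play 66 (.ref 5 1)) (.ref 50 64)))))))
 (.seq (.seq (.one (.both (.play 0 (.ref 7 0)) (.play 320 (.ref 6 64))))
 (.seq (.one (.play 1 (.both (.play 0 (.ref 0 0)) (.ref 56 1))))
 (.one (.play 257 (.both (.ref 33 0) (.both (.play 192 (.both (.play 256 (.ref 6 0)) (.play 321 (.ref 96 64)))) (.play 321 (.both (.play 64 (.ref 7 64)) (.ref 50 128)))))))))
 (.seq (.seq (.one (.both (.play 0 (.ref 4 0)) (.play 385 (.ref 7 128))))
 (.one (.play 321 (.both (.play 193 (.ref 113 0)) (.play 256 (.ref 4 64))))))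
 (.seq (.one (.play 65 (.both (.play 0 (.ref 7 0)) (.play 256 (.ref 6 64)))))
 (.one (.play 64 (.both (.play 320 (.both (.ref 115 0) (.play 384 (.ref 6 128)))) (.play 128 (.ref 7 64))))))))))))
 (.seq (.seq (.seq (.seq (.seq (.seq (.one (.both (.play 1 (.ref 5 0)) (.play 321 (.ref 4 64))))
 (.seq (.one (.play 129 (.both (.play 66 (.both (.play 65 (.ref 117 1)) (.play 130 (.ref 5 65)))) (.ref 41 64))))
 (.one (.play 449 (.both (.ref 46 0) (.ref 34 256))))))
 (.seq (.one (.play 385 (.both (.play 257 (.both (.ref 119 0) (.play 256 (.ref 3 256)))) (.play 384 (.ref 1 320)))))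
 (.seq (.one (.both (.ref 41 0) (.ref 35 65)))
 (.one (.play 321 (.both (.play 65 (.ref 121 0)) (.both (.ref 104 64) (.ref 50 128))))))))
 (.seq (.seq (.one (.both (.play 1 (.ref 6 0)) (.play 320 (.ref 6 64))))
 (.seq (.one (.play 192 (.both (.play 256 (.both (.play 65 (.ref 123 0)) (.play 449 (.ref 7 192)))) (.play 128 (.ref 7 128)))))
 (.one (.play 385 (.both (.ref 124 0) (.both (.ref 33 128) (.ref 104 128)))))))
 (.seq (.seq (.one (.play 385 (.both (.ref 124 0) (.ref 35 129))))
 (.one (.both (.ref 9 0) (.play 129 (.ref 11 64)))))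
 (.seq (.one (.play 65 (.both (.play 0 (.ref 3 0)) (.play 4 (.ref 2 1)))))
 (.one (.play 1 (.both (.ref 128 0) (.play 2 (.ref 3 1)))))))))
 (.seq (.seq (.seq (.one (.play 65 (.both (.play 4 (.ref 2 1)) (.play 129 (.ref 11 64)))))
 (.seq (.one (.play 66 (.both (.ref 130 0) (.both (.ref 129 0) (.play 70 (.ref 127 1))))))
 (.one (.play 65 (.both (.ref 9 0) (.play 4 (.ref 2 1)))))))
 (.seq (.seq (.one (.both (.ref 130 0) (.play 6 (.ref 2 2))))
 (.one (.play 129 (.both (.ref 91 0) (.ref 37 128)))))
 (.seq (.one (.both (.ref 134 0) (.play 192 (.ref 3 192))))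
 (.one (.play 321 (.both (.play 193 (.ref 135 0)) (.play 320 (.ref 1 256))))))))
 (.seq (.seq (.one (.both (.ref 136 0) (.play 197 (.ref 2 193))))
 (.seq (.one (.play 257 (.both (.play 65 (.ref 7 0)) (.play 321 (.ref 7 64)))))
 (.one (.play 449 (.both (.ref 46 0) (.ref 78 256))))))
 (.seq (.seq (.one (.both (.ref 139 0) (.play 384 (.ref 1 320))))
 (.one (.play 257 (.both (.play 385 (.ref 140 0)) (.play 256 (.ref 3 256))))))
 (.seq (.one (.play 257 (.both (.play 64 (.ref 7 0)) (.play 322 (.ref 4 65)))))
 (.one (.play 64 (.both (.play 65 (.ref 90 0)) (.play 128 (.ref 7 64))))))))))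
 (.seq (.seq (.seq (.seq (.one (.play 129 (.both (.ref 116 0) (.play 66 (.ref 5 65)))))
 (.seq (.one (.play 129 (.both (.play 65 (.ref 42 0)) (.ref 33 128))))
 (.one (.play 65 (.both (.play 256 (.ref 123 0)) (.ref 40 1))))))
 (.seq (.seq (.one (.play 66 (.both (.ref 143 0) (.play 130 (.ref 5 65)))))
 (.one (.play 129 (.both (.play 65 (.ref 94 0)) (.ref 40 65)))))
 (.seq (.one (.play 193 (.both (.ref 148 0) (.both (.ref 147 64) (.both (.play 256 (.both (.ref 146 64) (.play 192 (.ref 7 192)))) (.ref 41 128))))))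
 (.one (.play 257 (.both (.ref 149 0) (.both (.ref 145 64) (.both (.ref 125 128) (.ref 104 192)))))))))
 (.seq (.seq (.one (.both (.play 64 (.ref 5 0)) (.play 320 (.ref 5 64))))
 (.seq (.one (.both (.play 1 (.ref 6 0)) (.play 320 (.ref 151 64))))
 (.one (.play 259 (.both (.play 2 (.ref 4 2)) (.play 260 (.ref 0 192)))))))
 (.seq (.seq (.one (.play 66 (.both (.ref 129 0) (.play 130 (.ref 11 65)))))
 (.one (.play 66 (.both (.play 1 (.ref 65 0)) (.play 5 (.ref 2 2))))))
 (.seq (.one (.play 195 (.both (.play 260 (.both (.play 133 (.both (.play 69 (.ref 152 4)) (.play 194 (.ref 2 130)))) (.play 259 (.ref 1 195)))) (.both (.ref 155 128) (.play 259 (.ref 11 194))))))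
 (.one (.both (.play 0 (.ref 7 0)) (.play 1 (.ref 6 0))))))))
 (.seq (.seq (.seq (.one (.play 66 (.both (.ref 14 0) (.play 133 (.ref 0 66)))))
 (.seq (.one (.play 67 (.both (.play 69 (.both (.ref 158 0) (.play 5 (.ref 5 4)))) (.play 3 (.ref 7 3)))))
 (.one (.play 65 (.both (.ref 41 0) (.play 1 (.ref 4 1)))))))
 (.seq (.seq (.one (.both (.play 4 (.ref 2 1)) (.play 128 (.ref 1 64))))
 (.one (.play 129 (.both (.play 65 (.ref 161 0)) (.play 130 (.ref 1 65))))))
 (.seq (.one (.play 1 (.both (.play 0 (.ref 3 0)) (.play 69 (.ref 3 1)))))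
 (.one (.play 3 (.both (.play 4 (.ref 55 0)) (.ref 163 1)))))))
 (.seq (.seq (.one (.play 66 (.both (.play 65 (.ref 127 0)) (.ref 8 2))))
 (.seq (.one (.play 67 (.both (.ref 165 0) (.both (.ref 9 2) (.ref 164 2)))))
 (.one (.play 324 (.both (.ref 141 3) (.both (.ref 166 256) (.ref 162 258)))))))
 (.seq (.seq (.one (.both (.play 65 (.ref 89 0)) (.play 6 (.ref 1 2))))
 (.one (.play 257 (.both (.play 65 (.ref 7 0)) (.play 128 (.ref 27 0))))))
 (.seq (.one (.play 257 (.both (.play 192 (.ref 28 0)) (.both (.play 129 (.ref 96 0)) (.both (.play 0 (.both (.play 192 (.ref 4 0)) (.play 129 (.ref 7 0)))) (.ref 169 64))))))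
 (.one (.play 131 (.both (.ref 170 3) (.play 130 (.ref 168 64)))))))))))
 (.seq (.seq (.seq (.seq (.seq (.one (.play 257 (.both (.play 385 (.both (.play 193 (.both (.ref 45 0) (.ref 37 192))) (.play 384 (.ref 1 320)))) (.play 256 (.ref 3 256)))))
 (.seq (.one (.play 322 (.both (.ref 172 1) (.both (.ref 132 256) (.ref 162 256)))))
 (.one (.both (.ref 107 0) (.play 6 (.ref 1 2))))))
 (.seq (.one (.play 68 (.both (.play 1 (.ref 3 0)) (.play 129 (.ref 1 64)))))
 (.seq (.one (.both (.play 257 (.both (.ref 139 0) (.play 256 (.ref 3 256)))) (.play 384 (.ref 1 320))))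
 (.one (.both (.play 0 (.ref 4 0)) (.ref 138 64))))))
 (.seq (.seq (.one (.play 129 (.both (.play 65 (.ref 177 1)) (.play 128 (.ref 3 128)))))
 (.seq (.one (.play 321 (.both (.play 65 (.both (.play 1 (.ref 5 0)) (.ref 31 64))) (.play 257 (.ref 4 64)))))
 (.one (.both (.play 0 (.ref 4 0)) (.play 129 (.ref 7 64))))))
 (.seq (.seq (.one (.both (.play 64 (.ref 180 0)) (.play 385 (.ref 7 128))))
 (.one (.play 64 (.both (.play 193 (.ref 180 0)) (.play 256 (.ref 4 64))))))
 (.seq (.one (.both (.ref 182 0) (.both (.play 193 (.ref 181 0)) (.both (.play 256 (.ref 28 64)) (.ref 169 128)))))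
 (.one (.play 129 (.both (.ref 147 0) (.play 386 (.ref 4 129)))))))))
 (.seq (.seq (.seq (.one (.play 65 (.both (.ref 41 0) (.play 258 (.ref 4 65)))))
 (.seq (.one (.play 129 (.both (.ref 185 0) (.both (.ref 44 1) (.play 385 (.ref 42 64))))))
 (.one (.play 196 (.both (.ref 186 3) (.both (.ref 184 3) (.both (.play 389 (.ref 183 68)) (.play 388 (.both (.ref 159 128) (.both (.ref 179 132) (.ref 37 195)))))))))))
 (.seq (.seq (.one (.both (.play 5 (.ref 2 1)) (.play 64 (.ref 0 64))))
 (.one (.play 257 (.both (.play 2 (.ref 5 1)) (.ref 50 64)))))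
 (.seq (.one (.play 257 (.both (.ref 33 0) (.play 2 (.ref 5 1)))))
 (.one (.play 193 (.both (.ref 190 0) (.play 258 (.ref 4 1))))))))
 (.seq (.seq (.one (.play 257 (.both (.play 0 (.ref 7 0)) (.ref 78 64))))
 (.seq (.one (.both (.play 193 (.ref 6 0)) (.play 320 (.ref 5 64))))
 (.one (.both (.play 1 (.ref 6 0)) (.play 320 (.ref 193 64))))))
 (.seq (.seq (.one (.play 194 (.both (.play 258 (.ref 194 2)) (.ref 107 128))))
 (.one (.play 195 (.both (.ref 195 0) (.both (.play 66 (.both (.ref 192 2) (.play 134 (.ref 3 66)))) (.play 134 (.ref 13 66)))))))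
 (.seq (.one (.play 256 (.both (.play 192 (.ref 6 0)) (.ref 103 0))))
 (.one (.play 259 (.both (.play 66 (.both (.play 2 (.ref 7 2)) (.ref 197 66))) (.both (.play 324 (.both (.play 66 (.both (.play 2 (.ref 7 2)) (.ref 142 66))) (.play 260 (.ref 4 67)))) (.play 260 (.both (.play 258 (.both (.play 322 (.ref 6 66)) (.play 257 (.ref 55 192)))) (.play 324 (.ref 4 67)))))))))))))
 (.seq (.seq (.seq (.seq (.one (.play 257 (.both (.play 193 (.ref 4 0)) (.play 256 (.ref 117 0)))))
 (.seq (.one (.play 257 (.both (.ref 33 0) (.ref 199 65))))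
 (.one (.play 321 (.both (.ref 41 0) (.ref 200 128))))))
 (.seq (.seq (.one (.play 129 (.both (.ref 147 0) (.play 322 (.ref 4 129)))))
 (.one (.play 193 (.both (.ref 148 0) (.play 386 (.ref 4 193))))))
 (.seq (.one (.play 259 (.both (.play 66 (.both (.play 2 (.ref 7 2)) (.play 65 (.ref 84 64)))) (.ref 78 66))))
 (.one (.play 68 (.both (.ref 8 0) (.ref 24 64)))))))
 (.seq (.seq (.one (.play 68 (.both (.play 1 (.ref 3 0)) (.ref 205 1))))
 (.seq (.one (.play 257 (.both (.play 0 (.ref 7 0)) (.ref 34 64))))
 (.one (.play 132 (.both (.play 4 (.both (.play 3 (.ref 2 0)) (.ref 17 1))) (.play 131 (.ref 0 64)))))))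
 (.seq (.seq (.one (.play 67 (.both (.ref 154 0) (.both (.play 66 (.ref 127 1)) (.both (.play 66 (.both (.play 4 (.both (.play 65 (.ref 2 1)) (.play 3 (.ref 3 3)))) (.play 130 (.ref 11 65)))) (.ref 9 2))))))
 (.one (.play 68 (.both (.play 1 (.ref 3 0)) (.play 5 (.ref 2 1))))))
 (.seq (.one (.play 129 (.both (.play 65 (.ref 42 0)) (.ref 35 129))))
 (.one (.play 321 (.both (.play 65 (.ref 94 0)) (.both (.play 385 (.ref 121 64)) (.ref 50 128)))))))))
 (.seq (.seq (.seq (.one (.both (.play 0 (.ref 7 0)) (.play 322 (.ref 4 65))))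
 (.seq (.one (.both (.ref 40 1) (.ref 33 64)))
 (.one (.both (.play 2 (.ref 5 1)) (.play 320 (.ref 6 64))))))
 (.seq (.seq (.one (.play 129 (.both (.ref 147 0) (.both (.play 385 (.ref 94 64)) (.play 385 (.ref 214 64))))))
 (.one (.play 1 (.both (.play 65 (.ref 11 0)) (.play 68 (.ref 0 1))))))
 (.seq (.one (.play 65 (.both (.ref 9 0) (.play 64 (.ref 0 64)))))
 (.one (.play 66 (.both (.ref 9 1) (.ref 68 64)))))))
 (.seq (.seq (.one (.play 259 (.both (.ref 136 2) (.both (.ref 219 192) (.both (.play 258 (.ref 127 193)) (.both (.play 324 (.both (.ref 218 193) (.play 263 (.ref 19 259)))) (.play 258 (.both (.ref 217 256) (.both (.play 322 (.ref 11 257)) (.ref 20 257))))))))))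
 (.seq (.one (.play 192 (.both (.play 256 (.ref 123 0)) (.play 128 (.ref 96 64)))))
 (.one (.play 193 (.both (.ref 145 0) (.both (.ref 41 128) (.ref 221 128)))))))
 (.seq (.seq (.one (.play 261 (.both (.play 259 (.both (.play 258 (.both (.ref 136 1) (.both (.play 257 (.ref 127 192)) (.play 325 (.ref 63 257))))) (.play 195 (.ref 7 195)))) (.play 197 (.ref 5 196)))))
 (.one (.play 129 (.both (.play 0 (.ref 7 0)) (.play 256 (.ref 123 0))))))
 (.seq (.one (.both (.play 129 (.ref 7 0)) (.play 128 (.ref 4 0))))
 (.one (.play 1 (.both (.play 129 (.ref 6 0)) (.play 128 (.ref 5 0)))))))))))))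
 (.seq (.seq (.seq (.seq (.seq (.seq (.seq (.one (.play 129 (.both (.ref 201 0) (.play 2 (.ref 5 1)))))
 (.seq (.one (.play 65 (.both (.ref 40 1) (.play 256 (.ref 6 64)))))
 (.one (.play 193 (.both (.ref 228 0) (.play 384 (.ref 6 128)))))))
 (.seq (.one (.both (.play 325 (.both (.play 324 (.both (.ref 141 3) (.both (.ref 156 128) (.both (.ref 154 257) (.play 323 (.both (.ref 9 258) (.play 263 (.ref 2 259)))))))) (.play 389 (.ref 6 133)))) (.both (.ref 104 69) (.both (.play 390 (.both (.ref 41 69) (.play 454 (.ref 92 198)))) (.play 390 (.both (.ref 33 133) (.play 454 (.ref 92 198))))))))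
 (.seq (.one (.play 256 (.both (.play 64 (.ref 5 0)) (.play 129 (.ref 193 0)))))
 (.one (.play 1 (.both (.play 193 (.ref 6 0)) (.play 128 (.ref 5 0))))))))
 (.seq (.seq (.one (.play 256 (.both (.play 193 (.ref 194 0)) (.both (.play 128 (.ref 92 0)) (.both (.ref 232 0) (.ref 231 64))))))
 (.seq (.one (.play 129 (.both (.ref 233 0) (.play 131 (.both (.play 66 (.both (.play 2 (.ref 5 1)) (.play 67 (.ref 0 64)))) (.play 130 (.ref 3 64)))))))
 (.one (.play 1 (.both (.play 5 (.both (.ref 128 0) (.play 6 (.ref 2 2)))) (.play 2 (.ref 3 1)))))))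
 (.seq (.seq (.one (.play 69 (.both (.ref 235 0) (.play 134 (.both (.play 133 (.ref 0 66)) (.play 70 (.ref 0 67)))))))
 (.one (.both (.play 67 (.ref 2 0)) (.play 5 (.ref 1 1)))))
 (.seq (.one (.both (.play 64 (.ref 2 0)) (.play 5 (.ref 237 1))))
 (.one (.play 131 (.both (.play 258 (.ref 39 2)) (.play 132 (.ref 238 128)))))))))
 (.seq (.seq (.seq (.one (.play 66 (.both (.play 65 (.ref 127 0)) (.ref 24 66))))
 (.seq (.one (.play 67 (.both (.ref 72 0) (.ref 24 67))))
 (.one (.play 68 (.both (.ref 241 0) (.both (.ref 240 1) (.ref 9 3)))))))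
 (.seq (.seq (.one (.play 257 (.both (.play 64 (.ref 75 0)) (.play 448 (.ref 5 192)))))
 (.one (.play 193 (.both (.ref 243 0) (.play 129 (.ref 5 128))))))
 (.seq (.one (.play 128 (.both (.ref 182 0) (.both (.play 193 (.ref 181 0)) (.both (.play 256 (.ref 75 64)) (.play 385 (.both (.play 193 (.ref 7 128)) (.play 256 (.ref 4 128)))))))))
 (.one (.both (.play 2 (.ref 5 1)) (.ref 112 64))))))
 (.seq (.seq (.one (.play 257 (.both (.play 0 (.ref 7 0)) (.play 321 (.ref 5 65)))))
 (.seq (.one (.both (.play 3 (.ref 0 0)) (.play 66 (.ref 3 0))))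
 (.one (.play 66 (.both (.play 1 (.ref 65 0)) (.play 6 (.ref 2 2)))))))
 (.seq (.seq (.one (.play 5 (.both (.ref 249 0) (.play 260 (.ref 5 4)))))
 (.one (.play 69 (.both (.ref 250 0) (.play 134 (.ref 248 67))))))
 (.seq (.one (.play 132 (.both (.ref 251 0) (.play 259 (.ref 123 3)))))
 (.one (.play 5 (.both (.play 1 (.both (.play 0 (.ref 3 0)) (.ref 210 1))) (.play 4 (.ref 2 1))))))))))
 (.seq (.seq (.seq (.seq (.one (.play 70 (.both (.play 3 (.both (.play 4 (.both (.play 65 (.ref 55 0)) (.play 71 (.ref 3 3)))) (.play 2 (.ref 3 2)))) (.both (.ref 8 2) (.ref 253 2)))))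
 (.seq (.one (.both (.ref 165 0) (.play 134 (.ref 0 67))))
 (.one (.play 322 (.both (.play 258 (.both (.play 261 (.both (.play 386 (.ref 140 1)) (.play 262 (.ref 2 258)))) (.play 257 (.ref 3 257)))) (.both (.play 321 (.ref 127 256)) (.both (.play 321 (.ref 10 256)) (.play 321 (.ref 12 256)))))))))
 (.seq (.one (.play 192 (.both (.play 256 (.ref 6 0)) (.play 132 (.ref 1 128)))))
 (.seq (.one (.play 4 (.both (.play 1 (.ref 1 0)) (.play 5 (.ref 1 1)))))
 (.one (.both (.play 64 (.ref 2 0)) (.ref 258 1))))))
 (.seq (.seq (.one (.play 68 (.both (.play 0 (.ref 0 0)) (.play 69 (.both (.play 4 (.ref 0 1)) (.play 70 (.ref 1 66)))))))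
 (.seq (.one (.play 66 (.both (.ref 14 0) (.play 134 (.ref 0 66)))))
 (.one (.play 67 (.both (.play 3 (.ref 6 2)) (.play 68 (.ref 2 64)))))))
 (.seq (.seq (.one (.both (.play 64 (.ref 2 0)) (.play 6 (.ref 1 2))))
 (.one (.play 65 (.both (.play 67 (.ref 263 0)) (.play 2 (.ref 1 1))))))
 (.seq (.one (.both (.play 1 (.ref 6 0)) (.play 320 (.ref 5 64))))
 (.one (.both (.play 133 (.both (.play 69 (.ref 194 4)) (.play 195 (.both (.play 194 (.both (.ref 14 128) (.play 134 (.ref 2 130)))) (.both (.play 132 (.both (.play 194 (.ref 55 129)) (.play 131 (.ref 3 131)))) (.ref 9 130)))))) (.play 259 (.ref 1 195))))))))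
 (.seq (.seq (.seq (.one (.play 260 (.both (.play 196 (.ref 266 0)) (.both (.play 196 (.both (.play 132 (.both (.play 133 (.both (.play 69 (.ref 265 4)) (.play 200 (.ref 3 132)))) (.play 131 (.ref 3 131)))) (.play 259 (.ref 1 195)))) (.both (.play 200 (.both (.ref 253 132) (.play 261 (.ref 1 196)))) (.ref 264 194))))))
 (.seq (.one (.play 129 (.both (.play 5 (.both (.play 4 (.ref 2 1)) (.play 69 (.both (.play 6 (.ref 2 2)) (.play 130 (.ref 1 65)))))) (.play 128 (.ref 1 64)))))
 (.one (.play 68 (.both (.ref 268 0) (.play 132 (.ref 0 65)))))))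
 (.seq (.seq (.one (.play 67 (.both (.play 4 (.ref 2 0)) (.play 131 (.ref 0 64)))))
 (.one (.play 4 (.both (.play 65 (.ref 1 0)) (.play 68 (.ref 0 1))))))
 (.seq (.one (.play 5 (.both (.play 129 (.both (.play 65 (.ref 161 0)) (.ref 271 65))) (.both (.play 4 (.ref 259 1)) (.ref 270 2)))))
 (.one (.play 129 (.both (.ref 91 0) (.play 320 (.ref 6 128))))))))
 (.seq (.seq (.one (.play 258 (.both (.play 197 (.both (.play 325 (.both (.ref 273 4) (.play 326 (.ref 0 258)))) (.play 198 (.ref 2 194)))) (.both (.play 257 (.ref 12 192)) (.ref 23 256)))))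
 (.seq (.one (.play 65 (.both (.ref 9 0) (.play 132 (.ref 0 65)))))
 (.one (.play 66 (.both (.ref 275 0) (.both (.play 70 (.ref 127 1)) (.ref 68 64)))))))
 (.seq (.seq (.one (.play 1 (.both (.play 65 (.both (.play 0 (.ref 3 0)) (.play 133 (.ref 0 65)))) (.play 2 (.ref 3 1)))))
 (.one (.play 65 (.both (.play 1 (.ref 6 0)) (.play 257 (.ref 6 64))))))
 (.seq (.one (.play 131 (.both (.ref 278 2) (.play 132 (.ref 238 128)))))
 (.one (.play 197 (.both (.ref 279 2) (.both (.ref 277 128) (.play 198 (.ref 10 129))))))))))))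
 (.seq (.seq (.seq (.seq (.seq (.one (.play 258 (.both (.play 198 (.both (.ref 279 3) (.play 259 (.ref 1 194)))) (.both (.ref 264 192) (.play 194 (.ref 60 193))))))
 (.seq (.one (.play 131 (.both (.ref 70 3) (.play 130 (.ref 86 128)))))
 (.one (.play 67 (.both (.ref 26 0) (.ref 8 3))))))
 (.seq (.one (.both (.ref 91 0) (.both (.play 385 (.ref 121 64)) (.play 385 (.ref 58 65)))))
 (.seq (.one (.play 68 (.both (.play 0 (.ref 3 0)) (.ref 18 1))))
 (.one (.play 68 (.both (.ref 208 1) (.play 128 (.ref 1 64))))))))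
 (.seq (.seq (.one (.both (.play 0 (.ref 3 0)) (.play 5 (.ref 2 1))))
 (.seq (.one (.play 66 (.both (.ref 132 0) (.play 133 (.ref 0 66)))))
 (.one (.play 68 (.both (.play 4 (.ref 4 4)) (.play 259 (.both (.play 323 (.ref 151 67)) (.play 258 (.ref 168 192)))))))))
 (.seq (.seq (.one (.play 1 (.both (.play 65 (.both (.play 0 (.ref 3 0)) (.play 132 (.ref 0 65)))) (.play 2 (.ref 3 1)))))
 (.one (.play 67 (.both (.play 68 (.ref 63 0)) (.play 66 (.ref 19 1))))))
 (.seq (.one (.play 67 (.both (.ref 240 0) (.both (.play 131 (.ref 11 66)) (.ref 291 66)))))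
 (.one (.play 260 (.both (.ref 136 3) (.both (.ref 292 192) (.ref 290 194)))))))))
 (.seq (.seq (.seq (.one (.play 321 (.both (.ref 134 0) (.play 320 (.ref 1 256)))))
 (.seq (.one (.both (.ref 294 0) (.play 192 (.ref 3 192))))
 (.one (.play 7 (.both (.play 67 (.both (.ref 26 0) (.both (.play 2 (.ref 65 1)) (.both (.play 132 (.both (.play 66 (.both (.ref 9 1) (.play 133 (.ref 63 65)))) (.play 131 (.ref 1 67)))) (.play 131 (.ref 11 66)))))) (.play 8 (.ref 2 4)))))))
 (.seq (.seq (.one (.play 3 (.both (.play 4 (.ref 2 0)) (.play 258 (.ref 5 2)))))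
 (.one (.play 68 (.both (.play 67 (.both (.ref 72 0) (.play 134 (.ref 0 67)))) (.both (.ref 158 1) (.ref 9 3))))))
 (.seq (.one (.play 133 (.both (.ref 289 1) (.both (.ref 70 5) (.play 195 (.both (.ref 288 128) (.play 259 (.ref 11 194))))))))
 (.one (.both (.play 455 (.both (.play 327 (.both (.play 328 (.both (.play 326 (.both (.play 325 (.both (.ref 120 4) (.both (.play 391 (.both (.ref 299 129) (.ref 297 261))) (.both (.play 391 (.both (.ref 298 256) (.ref 297 261))) (.both (.ref 296 257) (.ref 14 259)))))) (.both (.play 325 (.both (.play 264 (.both (.play 391 (.both (.ref 219 258) (.play 519 (.ref 5 263)))) (.play 265 (.ref 2 261)))) (.both (.ref 14 259) (.both (.play 329 (.both (.play 324 (.both (.ref 9 259) (.play 390 (.both (.play 391 (.both (.play 323 (.ref 0 323)) (.play 330 (.ref 1 326)))) (.play 389 (.ref 1 325)))))) (.ref 8 261))) (.play 329 (.ref 12 260)))))) (.both (.ref 171 259) (.both (.ref 236 260) (.play 329 (.both (.ref 268 261) (.both (.play 390 (.both (.ref 170 262) (.play 389 (.ref 1 325))))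 (.ref 208 262))))))))) (.both (.play 329 (.both (.play 326 (.both (.play 390 (.both (.play 393 (.both (.play 262 (.ref 135 69)) (.play 394 (.ref 0 326)))) (.play 389 (.ref 1 325)))) (.both (.play 325 (.ref 99 260)) (.both (.play 325 (.ref 127 260)) (.play 325 (.ref 25 324)))))) (.both (.ref 30 131) (.both (.play 330 (.both (.play 266 (.both (.ref 162 261) (.play 267 (.ref 2 263)))) (.play 394 (.ref 0 327)))) (.both (.ref 269 262) (.play 394 (.ref 85 326))))))) (.both (.play 329 (.both (.ref 274 68) (.both (.ref 239 134) (.both (.ref 100 260) (.both (.ref 272 261) (.play 394 (.both (.play 392 (.both (.play 265 (.ref 5 264)) (.play 393 (.ref 3 327)))) (.play 330 (.ref 0 327))))))))) (.both (.play 519 (.both (.play 391 (.ref 230 193)) (.both (.ref 227 262) (.both (.ref 226 263) (.play 392 (.ref 123 263)))))) (.both (.ref 252 260) (.ref 234 263))))))) (.both (.play 391 (.both (.play 326 (.both (.play 325 (.both (.play 260 (.both (.play 388 (.both (.play 324 (.ref 140 3)) (.both (.ref 175 260) (.play 389 (.ref 168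 322))))) (.both (.play 324 (.ref 295 67)) (.play 261 (.ref 54 258))))) (.both (.play 324 (.both (.ref 141 3) (.both (.ref 290 258) (.ref 68 322)))) (.both (.play 328 (.both (.ref 141 4) (.both (.play 329 (.ref 12 260)) (.play 329 (.ref 10 260))))) (.both (.ref 293 64) (.both (.play 328 (.both (.play 324 (.both (.play 261 (.both (.play 390 (.both (.play 454 (.ref 71 133)) (.play 323 (.ref 0 323)))) (.play 260 (.ref 3 260)))) (.both (.ref 158 257) (.ref 9 259)))) (.both (.ref 253 260) (.play 265 (.both (.play 264 (.ref 2 261)) (.play 329 (.both (.play 266 (.ref 2 262)) (.play 390 (.ref 19 325))))))))) (.both (.play 262 (.both (.ref 289 130) (.both (.ref 70 134) (.play 324 (.both (.ref 158 257) (.both (.ref 288 257) (.play 328 (.both (.play 265 (.both (.play 264 (.ref 2 261)) (.play 329 (.ref 287 261)))) (.play 388 (.ref 11 323)))))))))) (.ref 276 258)))))))) (.both (.play 328 (.both (.ref 220 66) (.both (.play 265 (.both (.play 325 (.both (.ref 219 258) (.play 264 (.ref 2 261)))) (.both (.play 266 (.both (.play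 264 (.ref 263 261)) (.play 329 (.ref 2 262)))) (.play 329 (.both (.play 266 (.ref 2 262)) (.play 330 (.both (.play 390 (.ref 1 326)) (.ref 24 326)))))))) (.both (.ref 250 259) (.play 519 (.both (.play 390 (.both (.ref 286 261) (.play 583 (.both (.play 391 (.ref 7 326)) (.play 647 (.both (.play 454 (.ref 7 390)) (.ref 50 454))))))) (.play 264 (.ref 5 263)))))))) (.both (.play 262 (.ref 71 134)) (.play 328 (.both (.ref 250 259) (.both (.ref 236 260) (.both (.play 262 (.both (.ref 285 261) (.play 519 (.ref 7 262)))) (.play 519 (.ref 90 262)))))))))) (.play 263 (.ref 4 263)))) (.both (.play 328 (.both (.play 326 (.both (.play 325 (.both (.ref 120 4) (.both (.play 324 (.both (.ref 283 256) (.both (.ref 165 257) (.play 388 (.ref 11 323))))) (.both (.play 324 (.both (.play 323 (.both (.ref 8 259) (.ref 23 321))) (.ref 9 259))) (.both (.play 324 (.both (.play 323 (.ref 12 258)) (.ref 9 259))) (.play 260 (.ref 65 259))))))) (.both (.play 262 (.both (.play 198 (.both (.ref 186 5) (.both (.play 134 (.ref 284 5)) (.both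 (.play 391 (.ref 180 134)) (.play 391 (.ref 74 198)))))) (.both (.play 390 (.both (.ref 202 69) (.play 329 (.ref 13 261)))) (.play 261 (.ref 54 259))))) (.both (.play 325 (.both (.ref 30 129) (.both (.ref 283 257) (.both (.ref 165 258) (.ref 268 260))))) (.both (.play 325 (.both (.play 324 (.both (.ref 72 257) (.both (.ref 14 258) (.both (.play 261 (.both (.play 323 (.both (.play 262 (.ref 55 258)) (.play 387 (.ref 11 322)))) (.play 260 (.ref 3 260)))) (.ref 9 259))))) (.both (.ref 165 258) (.both (.ref 254 259) (.ref 253 260))))) (.both (.ref 15 259) (.play 329 (.both (.play 325 (.ref 12 260)) (.both (.play 325 (.both (.ref 164 260) (.play 389 (.ref 11 324)))) (.both (.ref 253 261) (.play 330 (.both (.ref 253 262) (.play 390 (.ref 11 325)))))))))))))) (.both (.play 392 (.both (.play 326 (.both (.play 329 (.both (.play 262 (.both (.play 198 (.both (.ref 186 5) (.both (.play 391 (.ref 180 134)) (.play 390 (.both (.play 391 (.ref 4 198)) (.play 389 (.ref 1 325))))))) (.play 261 (.ref 3 261)))) (.both (.ref 282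 132) (.ref 279 134)))) (.both (.ref 281 131) (.both (.ref 280 132) (.both (.ref 276 259) (.ref 261 259)))))) (.both (.play 263 (.ref 71 135)) (.ref 251 260)))) (.both (.play 263 (.both (.play 391 (.ref 47 6)) (.both (.play 199 (.both (.ref 186 6) (.both (.ref 184 6) (.play 392 (.ref 74 199))))) (.both (.play 392 (.ref 181 135)) (.play 520 (.ref 225 263)))))) (.both (.play 329 (.both (.ref 274 68) (.both (.ref 239 134) (.both (.ref 100 260) (.both (.ref 272 261) (.ref 269 262)))))) (.play 392 (.both (.play 326 (.both (.ref 267 129) (.both (.play 329 (.both (.play 393 (.both (.ref 262 198) (.play 394 (.ref 0 326)))) (.both (.ref 253 261) (.play 262 (.both (.play 261 (.ref 3 261)) (.play 394 (.both (.play 330 (.both (.play 263 (.ref 3 262)) (.play 395 (.ref 0 327)))) (.play 393 (.ref 0 326))))))))) (.both (.ref 261 259) (.ref 260 325))))) (.both (.play 329 (.both (.play 265 (.both (.play 201 (.ref 194 136)) (.play 266 (.ref 259 262)))) (.both (.play 265 (.both (.play 201 (.ref 152 136)) (.play 330 (.both (.play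 266 (.ref 55 262)) (.play 394 (.ref 0 327)))))) (.play 394 (.ref 248 327))))) (.play 263 (.ref 181 135)))))))))) (.both (.play 328 (.both (.play 329 (.both (.play 326 (.both (.play 325 (.both (.play 263 (.both (.play 262 (.both (.play 390 (.both (.play 198 (.both (.ref 45 5) (.ref 257 197))) (.play 454 (.ref 92 198)))) (.play 330 (.ref 3 262)))) (.play 264 (.ref 55 260)))) (.both (.ref 165 258) (.play 389 (.ref 11 324))))) (.both (.ref 141 5) (.both (.ref 166 258) (.both (.ref 72 259) (.play 261 (.ref 65 260))))))) (.both (.ref 256 4) (.both (.play 330 (.ref 255 260)) (.both (.play 330 (.both (.ref 254 261) (.play 394 (.ref 0 327)))) (.play 330 (.both (.ref 253 262) (.play 394 (.ref 0 327))))))))) (.both (.ref 252 260) (.both (.play 392 (.both (.ref 251 260) (.play 263 (.ref 7 263)))) (.ref 224 263))))) (.both (.play 454 (.both (.play 328 (.both (.play 263 (.both (.play 391 (.both (.play 199 (.both (.ref 147 70) (.play 390 (.ref 6 198)))) (.play 455 (.ref 4 263)))) (.play 392 (.ref 7 263)))) (.both (.play 519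 (.both (.play 391 (.ref 246 262)) (.both (.ref 226 263) (.play 583 (.both (.play 392 (.ref 6 327)) (.ref 247 390)))))) (.both (.play 391 (.both (.play 519 (.ref 246 262)) (.play 263 (.ref 4 263)))) (.ref 224 263))))) (.both (.play 453 (.both (.play 392 (.both (.ref 245 135) (.play 393 (.ref 2 389)))) (.play 388 (.ref 65 387)))) (.play 453 (.both (.play 517 (.both (.play 389 (.both (.play 581 (.both (.play 645 (.both (.ref 244 261) (.ref 33 388))) (.both (.play 645 (.both (.ref 244 261) (.both (.ref 35 389) (.ref 179 389)))) (.both (.play 582 (.both (.play 518 (.both (.play 325 (.ref 4 325)) (.play 580 (.both (.play 644 (.ref 6 388)) (.play 579 (.ref 238 514)))))) (.play 646 (.ref 4 389)))) (.both (.ref 50 388) (.ref 59 388)))))) (.play 388 (.ref 3 388)))) (.play 516 (.ref 1 452)))) (.both (.ref 242 384) (.both (.play 388 (.ref 65 387)) (.ref 217 451)))))))) (.both (.play 328 (.both (.play 326 (.both (.play 262 (.both (.play 391 (.ref 181 134)) (.play 261 (.ref 86 259)))) (.both (.ref 239 133) (.both (.ref 236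 260) (.play 391 (.both (.play 519 (.ref 90 262)) (.play 263 (.ref 4 263)))))))) (.both (.play 263 (.ref 225 263)) (.both (.ref 224 263) (.ref 234 263))))) (.both (.play 391 (.both (.play 519 (.ref 230 193)) (.play 263 (.ref 4 263)))) (.play 328 (.both (.play 519 (.both (.ref 229 199) (.both (.ref 227 262) (.both (.ref 226 263) (.play 583 (.both (.play 647 (.both (.ref 116 326) (.both (.play 711 (.both (.ref 41 390) (.play 520 (.ref 5 455)))) (.ref 105 454)))) (.play 392 (.ref 6 327)))))))) (.both (.play 391 (.both (.play 519 (.both (.play 583 (.both (.ref 41 262) (.ref 34 390))) (.play 264 (.ref 5 263)))) (.play 263 (.ref 4 263)))) (.both (.play 263 (.ref 225 263)) (.ref 224 263))))))))))))) (.play 521 (.ref 3 455)))) (.both (.play 392 (.both (.play 328 (.both (.ref 223 68) (.both (.play 264 (.ref 94 199)) (.both (.play 264 (.ref 42 199)) (.play 264 (.ref 214 199)))))) (.both (.play 328 (.both (.ref 222 71) (.both (.ref 148 135) (.both (.play 264 (.ref 42 199)) (.play 584 (.both (.ref 40 264) (.ref 57 327)))))))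 (.both (.play 584 (.both (.play 393 (.both (.play 391 (.both (.ref 220 131) (.play 327 (.ref 7 327)))) (.play 329 (.ref 5 328)))) (.both (.play 648 (.ref 121 327)) (.play 648 (.ref 36 391))))) (.both (.ref 216 199) (.both (.play 328 (.both (.ref 116 199) (.both (.ref 91 199) (.ref 102 263)))) (.both (.play 584 (.both (.ref 148 199) (.both (.play 328 (.ref 42 263)) (.both (.play 519 (.both (.play 329 (.both (.play 328 (.ref 215 263)) (.play 393 (.ref 5 328)))) (.ref 97 391))) (.play 648 (.ref 121 327)))))) (.both (.play 584 (.both (.play 328 (.ref 214 263)) (.both (.play 455 (.both (.ref 146 263) (.play 649 (.both (.play 648 (.ref 213 391)) (.play 585 (.ref 4 392)))))) (.both (.ref 95 391) (.play 648 (.ref 36 391)))))) (.both (.play 584 (.both (.ref 91 263) (.ref 78 391))) (.ref 212 263)))))))))) (.both (.play 584 (.both (.play 648 (.both (.ref 211 263) (.both (.ref 104 391) (.play 713 (.both (.play 711 (.both (.play 647 (.ref 194 455)) (.both (.play 456 (.both (.play 647 (.ref 6 455)) (.play 649 (.ref 4 456))))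 (.play 712 (.both (.play 775 (.ref 6 519)) (.play 710 (.both (.ref 14 644) (.play 714 (.both (.ref 8 646) (.both (.play 715 (.both (.play 649 (.both (.play 650 (.ref 2 646)) (.play 716 (.ref 3 648)))) (.ref 24 711))) (.both (.ref 205 647) (.play 715 (.both (.play 652 (.both (.play 651 (.ref 2 648)) (.ref 210 648))) (.ref 24 711)))))))))))))) (.both (.play 649 (.ref 177 456)) (.play 712 (.both (.play 711 (.both (.play 775 (.ref 6 519)) (.play 714 (.both (.ref 209 643) (.ref 208 647))))) (.play 777 (.ref 4 520)))))))))) (.both (.play 455 (.both (.play 391 (.ref 71 263)) (.both (.play 391 (.ref 181 263)) (.play 521 (.ref 86 453))))) (.both (.play 455 (.both (.play 391 (.ref 71 263)) (.both (.play 521 (.both (.ref 207 391) (.play 523 (.ref 3 455)))) (.play 521 (.ref 86 453))))) (.both (.play 585 (.both (.ref 184 263) (.play 521 (.ref 1 520)))) (.play 521 (.both (.play 585 (.both (.play 392 (.ref 75 328)) (.play 524 (.ref 1 520)))) (.play 455 (.ref 3 455))))))))) (.both (.play 584 (.both (.play 392 (.both (.ref 147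 263) (.play 583 (.both (.play 647 (.ref 6 391)) (.play 521 (.ref 168 517)))))) (.both (.play 392 (.both (.ref 147 263) (.ref 50 391))) (.both (.play 392 (.both (.ref 147 263) (.play 585 (.both (.play 649 (.ref 4 392)) (.play 521 (.ref 1 520)))))) (.play 521 (.ref 11 519)))))) (.play 521 (.both (.play 455 (.ref 3 455)) (.play 584 (.ref 11 519))))))))))))
 (.seq (.seq (.one (.play 67 (.both (.ref 235 0) (.play 129 (.ref 1 65)))))
 (.seq (.one (.play 67 (.both (.ref 240 0) (.play 6 (.ref 2 3)))))
 (.one (.both (.play 3 (.ref 2 0)) (.play 132 (.ref 0 64))))))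
 (.seq (.seq (.one (.play 65 (.both (.play 192 (.ref 38 0)) (.play 257 (.ref 6 64)))))
 (.one (.both (.ref 304 0) (.both (.play 192 (.ref 39 0)) (.both (.play 257 (.ref 194 64)) (.ref 231 128))))))
 (.seq (.one (.play 259 (.both (.play 323 (.ref 305 3)) (.both (.play 131 (.both (.play 323 (.ref 92 67)) (.play 192 (.ref 2 128)))) (.both (.play 260 (.both (.play 323 (.ref 265 67)) (.play 192 (.ref 0 192)))) (.play 192 (.ref 303 128)))))))
 (.one (.both (.ref 278 0) (.play 384 (.ref 5 128)))))))))
 (.seq (.seq (.seq (.seq (.one (.play 257 (.both (.ref 184 0) (.ref 285 256))))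
 (.seq (.one (.play 67 (.both (.ref 219 0) (.both (.play 66 (.ref 127 1)) (.both (.play 66 (.both (.ref 9 1) (.play 132 (.both (.play 65 (.ref 0 65)) (.play 131 (.ref 1 67)))))) (.play 131 (.ref 11 66)))))))
 (.one (.play 71 (.both (.ref 309 0) (.ref 18 4))))))
 (.seq (.seq (.one (.play 68 (.both (.play 70 (.both (.ref 310 0) (.play 6 (.ref 5 5)))) (.play 4 (.ref 7 4)))))
 (.one (.both (.play 193 (.ref 6 0)) (.play 64 (.ref 5 0)))))
 (.seq (.one (.both (.play 1 (.ref 6 0)) (.play 320 (.ref 312 64))))
 (.one (.play 194 (.both (.play 258 (.ref 194 2)) (.play 193 (.ref 238 128))))))))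
 (.seq (.seq (.one (.both (.play 0 (.ref 4 0)) (.play 1 (.ref 5 0))))
 (.seq (.one (.play 68 (.both (.ref 8 0) (.play 133 (.both (.play 132 (.ref 0 65)) (.ref 16 65))))))
 (.one (.play 64 (.both (.ref 40 0) (.play 257 (.ref 4 64)))))))
 (.seq (.seq (.one (.play 64 (.both (.play 65 (.both (.play 0 (.ref 7 0)) (.play 258 (.ref 4 65)))) (.play 128 (.ref 7 64)))))
 (.one (.play 133 (.both (.ref 318 4) (.both (.ref 317 5) (.play 134 (.both (.play 132 (.both (.play 135 (.both (.ref 309 64) (.ref 316 68))) (.play 68 (.ref 7 68)))) (.play 70 (.ref 5 69)))))))))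
 (.seq (.one (.play 256 (.both (.play 192 (.ref 6 0)) (.play 257 (.both (.play 320 (.ref 6 64)) (.play 321 (.ref 5 65)))))))
 (.one (.play 69 (.both (.ref 235 0) (.play 133 (.ref 0 66)))))))))
 (.seq (.seq (.seq (.one (.play 69 (.both (.ref 250 0) (.both (.ref 321 1) (.both (.play 70 (.both (.play 3 (.both (.play 2 (.ref 3 2)) (.play 260 (.ref 7 3)))) (.play 134 (.ref 0 67)))) (.play 260 (.ref 90 3)))))))
 (.seq (.one (.play 131 (.both (.ref 278 2) (.play 132 (.ref 2 128)))))
 (.one (.play 66 (.both (.play 2 (.ref 7 2)) (.ref 111 64))))))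
 (.seq (.seq (.one (.play 193 (.both (.play 0 (.ref 4 0)) (.play 384 (.ref 92 128)))))
 (.one (.play 257 (.both (.ref 325 0) (.play 321 (.ref 4 64))))))
 (.seq (.one (.play 65 (.both (.play 321 (.both (.ref 43 0) (.play 385 (.ref 4 128)))) (.play 129 (.ref 5 64)))))
 (.one (.play 195 (.both (.play 131 (.both (.play 67 (.ref 58 3)) (.ref 41 66))) (.both (.play 131 (.both (.ref 327 3) (.both (.ref 40 67) (.ref 326 67)))) (.both (.ref 147 66) (.both (.play 131 (.both (.ref 41 66) (.ref 326 67))) (.play 196 (.both (.play 260 (.both (.ref 324 128) (.play 451 (.ref 5 195)))) (.play 132 (.ref 5 131)))))))))))))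
 (.seq (.seq (.one (.play 129 (.both (.ref 91 0) (.play 386 (.ref 4 129)))))
 (.seq (.one (.play 195 (.both (.play 259 (.both (.ref 329 2) (.play 258 (.ref 3 258)))) (.play 194 (.ref 1 192)))))
 (.one (.play 327 (.both (.play 324 (.both (.play 260 (.both (.ref 187 0) (.play 259 (.ref 3 259)))) (.both (.ref 120 3) (.both (.ref 156 128) (.both (.ref 154 257) (.both (.play 323 (.both (.ref 162 257) (.ref 9 258))) (.play 259 (.ref 65 258)))))))) (.play 328 (.ref 0 325)))))))
 (.seq (.seq (.one (.play 197 (.both (.play 195 (.both (.play 259 (.ref 6 3)) (.ref 82 128))) (.play 261 (.ref 4 4)))))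
 (.one (.play 132 (.both (.play 68 (.ref 75 4)) (.both (.ref 195 65) (.play 324 (.both (.play 258 (.both (.ref 332 128) (.play 259 (.ref 2 194)))) (.both (.ref 320 131) (.play 389 (.both (.play 325 (.ref 4 132)) (.ref 51 196)))))))))))
 (.seq (.one (.both (.play 0 (.ref 0 0)) (.play 64 (.ref 1 0))))
 (.one (.play 257 (.both (.play 321 (.ref 307 1)) (.play 256 (.ref 1 192))))))))))))
 (.seq (.seq (.seq (.seq (.seq (.seq (.one (.play 193 (.both (.play 194 (.both (.ref 335 0) (.play 133 (.ref 1 129)))) (.play 129 (.ref 334 128)))))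
 (.seq (.one (.play 65 (.both (.play 1 (.ref 4 1)) (.play 320 (.ref 6 64)))))
 (.one (.play 197 (.both (.play 133 (.both (.play 261 (.both (.play 260 (.both (.ref 337 4) (.ref 165 193))) (.both (.play 69 (.ref 75 5)) (.play 260 (.both (.play 324 (.both (.play 388 (.ref 193 132)) (.play 323 (.ref 1 259)))) (.both (.ref 283 192) (.ref 165 193))))))) (.play 132 (.ref 3 132)))) (.both (.ref 336 67) (.both (.ref 309 129) (.both (.ref 14 131) (.ref 218 131)))))))))
 (.seq (.one (.play 68 (.both (.ref 310 0) (.play 4 (.ref 7 4)))))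
 (.seq (.one (.play 256 (.both (.play 1 (.ref 5 0)) (.ref 35 0))))
 (.one (.play 256 (.both (.play 192 (.ref 6 0)) (.play 257 (.ref 110 0))))))))
 (.seq (.seq (.one (.play 257 (.both (.play 2 (.ref 5 1)) (.ref 341 64))))
 (.seq (.one (.play 385 (.both (.play 194 (.both (.play 130 (.both (.ref 304 1) (.both (.play 193 (.ref 39 1)) (.both (.play 258 (.ref 123 65)) (.play 385 (.both (.play 193 (.ref 5 129)) (.play 258 (.ref 6 129)))))))) (.both (.ref 88 64) (.play 258 (.both (.play 449 (.ref 5 193)) (.play 386 (.ref 4 194))))))) (.play 384 (.ref 1 320)))))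
 (.one (.play 322 (.both (.play 258 (.both (.play 452 (.both (.ref 343 1) (.ref 342 259))) (.play 257 (.ref 3 257)))) (.both (.ref 218 256) (.play 385 (.both (.play 321 (.ref 334 320)) (.play 386 (.ref 2 321))))))))))
 (.seq (.seq (.one (.play 66 (.both (.play 2 (.ref 5 1)) (.play 67 (.ref 1 64)))))
 (.one (.play 193 (.both (.ref 335 0) (.play 192 (.ref 2 128))))))
 (.seq (.one (.play 64 (.both (.play 0 (.ref 7 0)) (.play 132 (.ref 3 64)))))
 (.one (.play 257 (.both (.ref 136 0) (.play 256 (.ref 0 256)))))))))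
 (.seq (.seq (.seq (.one (.both (.ref 141 0) (.play 320 (.ref 0 320))))
 (.seq (.one (.play 322 (.both (.ref 318 0) (.play 386 (.ref 4 129)))))
 (.one (.both (.ref 209 0) (.play 8 (.ref 2 4))))))
 (.seq (.seq (.one (.play 257 (.both (.play 0 (.ref 4 0)) (.play 321 (.both (.play 256 (.ref 4 64)) (.play 385 (.ref 5 129)))))))
 (.one (.play 196 (.both (.play 260 (.ref 152 4)) (.both (.play 5 (.both (.play 260 (.ref 6 4)) (.play 198 (.both (.play 262 (.ref 4 5)) (.play 136 (.ref 2 132)))))) (.play 198 (.ref 351 128)))))))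
 (.seq (.one (.play 196 (.both (.play 195 (.both (.play 198 (.both (.play 262 (.ref 4 5)) (.play 134 (.ref 2 131)))) (.both (.ref 131 128) (.play 134 (.ref 89 130))))) (.play 260 (.ref 6 4)))))
 (.one (.play 261 (.both (.play 325 (.ref 94 4)) (.both (.play 325 (.ref 121 4)) (.ref 354 64))))))))
 (.seq (.seq (.one (.play 321 (.both (.play 65 (.ref 94 0)) (.both (.play 65 (.ref 121 0)) (.ref 50 128)))))
 (.seq (.one (.play 261 (.both (.play 260 (.both (.play 324 (.ref 305 4)) (.both (.play 324 (.both (.play 69 (.ref 6 68)) (.play 262 (.both (.play 200 (.ref 2 196)) (.play 323 (.ref 1 259)))))) (.play 262 (.ref 351 192))))) (.both (.ref 356 4) (.both (.ref 122 4) (.both (.ref 212 4) (.both (.ref 355 64) (.both (.ref 353 64) (.play 262 (.both (.ref 352 69) (.play 260 (.ref 351 192))))))))))))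
 (.one (.play 64 (.both (.play 0 (.ref 7 0)) (.play 130 (.ref 3 64)))))))
 (.seq (.seq (.one (.play 65 (.both (.ref 358 0) (.ref 50 64))))
 (.one (.play 192 (.both (.play 256 (.ref 6 0)) (.play 194 (.ref 2 128))))))
 (.seq (.one (.play 66 (.both (.play 2 (.ref 7 2)) (.play 132 (.ref 86 64)))))
 (.one (.play 194 (.both (.play 130 (.ref 181 2)) (.ref 53 192)))))))))
 (.seq (.seq (.seq (.seq (.one (.play 452 (.both (.play 195 (.both (.ref 362 0) (.play 388 (.ref 4 195)))) (.both (.play 451 (.ref 117 195)) (.ref 114 195)))))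
 (.seq (.one (.play 64 (.both (.ref 192 0) (.play 130 (.ref 3 64)))))
 (.one (.play 261 (.both (.play 197 (.both (.play 388 (.both (.ref 273 4) (.both (.play 324 (.ref 194 132)) (.play 389 (.both (.play 452 (.ref 6 196)) (.play 390 (.both (.play 454 (.ref 4 197)) (.play 391 (.ref 2 324))))))))) (.both (.ref 364 132) (.play 262 (.ref 13 196))))) (.both (.play 260 (.both (.play 389 (.both (.play 196 (.ref 181 68)) (.both (.play 390 (.both (.play 454 (.both (.play 197 (.ref 4 197)) (.play 199 (.ref 6 198)))) (.play 388 (.ref 2 324)))) (.ref 192 196)))) (.play 262 (.ref 0 260)))) (.both (.ref 357 128) (.play 262 (.ref 334 260)))))))))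
 (.seq (.seq (.one (.play 193 (.both (.play 129 (.both (.ref 44 1) (.play 386 (.ref 4 129)))) (.ref 41 128))))
 (.one (.play 461 (.both (.play 391 (.both (.play 455 (.both (.play 389 (.both (.play 327 (.both (.play 263 (.own 392 (.both (.ref 366 6) (.both (.ref 350 134) (.ref 332 259))))) (.both (.ref 365 64) (.both (.play 325 (.both (.play 453 (.both (.play 326 (.both (.ref 363 66) (.play 388 (.ref 1 324)))) (.both (.ref 359 196) (.both (.ref 353 256) (.both (.play 326 (.both (.ref 189 260) (.play 388 (.ref 1 324)))) (.play 261 (.both (.play 326 (.ref 13 260)) (.ref 360 260)))))))) (.both (.play 453 (.both (.play 326 (.both (.ref 363 66) (.play 324 (.ref 0 324)))) (.both (.play 261 (.both (.ref 361 194) (.ref 360 260))) (.both (.ref 356 196) (.both (.ref 359 196) (.play 326 (.both (.ref 189 260) (.play 324 (.ref 0 324))))))))) (.both (.ref 357 192) (.play 326 (.ref 334 324)))))) (.play 263 (.both (.ref 350 134) (.both (.play 456 (.ref 183 135)) (.ref 324 196)))))))) (.both (.play 390 (.both (.ref 136 132) (.both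 (.ref 130 323) (.ref 132 323)))) (.play 329 (.both (.play 390 (.ref 2 325)) (.play 330 (.ref 1 327))))))) (.both (.play 327 (.both (.play 326 (.both (.play 325 (.ref 349 4)) (.both (.ref 348 68) (.both (.ref 282 131) (.both (.play 390 (.both (.play 262 (.both (.play 454 (.both (.ref 347 197) (.ref 195 259))) (.play 198 (.ref 4 198)))) (.both (.ref 346 196) (.play 389 (.ref 55 324))))) (.both (.ref 336 196) (.ref 276 259))))))) (.both (.play 263 (.both (.ref 222 6) (.both (.play 199 (.both (.ref 145 6) (.ref 35 199))) (.both (.play 199 (.ref 121 134)) (.play 519 (.ref 121 198)))))) (.both (.play 519 (.both (.play 263 (.ref 121 198)) (.both (.ref 104 262) (.ref 78 326)))) (.ref 106 262))))) (.both (.play 456 (.both (.play 329 (.both (.play 265 (.ref 39 136)) (.play 330 (.ref 1 327)))) (.both (.play 519 (.ref 265 263)) (.play 520 (.both (.ref 345 263) (.ref 112 327)))))) (.both (.play 329 (.both (.play 390 (.both (.play 519 (.both (.play 326 (.ref 183 198)) (.both (.ref 144 198) (.both (.play 583 (.both (.play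 327 (.ref 36 326)) (.both (.ref 197 390) (.play 647 (.both (.play 454 (.ref 7 390)) (.ref 35 391)))))) (.ref 192 326))))) (.play 389 (.ref 2 325)))) (.play 330 (.ref 1 327)))) (.play 519 (.both (.play 264 (.ref 312 263)) (.play 583 (.ref 5 327))))))))) (.both (.ref 331 66) (.ref 330 135)))) (.ref 18 394)))))
 (.seq (.one (.play 321 (.both (.play 65 (.ref 214 0)) (.both (.ref 179 65) (.ref 50 128)))))
 (.one (.both (.play 0 (.ref 3 0)) (.play 64 (.ref 2 0)))))))
 (.seq (.seq (.one (.play 195 (.both (.play 197 (.both (.play 261 (.ref 4 4)) (.ref 155 128))) (.play 259 (.ref 6 3)))))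
 (.seq (.one (.play 256 (.both (.play 192 (.ref 6 0)) (.play 257 (.ref 215 0)))))
 (.one (.both (.play 1 (.ref 6 0)) (.play 384 (.ref 5 128))))))
 (.seq (.seq (.one (.play 389 (.both (.play 261 (.both (.play 452 (.both (.play 197 (.both (.ref 45 4) (.play 388 (.ref 6 196)))) (.both (.play 516 (.both (.play 388 (.ref 372 196)) (.play 453 (.ref 6 260)))) (.play 453 (.both (.play 516 (.ref 6 260)) (.ref 340 261)))))) (.both (.ref 362 66) (.play 328 (.ref 13 260))))) (.both (.play 453 (.both (.play 261 (.both (.ref 362 66) (.ref 354 256))) (.both (.play 261 (.both (.ref 362 66) (.both (.play 197 (.ref 94 132)) (.ref 371 260)))) (.both (.ref 363 66) (.both (.ref 106 260) (.ref 189 260)))))) (.both (.play 261 (.both (.play 453 (.both (.play 517 (.both (.ref 243 133) (.both (.ref 35 261) (.play 581 (.both (.play 390 (.ref 5 325)) (.ref 35 325)))))) (.both (.ref 370 257) (.both (.play 517 (.both (.play 452 (.both (.play 516 (.ref 6 260)) (.play 390 (.both (.play 581 (.ref 5 325)) (.ref 107 386))))) (.both (.ref 33 260)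 (.ref 79 324)))) (.both (.ref 50 260) (.ref 34 260)))))) (.play 260 (.ref 54 258)))) (.play 388 (.ref 174 322)))))))
 (.one (.play 68 (.both (.play 67 (.ref 255 0)) (.play 132 (.ref 11 67))))))
 (.seq (.one (.play 193 (.both (.play 257 (.ref 75 0)) (.play 129 (.ref 92 64)))))
 (.one (.play 64 (.both (.ref 115 0) (.play 128 (.ref 7 64)))))))))
 (.seq (.seq (.seq (.one (.play 193 (.both (.play 129 (.both (.ref 376 0) (.ref 40 65))) (.both (.play 129 (.ref 42 64)) (.both (.play 129 (.both (.play 256 (.both (.play 65 (.ref 6 64)) (.play 192 (.ref 7 192)))) (.ref 40 65))) (.ref 41 128))))))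
 (.seq (.one (.play 66 (.both (.play 65 (.both (.play 2 (.ref 5 1)) (.play 256 (.ref 6 64)))) (.play 130 (.ref 5 65)))))
 (.one (.play 320 (.both (.ref 378 0) (.play 384 (.ref 6 128)))))))
 (.seq (.seq (.one (.both (.play 0 (.ref 3 0)) (.play 64 (.ref 0 64))))
 (.one (.play 65 (.both (.ref 41 0) (.play 258 (.ref 75 1))))))
 (.seq (.one (.play 456 (.both (.play 330 (.both (.play 264 (.both (.play 200 (.both (.play 136 (.both (.play 72 (.ref 42 7)) (.both (.play 72 (.ref 121 7)) (.both (.play 72 (.ref 58 8)) (.play 329 (.both (.ref 311 67) (.play 393 (.ref 4 136)))))))) (.both (.ref 91 71) (.both (.play 265 (.both (.ref 381 71) (.play 201 (.ref 5 200)))) (.ref 40 136))))) (.both (.play 391 (.both (.play 390 (.both (.ref 373 65) (.both (.ref 173 67) (.both (.ref 293 129) (.both (.play 325 (.both (.play 265 (.both (.play 201 (.ref 5 200)) (.play 326 (.both (.play 327 (.ref 2 261)) (.play 393 (.ref 3 325)))))) (.play 455 (.both (.play 519 (.ref 6 263)) (.play 389 (.ref 380 324)))))) (.play 455 (.both (.ref 336 260)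 (.play 519 (.ref 6 263))))))))) (.play 329 (.ref 1 327)))) (.both (.ref 379 135) (.play 391 (.both (.play 455 (.ref 194 199)) (.play 329 (.ref 168 325)))))))) (.both (.play 329 (.both (.play 266 (.both (.play 394 (.both (.ref 377 9) (.play 523 (.ref 4 266)))) (.both (.play 394 (.both (.play 267 (.both (.play 203 (.ref 5 202)) (.play 327 (.ref 2 263)))) (.play 523 (.ref 4 266)))) (.play 267 (.ref 259 263))))) (.play 391 (.ref 1 327)))) (.both (.ref 308 137) (.play 391 (.both (.play 393 (.both (.play 390 (.both (.play 454 (.both (.play 518 (.both (.play 326 (.both (.play 325 (.both (.play 261 (.ref 7 261)) (.play 392 (.ref 3 325)))) (.ref 370 322))) (.both (.ref 189 325) (.both (.play 582 (.both (.play 327 (.ref 5 326)) (.ref 59 389))) (.play 582 (.both (.play 646 (.both (.ref 375 326) (.both (.ref 102 389) (.ref 35 390)))) (.play 327 (.ref 5 326)))))))) (.play 453 (.ref 1 389)))) (.both (.play 389 (.both (.play 388 (.ref 255 321)) (.both (.ref 290 323) (.ref 9 324)))) (.both (.ref 374 321) (.both (.play 453 (.both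 (.play 389 (.both (.ref 290 323) (.play 452 (.ref 1 388)))) (.play 454 (.ref 1 389)))) (.play 325 (.ref 65 324))))))) (.play 394 (.ref 2 327)))) (.play 329 (.ref 1 327)))))))) (.both (.play 329 (.both (.play 391 (.both (.play 390 (.both (.ref 373 65) (.both (.play 389 (.both (.ref 29 196) (.play 328 (.ref 2 325)))) (.both (.play 389 (.both (.ref 242 320) (.play 328 (.ref 2 325)))) (.both (.play 389 (.both (.ref 292 321) (.play 328 (.ref 2 325)))) (.play 389 (.both (.ref 14 323) (.play 328 (.ref 2 325))))))))) (.play 330 (.ref 1 327)))) (.both (.play 265 (.ref 307 136)) (.ref 189 263)))) (.both (.play 329 (.both (.play 265 (.ref 39 136)) (.play 330 (.both (.play 394 (.both (.play 266 (.both (.play 267 (.both (.play 203 (.ref 5 202)) (.play 329 (.ref 238 263)))) (.play 523 (.ref 4 266)))) (.ref 285 393))) (.play 391 (.ref 1 327)))))) (.both (.play 520 (.both (.ref 126 199) (.both (.play 519 (.both (.play 455 (.both (.play 521 (.both (.play 518 (.both (.play 582 (.both (.play 454 (.both (.play 453 (.both (.play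 389 (.both (.play 325 (.ref 180 261)) (.play 388 (.ref 3 388)))) (.both (.ref 241 385) (.ref 240 386)))) (.both (.play 453 (.both (.ref 240 386) (.ref 247 389))) (.play 646 (.ref 92 390))))) (.play 581 (.ref 1 517)))) (.both (.play 453 (.both (.play 454 (.both (.ref 178 260) (.play 521 (.ref 3 453)))) (.play 517 (.ref 369 452)))) (.both (.ref 209 450) (.both (.play 453 (.ref 65 452)) (.play 517 (.both (.play 516 (.ref 2 452)) (.play 581 (.ref 11 516))))))))) (.play 585 (.ref 4 328)))) (.play 264 (.ref 6 263)))) (.play 583 (.ref 6 327)))) (.both (.play 584 (.both (.ref 221 263) (.both (.ref 33 327) (.ref 57 327)))) (.both (.ref 50 327) (.ref 95 327)))))) (.ref 368 199)))))))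
 (.one (.play 66 (.both (.play 64 (.both (.play 0 (.ref 7 0)) (.play 131 (.ref 248 64)))) (.play 2 (.ref 5 1))))))))
 (.seq (.seq (.one (.play 66 (.both (.play 130 (.both (.play 68 (.both (.play 4 (.ref 5 3)) (.play 69 (.ref 168 64)))) (.play 323 (.ref 7 66)))) (.play 2 (.ref 7 2)))))
 (.seq (.one (.play 194 (.both (.play 1 (.ref 4 1)) (.play 195 (.ref 3 128)))))
 (.one (.play 65 (.both (.play 193 (.ref 372 0)) (.play 128 (.ref 5 64)))))))
 (.seq (.seq (.one (.play 4 (.both (.play 65 (.ref 19 0)) (.play 68 (.ref 0 1)))))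
 (.one (.both (.play 67 (.both (.ref 249 0) (.both (.play 6 (.both (.play 66 (.ref 2 2)) (.ref 270 3))) (.ref 387 66)))) (.play 260 (.ref 5 4)))))
 (.seq (.one (.play 69 (.both (.play 5 (.ref 5 4)) (.play 133 (.ref 388 64)))))
 (.one (.play 129 (.both (.ref 91 0) (.play 322 (.ref 4 129)))))))))))
 (.seq (.seq (.seq (.seq (.seq (.one (.play 129 (.both (.ref 91 0) (.play 384 (.ref 6 128)))))
 (.seq (.one (.play 68 (.both (.play 69 (.both (.ref 8 1) (.play 131 (.both (.play 132 (.ref 0 64)) (.play 70 (.ref 1 66)))))) (.both (.ref 205 1) (.both (.ref 316 1) (.ref 24 64))))))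
 (.one (.play 66 (.both (.play 1 (.ref 65 0)) (.ref 392 2))))))
 (.seq (.one (.play 69 (.both (.play 67 (.both (.ref 393 0) (.play 3 (.ref 7 3)))) (.play 5 (.ref 5 4)))))
 (.seq (.one (.play 256 (.both (.play 192 (.both (.play 1 (.ref 6 0)) (.play 385 (.ref 96 128)))) (.play 320 (.ref 6 64)))))
 (.one (.play 65 (.both (.play 3 (.ref 89 0)) (.play 68 (.ref 2 1))))))))
 (.seq (.seq (.one (.play 257 (.both (.ref 343 0) (.play 256 (.ref 3 256)))))
 (.seq (.one (.play 5 (.both (.ref 396 0) (.both (.play 3 (.ref 168 0)) (.both (.play 68 (.ref 238 1)) (.play 6 (.both (.play 3 (.ref 1 2)) (.play 68 (.ref 237 2)))))))))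
 (.one (.play 4 (.both (.play 3 (.ref 2 0)) (.play 68 (.ref 2 1)))))))
 (.seq (.seq (.one (.play 257 (.both (.ref 35 1) (.ref 197 64))))
 (.one (.play 65 (.both (.play 129 (.both (.play 1 (.ref 4 1)) (.play 128 (.ref 3 128)))) (.play 66 (.both (.play 2 (.ref 7 2)) (.play 64 (.ref 0 64))))))))
 (.seq (.one (.play 261 (.both (.play 258 (.both (.play 194 (.ref 295 1)) (.play 197 (.ref 55 193)))) (.both (.play 262 (.both (.play 258 (.both (.play 193 (.both (.play 257 (.ref 287 192)) (.play 194 (.ref 3 193)))) (.play 322 (.ref 11 257)))) (.play 327 (.ref 0 259)))) (.play 262 (.ref 303 195))))))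
 (.one (.play 65 (.both (.play 0 (.ref 7 0)) (.play 1 (.ref 4 1)))))))))
 (.seq (.seq (.seq (.one (.both (.play 65 (.ref 75 1)) (.play 128 (.ref 3 128))))
 (.seq (.one (.play 259 (.both (.play 198 (.both (.play 195 (.both (.play 131 (.both (.play 196 (.ref 404 2)) (.both (.play 324 (.ref 183 3)) (.both (.play 323 (.both (.ref 361 64) (.both (.ref 104 66) (.ref 200 130)))) (.ref 198 64))))) (.both (.play 131 (.both (.play 196 (.ref 404 2)) (.both (.play 323 (.both (.play 66 (.both (.play 196 (.both (.ref 403 2) (.play 387 (.ref 92 131)))) (.play 130 (.ref 7 66)))) (.ref 257 130))) (.both (.ref 364 66) (.ref 352 67))))) (.both (.ref 196 128) (.play 194 (.ref 54 192)))))) (.both (.play 199 (.ref 237 195)) (.ref 258 195)))) (.both (.ref 131 192) (.both (.ref 249 192) (.ref 398 193))))))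
 (.one (.play 258 (.both (.play 197 (.ref 137 1)) (.both (.play 257 (.ref 127 192)) (.both (.play 257 (.ref 10 192)) (.play 257 (.ref 12 192)))))))))
 (.seq (.seq (.one (.play 323 (.both (.play 326 (.both (.ref 120 2) (.ref 399 259))) (.both (.ref 406 64) (.both (.ref 131 256) (.both (.ref 15 256) (.ref 398 257)))))))
 (.one (.play 323 (.both (.play 326 (.both (.ref 172 2) (.both (.play 327 (.ref 12 258)) (.play 327 (.ref 10 258))))) (.both (.ref 406 64) (.both (.ref 131 256) (.both (.ref 15 256) (.ref 398 257))))))))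
 (.seq (.one (.play 324 (.both (.play 327 (.both (.play 260 (.both (.play 196 (.both (.ref 329 3) (.both (.play 388 (.both (.ref 159 128) (.play 387 (.ref 1 323)))) (.play 388 (.both (.play 389 (.ref 75 132)) (.play 387 (.ref 1 323))))))) (.play 259 (.ref 3 259)))) (.play 264 (.both (.play 328 (.ref 2 261)) (.play 263 (.ref 1 261)))))) (.both (.ref 131 257) (.both (.ref 249 257) (.ref 398 258))))))
 (.one (.both (.play 3 (.ref 2 0)) (.play 131 (.ref 0 64)))))))
 (.seq (.seq (.one (.play 66 (.both (.play 259 (.both (.play 2 (.ref 7 2)) (.play 68 (.ref 92 3)))) (.both (.ref 207 2) (.ref 111 64)))))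
 (.seq (.one (.play 65 (.both (.play 321 (.both (.ref 40 1) (.ref 34 128))) (.play 1 (.ref 4 1)))))
 (.one (.play 321 (.both (.ref 160 0) (.ref 34 128))))))
 (.seq (.seq (.one (.play 68 (.both (.play 67 (.both (.ref 276 0) (.both (.play 70 (.both (.play 6 (.ref 5 5)) (.play 134 (.ref 0 67)))) (.play 134 (.ref 84 66))))) (.play 4 (.ref 7 4)))))
 (.one (.play 390 (.both (.play 328 (.both (.play 325 (.both (.play 389 (.both (.play 261 (.both (.ref 119 4) (.both (.ref 186 68) (.both (.play 453 (.both (.ref 45 68) (.ref 34 260))) (.both (.play 197 (.both (.ref 414 128) (.play 133 (.ref 4 133)))) (.both (.ref 413 132) (.both (.ref 412 132) (.ref 411 194)))))))) (.play 388 (.ref 1 324)))) (.both (.play 324 (.both (.ref 302 256) (.ref 9 259))) (.both (.ref 62 258) (.both (.play 260 (.ref 65 259)) (.play 324 (.both (.play 323 (.ref 303 259)) (.play 388 (.ref 11 323))))))))) (.play 329 (.ref 410 262)))) (.both (.play 454 (.ref 39 134)) (.both (.play 454 (.ref 307 134)) (.play 199 (.ref 313 134))))))))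
 (.seq (.one (.play 321 (.both (.ref 41 0) (.ref 199 129))))
 (.one (.play 66 (.both (.play 2 (.ref 7 2)) (.play 65 (.both (.play 64 (.ref 0 64)) (.ref 108 65)))))))))))
 (.seq (.seq (.seq (.seq (.one (.play 69 (.both (.ref 235 0) (.both (.play 70 (.both (.ref 9 1) (.play 131 (.ref 1 66)))) (.play 70 (.both (.ref 8 2) (.play 131 (.ref 1 66))))))))
 (.seq (.one (.play 69 (.both (.ref 235 0) (.play 70 (.ref 1 66)))))
 (.one (.play 64 (.both (.play 2 (.ref 1 0)) (.play 66 (.ref 2 0)))))))
 (.seq (.seq (.one (.both (.play 0 (.both (.play 66 (.ref 3 0)) (.play 2 (.ref 0 0)))) (.both (.ref 420 0) (.both (.play 2 (.ref 334 0)) (.play 66 (.ref 369 0))))))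
 (.one (.play 69 (.both (.play 67 (.both (.play 66 (.both (.play 65 (.both (.ref 9 0) (.play 133 (.ref 0 65)))) (.play 129 (.ref 1 65)))) (.play 3 (.ref 7 3)))) (.play 5 (.ref 5 4))))))
 (.seq (.one (.play 323 (.both (.play 322 (.ref 349 1)) (.both (.ref 348 65) (.both (.play 387 (.both (.play 259 (.both (.play 195 (.ref 75 131)) (.play 451 (.both (.ref 347 194) (.ref 34 258))))) (.both (.ref 346 193) (.play 386 (.ref 55 321))))) (.both (.play 259 (.both (.play 195 (.ref 28 131)) (.play 322 (.both (.ref 163 257) (.play 321 (.ref 0 321)))))) (.both (.ref 336 193) (.ref 276 256))))))))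
 (.one (.both (.ref 209 0) (.play 7 (.ref 2 4)))))))
 (.seq (.seq (.one (.play 194 (.both (.play 258 (.ref 6 2)) (.play 193 (.ref 259 128)))))
 (.seq (.one (.both (.ref 377 0) (.play 512 (.ref 6 256))))
 (.one (.play 455 (.both (.play 327 (.both (.play 328 (.both (.play 264 (.ref 426 7)) (.both (.play 263 (.ref 181 135)) (.both (.play 519 (.ref 194 263)) (.play 520 (.both (.play 263 (.ref 7 263)) (.play 584 (.both (.ref 33 327) (.both (.play 648 (.both (.play 519 (.both (.play 583 (.ref 6 327)) (.play 712 (.ref 7 455)))) (.ref 35 392))) (.both (.play 648 (.ref 36 391)) (.ref 400 391))))))))))) (.both (.ref 245 135) (.both (.play 393 (.both (.play 519 (.both (.play 391 (.both (.ref 159 259) (.ref 425 324))) (.both (.play 328 (.ref 194 263)) (.play 391 (.both (.ref 425 324) (.both (.ref 50 326) (.both (.ref 37 326) (.play 583 (.both (.ref 35 327) (.both (.play 520 (.both (.play 584 (.ref 4 327)) (.play 647 (.ref 92 391)))) (.ref 189 390))))))))))) (.play 394 (.ref 1 391)))) (.play 457 (.both (.play 454 (.both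 (.play 518 (.both (.play 391 (.ref 194 262)) (.play 517 (.ref 1 453)))) (.play 393 (.ref 55 389)))) (.play 458 (.ref 0 455)))))))) (.both (.play 457 (.both (.play 389 (.both (.play 391 (.both (.play 519 (.both (.play 327 (.both (.ref 46 70) (.both (.ref 327 199) (.ref 370 323)))) (.both (.play 328 (.ref 305 199)) (.both (.ref 106 326) (.ref 189 326))))) (.play 390 (.ref 0 389)))) (.both (.play 519 (.both (.play 453 (.both (.play 517 (.both (.play 516 (.both (.play 580 (.ref 305 260)) (.both (.play 580 (.both (.play 325 (.ref 6 324)) (.play 518 (.ref 161 451)))) (.play 518 (.ref 424 448))))) (.both (.ref 356 260) (.both (.ref 122 260) (.both (.ref 212 260) (.both (.ref 355 320) (.both (.play 516 (.both (.play 580 (.ref 152 324)) (.both (.play 325 (.both (.play 580 (.ref 6 324)) (.play 518 (.both (.play 582 (.ref 4 325)) (.play 455 (.ref 2 452)))))) (.play 518 (.ref 424 448))))) (.play 518 (.both (.play 582 (.ref 28 325)) (.play 516 (.ref 424 448))))))))))) (.both (.play 454 (.both (.play 452 (.both (.play 516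 (.both (.play 517 (.both (.play 325 (.ref 123 260)) (.play 456 (.ref 1 452)))) (.play 515 (.ref 1 451)))) (.both (.play 518 (.both (.play 325 (.ref 28 261)) (.play 451 (.ref 0 451)))) (.ref 68 450)))) (.play 393 (.ref 2 389)))) (.play 454 (.ref 287 388))))) (.play 583 (.ref 305 263)))) (.both (.play 454 (.ref 65 388)) (.play 390 (.ref 83 389)))))) (.play 458 (.ref 0 455)))) (.both (.play 391 (.both (.ref 423 67) (.both (.play 519 (.both (.play 389 (.both (.play 327 (.both (.ref 366 70) (.both (.play 263 (.both (.ref 329 70) (.both (.play 328 (.both (.play 199 (.ref 75 135)) (.play 264 (.ref 5 263)))) (.ref 40 199)))) (.both (.ref 118 134) (.both (.ref 91 198) (.ref 422 259)))))) (.both (.play 390 (.both (.ref 397 68) (.ref 262 261))) (.play 453 (.ref 421 388))))) (.both (.ref 106 326) (.ref 233 327)))) (.both (.play 393 (.both (.ref 344 68) (.both (.ref 419 325) (.play 394 (.ref 19 390))))) (.both (.play 393 (.both (.ref 333 195) (.play 394 (.ref 1 391)))) (.both (.play 327 (.both (.play 263 (.ref 75 199)) (.play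 519 (.both (.ref 417 260) (.ref 320 326))))) (.play 393 (.both (.play 390 (.both (.play 454 (.both (.play 326 (.ref 404 197)) (.play 453 (.ref 1 389)))) (.both (.play 329 (.both (.ref 129 324) (.play 330 (.ref 2 326)))) (.play 453 (.both (.play 329 (.both (.play 389 (.ref 161 324)) (.play 330 (.ref 2 326)))) (.play 454 (.ref 1 389))))))) (.both (.ref 418 325) (.play 454 (.ref 174 388))))))))))) (.both (.play 457 (.both (.play 328 (.both (.play 393 (.both (.play 520 (.both (.play 264 (.both (.play 200 (.both (.ref 317 72) (.play 391 (.ref 6 199)))) (.ref 41 199))) (.both (.ref 416 263) (.both (.ref 189 327) (.ref 342 327))))) (.play 394 (.ref 1 391)))) (.both (.play 519 (.ref 305 199)) (.both (.play 393 (.both (.ref 337 199) (.play 394 (.ref 1 391)))) (.play 520 (.both (.play 519 (.both (.play 327 (.both (.play 391 (.both (.ref 417 260) (.play 518 (.both (.play 582 (.ref 6 326)) (.play 517 (.ref 2 453)))))) (.play 263 (.ref 7 263)))) (.play 583 (.ref 6 327)))) (.both (.ref 104 263) (.both (.ref 416 263) (.ref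 200 327))))))))) (.play 458 (.ref 0 455)))) (.both (.ref 415 129) (.both (.ref 409 130) (.both (.ref 408 131) (.both (.ref 407 131) (.both (.play 457 (.both (.ref 256 132) (.play 458 (.ref 0 455)))) (.both (.ref 405 195) (.both (.ref 402 196) (.both (.play 457 (.both (.play 520 (.both (.play 393 (.both (.play 328 (.both (.ref 160 199) (.both (.ref 337 199) (.play 454 (.both (.play 519 (.both (.ref 401 261) (.play 583 (.ref 6 327)))) (.play 453 (.ref 2 389))))))) (.play 394 (.ref 1 391)))) (.both (.ref 212 263) (.both (.play 393 (.both (.play 584 (.both (.play 391 (.ref 96 327)) (.play 329 (.ref 5 328)))) (.both (.play 584 (.both (.play 329 (.ref 5 328)) (.ref 400 391))) (.play 394 (.ref 168 389))))) (.play 584 (.both (.ref 345 327) (.play 648 (.both (.play 391 (.ref 7 391)) (.ref 33 391))))))))) (.play 458 (.ref 0 455)))) (.play 454 (.both (.play 457 (.both (.play 518 (.both (.play 390 (.both (.play 582 (.both (.play 326 (.ref 58 262)) (.both (.play 646 (.ref 214 325)) (.ref 78 389)))) (.play 389 (.ref 3 389))))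 (.play 517 (.ref 1 453)))) (.ref 399 390))) (.both (.ref 131 387) (.both (.ref 249 387) (.ref 398 388)))))))))))))))))))))
 (.seq (.seq (.one (.play 132 (.both (.ref 386 3) (.both (.play 131 (.ref 117 67)) (.play 387 (.both (.play 196 (.ref 5 131)) (.ref 195 192)))))))
 (.one (.play 68 (.both (.play 70 (.both (.play 67 (.both (.ref 219 0) (.ref 392 3))) (.play 6 (.ref 5 5)))) (.play 4 (.ref 7 4))))))
 (.seq (.one (.play 66 (.both (.play 6 (.ref 2 2)) (.ref 61 64))))
 (.one (.both (.play 2 (.ref 7 2)) (.play 65 (.ref 334 64))))))))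
 (.seq (.seq (.seq (.one (.both (.play 67 (.ref 157 2)) (.play 132 (.ref 2 128))))
 (.seq (.one (.play 193 (.both (.play 196 (.both (.play 130 (.both (.play 66 (.ref 315 2)) (.ref 163 128))) (.both (.play 132 (.ref 432 1)) (.play 197 (.ref 10 128))))) (.play 192 (.ref 0 192)))))
 (.one (.both (.ref 226 0) (.both (.play 0 (.ref 225 0)) (.both (.play 129 (.ref 157 0)) (.play 128 (.ref 315 0))))))))
 (.seq (.seq (.one (.play 69 (.both (.ref 205 2) (.play 129 (.ref 11 64)))))
 (.one (.both (.play 1 (.both (.play 0 (.ref 3 0)) (.play 130 (.ref 7 1)))) (.ref 208 1))))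
 (.seq (.one (.play 263 (.both (.play 195 (.both (.ref 282 0) (.play 262 (.ref 0 195)))) (.both (.play 199 (.ref 60 195)) (.play 264 (.both (.play 262 (.both (.play 195 (.ref 0 195)) (.play 265 (.ref 3 197)))) (.play 199 (.ref 0 196))))))))
 (.one (.play 260 (.both (.ref 437 0) (.play 132 (.ref 4 132))))))))
 (.seq (.seq (.one (.play 69 (.both (.play 65 (.ref 99 0)) (.both (.play 65 (.ref 10 0)) (.ref 208 2)))))
 (.seq (.one (.play 3 (.both (.play 4 (.ref 2 0)) (.play 131 (.ref 6 2)))))
 (.one (.play 259 (.both (.play 387 (.ref 426 2)) (.both (.play 260 (.ref 259 256)) (.play 320 (.both (.play 260 (.ref 2 256)) (.play 387 (.both (.play 514 (.ref 6 258)) (.play 388 (.ref 0 320))))))))))))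
 (.seq (.seq (.one (.play 324 (.both (.play 260 (.both (.play 388 (.ref 426 3)) (.both (.play 261 (.both (.play 388 (.ref 215 195)) (.play 321 (.ref 2 257)))) (.ref 398 256)))) (.both (.play 325 (.both (.play 261 (.both (.play 197 (.both (.play 133 (.both (.ref 376 4) (.both (.ref 228 4) (.play 389 (.ref 42 68))))) (.both (.play 388 (.ref 38 132)) (.play 389 (.both (.play 388 (.ref 6 196)) (.play 390 (.ref 0 322))))))) (.play 262 (.ref 2 258)))) (.both (.play 326 (.ref 99 257)) (.play 326 (.ref 10 257))))) (.both (.ref 441 1) (.both (.play 388 (.both (.play 260 (.ref 426 3)) (.ref 260 321))) (.both (.ref 439 256) (.both (.play 325 (.both (.play 321 (.ref 99 256)) (.both (.ref 253 257) (.ref 208 258)))) (.play 325 (.both (.play 321 (.ref 10 256)) (.both (.play 326 (.ref 99 257)) (.ref 208 258))))))))))))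
 (.one (.play 519 (.both (.play 521 (.both (.play 455 (.both (.play 457 (.both (.play 328 (.both (.play 327 (.both (.ref 442 5) (.both (.play 326 (.both (.play 265 (.both (.ref 155 259) (.both (.play 264 (.ref 238 261)) (.play 329 (.both (.play 266 (.ref 2 262)) (.play 393 (.both (.play 457 (.ref 6 264)) (.play 394 (.ref 0 326))))))))) (.both (.play 262 (.both (.ref 285 261) (.play 391 (.ref 7 262)))) (.play 391 (.ref 90 262))))) (.both (.play 263 (.both (.play 329 (.both (.play 262 (.ref 86 260)) (.both (.play 393 (.both (.play 265 (.ref 6 264)) (.play 394 (.both (.play 326 (.ref 0 326)) (.play 454 (.ref 2 390)))))) (.ref 285 262)))) (.play 391 (.ref 4 263)))) (.play 391 (.ref 315 263)))))) (.both (.ref 229 199) (.both (.play 392 (.both (.ref 429 259) (.play 583 (.ref 6 327)))) (.play 327 (.ref 434 263)))))) (.play 458 (.ref 1 455)))) (.both (.play 328 (.both (.play 457 (.both (.play 327 (.both (.play 329 (.both (.ref 441 6) (.both (.play 391 (.both (.ref 437 131) (.play 264 (.ref 5 263)))) (.both (.play 326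 (.ref 436 261)) (.both (.play 391 (.both (.ref 286 262) (.play 264 (.ref 5 263)))) (.play 326 (.both (.ref 440 262) (.play 391 (.ref 90 262))))))))) (.both (.ref 442 5) (.both (.play 329 (.both (.ref 438 131) (.both (.play 326 (.both (.play 262 (.both (.play 391 (.ref 181 134)) (.play 261 (.ref 3 261)))) (.ref 440 262))) (.both (.ref 439 261) (.both (.play 326 (.ref 436 261)) (.play 391 (.both (.ref 286 262) (.play 263 (.ref 4 263))))))))) (.play 391 (.ref 315 263)))))) (.play 458 (.ref 1 455)))) (.both (.play 392 (.both (.play 394 (.both (.play 393 (.both (.play 327 (.both (.play 263 (.ref 71 135)) (.both (.play 329 (.both (.play 520 (.ref 90 263)) (.play 326 (.ref 63 325)))) (.play 326 (.both (.play 325 (.ref 0 325)) (.play 394 (.both (.play 329 (.ref 0 326)) (.play 391 (.ref 3 326))))))))) (.ref 107 389))) (.both (.play 327 (.both (.play 263 (.ref 7 263)) (.play 329 (.both (.play 330 (.both (.play 331 (.both (.ref 8 263) (.play 391 (.ref 1 327)))) (.play 395 (.ref 0 327)))) (.play 265 (.ref 5 264)))))) (.play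 393 (.ref 174 389))))) (.play 583 (.ref 6 327)))) (.both (.ref 229 199) (.play 327 (.ref 434 263)))))) (.both (.play 328 (.both (.play 454 (.both (.play 327 (.both (.play 326 (.both (.ref 438 130) (.both (.play 329 (.both (.play 325 (.ref 99 260)) (.both (.play 392 (.both (.ref 277 260) (.play 330 (.both (.ref 8 262) (.play 391 (.ref 19 326)))))) (.ref 435 261)))) (.both (.play 329 (.ref 436 261)) (.both (.play 329 (.both (.ref 435 261) (.both (.play 330 (.both (.ref 435 262) (.both (.ref 291 325) (.ref 24 326)))) (.play 265 (.both (.play 266 (.ref 2 262)) (.play 392 (.ref 5 264))))))) (.play 262 (.ref 225 262))))))) (.both (.play 391 (.both (.ref 339 258) (.play 263 (.ref 4 263)))) (.both (.play 392 (.both (.play 329 (.both (.ref 393 260) (.play 265 (.ref 5 264)))) (.play 263 (.ref 7 263)))) (.play 263 (.ref 225 263)))))) (.play 453 (.ref 0 453)))) (.both (.play 392 (.both (.ref 394 260) (.play 264 (.ref 6 263)))) (.both (.ref 433 261) (.both (.play 393 (.both (.play 454 (.both (.play 457 (.ref 432 262)) (.play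 453 (.ref 0 453)))) (.both (.play 454 (.both (.play 392 (.both (.play 264 (.ref 6 263)) (.ref 258 390))) (.play 453 (.ref 0 453)))) (.both (.play 329 (.both (.play 392 (.both (.play 264 (.ref 6 263)) (.play 265 (.ref 5 264)))) (.both (.play 264 (.both (.play 392 (.ref 6 263)) (.play 457 (.ref 7 264)))) (.both (.ref 232 264) (.play 457 (.ref 157 264)))))) (.ref 398 389))))) (.play 327 (.ref 434 263))))))) (.both (.play 391 (.both (.ref 186 198) (.both (.play 327 (.both (.ref 311 258) (.play 263 (.ref 4 263)))) (.both (.ref 413 262) (.both (.ref 412 262) (.ref 411 324)))))) (.both (.play 457 (.both (.play 328 (.both (.play 393 (.both (.play 329 (.both (.play 265 (.both (.ref 40 201) (.play 520 (.ref 6 264)))) (.play 264 (.ref 7 264)))) (.play 454 (.both (.play 389 (.both (.play 453 (.ref 380 388)) (.play 390 (.ref 3 389)))) (.play 394 (.ref 2 390)))))) (.both (.ref 229 199) (.both (.play 392 (.both (.play 454 (.both (.play 393 (.both (.ref 401 261) (.play 394 (.ref 2 390)))) (.both (.ref 218 388) (.play 453 (.ref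 188 388))))) (.play 583 (.ref 6 327)))) (.play 329 (.ref 434 264)))))) (.play 458 (.ref 1 455)))) (.both (.play 583 (.both (.play 391 (.both (.play 326 (.both (.ref 403 262) (.play 390 (.ref 7 326)))) (.both (.play 328 (.both (.play 327 (.ref 315 263)) (.play 392 (.ref 5 327)))) (.play 453 (.both (.ref 422 323) (.play 454 (.ref 0 453))))))) (.both (.ref 362 260) (.play 647 (.ref 92 391))))) (.both (.play 457 (.both (.play 454 (.both (.ref 178 261) (.play 453 (.ref 63 452)))) (.play 458 (.ref 1 455)))) (.play 583 (.both (.play 328 (.both (.ref 433 261) (.play 392 (.ref 6 327)))) (.both (.play 454 (.both (.ref 247 390) (.play 453 (.ref 0 453)))) (.ref 189 390)))))))))))) (.play 522 (.ref 0 519)))) (.both (.play 392 (.both (.play 455 (.both (.play 454 (.both (.ref 167 129) (.both (.play 457 (.both (.ref 178 261) (.play 394 (.both (.play 393 (.ref 2 390)) (.play 458 (.both (.play 395 (.ref 2 391)) (.play 459 (.ref 1 455)))))))) (.ref 430 387)))) (.both (.play 453 (.both (.play 583 (.both (.play 517 (.both (.play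 581 (.both (.play 389 (.both (.play 325 (.both (.ref 211 132) (.both (.ref 40 261) (.ref 375 261)))) (.both (.ref 211 196) (.ref 358 324)))) (.both (.play 389 (.both (.ref 211 196) (.both (.play 454 (.both (.ref 381 260) (.ref 371 388))) (.both (.ref 147 260) (.play 645 (.ref 214 324)))))) (.both (.play 582 (.both (.ref 428 258) (.play 580 (.ref 2 516)))) (.both (.play 389 (.both (.ref 147 260) (.play 580 (.both (.play 644 (.ref 6 388)) (.play 518 (.ref 1 516)))))) (.ref 420 516)))))) (.both (.play 454 (.ref 176 132)) (.both (.play 518 (.both (.ref 294 260) (.play 516 (.ref 2 452)))) (.ref 420 452))))) (.play 647 (.ref 5 391)))) (.both (.play 454 (.ref 349 132)) (.both (.play 390 (.both (.play 326 (.ref 183 198)) (.both (.play 583 (.both (.play 454 (.both (.ref 70 262) (.play 452 (.ref 0 452)))) (.play 647 (.ref 5 391)))) (.both (.play 583 (.both (.play 391 (.ref 431 324)) (.play 647 (.ref 5 391)))) (.play 389 (.both (.play 454 (.ref 380 388)) (.both (.play 388 (.ref 248 388)) (.both (.play 391 (.ref 334 388))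 (.play 452 (.both (.play 391 (.ref 1 388)) (.play 454 (.ref 0 452)))))))))))) (.both (.play 583 (.both (.play 391 (.both (.play 327 (.ref 94 262)) (.both (.play 390 (.ref 431 324)) (.play 518 (.both (.play 582 (.ref 123 326)) (.play 517 (.ref 369 452))))))) (.play 647 (.ref 5 391)))) (.play 517 (.ref 421 452))))))) (.both (.play 454 (.both (.play 518 (.both (.play 582 (.both (.play 390 (.both (.ref 46 133) (.both (.ref 245 198) (.ref 370 386)))) (.both (.ref 195 387) (.both (.ref 189 389) (.ref 233 390))))) (.play 457 (.ref 19 453)))) (.both (.ref 430 387) (.ref 398 388)))) (.both (.ref 423 131) (.both (.play 457 (.both (.play 454 (.both (.ref 120 133) (.both (.play 453 (.both (.ref 8 389) (.ref 61 451))) (.both (.ref 14 388) (.ref 235 388))))) (.both (.ref 15 388) (.both (.ref 418 389) (.play 518 (.ref 174 452)))))) (.both (.play 517 (.both (.play 583 (.both (.ref 365 192) (.play 647 (.ref 5 391)))) (.both (.play 518 (.both (.ref 172 196) (.play 457 (.ref 2 453)))) (.both (.play 518 (.ref 133 451)) (.play 453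 (.ref 421 452)))))) (.both (.play 457 (.both (.ref 338 257) (.both (.ref 419 389) (.play 458 (.ref 19 454))))) (.both (.play 454 (.both (.play 390 (.both (.play 583 (.both (.ref 70 262) (.play 647 (.ref 5 391)))) (.play 389 (.ref 54 387)))) (.both (.play 393 (.ref 259 389)) (.play 393 (.ref 238 389))))) (.both (.play 391 (.both (.play 518 (.both (.ref 337 262) (.play 517 (.ref 55 452)))) (.both (.play 326 (.both (.ref 403 262) (.play 583 (.both (.play 390 (.ref 7 326)) (.play 647 (.ref 5 391)))))) (.play 390 (.both (.ref 247 326) (.play 389 (.ref 63 388))))))) (.play 457 (.both (.play 454 (.both (.play 518 (.both (.play 582 (.both (.play 390 (.both (.play 391 (.ref 92 326)) (.play 389 (.ref 3 389)))) (.both (.play 390 (.both (.ref 370 386) (.play 389 (.ref 3 389)))) (.play 646 (.both (.play 391 (.ref 5 390)) (.ref 78 453)))))) (.play 517 (.ref 1 453)))) (.both (.ref 374 385) (.both (.ref 72 387) (.both (.play 389 (.ref 65 388)) (.play 453 (.both (.ref 9 388) (.play 392 (.both (.play 452 (.ref 410 388)) (.play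 393 (.ref 2 389))))))))))) (.both (.ref 419 389) (.play 458 (.ref 19 454))))))))))))))) (.both (.play 328 (.both (.play 264 (.both (.ref 41 199) (.play 455 (.ref 6 263)))) (.both (.ref 378 199) (.ref 429 259)))) (.both (.ref 391 199) (.play 583 (.ref 152 327)))))) (.both (.ref 331 194) (.both (.ref 402 260) (.play 522 (.both (.play 458 (.both (.ref 184 265) (.play 457 (.ref 168 453)))) (.play 521 (.ref 0 519)))))))))))
 (.seq (.one (.play 520 (.both (.play 456 (.both (.ref 443 0) (.both (.play 589 (.both (.play 519 (.both (.play 392 (.both (.play 457 (.both (.play 328 (.both (.play 264 (.both (.ref 203 7) (.both (.ref 390 71) (.ref 41 199)))) (.play 583 (.ref 6 327)))) (.play 458 (.ref 1 455)))) (.both (.play 583 (.ref 194 327)) (.play 584 (.both (.ref 57 327) (.both (.ref 383 327) (.play 648 (.both (.ref 40 328) (.ref 341 455))))))))) (.both (.play 518 (.both (.play 454 (.both (.play 582 (.both (.play 390 (.both (.play 326 (.both (.ref 390 133) (.both (.play 389 (.both (.play 455 (.both (.play 262 (.ref 4 262))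 (.ref 53 387))) (.play 325 (.ref 7 325)))) (.ref 41 261)))) (.both (.ref 45 197) (.both (.play 326 (.both (.ref 317 198) (.both (.ref 40 262) (.ref 325 262)))) (.both (.ref 147 261) (.ref 159 322)))))) (.play 581 (.ref 174 515)))) (.both (.play 390 (.both (.ref 428 195) (.both (.ref 186 197) (.both (.ref 184 197) (.both (.play 582 (.both (.ref 362 259) (.both (.ref 414 321) (.ref 195 387)))) (.play 582 (.both (.play 325 (.both (.play 326 (.ref 213 261)) (.play 389 (.ref 7 325)))) (.both (.play 646 (.ref 94 325)) (.ref 195 387))))))))) (.both (.play 582 (.both (.play 389 (.both (.play 325 (.both (.play 453 (.ref 113 261)) (.play 390 (.ref 7 325)))) (.both (.play 390 (.both (.play 326 (.both (.ref 40 262) (.play 583 (.ref 4 326)))) (.play 325 (.ref 7 325)))) (.play 646 (.both (.play 453 (.ref 7 389)) (.ref 34 453)))))) (.both (.ref 195 387) (.play 521 (.ref 13 453))))) (.play 453 (.ref 54 451)))))) (.both (.play 517 (.both (.ref 306 324) (.play 457 (.ref 2 453)))) (.ref 249 451)))) (.both (.ref 415 193) (.both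 (.ref 409 194) (.both (.ref 408 195) (.both (.ref 407 195) (.both (.play 521 (.both (.ref 256 196) (.play 522 (.ref 3 521)))) (.both (.ref 405 259) (.ref 402 260)))))))))) (.ref 18 522))) (.both (.ref 427 64) (.both (.play 392 (.both (.play 391 (.both (.play 393 (.both (.play 390 (.both (.ref 397 69) (.both (.ref 299 194) (.both (.ref 298 321) (.both (.ref 296 322) (.play 325 (.ref 65 324))))))) (.both (.play 394 (.both (.play 327 (.both (.play 455 (.both (.ref 202 134) (.play 454 (.ref 1 390)))) (.play 326 (.ref 3 326)))) (.play 458 (.ref 0 391)))) (.both (.ref 282 196) (.both (.play 454 (.both (.play 330 (.both (.play 390 (.ref 161 325)) (.ref 270 327))) (.both (.play 453 (.both (.ref 396 387) (.both (.play 390 (.ref 168 387)) (.both (.play 455 (.ref 55 388)) (.play 393 (.both (.play 390 (.ref 1 389)) (.play 455 (.ref 2 389)))))))) (.ref 271 390)))) (.ref 321 325)))))) (.both (.play 327 (.ref 71 199)) (.both (.play 393 (.both (.play 394 (.both (.ref 309 323) (.play 458 (.ref 0 391)))) (.both (.ref 250 324)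 (.both (.play 330 (.both (.play 329 (.both (.play 390 (.ref 2 326)) (.play 584 (.ref 5 328)))) (.ref 270 327))) (.play 455 (.both (.ref 342 327) (.play 394 (.ref 22 390)))))))) (.ref 322 324))))) (.both (.ref 150 71) (.both (.play 328 (.both (.ref 145 135) (.both (.ref 389 260) (.both (.play 393 (.both (.play 455 (.both (.play 519 (.ref 123 263)) (.play 394 (.ref 168 389)))) (.both (.play 329 (.ref 388 324)) (.ref 371 327)))) (.play 583 (.both (.play 329 (.both (.play 265 (.ref 5 264)) (.ref 80 327))) (.play 519 (.ref 6 327)))))))) (.both (.play 328 (.both (.ref 148 135) (.both (.play 264 (.both (.ref 116 135) (.both (.ref 41 199) (.ref 395 199)))) (.both (.ref 91 199) (.both (.play 264 (.both (.ref 395 199) (.ref 40 200))) (.ref 384 261)))))) (.both (.play 328 (.both (.play 264 (.ref 94 199)) (.both (.play 264 (.ref 42 199)) (.both (.play 264 (.ref 214 199)) (.play 519 (.both (.ref 394 260) (.play 583 (.ref 6 327)))))))) (.both (.ref 216 199) (.play 584 (.both (.ref 379 263) (.both (.ref 384 325) (.ref 104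 327))))))))))) (.both (.play 589 (.both (.play 521 (.both (.play 392 (.both (.play 328 (.both (.play 393 (.both (.play 391 (.both (.play 264 (.both (.ref 391 71) (.play 457 (.ref 4 264)))) (.both (.ref 385 263) (.ref 387 390)))) (.both (.play 457 (.both (.play 264 (.ref 4 264)) (.play 584 (.ref 92 328)))) (.play 394 (.both (.play 391 (.ref 255 324)) (.both (.play 329 (.both (.play 395 (.both (.play 396 (.ref 3 328)) (.play 455 (.ref 1 391)))) (.play 584 (.ref 5 328)))) (.play 455 (.both (.play 391 (.ref 22 390)) (.play 395 (.ref 1 391)))))))))) (.both (.ref 390 135) (.ref 389 260)))) (.both (.play 329 (.both (.play 328 (.both (.play 391 (.both (.play 264 (.both (.play 200 (.both (.ref 147 71) (.play 455 (.ref 6 199)))) (.both (.play 327 (.both (.play 200 (.ref 123 135)) (.play 263 (.ref 7 263)))) (.ref 41 199)))) (.play 390 (.ref 238 325)))) (.play 265 (.ref 5 264)))) (.both (.ref 386 200) (.both (.play 328 (.both (.play 327 (.both (.play 263 (.ref 7 263)) (.play 391 (.both (.play 390 (.both (.play 389 (.ref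 2 325)) (.play 330 (.ref 1 326)))) (.play 584 (.ref 7 327)))))) (.play 265 (.ref 5 264)))) (.play 584 (.both (.ref 104 327) (.play 393 (.ref 5 328)))))))) (.both (.ref 328 133) (.both (.play 584 (.both (.play 328 (.both (.ref 202 135) (.both (.ref 41 263) (.play 391 (.both (.ref 385 263) (.play 327 (.ref 7 327))))))) (.both (.ref 104 327) (.ref 93 391)))) (.both (.ref 319 195) (.both (.play 328 (.both (.ref 318 199) (.both (.ref 44 200) (.ref 384 261)))) (.both (.ref 186 199) (.play 584 (.both (.ref 104 327) (.both (.play 648 (.ref 214 327)) (.ref 383 327)))))))))))) (.play 522 (.ref 3 521)))) (.ref 18 522))) (.both (.play 584 (.both (.play 392 (.both (.play 391 (.both (.play 390 (.both (.play 389 (.both (.ref 141 68) (.play 457 (.ref 0 389)))) (.both (.play 393 (.both (.ref 136 133) (.ref 323 198))) (.both (.ref 276 323) (.both (.play 389 (.both (.ref 275 323) (.play 457 (.ref 0 389)))) (.play 389 (.both (.ref 217 387) (.play 457 (.ref 0 389))))))))) (.play 327 (.ref 7 327)))) (.both (.play 328 (.ref 94 263))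 (.both (.play 328 (.ref 42 263)) (.play 328 (.ref 214 263)))))) (.both (.play 648 (.both (.ref 223 196) (.both (.ref 102 391) (.both (.play 712 (.ref 42 391)) (.ref 57 391))))) (.both (.ref 216 263) (.both (.play 648 (.ref 284 327)) (.both (.ref 368 327) (.ref 212 327))))))) (.both (.ref 382 128) (.both (.ref 367 128) (.both (.play 589 (.both (.play 519 (.both (.play 457 (.both (.play 455 (.both (.ref 344 132) (.both (.play 391 (.both (.play 583 (.both (.ref 45 198) (.both (.play 647 (.ref 94 326)) (.play 647 (.both (.ref 33 390) (.ref 340 455)))))) (.both (.play 327 (.both (.play 328 (.both (.ref 339 258) (.play 264 (.ref 5 263)))) (.play 520 (.ref 75 263)))) (.both (.ref 204 324) (.play 584 (.ref 52 327)))))) (.both (.ref 338 257) (.both (.play 454 (.both (.ref 178 261) (.both (.ref 309 386) (.both (.play 453 (.both (.ref 261 386) (.both (.ref 64 451) (.play 517 (.ref 11 452))))) (.ref 14 388))))) (.ref 333 259)))))) (.play 458 (.ref 1 455)))) (.both (.ref 331 194) (.ref 330 263)))) (.ref 18 522))) (.both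 (.play 589 (.both (.play 521 (.both (.play 392 (.both (.ref 328 133) (.both (.play 391 (.both (.play 390 (.both (.ref 267 193) (.both (.ref 281 195) (.both (.ref 280 196) (.both (.play 393 (.both (.play 326 (.both (.play 327 (.both (.play 454 (.both (.play 518 (.ref 39 198)) (.play 453 (.ref 1 389)))) (.play 394 (.ref 3 326)))) (.play 325 (.ref 3 325)))) (.ref 323 198))) (.ref 261 323)))))) (.both (.ref 322 324) (.both (.ref 251 324) (.play 457 (.both (.play 584 (.both (.play 327 (.ref 7 327)) (.ref 320 391))) (.play 458 (.ref 3 391)))))))) (.both (.ref 319 195) (.both (.play 457 (.both (.play 391 (.both (.play 327 (.ref 181 199)) (.ref 111 389))) (.both (.play 328 (.both (.ref 104 263) (.play 264 (.ref 4 264)))) (.both (.ref 314 325) (.play 458 (.ref 13 391)))))) (.both (.ref 186 199) (.both (.ref 216 199) (.both (.play 328 (.both (.ref 44 200) (.ref 104 263))) (.play 457 (.both (.play 329 (.both (.play 393 (.both (.play 330 (.both (.play 266 (.ref 5 265)) (.play 331 (.ref 174 326)))) (.play 584 (.ref 5 328))))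 (.both (.play 393 (.ref 265 264)) (.play 328 (.ref 315 264))))) (.both (.ref 314 325) (.play 458 (.ref 13 391))))))))))))) (.play 522 (.ref 3 521)))) (.ref 18 522))) (.both (.play 522 (.both (.play 458 (.both (.play 394 (.ref 47 137)) (.both (.play 392 (.both (.play 391 (.both (.play 327 (.ref 71 199)) (.play 457 (.ref 3 391)))) (.both (.play 328 (.both (.play 264 (.ref 214 199)) (.both (.ref 147 199) (.play 584 (.ref 94 263))))) (.both (.play 519 (.both (.play 583 (.ref 313 327)) (.play 457 (.ref 1 455)))) (.play 457 (.ref 13 391)))))) (.play 457 (.both (.play 395 (.both (.play 331 (.ref 38 266)) (.play 396 (.ref 2 392)))) (.play 519 (.ref 1 455))))))) (.ref 285 521))) (.both (.play 458 (.both (.play 521 (.both (.play 457 (.both (.play 329 (.both (.play 392 (.both (.ref 88 199) (.play 391 (.ref 86 389)))) (.both (.play 393 (.both (.ref 311 260) (.play 584 (.ref 6 328)))) (.play 393 (.ref 123 264))))) (.play 519 (.ref 1 455)))) (.ref 206 521))) (.both (.play 457 (.ref 266 260)) (.both (.ref 308 265) (.ref 301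 390))))) (.play 458 (.both (.ref 308 265) (.both (.play 519 (.both (.play 521 (.both (.play 518 (.both (.play 647 (.both (.play 583 (.both (.ref 76 323) (.ref 278 327))) (.both (.play 583 (.ref 307 327)) (.play 454 (.both (.play 453 (.ref 3 453)) (.play 582 (.both (.ref 191 453) (.play 581 (.ref 1 517))))))))) (.both (.play 517 (.both (.ref 306 324) (.ref 9 452))) (.both (.play 517 (.both (.ref 302 449) (.both (.ref 162 451) (.play 581 (.ref 11 516))))) (.play 453 (.ref 65 452)))))) (.play 522 (.ref 2 455)))) (.play 457 (.ref 1 455)))) (.ref 301 390))))))))))))))))) (.both (.play 584 (.ref 300 64)) (.both (.play 585 (.ref 65 519)) (.play 521 (.both (.play 585 (.ref 3 520)) (.ref 206 521))))))))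
 (.one (.play 586 (.both (.ref 444 0) (.both (.play 650 (.both (.play 522 (.both (.play 458 (.ref 48 137)) (.both (.ref 88 329) (.ref 204 455)))) (.both (.play 714 (.both (.play 713 (.both (.play 712 (.both (.play 648 (.both (.play 584 (.both (.play 520 (.both (.ref 149 263) (.both (.ref 203 263) (.both (.ref 202 327) (.both (.ref 185 391) (.ref 201 455)))))) (.both (.play 520 (.both (.ref 185 391) (.play 777 (.ref 4 520)))) (.both (.ref 198 517) (.play 777 (.ref 177 520)))))) (.both (.ref 196 581) (.both (.play 776 (.both (.play 841 (.both (.play 777 (.both (.play 584 (.ref 4 584)) (.play 649 (.ref 5 585)))) (.both (.ref 191 647) (.ref 170 648)))) (.both (.play 775 (.both (.play 840 (.both (.play 841 (.both (.play 839 (.both (.play 903 (.ref 6 647)) (.play 774 (.both (.play 773 (.ref 2 709)) (.play 842 (.ref 3 774)))))) (.play 905 (.ref 4 648)))) (.both (.play 841 (.both (.play 905 (.ref 28 648)) (.play 842 (.ref 86 773)))) (.both (.ref 190 647) (.ref 189 647))))) (.play 715 (.ref 1 711)))) (.play 775 (.ref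 174 709))))) (.play 647 (.both (.play 649 (.ref 188 582)) (.play 715 (.ref 3 647)))))))) (.both (.ref 167 387) (.both (.play 648 (.both (.ref 187 388) (.both (.play 647 (.both (.play 649 (.both (.ref 178 454) (.play 587 (.ref 2 583)))) (.play 715 (.ref 3 647)))) (.play 647 (.ref 86 645))))) (.both (.play 775 (.both (.play 711 (.ref 176 390)) (.both (.play 647 (.both (.play 711 (.ref 135 454)) (.both (.play 648 (.ref 86 645)) (.ref 175 647)))) (.play 776 (.ref 174 709))))) (.both (.ref 173 389) (.both (.play 841 (.both (.play 776 (.both (.play 840 (.ref 48 391)) (.play 775 (.ref 168 709)))) (.both (.play 649 (.both (.play 776 (.both (.play 840 (.ref 39 520)) (.play 775 (.ref 168 709)))) (.play 777 (.ref 5 585)))) (.both (.play 777 (.ref 151 585)) (.ref 171 645))))) (.both (.play 711 (.both (.ref 29 518) (.both (.ref 130 645) (.ref 132 645)))) (.ref 131 645))))))))) (.both (.play 712 (.both (.ref 167 387) (.both (.play 649 (.both (.play 521 (.both (.play 585 (.both (.ref 160 392) (.play 776 (.ref 6 520)))) (.both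 (.play 585 (.both (.ref 159 453) (.play 776 (.ref 6 520)))) (.play 522 (.ref 157 457))))) (.play 711 (.both (.play 647 (.both (.play 648 (.ref 2 583)) (.play 646 (.ref 3 646)))) (.play 710 (.ref 2 646)))))) (.both (.play 715 (.both (.ref 141 391) (.ref 153 520))) (.both (.play 715 (.both (.ref 156 516) (.ref 153 520))) (.both (.play 715 (.both (.ref 153 520) (.ref 154 645))) (.play 715 (.both (.ref 153 520) (.play 647 (.ref 65 646)))))))))) (.both (.play 522 (.both (.ref 143 393) (.play 777 (.ref 6 521)))) (.play 777 (.ref 152 521)))))) (.both (.ref 150 265) (.both (.play 522 (.both (.ref 144 329) (.both (.ref 143 393) (.both (.ref 126 393) (.play 521 (.both (.play 457 (.ref 7 457)) (.play 779 (.both (.ref 142 521) (.play 715 (.ref 4 522)))))))))) (.both (.play 522 (.both (.play 458 (.both (.ref 41 393) (.play 395 (.ref 5 394)))) (.ref 50 521))) (.both (.play 778 (.both (.play 777 (.both (.play 776 (.both (.play 779 (.both (.ref 141 455) (.play 843 (.both (.ref 138 650) (.play 844 (.ref 0 776)))))) (.both (.play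 775 (.ref 137 518)) (.both (.play 775 (.ref 133 709)) (.both (.play 775 (.both (.ref 132 709) (.play 715 (.ref 2 711)))) (.ref 131 709)))))) (.play 841 (.ref 6 585)))) (.both (.play 842 (.ref 94 521)) (.both (.play 842 (.ref 121 521)) (.play 842 (.ref 36 585)))))) (.both (.play 778 (.both (.ref 126 457) (.both (.ref 125 457) (.both (.play 777 (.both (.play 713 (.both (.play 522 (.ref 6 521)) (.play 779 (.both (.play 843 (.ref 4 586)) (.play 780 (.ref 86 711)))))) (.play 841 (.ref 6 585)))) (.both (.ref 95 585) (.ref 78 585)))))) (.ref 122 457)))))))) (.both (.play 585 (.both (.ref 120 264) (.both (.ref 69 517) (.both (.ref 67 517) (.both (.ref 62 518) (.play 520 (.ref 65 519))))))) (.both (.play 714 (.both (.play 522 (.both (.ref 118 329) (.both (.ref 116 393) (.ref 87 517)))) (.both (.play 778 (.both (.play 522 (.both (.ref 118 329) (.ref 33 521))) (.both (.ref 98 585) (.both (.ref 105 585) (.both (.ref 109 585) (.play 842 (.both (.play 651 (.ref 5 586)) (.ref 95 649)))))))) (.both (.play 778 (.both (.play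 522 (.both (.ref 118 329) (.ref 35 522))) (.both (.ref 50 585) (.ref 81 585)))) (.both (.play 779 (.both (.play 522 (.both (.ref 116 393) (.play 715 (.ref 4 522)))) (.both (.play 778 (.both (.play 777 (.both (.play 713 (.both (.play 522 (.ref 6 521)) (.play 712 (.both (.play 711 (.ref 0 711)) (.play 780 (.ref 3 712)))))) (.play 841 (.ref 6 585)))) (.play 843 (.ref 4 586)))) (.both (.ref 114 522) (.play 778 (.both (.play 713 (.both (.ref 112 585) (.ref 111 711))) (.play 843 (.ref 4 586)))))))) (.both (.play 649 (.both (.play 778 (.both (.play 522 (.both (.play 457 (.both (.play 458 (.ref 110 393)) (.play 521 (.ref 7 457)))) (.ref 35 522))) (.both (.ref 109 585) (.play 842 (.both (.play 651 (.ref 5 586)) (.play 906 (.both (.play 713 (.ref 7 649)) (.ref 33 649)))))))) (.both (.play 648 (.both (.play 715 (.both (.play 779 (.ref 28 522)) (.ref 108 648))) (.play 647 (.ref 2 583)))) (.ref 107 583)))) (.both (.ref 106 521) (.play 778 (.both (.play 777 (.both (.play 779 (.both (.play 843 (.ref 4 586)) (.play 776 (.both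 (.ref 14 710) (.both (.play 775 (.ref 12 710)) (.play 780 (.ref 10 711))))))) (.play 841 (.ref 6 585)))) (.both (.play 842 (.both (.ref 35 586) (.both (.play 906 (.both (.ref 101 646) (.both (.ref 104 649) (.ref 102 649)))) (.ref 95 649)))) (.both (.play 842 (.both (.ref 33 585) (.both (.play 906 (.both (.ref 101 646) (.both (.play 970 (.ref 42 649)) (.both (.ref 57 649) (.play 970 (.ref 58 650)))))) (.ref 59 649)))) (.both (.ref 50 585) (.both (.ref 98 585) (.play 842 (.both (.play 779 (.both (.play 843 (.ref 4 586)) (.ref 93 649))) (.both (.ref 35 586) (.both (.ref 50 649) (.ref 59 649)))))))))))))))))) (.both (.play 522 (.both (.play 458 (.both (.ref 91 329) (.both (.play 649 (.both (.play 585 (.both (.play 394 (.ref 6 393)) (.play 648 (.ref 1 584)))) (.play 713 (.ref 6 457)))) (.play 649 (.both (.play 713 (.ref 6 457)) (.play 648 (.ref 89 583))))))) (.both (.ref 88 329) (.play 714 (.both (.ref 87 517) (.both (.ref 50 521) (.both (.play 778 (.both (.ref 35 522) (.ref 81 585))) (.both (.play 778 (.both (.ref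 35 522) (.ref 77 585))) (.play 778 (.both (.ref 33 521) (.both (.ref 79 585) (.ref 77 585)))))))))))) (.both (.play 585 (.both (.ref 76 390) (.both (.play 584 (.both (.ref 73 516) (.both (.ref 66 517) (.ref 9 519)))) (.both (.play 584 (.both (.ref 73 516) (.both (.ref 64 582) (.play 648 (.ref 11 583))))) (.both (.ref 67 517) (.ref 14 519)))))) (.both (.play 585 (.both (.play 521 (.both (.play 714 (.ref 71 393)) (.play 520 (.ref 3 520)))) (.both (.ref 67 517) (.ref 62 518)))) (.play 585 (.both (.ref 69 517) (.both (.ref 67 517) (.both (.ref 62 518) (.both (.play 649 (.both (.play 521 (.both (.play 713 (.both (.play 712 (.both (.play 714 (.both (.play 778 (.both (.ref 57 521) (.play 711 (.both (.play 710 (.ref 2 646)) (.play 779 (.ref 0 711)))))) (.both (.play 778 (.both (.play 842 (.both (.ref 41 521) (.ref 59 649))) (.both (.ref 57 521) (.play 779 (.both (.play 843 (.ref 4 586)) (.ref 56 712)))))) (.play 711 (.ref 55 646))))) (.play 776 (.ref 6 520)))) (.both (.play 778 (.both (.play 714 (.both (.play 521 (.ref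 4 521)) (.play 779 (.both (.play 843 (.ref 4 586)) (.play 780 (.ref 54 711)))))) (.both (.play 714 (.ref 52 521)) (.ref 51 585)))) (.both (.ref 50 520) (.both (.play 777 (.both (.ref 33 520) (.play 841 (.ref 5 585)))) (.ref 37 520)))))) (.play 520 (.ref 3 520)))) (.play 648 (.ref 1 584)))) (.ref 14 519)))))))))))))) (.both (.play 589 (.both (.play 522 (.both (.play 458 (.ref 48 137)) (.play 521 (.ref 3 521)))) (.ref 18 522))) (.both (.play 589 (.both (.play 585 (.both (.ref 30 389) (.ref 8 521))) (.both (.play 590 (.ref 12 521)) (.both (.ref 18 522) (.play 654 (.both (.play 650 (.both (.play 649 (.ref 1 585)) (.ref 16 586))) (.play 653 (.ref 0 586)))))))) (.ref 15 519))))))))))))))))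
    (by decide +kernel)

theorem Cert_L44 : PW ⟨18, nat_lit 175957425675110161639949008488498207687166729607038426243973539727481393305000996689676336290254556407269741039873541024516114937552202844817340017922852025026451320504198302041314199184931566432940858579831379673085661759378149200532310125255056154427392, nat_lit 72532701223998246501591472283001081468099888490712265123547354666945227520970663030550671799743123676134424538452335021964595882034350914170724539403305457432086008854351633037826744102500788094151170282351667407971097890407068086396018071880118538105384026934849495834430718889743442038536905949585983607844891460308584643737409299211490226372145575463477348510157223807472354225769669273761798924797904937116477167029016602624, 21, nat_lit 72532701223998246501591472283001081468099888490712265123547354666945227520970663030550671799743123676134424538452335021964595882034350914170724539403305457432086008854351633037826744102500788094151170282351667407971097890407068086396018071880118538105384026934849495834430718889743442038536905949585983607844891460308584643737409299211490226372145575463477348510157223807472354225769669273761798924797904937116477167029016602624⟩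 :=
  sound2 baseTbl baseTbl_ok
    (.seq (.seq (.seq (.seq (.seq (.seq (.seq (.seq (.seq (.one (.play 68 (.both (.play 67 (.ref 0 0)) (.play 69 (.ref 0 1)))))
 (.one (.both (.play 64 (.ref 1 0)) (.play 66 (.ref 1 1)))))
 (.seq (.one (.both (.play 65 (.ref 9 0)) (.ref 8 1)))
 (.one (.both (.play 4 (.ref 2 0)) (.play 132 (.ref 0 64))))))
 (.seq (.seq (.one (.both (.play 3 (.ref 2 0)) (.play 132 (.both (.play 68 (.ref 11 1)) (.play 131 (.ref 0 64))))))
 (.one (.play 4 (.both (.play 3 (.ref 2 0)) (.play 5 (.ref 2 1))))))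
 (.seq (.one (.both (.ref 13 1) (.play 129 (.ref 9 64))))
 (.seq (.one (.both (.play 65 (.ref 14 0)) (.both (.play 6 (.ref 12 2)) (.play 65 (.ref 10 64)))))
 (.one (.play 132 (.both (.play 4 (.both (.play 3 (.ref 2 0)) (.play 68 (.ref 11 1)))) (.play 131 (.ref 0 64)))))))))
 (.seq (.seq (.seq (.one (.play 1 (.both (.play 0 (.ref 3 0)) (.play 2 (.ref 3 1)))))
 (.one (.both (.ref 17 0) (.ref 13 1))))
 (.seq (.one (.both (.ref 17 0) (.ref 8 65)))
 (.seq (.one (.both (.play 65 (.ref 19 0)) (.both (.play 65 (.ref 18 0)) (.ref 16 2))))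
 (.one (.both (.play 0 (.ref 3 0)) (.play 128 (.ref 1 64)))))))
 (.seq (.seq (.one (.both (.play 65 (.ref 21 0)) (.play 130 (.ref 1 65))))
 (.one (.both (.play 129 (.ref 22 0)) (.play 2 (.ref 3 1)))))
 (.seq (.one (.play 66 (.both (.play 1 (.ref 23 0)) (.both (.play 70 (.ref 19 1)) (.play 70 (.ref 10 65))))))
 (.seq (.one (.both (.play 64 (.ref 2 0)) (.play 68 (.ref 2 1))))
 (.one (.both (.play 1 (.both (.play 65 (.ref 21 0)) (.play 2 (.ref 3 1)))) (.play 130 (.ref 1 65)))))))))
 (.seq (.seq (.seq (.seq (.one (.both (.play 193 (.ref 6 0)) (.play 64 (.ref 5 0))))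
 (.one (.both (.play 1 (.ref 6 0)) (.play 320 (.ref 27 64)))))
 (.seq (.one (.both (.play 256 (.ref 28 0)) (.play 130 (.ref 1 128))))
 (.one (.both (.play 192 (.ref 4 0)) (.play 321 (.ref 7 64))))))
 (.seq (.seq (.one (.both (.play 0 (.ref 4 0)) (.play 321 (.ref 30 64))))
 (.one (.play 259 (.both (.play 130 (.ref 31 2)) (.play 260 (.ref 0 192))))))
 (.seq (.one (.play 195 (.both (.play 197 (.both (.play 194 (.both (.ref 32 2) (.play 257 (.ref 26 128)))) (.play 198 (.ref 2 131)))) (.both (.play 132 (.ref 29 3)) (.both (.play 197 (.both (.play 194 (.both (.play 257 (.ref 26 128)) (.play 133 (.ref 2 130)))) (.play 198 (.ref 2 131)))) (.play 133 (.both (.play 197 (.ref 25 130)) (.play 132 (.ref 1 131)))))))))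
 (.seq (.one (.both (.play 64 (.ref 1 0)) (.play 68 (.ref 0 1))))
 (.one (.play 65 (.both (.play 69 (.both (.play 1 (.ref 34 0)) (.play 70 (.ref 0 2)))) (.play 66 (.ref 1 1)))))))))
 (.seq (.seq (.seq (.one (.play 256 (.both (.play 65 (.ref 5 0)) (.play 321 (.ref 4 64)))))
 (.one (.play 257 (.both (.play 193 (.ref 4 0)) (.ref 36 0)))))
 (.seq (.one (.both (.play 192 (.ref 6 0)) (.play 320 (.ref 6 64))))
 (.seq (.one (.play 257 (.both (.play 256 (.ref 38 0)) (.ref 37 65))))
 (.one (.both (.play 1 (.ref 5 0)) (.play 129 (.ref 5 64)))))))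
 (.seq (.seq (.one (.both (.play 0 (.ref 7 0)) (.play 128 (.ref 7 64))))
 (.one (.both (.play 64 (.ref 41 0)) (.play 66 (.ref 40 1)))))
 (.seq (.one (.play 64 (.both (.play 1 (.ref 5 0)) (.play 257 (.ref 4 64)))))
 (.seq (.one (.play 65 (.both (.ref 43 0) (.play 129 (.ref 5 64)))))
 (.one (.play 129 (.both (.ref 44 1) (.play 128 (.ref 41 64)))))))))))
 (.seq (.seq (.seq (.seq (.seq (.one (.play 193 (.both (.ref 45 0) (.both (.play 129 (.ref 42 64)) (.both (.play 129 (.both (.play 128 (.ref 41 64)) (.play 258 (.both (.play 65 (.ref 4 65)) (.play 194 (.ref 5 193)))))) (.play 194 (.ref 40 129)))))))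
 (.one (.play 385 (.both (.play 257 (.both (.play 449 (.both (.ref 46 0) (.ref 39 256))) (.play 256 (.ref 3 256)))) (.play 384 (.ref 1 320))))))
 (.seq (.one (.both (.play 256 (.ref 6 0)) (.play 258 (.ref 4 1))))
 (.one (.both (.play 192 (.ref 6 0)) (.play 258 (.both (.play 194 (.ref 4 1)) (.play 257 (.ref 48 64))))))))
 (.seq (.seq (.one (.play 257 (.both (.play 0 (.ref 7 0)) (.play 320 (.ref 49 64)))))
 (.one (.play 64 (.both (.ref 50 0) (.play 130 (.ref 3 64))))))
 (.seq (.one (.both (.play 0 (.ref 7 0)) (.play 2 (.ref 5 1))))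
 (.seq (.one (.play 66 (.both (.play 64 (.both (.play 65 (.ref 52 0)) (.play 128 (.ref 7 64)))) (.play 130 (.ref 5 65)))))
 (.one (.play 129 (.both (.ref 53 0) (.play 386 (.ref 4 129)))))))))
 (.seq (.seq (.seq (.one (.both (.ref 17 0) (.play 129 (.ref 9 64))))
 (.one (.play 65 (.both (.play 0 (.ref 3 0)) (.play 4 (.ref 2 1))))))
 (.seq (.one (.play 1 (.both (.ref 56 0) (.play 2 (.ref 3 1)))))
 (.seq (.one (.play 66 (.both (.ref 57 0) (.play 130 (.ref 9 65)))))
 (.one (.play 67 (.both (.ref 58 0) (.both (.play 66 (.ref 55 1)) (.both (.play 66 (.both (.play 4 (.both (.play 65 (.ref 2 1)) (.play 3 (.ref 3 3)))) (.play 130 (.ref 9 65)))) (.ref 17 2)))))))))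
 (.seq (.seq (.one (.play 71 (.both (.ref 59 0) (.ref 16 4))))
 (.one (.play 257 (.both (.play 65 (.ref 7 0)) (.play 321 (.ref 7 64))))))
 (.seq (.one (.both (.play 0 (.ref 4 0)) (.ref 61 64)))
 (.seq (.one (.play 68 (.both (.play 1 (.ref 3 0)) (.play 5 (.ref 2 1)))))
 (.one (.play 4 (.both (.play 3 (.ref 2 0)) (.ref 63 0)))))))))
 (.seq (.seq (.seq (.seq (.one (.play 68 (.both (.ref 64 1) (.ref 8 64))))
 (.one (.both (.ref 13 0) (.ref 8 64))))
 (.seq (.one (.play 68 (.both (.ref 13 0) (.both (.play 69 (.both (.play 3 (.both (.play 4 (.ref 2 0)) (.play 70 (.ref 3 2)))) (.ref 8 65))) (.both (.play 69 (.ref 66 1)) (.ref 65 1))))))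
 (.seq (.one (.both (.play 259 (.ref 6 3)) (.play 194 (.both (.play 257 (.ref 26 128)) (.ref 67 130)))))
 (.one (.play 1 (.both (.play 192 (.ref 6 0)) (.play 194 (.ref 4 1))))))))
 (.seq (.seq (.one (.both (.play 193 (.ref 6 0)) (.play 320 (.ref 5 64))))
 (.one (.both (.play 1 (.ref 6 0)) (.play 320 (.ref 70 64)))))
 (.seq (.one (.play 257 (.both (.play 64 (.ref 7 0)) (.play 320 (.ref 6 64)))))
 (.seq (.one (.play 320 (.both (.play 64 (.both (.play 0 (.ref 7 0)) (.ref 72 64))) (.play 256 (.ref 6 64)))))
 (.one (.play 257 (.both (.play 193 (.ref 4 0)) (.play 321 (.ref 4 64)))))))))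
 (.seq (.seq (.seq (.one (.play 129 (.both (.play 65 (.ref 42 0)) (.ref 74 129))))
 (.one (.play 389 (.both (.ref 75 4) (.both (.ref 73 132) (.play 454 (.both (.play 452 (.both (.play 388 (.ref 71 196)) (.both (.ref 69 196) (.play 453 (.ref 68 257))))) (.both (.play 390 (.ref 62 197)) (.play 453 (.both (.play 452 (.both (.play 516 (.ref 6 260)) (.ref 60 384))) (.play 518 (.ref 4 261))))))))))))
 (.seq (.one (.both (.play 192 (.ref 4 0)) (.play 65 (.ref 7 0))))
 (.seq (.one (.play 128 (.both (.play 64 (.both (.play 0 (.ref 77 0)) (.play 321 (.ref 7 64)))) (.play 194 (.ref 3 128)))))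
 (.one (.both (.play 64 (.ref 41 0)) (.play 320 (.ref 38 64)))))))
 (.seq (.seq (.one (.play 65 (.both (.play 2 (.ref 5 1)) (.play 256 (.ref 6 64)))))
 (.one (.play 66 (.both (.play 320 (.both (.ref 80 0) (.play 384 (.ref 6 128)))) (.play 130 (.ref 5 65))))))
 (.seq (.one (.both (.play 66 (.both (.play 65 (.ref 52 0)) (.play 130 (.ref 5 65)))) (.play 128 (.ref 7 64))))
 (.seq (.one (.play 129 (.both (.play 65 (.ref 42 0)) (.play 384 (.ref 38 128)))))
 (.one (.play 193 (.both (.ref 83 0) (.both (.play 128 (.ref 82 64)) (.both (.ref 81 64) (.play 449 (.ref 79 128))))))))))))))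
 (.seq (.seq (.seq (.seq (.seq (.seq (.one (.both (.play 0 (.ref 3 0)) (.play 69 (.ref 3 1))))
 (.one (.play 3 (.both (.play 64 (.ref 2 0)) (.play 70 (.ref 85 2))))))
 (.seq (.one (.play 4 (.both (.ref 86 0) (.play 5 (.ref 2 1)))))
 (.one (.play 65 (.both (.ref 87 0) (.play 129 (.ref 9 64)))))))
 (.seq (.seq (.one (.play 1 (.both (.play 5 (.both (.ref 56 0) (.play 6 (.ref 2 2)))) (.play 2 (.ref 3 1)))))
 (.one (.play 66 (.both (.ref 89 0) (.both (.ref 17 1) (.ref 87 1))))))
 (.seq (.one (.play 66 (.both (.play 65 (.ref 18 0)) (.play 130 (.ref 9 65)))))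
 (.seq (.one (.both (.play 1 (.ref 6 0)) (.play 128 (.ref 5 64))))
 (.one (.both (.play 65 (.ref 92 0)) (.play 384 (.ref 5 128))))))))
 (.seq (.seq (.seq (.one (.play 129 (.both (.play 130 (.both (.play 257 (.both (.play 321 (.ref 93 1)) (.play 256 (.ref 1 192)))) (.play 197 (.ref 3 129)))) (.play 128 (.ref 3 128)))))
 (.one (.play 195 (.both (.ref 94 2) (.both (.ref 91 128) (.both (.ref 90 128) (.both (.play 130 (.ref 23 129)) (.ref 88 129))))))))
 (.seq (.one (.play 257 (.both (.play 64 (.ref 7 0)) (.play 322 (.ref 4 65)))))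
 (.seq (.one (.both (.play 0 (.ref 7 0)) (.play 322 (.both (.ref 96 64) (.play 258 (.ref 4 65))))))
 (.one (.both (.play 256 (.both (.play 192 (.ref 6 0)) (.play 257 (.ref 48 64)))) (.play 194 (.ref 4 1)))))))
 (.seq (.seq (.one (.both (.play 64 (.ref 41 0)) (.ref 74 65)))
 (.one (.play 321 (.both (.play 65 (.ref 79 0)) (.both (.play 65 (.ref 99 0)) (.play 386 (.ref 98 128)))))))
 (.seq (.one (.play 257 (.both (.play 321 (.ref 79 0)) (.ref 74 1))))
 (.seq (.one (.both (.play 0 (.ref 0 0)) (.play 66 (.ref 3 1))))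
 (.one (.both (.play 1 (.ref 102 0)) (.play 70 (.ref 3 2)))))))))
 (.seq (.seq (.seq (.seq (.one (.play 196 (.both (.play 260 (.ref 4 3)) (.play 197 (.ref 103 128)))))
 (.one (.play 258 (.both (.play 194 (.both (.play 3 (.ref 6 2)) (.ref 104 64))) (.play 322 (.ref 6 66))))))
 (.seq (.one (.both (.play 1 (.ref 6 0)) (.play 320 (.ref 6 64))))
 (.one (.play 192 (.both (.play 256 (.both (.play 65 (.ref 106 0)) (.play 449 (.ref 7 192)))) (.play 128 (.ref 7 128)))))))
 (.seq (.seq (.one (.play 385 (.both (.ref 107 0) (.both (.play 384 (.ref 38 128)) (.ref 73 128)))))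
 (.one (.play 385 (.both (.ref 107 0) (.ref 74 129)))))
 (.seq (.one (.play 323 (.both (.ref 109 2) (.both (.ref 108 2) (.both (.ref 105 64) (.both (.ref 101 130) (.play 386 (.ref 49 130))))))))
 (.seq (.one (.both (.play 66 (.ref 40 1)) (.play 320 (.ref 38 64))))
 (.one (.play 129 (.both (.play 65 (.ref 111 0)) (.both (.ref 53 0) (.play 385 (.ref 79 64))))))))))
 (.seq (.seq (.seq (.one (.play 196 (.both (.play 198 (.both (.play 262 (.ref 4 5)) (.play 199 (.both (.ref 59 128) (.play 135 (.ref 2 132)))))) (.play 260 (.ref 6 4)))))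
 (.one (.play 65 (.both (.play 0 (.ref 7 0)) (.play 256 (.ref 6 64))))))
 (.seq (.one (.play 64 (.both (.play 320 (.both (.ref 114 0) (.play 384 (.ref 6 128)))) (.play 128 (.ref 7 64)))))
 (.seq (.one (.both (.play 0 (.ref 7 0)) (.play 321 (.ref 7 64))))
 (.one (.both (.play 2 (.ref 5 1)) (.play 320 (.ref 6 64)))))))
 (.seq (.seq (.one (.play 66 (.both (.play 65 (.ref 117 0)) (.play 130 (.ref 5 65)))))
 (.one (.play 129 (.both (.play 65 (.ref 79 0)) (.play 130 (.ref 40 65))))))
 (.seq (.one (.play 193 (.both (.ref 119 0) (.both (.play 129 (.ref 42 64)) (.both (.play 320 (.both (.ref 118 64) (.play 449 (.both (.play 256 (.ref 116 192)) (.ref 74 193))))) (.play 449 (.ref 99 128)))))))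
 (.seq (.one (.play 65 (.both (.play 4 (.ref 2 1)) (.play 128 (.ref 1 64)))))
 (.one (.play 129 (.both (.ref 121 0) (.play 130 (.ref 1 65)))))))))))
 (.seq (.seq (.seq (.seq (.seq (.one (.both (.ref 122 0) (.play 6 (.ref 2 2))))
 (.one (.both (.play 3 (.ref 0 0)) (.play 69 (.ref 3 1)))))
 (.seq (.one (.both (.play 0 (.ref 0 0)) (.play 69 (.ref 124 1))))
 (.one (.play 66 (.both (.play 2 (.ref 7 2)) (.play 65 (.ref 125 64)))))))
 (.seq (.seq (.one (.play 68 (.both (.play 132 (.both (.ref 126 0) (.play 323 (.ref 5 67)))) (.play 4 (.ref 5 3)))))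
 (.one (.both (.play 1 (.ref 5 0)) (.play 320 (.ref 5 64)))))
 (.seq (.one (.play 193 (.both (.play 0 (.ref 4 0)) (.play 384 (.ref 128 128)))))
 (.seq (.one (.both (.ref 129 0) (.play 321 (.ref 4 64))))
 (.one (.play 65 (.both (.play 321 (.both (.ref 43 0) (.play 385 (.ref 4 128)))) (.play 129 (.ref 5 64)))))))))
 (.seq (.seq (.seq (.one (.play 128 (.both (.ref 131 0) (.both (.play 129 (.ref 40 64)) (.play 321 (.ref 130 64))))))
 (.one (.both (.play 65 (.ref 40 0)) (.ref 74 64))))
 (.seq (.one (.play 129 (.both (.play 65 (.ref 133 1)) (.play 128 (.ref 41 64)))))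
 (.seq (.one (.play 195 (.both (.ref 134 2) (.both (.ref 132 3) (.both (.ref 53 66) (.both (.play 131 (.both (.play 130 (.ref 41 66)) (.play 324 (.ref 130 67)))) (.ref 127 128)))))))
 (.one (.play 194 (.both (.play 192 (.both (.play 256 (.ref 6 0)) (.play 195 (.ref 2 128)))) (.play 258 (.ref 4 1))))))))
 (.seq (.seq (.one (.both (.play 256 (.ref 38 0)) (.ref 74 1)))
 (.one (.play 321 (.both (.play 66 (.ref 40 1)) (.play 385 (.ref 137 128))))))
 (.seq (.one (.both (.ref 138 0) (.both (.play 321 (.ref 111 0)) (.both (.play 321 (.ref 133 1)) (.both (.play 322 (.ref 98 64)) (.ref 136 64))))))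
 (.seq (.one (.both (.play 256 (.ref 6 0)) (.play 194 (.both (.play 258 (.ref 4 1)) (.play 195 (.ref 2 128))))))
 (.one (.play 257 (.both (.play 321 (.ref 79 0)) (.both (.play 321 (.ref 99 0)) (.play 256 (.ref 140 64)))))))))))
 (.seq (.seq (.seq (.seq (.one (.both (.play 3 (.ref 0 0)) (.play 66 (.ref 3 0))))
 (.one (.play 66 (.both (.play 64 (.both (.play 0 (.ref 7 0)) (.play 131 (.ref 142 64)))) (.play 2 (.ref 5 1))))))
 (.seq (.one (.play 320 (.both (.play 66 (.both (.ref 80 0) (.play 130 (.ref 5 65)))) (.play 384 (.ref 6 128)))))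
 (.seq (.one (.both (.ref 89 0) (.play 129 (.ref 1 65))))
 (.one (.play 65 (.both (.play 1 (.ref 6 0)) (.play 257 (.ref 6 64))))))))
 (.seq (.seq (.one (.both (.ref 146 0) (.play 384 (.ref 5 128))))
 (.one (.play 66 (.both (.play 65 (.ref 55 0)) (.ref 8 66)))))
 (.seq (.one (.both (.play 3 (.ref 2 0)) (.play 132 (.ref 0 64))))
 (.seq (.one (.both (.play 1 (.ref 6 0)) (.play 320 (.ref 5 64))))
 (.one (.both (.play 259 (.ref 150 3)) (.play 128 (.ref 0 128))))))))
 (.seq (.seq (.seq (.one (.both (.play 64 (.ref 5 0)) (.play 129 (.ref 70 0))))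
 (.one (.play 65 (.both (.play 192 (.ref 92 0)) (.play 257 (.ref 6 64))))))
 (.seq (.one (.both (.ref 153 0) (.both (.play 192 (.ref 93 0)) (.both (.play 257 (.ref 71 64)) (.play 384 (.ref 152 128))))))
 (.seq (.one (.play 1 (.both (.play 0 (.ref 0 0)) (.play 4 (.ref 0 1)))))
 (.one (.both (.ref 155 0) (.play 70 (.ref 3 2)))))))
 (.seq (.seq (.one (.both (.play 0 (.ref 4 0)) (.play 321 (.ref 77 64))))
 (.one (.both (.play 0 (.ref 4 0)) (.play 321 (.ref 4 64)))))
 (.seq (.one (.play 195 (.both (.play 259 (.both (.play 132 (.ref 93 3)) (.play 258 (.ref 2 192)))) (.play 194 (.ref 1 192)))))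
 (.seq (.one (.play 257 (.both (.play 65 (.ref 7 0)) (.play 128 (.ref 30 0)))))
 (.one (.both (.play 64 (.ref 2 0)) (.play 2 (.ref 1 1))))))))))))
 (.seq (.seq (.seq (.seq (.seq (.seq (.seq (.one (.both (.play 65 (.ref 161 0)) (.play 6 (.ref 1 2))))
 (.one (.play 256 (.both (.play 64 (.ref 5 0)) (.play 320 (.ref 5 64))))))
 (.seq (.one (.play 195 (.both (.ref 163 3) (.play 194 (.ref 162 128)))))
 (.one (.both (.play 129 (.ref 26 0)) (.play 134 (.ref 0 66))))))
 (.seq (.seq (.one (.play 195 (.both (.play 261 (.both (.play 4 (.ref 4 4)) (.play 194 (.ref 165 128)))) (.both (.play 4 (.ref 48 3)) (.ref 164 64)))))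
 (.one (.play 257 (.both (.ref 73 0) (.play 66 (.ref 5 1))))))
 (.seq (.one (.play 129 (.both (.ref 115 0) (.play 66 (.ref 5 65)))))
 (.seq (.one (.play 258 (.both (.play 194 (.ref 4 1)) (.play 257 (.both (.play 321 (.ref 7 64)) (.play 322 (.ref 4 65)))))))
 (.one (.play 257 (.both (.play 321 (.both (.play 194 (.both (.play 258 (.ref 4 1)) (.play 385 (.ref 5 129)))) (.play 320 (.ref 38 64)))) (.both (.ref 74 1) (.both (.play 321 (.ref 137 64)) (.ref 39 64))))))))))
 (.seq (.seq (.seq (.one (.play 129 (.both (.play 64 (.ref 82 0)) (.ref 170 128))))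
 (.one (.both (.ref 171 0) (.play 192 (.ref 3 192)))))
 (.seq (.one (.play 321 (.both (.play 193 (.ref 172 0)) (.play 320 (.ref 1 256)))))
 (.seq (.one (.both (.play 1 (.ref 6 0)) (.ref 163 64)))
 (.one (.both (.play 0 (.ref 0 0)) (.play 69 (.both (.play 66 (.ref 3 1)) (.play 70 (.ref 3 2)))))))))
 (.seq (.seq (.one (.play 66 (.both (.play 2 (.ref 7 2)) (.play 65 (.ref 175 64)))))
 (.one (.both (.ref 176 0) (.play 322 (.ref 6 66)))))
 (.seq (.one (.both (.play 64 (.ref 1 0)) (.play 5 (.ref 1 1))))
 (.seq (.one (.play 1 (.both (.play 65 (.both (.play 0 (.ref 3 0)) (.play 64 (.ref 0 64)))) (.play 2 (.ref 3 1)))))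
 (.one (.play 131 (.both (.play 67 (.ref 174 2)) (.play 132 (.ref 2 128))))))))))
 (.seq (.seq (.seq (.seq (.one (.play 194 (.both (.ref 180 2) (.ref 179 128))))
 (.one (.play 129 (.both (.play 65 (.ref 62 1)) (.play 128 (.ref 3 128))))))
 (.seq (.one (.both (.play 64 (.ref 2 0)) (.play 5 (.ref 2 1))))
 (.one (.play 322 (.both (.play 64 (.both (.play 0 (.ref 7 0)) (.ref 96 64))) (.play 258 (.ref 4 65)))))))
 (.seq (.seq (.one (.play 256 (.both (.play 192 (.ref 6 0)) (.ref 72 0))))
 (.one (.both (.play 0 (.ref 7 0)) (.ref 185 64))))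
 (.seq (.one (.play 259 (.both (.play 66 (.ref 186 2)) (.both (.ref 184 2) (.play 260 (.both (.play 258 (.both (.play 322 (.ref 6 66)) (.play 257 (.ref 183 192)))) (.play 324 (.ref 4 67))))))))
 (.seq (.one (.both (.play 0 (.ref 0 0)) (.play 64 (.ref 1 0))))
 (.one (.play 194 (.both (.play 130 (.ref 93 1)) (.play 195 (.ref 188 192)))))))))
 (.seq (.seq (.seq (.one (.play 66 (.both (.play 1 (.ref 23 0)) (.play 6 (.ref 2 2)))))
 (.one (.play 65 (.both (.play 4 (.ref 2 1)) (.play 129 (.ref 9 64))))))
 (.seq (.one (.play 66 (.both (.ref 191 0) (.both (.ref 57 0) (.play 70 (.ref 55 1))))))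
 (.seq (.one (.play 67 (.both (.ref 91 0) (.play 7 (.ref 2 3)))))
 (.one (.play 3 (.both (.play 4 (.ref 183 0)) (.play 2 (.ref 85 1))))))))
 (.seq (.seq (.one (.play 66 (.both (.play 65 (.ref 55 0)) (.ref 13 2))))
 (.one (.play 67 (.both (.ref 195 0) (.both (.ref 17 2) (.ref 194 2))))))
 (.seq (.one (.both (.play 0 (.ref 4 0)) (.play 129 (.ref 7 64))))
 (.seq (.one (.both (.play 64 (.ref 197 0)) (.play 385 (.ref 7 128))))
 (.one (.play 259 (.both (.play 323 (.ref 198 2)) (.play 260 (.ref 0 192)))))))))))
 (.seq (.seq (.seq (.seq (.seq (.one (.play 449 (.both (.ref 46 0) (.play 512 (.ref 49 256)))))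
 (.one (.both (.ref 200 0) (.play 384 (.ref 1 320)))))
 (.seq (.one (.play 257 (.both (.play 385 (.ref 201 0)) (.play 256 (.ref 3 256)))))
 (.one (.play 263 (.both (.play 327 (.both (.play 326 (.both (.play 325 (.both (.play 328 (.both (.ref 202 4) (.ref 199 133))) (.both (.play 324 (.both (.ref 196 256) (.play 264 (.ref 2 260)))) (.both (.ref 193 257) (.both (.ref 192 258) (.ref 190 258)))))) (.both (.play 261 (.both (.play 325 (.both (.play 197 (.both (.ref 54 4) (.both (.ref 189 4) (.ref 187 130)))) (.play 324 (.ref 2 260)))) (.both (.play 262 (.both (.ref 182 68) (.play 201 (.ref 2 197)))) (.play 262 (.both (.play 260 (.both (.play 199 (.ref 2 196)) (.play 259 (.ref 0 259)))) (.play 201 (.ref 2 197))))))) (.both (.play 199 (.both (.play 201 (.both (.ref 181 4) (.play 202 (.ref 178 198)))) (.both (.play 135 (.ref 177 68)) (.play 390 (.ref 174 134))))) (.both (.play 201 (.both (.play 325 (.both (.play 328 (.both (.ref 173 68) (.play 392 (.both (.play 137 (.ref 5 136)) (.play 393 (.ref 0 325)))))) (.play 324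 (.ref 2 260)))) (.play 202 (.ref 1 199)))) (.play 201 (.both (.play 325 (.both (.play 328 (.both (.play 392 (.both (.play 137 (.ref 5 136)) (.ref 169 199))) (.play 261 (.both (.play 262 (.ref 2 197)) (.play 260 (.ref 3 260)))))) (.play 324 (.ref 2 260)))) (.play 202 (.ref 1 199))))))))) (.both (.play 391 (.both (.ref 168 70) (.both (.play 264 (.ref 93 71)) (.ref 167 198)))) (.both (.play 391 (.ref 147 71)) (.play 201 (.both (.play 392 (.both (.play 328 (.both (.play 137 (.ref 5 136)) (.ref 113 195))) (.both (.play 328 (.both (.play 137 (.ref 5 136)) (.play 456 (.both (.ref 74 200) (.play 520 (.ref 7 263)))))) (.both (.play 391 (.both (.ref 166 195) (.play 455 (.ref 5 199)))) (.play 456 (.both (.play 391 (.ref 31 199)) (.both (.play 328 (.ref 116 199)) (.both (.play 199 (.both (.play 391 (.ref 4 199)) (.play 328 (.ref 7 199)))) (.ref 160 263))))))))) (.play 202 (.ref 1 199)))))))) (.both (.ref 159 7) (.play 265 (.both (.play 262 (.both (.play 391 (.both (.play 327 (.both (.play 198 (.both (.play 326 (.both (.play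 134 (.ref 158 70)) (.play 265 (.ref 21 197)))) (.both (.play 134 (.ref 157 70)) (.play 197 (.ref 156 195))))) (.ref 146 71))) (.both (.play 327 (.ref 147 71)) (.play 198 (.both (.play 197 (.ref 3 197)) (.play 326 (.both (.play 390 (.both (.play 454 (.both (.play 453 (.ref 38 197)) (.play 199 (.ref 5 198)))) (.play 455 (.ref 4 198)))) (.play 325 (.ref 1 261))))))))) (.both (.play 261 (.both (.play 327 (.both (.play 391 (.ref 154 71)) (.both (.play 199 (.both (.play 391 (.ref 128 135)) (.play 260 (.ref 2 196)))) (.both (.play 328 (.ref 151 132)) (.play 260 (.ref 149 196)))))) (.ref 17 196))) (.both (.play 261 (.both (.play 260 (.both (.ref 148 193) (.play 199 (.ref 2 196)))) (.both (.ref 122 195) (.play 325 (.ref 9 260))))) (.play 197 (.ref 23 196)))))) (.play 266 (.ref 0 263))))))))))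
 (.seq (.seq (.one (.play 129 (.both (.play 64 (.ref 82 0)) (.play 320 (.ref 6 128)))))
 (.one (.play 384 (.both (.ref 204 0) (.both (.play 320 (.ref 71 128)) (.play 385 (.ref 140 192)))))))
 (.seq (.one (.play 65 (.both (.play 1 (.ref 34 0)) (.play 66 (.ref 1 1)))))
 (.seq (.one (.play 66 (.both (.ref 17 1) (.ref 206 64))))
 (.one (.play 67 (.both (.ref 207 0) (.both (.play 66 (.ref 55 1)) (.both (.play 66 (.both (.ref 17 1) (.play 132 (.both (.play 65 (.ref 0 65)) (.play 131 (.ref 1 67)))))) (.play 131 (.ref 9 66)))))))))))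
 (.seq (.seq (.seq (.one (.play 71 (.both (.ref 208 0) (.play 135 (.ref 0 68)))))
 (.one (.play 68 (.both (.play 70 (.both (.ref 209 0) (.play 6 (.ref 5 5)))) (.play 4 (.ref 7 4))))))
 (.seq (.one (.play 192 (.both (.play 1 (.ref 6 0)) (.play 385 (.ref 116 128)))))
 (.seq (.one (.play 256 (.both (.ref 211 0) (.play 320 (.ref 6 64)))))
 (.one (.play 65 (.both (.ref 212 0) (.play 66 (.ref 40 1))))))))
 (.seq (.seq (.one (.play 129 (.both (.ref 115 0) (.both (.play 128 (.ref 41 64)) (.ref 212 64)))))
 (.one (.play 129 (.both (.ref 53 0) (.both (.play 385 (.ref 79 64)) (.play 385 (.ref 111 64)))))))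
 (.seq (.one (.both (.play 0 (.ref 3 0)) (.play 5 (.ref 2 1))))
 (.seq (.one (.play 66 (.both (.play 1 (.both (.play 65 (.ref 216 0)) (.play 2 (.ref 3 1)))) (.play 130 (.ref 9 65)))))
 (.one (.both (.play 1 (.ref 5 0)) (.play 321 (.ref 4 64)))))))))
 (.seq (.seq (.seq (.seq (.one (.play 65 (.both (.play 64 (.ref 218 0)) (.play 129 (.ref 5 64)))))
 (.one (.play 129 (.both (.play 64 (.ref 82 0)) (.play 384 (.ref 6 128))))))
 (.seq (.one (.play 71 (.both (.ref 208 0) (.play 8 (.ref 12 4)))))
 (.seq (.one (.both (.ref 221 0) (.play 6 (.ref 5 5))))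
 (.one (.play 68 (.both (.play 70 (.ref 222 0)) (.play 4 (.ref 7 4))))))))
 (.seq (.seq (.one (.both (.play 0 (.ref 7 0)) (.play 322 (.ref 4 65))))
 (.one (.play 64 (.both (.play 65 (.ref 224 0)) (.play 128 (.ref 7 64))))))
 (.seq (.one (.play 64 (.both (.play 65 (.ref 40 0)) (.play 257 (.ref 4 64)))))
 (.seq (.one (.play 128 (.both (.ref 226 0) (.both (.play 129 (.ref 40 64)) (.ref 129 64)))))
 (.one (.play 128 (.both (.ref 44 0) (.play 385 (.ref 4 128)))))))))
 (.seq (.seq (.seq (.one (.play 193 (.both (.ref 228 1) (.both (.ref 227 1) (.both (.ref 219 65) (.both (.play 129 (.ref 130 65)) (.play 449 (.both (.play 194 (.ref 40 129)) (.ref 39 256)))))))))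
 (.one (.both (.play 67 (.ref 2 0)) (.play 5 (.ref 1 1)))))
 (.seq (.one (.both (.play 64 (.ref 2 0)) (.play 5 (.ref 230 1))))
 (.seq (.one (.play 194 (.both (.play 130 (.ref 198 2)) (.play 193 (.ref 125 192)))))
 (.one (.play 257 (.both (.play 2 (.ref 5 1)) (.play 322 (.ref 98 64))))))))
 (.seq (.seq (.one (.play 193 (.both (.ref 228 1) (.play 192 (.ref 41 128)))))
 (.one (.play 66 (.both (.play 1 (.ref 23 0)) (.play 5 (.ref 2 2))))))
 (.seq (.one (.play 321 (.both (.play 65 (.both (.play 1 (.ref 5 0)) (.ref 36 64))) (.play 257 (.ref 4 64)))))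
 (.seq (.one (.play 66 (.both (.play 129 (.ref 26 0)) (.play 133 (.ref 0 66)))))
 (.one (.play 67 (.both (.play 69 (.both (.ref 237 0) (.play 5 (.ref 5 4)))) (.play 3 (.ref 7 3))))))))))))
 (.seq (.seq (.seq (.seq (.seq (.seq (.one (.play 64 (.both (.play 193 (.ref 197 0)) (.play 256 (.ref 4 64)))))
 (.one (.both (.ref 239 0) (.both (.play 193 (.ref 198 0)) (.both (.play 256 (.ref 31 64)) (.ref 160 128))))))
 (.seq (.one (.play 129 (.both (.play 65 (.both (.play 64 (.ref 41 0)) (.play 258 (.ref 4 65)))) (.both (.ref 44 1) (.play 385 (.ref 42 64))))))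
 (.one (.play 327 (.both (.play 324 (.both (.play 260 (.both (.play 196 (.both (.ref 241 3) (.both (.ref 54 3) (.both (.play 389 (.ref 240 68)) (.play 388 (.both (.ref 238 128) (.both (.ref 236 132) (.ref 170 195)))))))) (.play 259 (.ref 3 259)))) (.both (.ref 47 3) (.both (.play 323 (.both (.play 388 (.both (.play 261 (.both (.play 197 (.ref 174 132)) (.play 322 (.ref 2 258)))) (.play 387 (.ref 1 323)))) (.both (.ref 235 256) (.play 387 (.ref 9 322))))) (.both (.ref 58 257) (.both (.play 323 (.both (.ref 122 257) (.ref 17 258))) (.play 259 (.ref 23 258)))))))) (.play 328 (.ref 0 325)))))))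
 (.seq (.seq (.one (.both (.play 256 (.ref 6 0)) (.play 257 (.ref 5 1))))
 (.one (.play 256 (.both (.play 192 (.ref 6 0)) (.play 257 (.ref 243 64))))))
 (.seq (.one (.play 197 (.both (.play 195 (.both (.play 259 (.ref 6 3)) (.play 194 (.both (.play 193 (.both (.play 133 (.ref 2 129)) (.play 257 (.ref 9 192)))) (.play 129 (.ref 3 129)))))) (.play 261 (.ref 4 4)))))
 (.seq (.one (.play 194 (.both (.play 258 (.ref 71 2)) (.play 193 (.ref 25 128)))))
 (.one (.both (.play 0 (.ref 0 0)) (.play 69 (.ref 0 1))))))))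
 (.seq (.seq (.seq (.one (.play 67 (.both (.play 1 (.ref 247 0)) (.play 66 (.ref 1 2)))))
 (.one (.play 65 (.both (.ref 17 0) (.play 64 (.ref 0 64))))))
 (.seq (.one (.play 257 (.both (.play 321 (.ref 147 1)) (.play 256 (.ref 1 192)))))
 (.seq (.one (.play 193 (.both (.play 194 (.both (.ref 250 0) (.play 133 (.ref 1 129)))) (.play 129 (.ref 188 128)))))
 (.one (.play 66 (.both (.ref 17 1) (.play 65 (.ref 10 64))))))))
 (.seq (.seq (.one (.both (.play 1 (.ref 4 1)) (.play 320 (.ref 6 64))))
 (.one (.play 197 (.both (.play 133 (.both (.play 261 (.both (.play 260 (.both (.play 69 (.ref 253 4)) (.ref 195 193))) (.both (.play 69 (.ref 158 5)) (.play 260 (.both (.play 324 (.both (.play 388 (.ref 70 132)) (.play 323 (.ref 1 259)))) (.both (.play 259 (.both (.ref 252 192) (.ref 13 195))) (.ref 195 193))))))) (.play 132 (.ref 3 132)))) (.both (.ref 251 67) (.both (.ref 208 129) (.both (.play 260 (.ref 26 131)) (.ref 249 131))))))))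
 (.seq (.one (.both (.play 0 (.ref 4 0)) (.play 321 (.ref 7 64))))
 (.seq (.one (.play 66 (.both (.play 2 (.ref 7 2)) (.play 65 (.ref 102 64)))))
 (.one (.play 257 (.both (.play 193 (.ref 4 0)) (.play 256 (.ref 218 0))))))))))
 (.seq (.seq (.seq (.seq (.one (.play 257 (.both (.play 256 (.ref 38 0)) (.ref 257 65))))
 (.one (.both (.play 64 (.ref 1 0)) (.play 69 (.ref 0 1)))))
 (.seq (.one (.play 66 (.both (.ref 17 1) (.play 129 (.both (.play 65 (.ref 259 64)) (.play 130 (.ref 1 65)))))))
 (.seq (.one (.play 66 (.both (.play 1 (.ref 23 0)) (.play 134 (.ref 0 66)))))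
 (.one (.both (.ref 206 0) (.play 70 (.ref 0 2)))))))
 (.seq (.seq (.one (.both (.play 1 (.ref 27 0)) (.play 320 (.ref 5 64))))
 (.one (.play 257 (.both (.play 64 (.ref 7 0)) (.ref 74 1)))))
 (.seq (.one (.play 257 (.both (.play 1 (.ref 137 0)) (.both (.ref 185 64) (.ref 264 64)))))
 (.seq (.one (.both (.play 0 (.ref 7 0)) (.play 322 (.ref 98 64))))
 (.one (.play 257 (.both (.play 256 (.ref 38 0)) (.both (.play 192 (.both (.play 256 (.ref 6 0)) (.play 321 (.ref 116 64)))) (.play 321 (.ref 266 64))))))))))
 (.seq (.seq (.seq (.one (.play 257 (.both (.play 1 (.ref 137 0)) (.both (.play 321 (.both (.play 320 (.ref 38 64)) (.play 130 (.ref 5 65)))) (.ref 37 65)))))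
 (.one (.play 193 (.both (.ref 83 0) (.ref 74 193)))))
 (.seq (.one (.play 192 (.both (.play 256 (.ref 106 0)) (.play 128 (.ref 116 64)))))
 (.seq (.one (.play 193 (.both (.ref 83 0) (.both (.play 192 (.ref 41 128)) (.ref 270 128)))))
 (.one (.play 65 (.both (.ref 17 0) (.play 132 (.ref 0 65))))))))
 (.seq (.seq (.one (.play 66 (.both (.ref 272 0) (.both (.play 70 (.ref 55 1)) (.ref 206 64)))))
 (.one (.play 193 (.both (.ref 250 0) (.play 192 (.ref 2 128))))))
 (.seq (.one (.play 64 (.both (.play 0 (.ref 7 0)) (.play 132 (.ref 3 64)))))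
 (.seq (.one (.play 64 (.both (.play 0 (.ref 4 0)) (.play 256 (.ref 4 64)))))
 (.one (.play 131 (.both (.ref 276 3) (.play 130 (.ref 103 128)))))))))))
 (.seq (.seq (.seq (.seq (.seq (.one (.play 321 (.both (.ref 202 0) (.play 320 (.ref 0 320)))))
 (.one (.play 65 (.both (.ref 17 0) (.play 4 (.ref 2 1))))))
 (.seq (.one (.play 65 (.both (.play 0 (.ref 7 0)) (.play 258 (.ref 4 65)))))
 (.one (.play 64 (.both (.ref 280 0) (.play 128 (.ref 7 64)))))))
 (.seq (.seq (.one (.both (.ref 281 0) (.play 386 (.ref 4 129))))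
 (.one (.both (.ref 59 0) (.play 8 (.ref 2 4)))))
 (.seq (.one (.play 257 (.both (.play 0 (.ref 4 0)) (.play 321 (.both (.play 256 (.ref 4 64)) (.play 385 (.ref 5 129)))))))
 (.seq (.one (.play 196 (.both (.play 260 (.ref 174 4)) (.both (.play 5 (.both (.play 260 (.ref 6 4)) (.play 198 (.both (.play 262 (.ref 4 5)) (.play 136 (.ref 2 132)))))) (.play 198 (.ref 283 128))))))
 (.one (.play 196 (.both (.play 195 (.both (.play 198 (.both (.play 262 (.ref 4 5)) (.play 134 (.ref 2 131)))) (.both (.ref 192 128) (.play 134 (.ref 161 130))))) (.play 260 (.ref 6 4)))))))))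
 (.seq (.seq (.seq (.one (.play 321 (.both (.play 65 (.ref 79 0)) (.both (.play 385 (.ref 99 64)) (.play 386 (.ref 98 128))))))
 (.one (.both (.play 5 (.ref 2 1)) (.play 128 (.ref 1 64)))))
 (.seq (.one (.play 261 (.both (.play 260 (.both (.play 324 (.ref 154 4)) (.both (.play 324 (.both (.play 69 (.ref 6 68)) (.play 262 (.ref 288 195)))) (.play 262 (.ref 283 192))))) (.both (.ref 100 4) (.both (.play 325 (.both (.play 69 (.ref 99 4)) (.both (.ref 73 68) (.play 390 (.ref 98 132))))) (.both (.ref 287 4) (.both (.play 325 (.both (.play 389 (.ref 79 68)) (.both (.play 389 (.ref 99 68)) (.ref 286 128)))) (.both (.ref 285 64) (.play 262 (.both (.ref 284 69) (.play 260 (.ref 283 192))))))))))))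
 (.seq (.one (.play 65 (.both (.play 64 (.both (.play 0 (.ref 7 0)) (.play 130 (.ref 3 64)))) (.play 322 (.ref 98 64)))))
 (.one (.play 192 (.both (.play 256 (.ref 6 0)) (.play 194 (.ref 2 128))))))))
 (.seq (.seq (.one (.play 66 (.both (.play 2 (.ref 7 2)) (.play 132 (.ref 103 64)))))
 (.one (.both (.play 0 (.ref 4 0)) (.play 385 (.ref 7 128)))))
 (.seq (.one (.play 321 (.both (.play 193 (.ref 293 0)) (.play 256 (.ref 4 64)))))
 (.seq (.one (.play 194 (.both (.play 130 (.ref 198 2)) (.ref 155 192))))
 (.one (.play 452 (.both (.play 195 (.both (.ref 295 0) (.play 388 (.ref 4 195)))) (.both (.play 451 (.ref 218 195)) (.ref 294 195))))))))))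
 (.seq (.seq (.seq (.seq (.one (.play 391 (.both (.play 455 (.both (.play 389 (.both (.play 327 (.both (.play 263 (.own 392 (.both (.ref 234 6) (.both (.play 456 (.ref 282 134)) (.ref 245 259))))) (.both (.play 325 (.both (.play 261 (.both (.ref 205 68) (.both (.ref 51 196) (.play 326 (.ref 21 260))))) (.both (.play 324 (.both (.play 453 (.both (.play 260 (.ref 198 132)) (.both (.play 454 (.both (.play 518 (.both (.play 261 (.ref 4 261)) (.play 263 (.ref 6 262)))) (.play 452 (.ref 2 388)))) (.ref 50 260)))) (.play 326 (.ref 0 324)))) (.both (.ref 289 192) (.play 326 (.ref 188 324)))))) (.both (.play 325 (.both (.play 453 (.both (.play 326 (.both (.ref 296 66) (.play 388 (.ref 1 324)))) (.both (.ref 290 196) (.both (.ref 285 256) (.both (.play 326 (.both (.ref 233 260) (.play 388 (.ref 1 324)))) (.play 261 (.both (.play 326 (.ref 21 260)) (.ref 291 260)))))))) (.both (.play 453 (.both (.play 326 (.both (.ref 296 66) (.play 324 (.ref 0 324)))) (.both (.play 261 (.both (.ref 292 194) (.ref 291 260))) (.both (.ref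 100 196) (.both (.ref 290 196) (.play 326 (.both (.ref 233 260) (.play 324 (.ref 0 324))))))))) (.both (.ref 289 192) (.play 326 (.ref 188 324)))))) (.play 263 (.both (.play 456 (.ref 282 134)) (.both (.play 456 (.ref 240 135)) (.ref 126 196)))))))) (.both (.play 390 (.both (.ref 173 132) (.both (.ref 191 323) (.ref 279 323)))) (.play 329 (.both (.play 390 (.ref 2 325)) (.play 330 (.ref 1 327))))))) (.both (.play 327 (.both (.play 326 (.both (.ref 278 4) (.both (.play 325 (.both (.ref 173 68) (.play 324 (.ref 0 324)))) (.both (.ref 277 131) (.both (.play 390 (.both (.play 262 (.both (.play 454 (.both (.ref 275 197) (.ref 246 259))) (.play 198 (.ref 4 198)))) (.both (.ref 274 196) (.play 389 (.ref 183 324))))) (.both (.ref 251 196) (.ref 273 259))))))) (.both (.play 263 (.both (.ref 271 6) (.both (.ref 269 6) (.both (.play 199 (.ref 99 134)) (.play 519 (.ref 99 198)))))) (.both (.play 519 (.both (.play 263 (.ref 99 198)) (.both (.ref 73 262) (.play 582 (.ref 49 326))))) (.ref 268 262))))) (.both (.play 456 (.both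 (.play 329 (.both (.play 265 (.ref 93 136)) (.play 330 (.ref 1 327)))) (.both (.play 519 (.ref 150 263)) (.play 520 (.both (.play 329 (.both (.play 265 (.ref 5 264)) (.play 330 (.ref 1 327)))) (.ref 267 327)))))) (.both (.play 329 (.both (.play 390 (.both (.play 519 (.both (.play 326 (.ref 240 198)) (.both (.ref 168 198) (.both (.ref 265 326) (.ref 50 326))))) (.play 389 (.ref 2 325)))) (.play 330 (.ref 1 327)))) (.play 519 (.ref 263 263))))))) (.both (.ref 242 66) (.ref 159 135)))))
 (.one (.play 65 (.both (.play 3 (.ref 161 0)) (.play 68 (.ref 2 1))))))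
 (.seq (.one (.both (.ref 298 0) (.both (.play 3 (.ref 162 0)) (.both (.play 68 (.ref 231 1)) (.play 6 (.both (.play 3 (.ref 1 2)) (.play 68 (.ref 230 2))))))))
 (.seq (.one (.play 66 (.both (.play 129 (.ref 26 0)) (.both (.play 70 (.ref 14 1)) (.play 70 (.ref 18 1))))))
 (.one (.both (.ref 173 0) (.play 197 (.ref 2 193)))))))
 (.seq (.seq (.one (.play 258 (.both (.play 197 (.ref 301 1)) (.both (.play 257 (.ref 55 192)) (.both (.play 257 (.ref 18 192)) (.play 257 (.ref 14 192)))))))
 (.one (.play 257 (.both (.play 385 (.both (.play 193 (.both (.ref 45 0) (.ref 170 192))) (.play 384 (.ref 1 320)))) (.play 256 (.ref 3 256))))))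
 (.seq (.one (.both (.play 2 (.ref 5 1)) (.play 321 (.ref 7 64))))
 (.seq (.one (.play 66 (.both (.play 65 (.ref 19 0)) (.both (.play 1 (.ref 23 0)) (.play 70 (.ref 10 65))))))
 (.one (.both (.play 2 (.ref 5 1)) (.ref 170 64)))))))
 (.seq (.seq (.seq (.one (.play 66 (.both (.play 65 (.both (.play 64 (.ref 2 0)) (.play 130 (.ref 3 65)))) (.play 134 (.ref 3 66)))))
 (.one (.both (.play 65 (.ref 25 0)) (.play 6 (.ref 1 2)))))
 (.seq (.one (.play 4 (.both (.play 65 (.ref 1 0)) (.play 69 (.ref 0 1)))))
 (.seq (.one (.play 68 (.both (.play 67 (.ref 0 0)) (.ref 309 0))))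
 (.one (.play 68 (.both (.ref 13 0) (.ref 310 65)))))))
 (.seq (.seq (.one (.play 68 (.both (.play 69 (.both (.ref 13 1) (.play 131 (.both (.play 132 (.ref 0 64)) (.play 70 (.ref 1 66)))))) (.both (.play 69 (.ref 66 1)) (.both (.ref 311 1) (.ref 8 64))))))
 (.one (.play 66 (.both (.play 1 (.ref 23 0)) (.ref 312 2)))))
 (.seq (.one (.both (.ref 313 0) (.play 3 (.ref 7 3))))
 (.seq (.one (.play 69 (.both (.play 67 (.ref 314 0)) (.play 5 (.ref 5 4)))))
 (.one (.both (.play 0 (.ref 7 0)) (.play 320 (.ref 6 64)))))))))))))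
 (.seq (.seq (.seq (.seq (.seq (.seq (.seq (.seq (.one (.play 64 (.both (.play 65 (.ref 316 0)) (.play 128 (.ref 7 64)))))
 (.one (.play 132 (.both (.ref 118 3) (.both (.ref 317 3) (.ref 315 64))))))
 (.seq (.one (.both (.play 1 (.ref 1 0)) (.play 67 (.ref 2 0))))
 (.one (.both (.play 64 (.ref 2 0)) (.play 5 (.ref 319 1))))))
 (.seq (.seq (.one (.both (.play 2 (.ref 1 0)) (.play 66 (.ref 2 0))))
 (.one (.play 321 (.both (.play 65 (.ref 111 0)) (.both (.play 65 (.ref 133 1)) (.play 384 (.ref 49 128)))))))
 (.seq (.one (.both (.play 64 (.ref 82 0)) (.both (.play 385 (.ref 99 64)) (.play 385 (.ref 133 65)))))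
 (.seq (.one (.both (.ref 215 0) (.both (.play 129 (.ref 323 0)) (.both (.play 129 (.both (.ref 53 0) (.ref 136 128))) (.both (.ref 100 64) (.both (.ref 322 64) (.play 385 (.both (.play 194 (.both (.play 192 (.both (.play 128 (.ref 7 128)) (.play 195 (.ref 0 192)))) (.play 130 (.ref 5 129)))) (.play 450 (.ref 98 192))))))))))
 (.one (.both (.ref 276 0) (.play 385 (.ref 7 128))))))))
 (.seq (.seq (.seq (.one (.play 259 (.both (.ref 292 0) (.play 324 (.ref 98 66)))))
 (.one (.both (.play 0 (.ref 3 0)) (.play 64 (.ref 2 0)))))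
 (.seq (.one (.both (.play 65 (.ref 3 0)) (.play 2 (.ref 0 0))))
 (.seq (.one (.play 1 (.both (.play 67 (.ref 102 0)) (.play 4 (.ref 0 1)))))
 (.one (.play 3 (.both (.play 67 (.ref 103 0)) (.both (.ref 329 0) (.both (.play 4 (.ref 247 1)) (.play 70 (.ref 328 2))))))))))
 (.seq (.seq (.one (.play 198 (.both (.play 196 (.both (.play 260 (.ref 6 4)) (.play 199 (.both (.ref 59 128) (.ref 65 132))))) (.play 262 (.ref 4 5)))))
 (.one (.both (.play 0 (.ref 7 0)) (.play 66 (.both (.play 2 (.ref 5 1)) (.play 67 (.ref 0 64)))))))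
 (.seq (.one (.both (.play 256 (.ref 6 0)) (.play 132 (.ref 1 128))))
 (.seq (.one (.both (.play 0 (.ref 7 0)) (.play 1 (.ref 4 1))))
 (.one (.both (.play 65 (.ref 158 1)) (.play 128 (.ref 3 128)))))))))
 (.seq (.seq (.seq (.seq (.one (.play 257 (.both (.play 256 (.ref 38 0)) (.both (.play 321 (.both (.play 192 (.both (.play 256 (.ref 6 0)) (.play 385 (.ref 7 128)))) (.ref 74 65))) (.both (.play 321 (.ref 137 64)) (.play 321 (.both (.ref 74 65) (.ref 185 128))))))))
 (.one (.both (.play 0 (.ref 7 0)) (.ref 336 64))))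
 (.seq (.one (.both (.play 129 (.ref 7 0)) (.play 128 (.ref 4 0))))
 (.one (.both (.play 129 (.ref 6 0)) (.play 128 (.ref 5 0))))))
 (.seq (.seq (.one (.play 257 (.both (.play 129 (.ref 306 0)) (.both (.play 2 (.ref 339 1)) (.both (.play 130 (.ref 71 1)) (.play 321 (.both (.play 130 (.ref 27 65)) (.both (.ref 268 128) (.ref 233 128)))))))))
 (.one (.play 64 (.both (.ref 114 0) (.play 128 (.ref 7 64))))))
 (.seq (.one (.play 129 (.both (.ref 341 0) (.play 130 (.ref 40 65)))))
 (.seq (.one (.play 193 (.both (.ref 342 0) (.both (.play 129 (.ref 42 64)) (.both (.play 129 (.both (.play 256 (.both (.play 65 (.ref 6 64)) (.play 192 (.ref 7 192)))) (.play 130 (.ref 40 65)))) (.play 192 (.ref 41 128)))))))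
 (.one (.both (.ref 343 0) (.play 512 (.ref 6 256))))))))
 (.seq (.seq (.seq (.one (.play 385 (.both (.play 257 (.ref 344 0)) (.both (.play 256 (.ref 198 128)) (.both (.play 512 (.ref 71 256)) (.play 513 (.ref 337 256)))))))
 (.one (.play 65 (.both (.play 66 (.ref 40 1)) (.play 256 (.ref 6 64))))))
 (.seq (.one (.play 129 (.both (.ref 341 0) (.both (.ref 346 0) (.play 385 (.ref 42 64))))))
 (.seq (.one (.play 257 (.both (.play 385 (.ref 344 0)) (.both (.play 193 (.both (.ref 347 0) (.both (.ref 220 0) (.play 384 (.ref 27 192))))) (.both (.play 384 (.ref 93 128)) (.play 512 (.ref 339 256)))))))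
 (.one (.both (.ref 46 0) (.play 514 (.ref 4 257)))))))
 (.seq (.seq (.one (.play 385 (.both (.play 257 (.ref 349 0)) (.both (.play 258 (.ref 93 129)) (.both (.play 513 (.ref 306 256)) (.play 514 (.ref 31 257)))))))
 (.one (.both (.ref 350 0) (.both (.play 257 (.both (.play 385 (.ref 349 0)) (.both (.play 193 (.both (.ref 241 0) (.both (.ref 54 0) (.play 386 (.ref 77 193))))) (.both (.play 386 (.ref 198 129)) (.play 514 (.ref 338 257)))))) (.both (.ref 348 1) (.both (.ref 345 1) (.both (.ref 340 256) (.play 514 (.both (.play 257 (.ref 338 257)) (.both (.play 385 (.ref 31 257)) (.both (.play 386 (.ref 337 257)) (.play 578 (.both (.play 385 (.ref 77 321)) (.both (.ref 265 385) (.ref 50 385)))))))))))))))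
 (.seq (.one (.play 65 (.both (.play 0 (.ref 3 0)) (.play 132 (.ref 0 65)))))
 (.seq (.one (.play 1 (.both (.ref 352 0) (.play 2 (.ref 3 1)))))
 (.one (.both (.ref 353 0) (.play 134 (.ref 0 66))))))))))
 (.seq (.seq (.seq (.seq (.seq (.one (.play 391 (.both (.play 455 (.both (.play 453 (.both (.play 454 (.both (.play 325 (.both (.play 326 (.both (.ref 350 4) (.both (.play 327 (.ref 354 259)) (.play 327 (.ref 262 323))))) (.both (.play 390 (.both (.play 326 (.both (.play 262 (.ref 344 5)) (.ref 155 323))) (.play 393 (.ref 1 389)))) (.both (.play 326 (.ref 351 4)) (.both (.play 389 (.both (.play 324 (.both (.play 260 (.ref 325 132)) (.both (.play 390 (.both (.play 517 (.both (.play 260 (.ref 7 260)) (.ref 244 324))) (.play 392 (.ref 3 324)))) (.play 390 (.ref 103 322))))) (.both (.ref 54 132) (.play 390 (.both (.play 454 (.both (.play 261 (.ref 158 197)) (.play 393 (.ref 1 389)))) (.play 324 (.ref 3 324))))))) (.ref 330 323)))))) (.both (.play 389 (.both (.play 325 (.both (.play 390 (.ref 335 196)) (.both (.play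 518 (.ref 240 197)) (.both (.play 517 (.both (.ref 292 258) (.both (.ref 73 260) (.ref 258 324)))) (.ref 187 258))))) (.both (.play 325 (.both (.play 390 (.ref 335 196)) (.both (.play 517 (.both (.play 260 (.both (.play 390 (.both (.play 261 (.ref 334 196)) (.play 581 (.ref 128 325)))) (.play 324 (.ref 7 260)))) (.play 516 (.ref 333 324)))) (.both (.ref 51 260) (.ref 284 261))))) (.both (.play 517 (.both (.ref 246 322) (.both (.play 388 (.both (.ref 50 324) (.play 456 (.ref 3 388)))) (.play 456 (.ref 21 388))))) (.play 388 (.ref 156 386)))))) (.both (.play 456 (.ref 301 196)) (.play 393 (.ref 319 389)))))) (.both (.play 389 (.both (.play 390 (.both (.play 325 (.both (.ref 200 68) (.both (.play 517 (.both (.ref 275 260) (.play 580 (.ref 49 324)))) (.play 324 (.ref 156 322))))) (.play 452 (.ref 1 388)))) (.both (.play 517 (.both (.ref 120 132) (.both (.play 324 (.both (.play 388 (.ref 198 196)) (.both (.play 325 (.ref 332 260)) (.play 581 (.both (.play 388 (.ref 7 324)) (.play 644 (.ref 49 388))))))) (.both (.play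 325 (.both (.play 261 (.ref 79 196)) (.both (.play 261 (.ref 111 196)) (.play 324 (.ref 332 260))))) (.both (.ref 110 258) (.play 581 (.both (.play 388 (.ref 97 324)) (.both (.ref 73 324) (.ref 331 384))))))))) (.both (.play 325 (.both (.ref 189 132) (.both (.play 326 (.both (.play 262 (.both (.play 198 (.both (.play 261 (.ref 5 197)) (.play 390 (.ref 4 198)))) (.play 517 (.ref 5 261)))) (.play 327 (.ref 259 324)))) (.both (.ref 326 258) (.ref 330 323))))) (.play 390 (.both (.play 388 (.ref 149 324)) (.play 452 (.ref 1 388)))))))) (.both (.play 389 (.both (.play 325 (.both (.play 261 (.both (.ref 75 68) (.both (.ref 53 132) (.both (.play 196 (.both (.play 454 (.both (.ref 280 132) (.play 518 (.ref 4 261)))) (.play 260 (.ref 7 196)))) (.play 517 (.ref 133 197)))))) (.both (.play 327 (.both (.play 261 (.both (.play 197 (.ref 99 132)) (.both (.play 197 (.ref 133 133)) (.play 260 (.both (.play 259 (.both (.ref 273 192) (.both (.play 262 (.both (.play 198 (.ref 5 197)) (.play 326 (.ref 0 259)))) (.play 326 (.ref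 102 258))))) (.play 196 (.ref 7 196))))))) (.both (.play 388 (.ref 321 324)) (.both (.play 326 (.ref 188 324)) (.play 390 (.ref 327 324)))))) (.both (.ref 189 132) (.both (.play 390 (.ref 172 132)) (.ref 326 258)))))) (.both (.play 325 (.both (.ref 84 68) (.both (.play 324 (.both (.play 260 (.ref 325 132)) (.play 390 (.ref 3 324)))) (.both (.play 452 (.ref 29 260)) (.play 390 (.ref 21 324)))))) (.both (.play 325 (.ref 324 132)) (.play 452 (.ref 321 388)))))) (.both (.play 454 (.both (.play 456 (.ref 301 196)) (.play 452 (.ref 2 388)))) (.play 454 (.ref 320 388))))))) (.both (.play 264 (.ref 71 199)) (.both (.play 264 (.ref 28 199)) (.play 264 (.ref 174 199)))))) (.both (.play 329 (.both (.play 327 (.both (.play 264 (.both (.ref 318 68) (.both (.ref 220 71) (.play 520 (.both (.play 519 (.both (.play 455 (.ref 128 263)) (.both (.play 455 (.ref 218 263)) (.play 390 (.both (.play 518 (.both (.play 582 (.both (.play 454 (.ref 306 325)) (.both (.play 521 (.both (.play 454 (.both (.play 327 (.ref 5 326)) (.play 453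 (.ref 3 453)))) (.play 581 (.ref 1 517)))) (.play 581 (.ref 308 515))))) (.both (.play 454 (.both (.play 582 (.ref 306 325)) (.ref 307 387))) (.both (.play 582 (.both (.play 454 (.ref 306 325)) (.both (.play 581 (.both (.play 454 (.ref 117 325)) (.play 521 (.ref 1 517)))) (.play 581 (.ref 299 515))))) (.both (.play 517 (.both (.play 581 (.both (.play 645 (.both (.play 453 (.both (.play 454 (.ref 5 389)) (.play 452 (.ref 3 452)))) (.both (.play 454 (.ref 70 389)) (.ref 268 452)))) (.play 580 (.ref 1 516)))) (.both (.play 516 (.ref 19 451)) (.play 516 (.ref 10 515))))) (.both (.ref 24 451) (.both (.play 517 (.both (.play 452 (.ref 23 451)) (.both (.play 521 (.ref 19 452)) (.ref 35 515)))) (.ref 305 451)))))))) (.play 389 (.ref 2 325))))))) (.both (.play 456 (.ref 304 263)) (.play 519 (.both (.play 455 (.ref 5 263)) (.play 456 (.ref 117 263)))))))))) (.both (.ref 254 129) (.both (.play 265 (.both (.play 456 (.ref 93 136)) (.play 326 (.both (.ref 208 258) (.play 266 (.ref 2 262)))))) (.both (.ref 181 132) (.play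 265 (.both (.play 456 (.ref 93 136)) (.play 326 (.both (.ref 251 196) (.play 266 (.ref 2 262))))))))))) (.play 330 (.ref 1 327)))) (.both (.play 390 (.both (.play 393 (.both (.ref 303 69) (.both (.play 394 (.ref 14 325)) (.play 394 (.ref 18 325))))) (.both (.ref 302 131) (.both (.ref 192 323) (.both (.ref 300 323) (.play 329 (.ref 299 324))))))) (.ref 159 135))))))
 (.one (.play 67 (.both (.play 69 (.both (.ref 305 0) (.play 5 (.ref 5 4)))) (.play 3 (.ref 7 3))))))
 (.seq (.one (.play 194 (.both (.play 65 (.both (.play 64 (.ref 41 0)) (.play 258 (.ref 158 1)))) (.play 130 (.ref 5 129)))))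
 (.one (.play 65 (.both (.play 256 (.ref 106 0)) (.play 66 (.ref 40 1)))))))
 (.seq (.seq (.one (.play 192 (.both (.ref 358 0) (.play 128 (.ref 7 128)))))
 (.one (.play 193 (.both (.ref 119 0) (.both (.ref 53 64) (.both (.ref 359 64) (.play 192 (.ref 41 128))))))))
 (.seq (.one (.play 66 (.both (.play 129 (.ref 26 0)) (.both (.play 65 (.ref 14 0)) (.play 70 (.ref 18 1))))))
 (.seq (.one (.play 195 (.both (.play 197 (.both (.play 261 (.ref 4 4)) (.ref 361 128))) (.play 259 (.ref 6 3)))))
 (.one (.play 257 (.both (.play 66 (.ref 5 1)) (.play 320 (.ref 6 64)))))))))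
 (.seq (.seq (.seq (.one (.play 66 (.both (.play 2 (.ref 5 1)) (.play 320 (.both (.play 256 (.ref 6 64)) (.ref 363 64))))))
 (.one (.play 68 (.both (.play 4 (.ref 5 3)) (.play 69 (.ref 162 64))))))
 (.seq (.one (.play 66 (.both (.play 130 (.both (.ref 365 0) (.play 323 (.ref 7 66)))) (.play 2 (.ref 7 2)))))
 (.seq (.one (.play 68 (.both (.play 67 (.both (.play 0 (.ref 0 0)) (.play 6 (.ref 178 2)))) (.play 69 (.ref 0 1)))))
 (.one (.play 2 (.both (.ref 35 0) (.both (.play 66 (.ref 9 1)) (.ref 367 1))))))))
 (.seq (.seq (.one (.play 257 (.both (.play 258 (.both (.play 129 (.both (.play 65 (.ref 31 1)) (.play 128 (.ref 3 128)))) (.play 197 (.ref 1 193)))) (.play 256 (.ref 1 192)))))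
 (.one (.play 195 (.both (.ref 369 2) (.both (.ref 252 128) (.both (.play 258 (.ref 26 129)) (.both (.play 194 (.both (.ref 17 129) (.ref 367 193))) (.ref 368 192))))))))
 (.seq (.one (.play 198 (.both (.play 196 (.both (.ref 370 0) (.play 132 (.ref 7 132)))) (.play 134 (.ref 5 133)))))
 (.seq (.one (.play 195 (.both (.ref 119 2) (.both (.ref 214 2) (.both (.play 130 (.ref 82 66)) (.both (.ref 213 66) (.ref 366 128)))))))
 (.one (.both (.ref 371 0) (.both (.ref 115 68) (.both (.ref 144 68) (.play 132 (.ref 82 68)))))))))))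
 (.seq (.seq (.seq (.seq (.one (.both (.play 64 (.ref 2 0)) (.play 5 (.ref 1 1))))
 (.one (.both (.play 65 (.ref 374 0)) (.play 259 (.ref 7 2)))))
 (.seq (.one (.play 192 (.both (.play 65 (.ref 106 0)) (.play 128 (.ref 7 128)))))
 (.seq (.one (.both (.ref 53 0) (.play 384 (.ref 6 128))))
 (.one (.play 193 (.both (.play 129 (.ref 377 0)) (.both (.ref 376 64) (.play 192 (.ref 41 128)))))))))
 (.seq (.seq (.one (.play 260 (.both (.play 259 (.both (.play 322 (.both (.ref 378 2) (.play 321 (.ref 231 256)))) (.play 196 (.ref 5 195)))) (.both (.play 196 (.both (.play 324 (.both (.play 132 (.ref 6 131)) (.play 515 (.ref 5 259)))) (.play 259 (.ref 5 195)))) (.both (.play 259 (.both (.play 258 (.both (.play 194 (.ref 7 194)) (.play 322 (.ref 375 256)))) (.play 196 (.ref 5 195)))) (.ref 167 258))))))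
 (.one (.play 193 (.both (.ref 134 0) (.play 448 (.ref 38 192))))))
 (.seq (.one (.play 321 (.both (.play 64 (.ref 41 0)) (.play 385 (.ref 137 128)))))
 (.seq (.one (.both (.ref 272 0) (.play 134 (.ref 0 66))))
 (.one (.play 131 (.both (.ref 146 2) (.play 132 (.ref 2 128)))))))))
 (.seq (.seq (.seq (.one (.both (.ref 202 0) (.play 389 (.ref 0 321))))
 (.one (.play 68 (.both (.play 70 (.both (.play 67 (.both (.ref 207 0) (.ref 312 3))) (.play 6 (.ref 5 5)))) (.play 4 (.ref 7 4))))))
 (.seq (.one (.play 133 (.both (.ref 115 4) (.both (.play 69 (.ref 111 4)) (.ref 385 64)))))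
 (.seq (.one (.both (.play 0 (.ref 7 0)) (.play 131 (.ref 3 64))))
 (.one (.play 257 (.both (.play 193 (.both (.ref 75 0) (.play 448 (.ref 38 192)))) (.both (.ref 134 64) (.play 513 (.ref 79 192)))))))))
 (.seq (.seq (.one (.play 131 (.both (.ref 146 2) (.play 132 (.ref 231 128)))))
 (.one (.play 197 (.both (.ref 389 2) (.both (.play 131 (.both (.play 130 (.ref 103 128)) (.play 388 (.ref 7 131)))) (.play 388 (.ref 52 131)))))))
 (.seq (.one (.play 3 (.both (.ref 368 0) (.play 71 (.ref 0 3)))))
 (.seq (.one (.play 197 (.both (.play 196 (.both (.play 199 (.both (.ref 369 3) (.ref 383 4))) (.both (.play 195 (.both (.ref 252 128) (.play 263 (.ref 0 195)))) (.both (.ref 273 129) (.both (.play 195 (.ref 165 129)) (.ref 391 192)))))) (.both (.ref 390 2) (.play 133 (.ref 325 5))))))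
 (.one (.play 193 (.both (.play 257 (.ref 158 0)) (.play 129 (.ref 128 64))))))))))))
 (.seq (.seq (.seq (.seq (.seq (.seq (.one (.play 193 (.both (.ref 75 0) (.both (.play 194 (.ref 40 129)) (.ref 393 129)))))
 (.one (.play 195 (.both (.ref 75 2) (.both (.play 388 (.both (.play 324 (.both (.play 131 (.ref 4 131)) (.ref 126 192))) (.play 452 (.ref 4 195)))) (.play 194 (.ref 41 130)))))))
 (.seq (.one (.play 259 (.both (.ref 395 0) (.both (.ref 394 2) (.both (.ref 134 66) (.both (.play 194 (.ref 82 130)) (.ref 127 192)))))))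
 (.one (.play 195 (.both (.ref 83 2) (.both (.play 386 (.both (.play 322 (.both (.play 131 (.ref 6 130)) (.ref 365 192))) (.play 450 (.ref 6 194)))) (.play 196 (.ref 40 131))))))))
 (.seq (.seq (.one (.play 259 (.both (.ref 397 0) (.both (.ref 271 2) (.both (.ref 119 66) (.both (.ref 53 130) (.ref 366 192)))))))
 (.one (.both (.play 197 (.both (.play 261 (.both (.play 4 (.ref 4 4)) (.play 258 (.ref 183 193)))) (.both (.play 195 (.both (.play 4 (.ref 6 3)) (.play 258 (.ref 374 193)))) (.both (.play 4 (.both (.play 195 (.ref 6 3)) (.play 261 (.ref 4 4)))) (.play 258 (.ref 299 192)))))) (.play 323 (.ref 6 67)))))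
 (.seq (.one (.play 260 (.both (.play 451 (.both (.play 196 (.both (.ref 75 3) (.play 387 (.ref 6 195)))) (.play 515 (.ref 6 259)))) (.both (.play 196 (.ref 111 131)) (.play 261 (.both (.play 197 (.ref 5 196)) (.play 323 (.both (.play 322 (.ref 299 256)) (.both (.play 325 (.both (.play 322 (.ref 183 257)) (.play 516 (.ref 5 260)))) (.both (.play 259 (.ref 375 257)) (.play 516 (.both (.play 259 (.ref 7 259)) (.play 325 (.ref 5 260))))))))))))))
 (.seq (.one (.play 129 (.both (.play 64 (.ref 82 0)) (.play 322 (.ref 4 129)))))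
 (.one (.both (.play 66 (.ref 3 0)) (.play 2 (.ref 0 0))))))))
 (.seq (.seq (.seq (.one (.play 259 (.both (.ref 394 2) (.both (.ref 134 66) (.both (.play 194 (.ref 82 130)) (.both (.ref 357 130) (.ref 127 192)))))))
 (.one (.both (.play 1 (.ref 1 0)) (.play 5 (.ref 1 1)))))
 (.seq (.one (.both (.play 64 (.ref 2 0)) (.play 5 (.ref 404 1))))
 (.seq (.one (.play 194 (.both (.play 258 (.ref 6 2)) (.play 193 (.ref 405 128)))))
 (.one (.both (.play 3 (.ref 0 0)) (.play 65 (.ref 3 0)))))))
 (.seq (.seq (.one (.both (.ref 208 0) (.play 136 (.ref 0 68))))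
 (.one (.play 68 (.both (.play 70 (.ref 408 0)) (.both (.play 67 (.both (.ref 273 0) (.both (.play 66 (.ref 165 0)) (.play 134 (.ref 407 67))))) (.both (.play 134 (.ref 103 66)) (.play 136 (.ref 402 68))))))))
 (.seq (.one (.play 65 (.both (.play 64 (.ref 41 0)) (.play 256 (.ref 6 64)))))
 (.seq (.one (.play 257 (.both (.ref 380 0) (.both (.ref 83 64) (.play 258 (.ref 40 193))))))
 (.one (.play 131 (.both (.play 258 (.ref 93 2)) (.play 132 (.ref 2 128))))))))))
 (.seq (.seq (.seq (.seq (.one (.play 195 (.both (.ref 412 1) (.play 128 (.ref 3 128)))))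
 (.one (.play 322 (.both (.ref 54 0) (.ref 413 128)))))
 (.seq (.one (.play 196 (.both (.play 260 (.ref 4 3)) (.play 197 (.ref 156 128)))))
 (.one (.both (.play 0 (.ref 3 0)) (.play 258 (.ref 7 1))))))
 (.seq (.seq (.one (.play 69 (.both (.ref 89 0) (.play 133 (.ref 0 66)))))
 (.one (.play 5 (.both (.ref 190 0) (.play 260 (.ref 5 4))))))
 (.seq (.one (.play 256 (.both (.play 192 (.ref 6 0)) (.play 257 (.ref 316 0)))))
 (.seq (.one (.both (.play 4 (.ref 2 0)) (.play 131 (.ref 0 64))))
 (.one (.play 4 (.both (.play 65 (.ref 1 0)) (.play 68 (.ref 0 1)))))))))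
 (.seq (.seq (.seq (.one (.both (.play 1 (.ref 1 0)) (.play 66 (.ref 2 0))))
 (.one (.both (.ref 298 0) (.both (.play 3 (.ref 162 0)) (.both (.play 68 (.ref 183 1)) (.play 6 (.ref 422 2)))))))
 (.seq (.one (.play 129 (.both (.ref 53 0) (.play 322 (.ref 4 129)))))
 (.seq (.one (.play 193 (.both (.play 321 (.both (.ref 424 0) (.play 320 (.ref 1 256)))) (.play 192 (.ref 3 192)))))
 (.one (.play 65 (.both (.ref 17 0) (.play 132 (.ref 247 64))))))))
 (.seq (.seq (.one (.play 67 (.both (.ref 252 0) (.both (.play 2 (.ref 23 1)) (.both (.play 132 (.both (.ref 426 1) (.play 131 (.ref 1 67)))) (.play 131 (.ref 9 66)))))))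
 (.one (.play 129 (.both (.play 65 (.both (.play 64 (.ref 41 0)) (.play 322 (.ref 4 65)))) (.play 66 (.ref 5 65))))))
 (.seq (.one (.play 129 (.both (.ref 153 0) (.both (.play 192 (.ref 93 0)) (.both (.play 257 (.ref 106 64)) (.play 384 (.both (.play 192 (.ref 5 128)) (.play 257 (.ref 6 128)))))))))
 (.seq (.one (.play 257 (.both (.play 385 (.both (.play 194 (.both (.ref 429 1) (.both (.ref 428 64) (.play 258 (.both (.play 449 (.ref 5 193)) (.play 386 (.ref 4 194))))))) (.play 384 (.ref 1 320)))) (.play 256 (.ref 3 256)))))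
 (.one (.play 328 (.both (.play 325 (.both (.ref 430 4) (.both (.play 262 (.both (.play 198 (.both (.play 134 (.ref 4 134)) (.ref 164 194))) (.both (.ref 276 134) (.play 324 (.both (.play 323 (.both (.ref 279 257) (.play 390 (.ref 0 323)))) (.play 388 (.ref 9 323))))))) (.both (.play 324 (.both (.play 323 (.both (.ref 91 256) (.play 390 (.ref 0 323)))) (.both (.ref 237 257) (.ref 17 259)))) (.both (.play 264 (.both (.ref 427 257) (.play 265 (.ref 2 261)))) (.play 260 (.ref 23 259))))))) (.both (.play 329 (.both (.ref 425 69) (.play 393 (.ref 0 326)))) (.both (.ref 277 131) (.both (.play 389 (.both (.play 265 (.both (.ref 121 260) (.play 329 (.ref 420 262)))) (.both (.play 388 (.ref 423 322)) (.ref 421 325)))) (.ref 417 260)))))))))))))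
 (.seq (.seq (.seq (.seq (.seq (.one (.play 70 (.both (.play 68 (.both (.play 71 (.both (.ref 208 0) (.ref 311 4))) (.play 4 (.ref 7 4)))) (.play 6 (.ref 5 5)))))
 (.one (.play 192 (.both (.play 256 (.ref 6 0)) (.play 258 (.both (.play 194 (.ref 4 1)) (.play 259 (.ref 3 192))))))))
 (.seq (.one (.play 192 (.both (.play 256 (.ref 6 0)) (.play 259 (.ref 3 192)))))
 (.one (.play 259 (.both (.ref 271 2) (.both (.ref 119 66) (.both (.ref 53 130) (.both (.ref 359 130) (.ref 366 192)))))))))
 (.seq (.seq (.one (.play 325 (.both (.ref 435 2) (.both (.play 261 (.both (.ref 394 4) (.both (.ref 134 68) (.both (.ref 357 132) (.both (.ref 53 132) (.ref 127 194)))))) (.both (.play 261 (.both (.play 197 (.both (.ref 75 4) (.both (.ref 83 4) (.play 454 (.both (.ref 434 196) (.play 390 (.ref 4 197))))))) (.both (.ref 134 68) (.play 260 (.ref 41 196))))) (.both (.play 261 (.both (.ref 119 68) (.both (.play 197 (.both (.ref 115 68) (.both (.ref 131 69) (.ref 433 196)))) (.both (.play 197 (.both (.ref 115 68) (.both (.play 326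 (.both (.play 390 (.ref 158 133)) (.play 262 (.ref 5 261)))) (.ref 433 196)))) (.play 262 (.ref 40 197)))))) (.both (.ref 53 196) (.ref 432 256))))))))
 (.one (.play 68 (.both (.ref 16 1) (.play 128 (.ref 1 64))))))
 (.seq (.one (.play 68 (.both (.play 0 (.ref 3 0)) (.play 69 (.ref 1 65)))))
 (.seq (.one (.play 67 (.both (.play 68 (.ref 247 0)) (.play 66 (.ref 178 1)))))
 (.one (.play 67 (.both (.ref 148 0) (.both (.play 131 (.ref 9 66)) (.ref 439 66)))))))))
 (.seq (.seq (.seq (.one (.both (.play 325 (.both (.ref 278 3) (.both (.play 324 (.both (.ref 173 67) (.both (.ref 440 256) (.ref 353 258)))) (.both (.play 389 (.both (.play 261 (.both (.ref 54 68) (.ref 438 260))) (.both (.ref 274 195) (.play 388 (.ref 183 323))))) (.both (.ref 251 195) (.both (.ref 273 258) (.play 324 (.both (.play 328 (.both (.ref 17 259) (.ref 437 261))) (.play 323 (.ref 0 323)))))))))) (.play 583 (.ref 7 326))))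
 (.one (.play 194 (.both (.play 258 (.ref 4 1)) (.play 195 (.ref 3 128))))))
 (.seq (.one (.play 391 (.both (.play 327 (.both (.play 390 (.both (.play 326 (.ref 441 0)) (.both (.play 263 (.both (.ref 342 70) (.ref 442 262))) (.play 263 (.both (.play 264 (.ref 40 199)) (.ref 442 262)))))) (.both (.play 326 (.both (.play 390 (.ref 441 0)) (.play 262 (.ref 7 262)))) (.both (.ref 414 134) (.both (.play 262 (.ref 82 198)) (.ref 223 258)))))) (.both (.ref 436 2) (.both (.play 390 (.both (.ref 431 64) (.both (.play 326 (.ref 325 198)) (.both (.play 392 (.both (.ref 209 322) (.both (.ref 418 323) (.both (.play 329 (.both (.play 328 (.both (.play 389 (.ref 2 325)) (.play 583 (.ref 5 327)))) (.play 393 (.ref 420 326)))) (.play 454 (.both (.play 583 (.both (.play 328 (.ref 5 327)) (.ref 419 390))) (.play 393 (.ref 34 389)))))))) (.play 392 (.both (.ref 418 323) (.both (.ref 417 324) (.both (.play 393 (.both (.play 326 (.ref 416 325)) (.play 457 (.ref 0 390)))) (.play 583 (.ref 52 326)))))))))) (.both (.play 583 (.both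 (.play 327 (.both (.play 390 (.both (.play 263 (.both (.ref 220 70) (.ref 415 260))) (.play 326 (.ref 7 326)))) (.both (.ref 134 134) (.both (.ref 414 134) (.play 326 (.ref 41 262)))))) (.both (.ref 73 326) (.play 647 (.ref 139 390))))) (.both (.ref 135 132) (.both (.play 456 (.both (.ref 229 134) (.ref 413 262))) (.play 583 (.both (.ref 364 326) (.both (.ref 73 326) (.ref 143 326))))))))))))
 (.seq (.one (.play 456 (.both (.ref 443 1) (.both (.play 519 (.both (.play 518 (.both (.play 392 (.both (.play 328 (.both (.ref 411 7) (.both (.play 327 (.both (.play 329 (.both (.ref 370 131) (.play 265 (.ref 5 264)))) (.play 263 (.ref 7 263)))) (.both (.ref 410 199) (.ref 53 199))))) (.both (.play 390 (.both (.play 389 (.both (.play 454 (.both (.play 326 (.both (.ref 343 69) (.play 583 (.ref 4 326)))) (.both (.play 325 (.ref 198 197)) (.both (.ref 50 325) (.play 583 (.ref 31 326)))))) (.both (.play 391 (.both (.play 325 (.both (.play 454 (.ref 198 197)) (.play 324 (.ref 3 324)))) (.play 457 (.ref 0 389)))) (.both (.play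 391 (.both (.play 454 (.both (.ref 208 321) (.play 583 (.ref 31 326)))) (.play 457 (.ref 0 389)))) (.play 391 (.ref 165 323)))))) (.both (.play 391 (.both (.ref 348 70) (.play 389 (.ref 165 323)))) (.both (.play 391 (.both (.ref 345 70) (.play 389 (.ref 165 323)))) (.both (.play 391 (.ref 351 69)) (.both (.play 454 (.both (.ref 54 197) (.ref 409 321))) (.both (.play 454 (.both (.play 326 (.ref 282 197)) (.both (.play 582 (.both (.ref 45 197) (.both (.play 646 (.ref 79 325)) (.play 646 (.both (.play 645 (.ref 38 389)) (.play 710 (.both (.play 455 (.ref 5 454)) (.ref 74 454)))))))) (.both (.play 582 (.both (.play 646 (.ref 79 325)) (.both (.play 646 (.ref 99 325)) (.play 581 (.both (.play 583 (.both (.play 647 (.ref 4 390)) (.play 580 (.ref 183 515)))) (.play 645 (.ref 6 389))))))) (.play 583 (.ref 62 326)))))) (.play 391 (.both (.play 389 (.ref 165 323)) (.ref 340 325)))))))))) (.both (.ref 220 199) (.play 583 (.ref 174 327)))))) (.both (.play 517 (.both (.ref 303 196) (.both (.ref 279 451) (.ref 122 451))))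 (.both (.ref 190 451) (.play 457 (.ref 405 453)))))) (.both (.ref 242 194) (.ref 159 263)))) (.both (.play 392 (.both (.play 457 (.both (.play 328 (.both (.play 264 (.both (.ref 394 7) (.play 519 (.ref 38 263)))) (.both (.ref 223 259) (.play 519 (.both (.play 455 (.both (.play 327 (.both (.play 391 (.both (.ref 176 260) (.play 518 (.both (.play 582 (.ref 6 326)) (.play 517 (.ref 2 453)))))) (.play 263 (.ref 7 263)))) (.play 264 (.ref 6 263)))) (.play 583 (.ref 6 327))))))) (.both (.play 391 (.both (.ref 390 196) (.play 458 (.ref 3 391)))) (.both (.play 328 (.both (.play 264 (.both (.play 265 (.ref 40 200)) (.play 521 (.ref 4 264)))) (.ref 406 325))) (.play 458 (.both (.play 455 (.both (.ref 260 388) (.ref 13 391))) (.play 519 (.ref 1 455)))))))) (.both (.play 519 (.both (.play 328 (.both (.ref 403 5) (.play 583 (.ref 6 327)))) (.both (.play 522 (.both (.play 458 (.both (.play 394 (.both (.ref 46 137) (.both (.play 393 (.both (.play 329 (.ref 198 201)) (.play 391 (.ref 0 391)))) (.play 395 (.both (.play 331 (.ref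 5 330)) (.play 456 (.both (.play 391 (.ref 402 391)) (.both (.play 455 (.ref 321 391)) (.both (.play 393 (.ref 188 391)) (.play 457 (.ref 327 391))))))))))) (.both (.play 457 (.both (.play 393 (.ref 198 265)) (.play 456 (.ref 26 390)))) (.both (.play 395 (.ref 93 266)) (.play 457 (.both (.play 456 (.ref 26 390)) (.play 650 (.ref 52 393)))))))) (.play 521 (.ref 0 519)))) (.both (.play 328 (.both (.ref 119 135) (.play 583 (.ref 6 327)))) (.play 328 (.ref 399 260)))))) (.both (.ref 400 68) (.both (.ref 396 69) (.both (.play 328 (.both (.ref 394 71) (.both (.ref 115 199) (.play 584 (.ref 42 263))))) (.both (.play 519 (.both (.play 518 (.both (.play 521 (.both (.play 454 (.both (.play 582 (.both (.play 390 (.both (.play 326 (.both (.ref 401 133) (.both (.play 389 (.both (.play 455 (.both (.play 262 (.ref 4 262)) (.ref 155 387))) (.play 325 (.ref 7 325)))) (.play 325 (.ref 41 261))))) (.both (.ref 45 197) (.both (.ref 227 198) (.both (.ref 53 261) (.ref 238 322)))))) (.play 581 (.ref 1 517)))) (.play 453 (.ref 3 453))))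 (.play 522 (.ref 0 519)))) (.both (.ref 193 450) (.both (.play 517 (.both (.ref 90 450) (.play 457 (.ref 2 453)))) (.both (.ref 190 451) (.play 517 (.both (.ref 88 451) (.play 457 (.ref 2 453))))))))) (.both (.play 328 (.both (.ref 214 135) (.play 583 (.ref 6 327)))) (.both (.play 328 (.both (.play 457 (.both (.ref 225 199) (.play 458 (.ref 1 455)))) (.play 583 (.ref 6 327)))) (.play 328 (.ref 399 260)))))) (.both (.ref 392 194) (.ref 386 195))))))))) (.both (.play 392 (.both (.ref 400 68) (.both (.play 328 (.both (.ref 395 69) (.both (.play 519 (.ref 399 260)) (.ref 73 263)))) (.both (.ref 398 69) (.both (.ref 396 69) (.both (.ref 388 71) (.both (.play 328 (.both (.ref 394 71) (.both (.ref 83 135) (.both (.play 264 (.both (.play 457 (.ref 282 135)) (.play 519 (.ref 38 263)))) (.ref 364 263))))) (.both (.ref 392 194) (.both (.ref 386 195) (.both (.play 584 (.ref 373 195)) (.ref 215 199))))))))))) (.both (.play 392 (.both (.ref 388 71) (.both (.play 584 (.both (.play 457 (.both (.ref 46 135) (.both (.play 391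 (.ref 387 327)) (.play 458 (.ref 21 391))))) (.both (.ref 138 327) (.ref 381 327)))) (.both (.ref 386 195) (.both (.ref 215 199) (.both (.play 328 (.both (.ref 115 199) (.both (.play 263 (.ref 82 199)) (.play 584 (.ref 111 263))))) (.both (.ref 112 199) (.both (.play 584 (.both (.play 328 (.ref 111 263)) (.both (.play 648 (.ref 111 327)) (.both (.play 648 (.both (.ref 270 327) (.both (.play 647 (.ref 38 391)) (.ref 381 391)))) (.play 648 (.both (.play 393 (.ref 40 328)) (.ref 381 391))))))) (.play 584 (.both (.ref 73 327) (.both (.ref 138 327) (.ref 143 327)))))))))))) (.both (.play 584 (.both (.play 392 (.both (.play 391 (.both (.play 390 (.both (.play 389 (.ref 384 68)) (.both (.play 393 (.both (.ref 173 133) (.ref 383 198))) (.both (.ref 273 323) (.both (.play 389 (.ref 382 323)) (.play 389 (.both (.play 388 (.both (.play 452 (.ref 9 387)) (.play 455 (.ref 0 388)))) (.play 457 (.ref 0 389))))))))) (.play 327 (.ref 7 327)))) (.both (.play 328 (.ref 79 263)) (.both (.play 328 (.ref 42 263)) (.play 328 (.ref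 111 263)))))) (.both (.play 648 (.both (.play 457 (.both (.play 455 (.both (.play 454 (.both (.ref 173 197) (.both (.play 453 (.ref 55 388)) (.play 521 (.ref 247 453))))) (.play 391 (.ref 7 391)))) (.play 393 (.ref 5 392)))) (.both (.ref 138 391) (.both (.play 712 (.ref 42 391)) (.ref 381 391))))) (.both (.ref 215 263) (.both (.play 648 (.ref 323 327)) (.both (.play 648 (.both (.play 392 (.ref 111 327)) (.both (.ref 236 392) (.play 713 (.ref 98 455))))) (.ref 287 327))))))) (.both (.play 392 (.both (.play 328 (.both (.ref 135 69) (.both (.ref 380 71) (.both (.ref 83 135) (.ref 364 263))))) (.both (.ref 379 69) (.both (.play 328 (.both (.ref 360 71) (.both (.ref 83 135) (.both (.ref 108 199) (.ref 73 263))))) (.both (.play 328 (.ref 373 131)) (.both (.ref 372 133) (.both (.play 584 (.both (.ref 371 195) (.both (.ref 366 325) (.both (.ref 364 327) (.ref 73 327))))) (.ref 215 199)))))))) (.both (.play 584 (.both (.play 392 (.both (.play 328 (.both (.play 264 (.both (.ref 75 71) (.both (.ref 115 135) (.ref 362 260))))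 (.both (.ref 119 135) (.play 329 (.ref 40 264))))) (.both (.play 328 (.both (.play 264 (.both (.ref 83 71) (.both (.play 200 (.ref 133 136)) (.ref 362 260)))) (.both (.ref 134 135) (.play 327 (.ref 41 263))))) (.both (.ref 360 135) (.both (.play 328 (.both (.ref 134 135) (.both (.ref 357 199) (.both (.ref 53 199) (.play 329 (.ref 40 264)))))) (.both (.ref 53 263) (.ref 356 324))))))) (.both (.ref 141 391) (.play 648 (.ref 139 391))))) (.both (.ref 355 128) (.both (.ref 297 128) (.both (.play 519 (.both (.play 457 (.both (.play 455 (.both (.play 454 (.both (.ref 47 133) (.both (.play 453 (.both (.ref 17 388) (.play 452 (.ref 262 450)))) (.both (.play 453 (.both (.ref 261 386) (.both (.ref 248 451) (.play 517 (.ref 9 452))))) (.both (.ref 260 387) (.play 389 (.ref 23 388))))))) (.both (.play 391 (.both (.ref 54 198) (.both (.play 583 (.both (.play 327 (.both (.play 326 (.ref 41 262)) (.play 263 (.ref 4 263)))) (.ref 258 390))) (.both (.play 583 (.both (.ref 256 324) (.play 646 (.ref 49 390)))) (.play 584 (.ref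 255 327)))))) (.both (.ref 254 257) (.both (.play 454 (.both (.ref 182 261) (.play 453 (.both (.play 452 (.ref 165 386)) (.both (.ref 248 451) (.play 517 (.ref 9 452))))))) (.play 391 (.both (.play 327 (.ref 158 263)) (.both (.ref 246 324) (.play 583 (.both (.play 517 (.both (.ref 245 387) (.play 518 (.ref 2 453)))) (.both (.ref 244 390) (.play 648 (.both (.play 584 (.ref 4 391)) (.play 647 (.both (.play 712 (.ref 4 455)) (.play 711 (.ref 5 455))))))))))))))))) (.play 458 (.ref 1 455)))) (.both (.ref 242 194) (.ref 159 263)))) (.both (.play 392 (.both (.ref 135 133) (.both (.play 457 (.both (.play 584 (.both (.ref 234 135) (.both (.ref 115 263) (.ref 233 391)))) (.both (.ref 232 197) (.both (.play 519 (.both (.play 583 (.ref 71 327)) (.play 518 (.ref 231 453)))) (.play 458 (.ref 21 391)))))) (.both (.play 457 (.both (.ref 229 135) (.play 458 (.ref 21 391)))) (.both (.play 519 (.both (.play 457 (.both (.play 328 (.both (.ref 225 199) (.both (.ref 219 200) (.ref 223 259)))) (.play 458 (.ref 1 455)))) (.both (.ref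 220 199) (.both (.play 457 (.both (.play 328 (.both (.ref 219 200) (.play 583 (.ref 6 327)))) (.play 458 (.ref 1 455)))) (.play 521 (.both (.play 518 (.both (.play 454 (.both (.play 582 (.both (.ref 171 261) (.play 581 (.ref 1 517)))) (.play 453 (.ref 3 453)))) (.play 457 (.ref 183 453)))) (.both (.play 522 (.both (.ref 217 452) (.play 587 (.ref 0 519)))) (.play 522 (.ref 149 455))))))))) (.both (.ref 215 199) (.play 584 (.both (.ref 143 327) (.play 647 (.both (.play 583 (.ref 6 391)) (.play 648 (.ref 140 455)))))))))))) (.both (.play 584 (.both (.play 392 (.both (.ref 119 199) (.both (.ref 214 199) (.both (.ref 53 263) (.both (.ref 213 263) (.ref 210 323)))))) (.both (.play 392 (.both (.ref 115 263) (.both (.play 328 (.ref 111 263)) (.ref 210 323)))) (.both (.ref 205 263) (.both (.play 648 (.both (.ref 109 327) (.both (.ref 108 327) (.both (.ref 113 451) (.both (.play 713 (.ref 98 455)) (.ref 101 455)))))) (.ref 141 391)))))) (.both (.ref 203 256) (.play 584 (.both (.play 457 (.both (.play 393 (.ref 147 264))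 (.play 458 (.ref 145 390)))) (.both (.play 392 (.both (.ref 115 263) (.both (.ref 144 263) (.ref 143 327)))) (.both (.ref 141 391) (.play 648 (.ref 139 391))))))))))))))))))))))
 (.one (.play 65 (.both (.play 1 (.ref 3 0)) (.play 129 (.ref 1 64))))))))
 (.seq (.seq (.one (.play 130 (.both (.play 66 (.both (.play 257 (.ref 128 1)) (.play 133 (.ref 3 65)))) (.play 192 (.ref 1 128)))))
 (.one (.play 194 (.both (.play 258 (.ref 6 2)) (.play 132 (.ref 162 128))))))
 (.seq (.one (.play 261 (.both (.play 132 (.ref 4 4)) (.play 194 (.ref 165 128)))))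
 (.seq (.one (.play 323 (.both (.play 325 (.both (.play 322 (.both (.ref 303 1) (.both (.play 321 (.ref 19 256)) (.ref 35 320)))) (.play 326 (.ref 2 259)))) (.both (.play 260 (.both (.ref 410 3) (.play 387 (.ref 6 131)))) (.play 325 (.both (.ref 448 128) (.play 326 (.ref 2 259))))))))
 (.one (.both (.play 2 (.ref 6 1)) (.play 256 (.ref 1 192)))))))))
 (.seq (.seq (.seq (.seq (.one (.play 194 (.both (.play 1 (.ref 4 1)) (.play 195 (.ref 3 128)))))
 (.one (.play 4 (.both (.play 65 (.ref 178 0)) (.play 68 (.ref 0 1))))))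
 (.seq (.one (.play 65 (.both (.play 1 (.ref 34 0)) (.play 5 (.ref 1 1)))))
 (.seq (.one (.both (.play 0 (.ref 4 0)) (.play 1 (.ref 5 0))))
 (.one (.play 68 (.both (.play 4 (.ref 5 3)) (.play 69 (.ref 308 64))))))))
 (.seq (.seq (.one (.play 67 (.both (.play 131 (.both (.ref 455 0) (.play 322 (.ref 5 66)))) (.both (.play 131 (.ref 150 2)) (.play 66 (.ref 454 2))))))
 (.one (.play 129 (.both (.play 64 (.ref 82 0)) (.both (.play 65 (.ref 99 0)) (.play 385 (.ref 133 65)))))))
 (.seq (.one (.play 133 (.both (.play 69 (.ref 99 4)) (.both (.ref 131 5) (.ref 432 64)))))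
 (.seq (.one (.play 257 (.both (.play 64 (.ref 7 0)) (.play 66 (.ref 5 1)))))
 (.one (.play 134 (.both (.play 132 (.both (.play 196 (.ref 198 4)) (.both (.play 133 (.ref 314 65)) (.ref 459 132)))) (.both (.play 198 (.ref 147 5)) (.play 133 (.both (.play 132 (.both (.ref 221 64) (.play 68 (.ref 7 68)))) (.play 70 (.ref 5 69))))))))))))
 (.seq (.seq (.seq (.one (.play 193 (.both (.ref 119 0) (.ref 74 193))))
 (.one (.play 259 (.both (.ref 372 0) (.both (.ref 461 2) (.both (.ref 75 66) (.play 258 (.ref 97 194))))))))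
 (.seq (.one (.play 133 (.both (.play 69 (.ref 42 4)) (.both (.play 69 (.ref 99 4)) (.both (.play 69 (.ref 133 5)) (.play 326 (.both (.ref 223 64) (.play 390 (.ref 4 133)))))))))
 (.seq (.one (.play 69 (.both (.play 65 (.both (.play 64 (.ref 1 0)) (.ref 309 1))) (.play 68 (.ref 0 1)))))
 (.one (.play 67 (.both (.play 68 (.both (.play 1 (.ref 247 0)) (.play 7 (.ref 1 3)))) (.play 66 (.ref 1 2))))))))
 (.seq (.seq (.one (.play 6 (.both (.ref 465 0) (.both (.ref 8 2) (.ref 464 2)))))
 (.one (.play 68 (.both (.ref 13 0) (.play 69 (.ref 10 64))))))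
 (.seq (.one (.play 131 (.both (.play 67 (.ref 71 2)) (.play 132 (.ref 2 128)))))
 (.seq (.one (.play 260 (.both (.play 259 (.both (.ref 468 1) (.play 192 (.ref 0 192)))) (.play 261 (.ref 0 193)))))
 (.one (.both (.play 194 (.both (.play 196 (.both (.play 197 (.both (.ref 469 1) (.both (.play 198 (.both (.ref 13 130) (.ref 465 192))) (.both (.ref 16 130) (.both (.ref 467 130) (.ref 466 192)))))) (.play 132 (.ref 5 131)))) (.play 130 (.ref 7 130)))) (.both (.play 388 (.ref 282 66)) (.both (.ref 53 66) (.ref 131 67)))))))))))))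
 (.seq (.seq (.seq (.seq (.seq (.seq (.seq (.one (.play 257 (.both (.play 0 (.ref 4 0)) (.play 321 (.ref 3 256)))))
 (.one (.play 257 (.both (.play 130 (.ref 71 1)) (.play 256 (.ref 1 192))))))
 (.seq (.one (.play 67 (.both (.play 66 (.ref 3 0)) (.ref 472 1))))
 (.one (.play 194 (.both (.ref 473 0) (.play 130 (.ref 3 129)))))))
 (.seq (.seq (.one (.play 4 (.both (.play 3 (.ref 2 0)) (.play 68 (.ref 288 0)))))
 (.one (.play 131 (.both (.play 67 (.ref 92 2)) (.play 132 (.ref 2 128))))))
 (.seq (.one (.play 197 (.both (.play 194 (.both (.ref 476 2) (.play 129 (.ref 23 128)))) (.both (.play 198 (.both (.ref 475 131) (.play 262 (.ref 0 195)))) (.ref 452 194)))))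
 (.seq (.one (.play 68 (.both (.play 64 (.ref 66 0)) (.both (.play 69 (.both (.ref 13 1) (.play 130 (.ref 1 65)))) (.ref 310 65)))))
 (.one (.both (.play 193 (.ref 6 0)) (.play 128 (.ref 5 0))))))))
 (.seq (.seq (.seq (.one (.play 388 (.both (.play 321 (.both (.play 324 (.both (.ref 430 0) (.play 260 (.both (.play 196 (.ref 6 195)) (.play 261 (.ref 2 257)))))) (.play 320 (.ref 0 320)))) (.play 389 (.ref 3 322)))))
 (.one (.both (.play 0 (.ref 3 0)) (.play 133 (.ref 0 65)))))
 (.seq (.one (.both (.play 64 (.ref 2 0)) (.play 6 (.ref 1 2))))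
 (.seq (.one (.play 65 (.both (.play 67 (.ref 482 0)) (.play 2 (.ref 1 1)))))
 (.one (.play 5 (.both (.play 1 (.both (.play 0 (.ref 3 0)) (.ref 63 1))) (.play 4 (.ref 2 1))))))))
 (.seq (.seq (.one (.play 323 (.both (.play 326 (.both (.ref 47 2) (.both (.ref 389 131) (.ref 484 258)))) (.both (.play 386 (.both (.play 326 (.both (.ref 389 131) (.play 387 (.ref 1 322)))) (.both (.ref 483 320) (.play 322 (.ref 259 321))))) (.both (.play 326 (.both (.ref 389 131) (.both (.play 258 (.both (.play 322 (.ref 481 257)) (.play 259 (.ref 3 258)))) (.play 327 (.ref 18 258))))) (.both (.ref 273 256) (.play 322 (.ref 165 256))))))))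
 (.one (.play 4 (.both (.play 3 (.ref 2 0)) (.play 68 (.ref 216 0))))))
 (.seq (.one (.play 68 (.both (.play 65 (.ref 3 0)) (.play 2 (.ref 124 0)))))
 (.seq (.one (.both (.ref 312 1) (.play 128 (.ref 1 64))))
 (.one (.both (.play 68 (.ref 408 0)) (.both (.play 72 (.ref 488 4)) (.both (.play 132 (.ref 162 66)) (.play 136 (.ref 125 68)))))))))))
 (.seq (.seq (.seq (.seq (.one (.play 3 (.both (.play 65 (.both (.play 4 (.ref 183 0)) (.play 129 (.ref 9 64)))) (.play 2 (.ref 3 2)))))
 (.one (.play 129 (.both (.play 5 (.both (.play 4 (.ref 2 1)) (.play 69 (.both (.play 6 (.ref 2 2)) (.play 130 (.ref 1 65)))))) (.play 128 (.ref 1 64))))))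
 (.seq (.one (.play 129 (.both (.ref 317 0) (.play 130 (.ref 40 65)))))
 (.one (.both (.ref 341 0) (.play 384 (.ref 6 128))))))
 (.seq (.seq (.one (.play 68 (.both (.ref 484 0) (.play 129 (.ref 1 64)))))
 (.one (.both (.play 129 (.ref 26 0)) (.play 6 (.ref 2 2)))))
 (.seq (.one (.both (.play 64 (.ref 319 0)) (.play 5 (.ref 1 1))))
 (.seq (.one (.play 193 (.both (.ref 134 0) (.play 448 (.ref 6 192)))))
 (.one (.both (.play 0 (.ref 0 0)) (.play 69 (.ref 407 1))))))))
 (.seq (.seq (.seq (.one (.play 194 (.both (.play 258 (.ref 31 1)) (.play 195 (.ref 327 128)))))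
 (.one (.play 131 (.both (.ref 53 2) (.ref 447 128)))))
 (.seq (.one (.both (.play 257 (.ref 128 1)) (.play 192 (.ref 1 128))))
 (.seq (.one (.play 129 (.both (.ref 219 1) (.play 128 (.ref 41 64)))))
 (.one (.both (.ref 57 0) (.play 6 (.ref 2 2)))))))
 (.seq (.seq (.one (.play 258 (.both (.play 257 (.ref 224 0)) (.play 194 (.ref 4 1)))))
 (.one (.play 327 (.both (.play 325 (.both (.play 389 (.both (.play 261 (.both (.ref 372 2) (.both (.play 197 (.both (.ref 115 68) (.both (.ref 144 68) (.ref 432 128)))) (.both (.ref 205 68) (.both (.play 453 (.both (.play 197 (.ref 111 132)) (.both (.play 324 (.both (.ref 358 132) (.ref 504 260))) (.both (.ref 101 260) (.play 517 (.ref 137 260)))))) (.ref 141 196)))))) (.both (.play 390 (.both (.play 453 (.both (.ref 171 132) (.both (.play 261 (.both (.play 196 (.ref 82 132)) (.play 452 (.ref 333 260)))) (.play 452 (.ref 308 386))))) (.play 324 (.ref 3 324)))) (.both (.play 453 (.both (.ref 500 130) (.both (.ref 499 260) (.both (.play 454 (.both (.play 518 (.both (.play 261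 (.ref 4 261)) (.play 582 (.both (.play 517 (.ref 4 325)) (.play 390 (.ref 5 326)))))) (.play 455 (.ref 216 388)))) (.play 454 (.ref 423 387)))))) (.play 390 (.both (.play 324 (.ref 3 324)) (.play 388 (.ref 420 324)))))))) (.both (.play 326 (.both (.play 453 (.both (.play 454 (.both (.ref 350 4) (.both (.play 455 (.ref 123 387)) (.play 455 (.ref 503 387))))) (.both (.play 454 (.ref 351 4)) (.both (.play 389 (.both (.play 452 (.both (.play 390 (.both (.play 261 (.both (.play 196 (.both (.play 197 (.ref 334 132)) (.play 260 (.ref 7 196)))) (.play 516 (.ref 6 260)))) (.play 392 (.ref 1 388)))) (.both (.play 516 (.ref 174 260)) (.play 390 (.ref 162 386))))) (.both (.ref 233 260) (.ref 446 260)))) (.both (.play 390 (.both (.play 454 (.both (.play 518 (.ref 337 261)) (.play 452 (.ref 25 387)))) (.play 393 (.ref 3 325)))) (.play 454 (.ref 423 387))))))) (.both (.play 328 (.ref 384 4)) (.both (.play 389 (.both (.play 261 (.both (.ref 295 66) (.both (.play 388 (.both (.ref 220 68) (.play 328 (.ref 1 324)))) (.play 328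 (.ref 21 260))))) (.both (.play 453 (.both (.play 261 (.both (.ref 502 68) (.both (.ref 115 132) (.ref 447 258)))) (.both (.play 261 (.both (.play 452 (.ref 493 132)) (.both (.ref 81 132) (.play 262 (.both (.play 260 (.both (.play 196 (.ref 7 196)) (.play 259 (.ref 247 258)))) (.play 198 (.ref 5 197))))))) (.both (.play 262 (.ref 154 133)) (.play 390 (.ref 501 260)))))) (.both (.play 453 (.both (.play 261 (.both (.play 516 (.both (.play 390 (.both (.play 197 (.ref 158 133)) (.play 517 (.ref 243 324)))) (.play 452 (.ref 6 260)))) (.ref 275 196))) (.both (.play 452 (.both (.ref 220 132) (.play 390 (.ref 1 388)))) (.both (.play 262 (.both (.play 198 (.both (.play 134 (.ref 4 134)) (.play 261 (.ref 5 197)))) (.play 517 (.ref 5 261)))) (.play 390 (.ref 501 260)))))) (.play 388 (.ref 308 322)))))) (.play 393 (.ref 407 325)))))) (.both (.play 326 (.both (.play 328 (.ref 384 4)) (.play 324 (.ref 0 324)))) (.both (.play 389 (.both (.play 453 (.both (.play 390 (.ref 201 68)) (.both (.ref 500 130) (.both (.play 517 (.both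 (.play 261 (.ref 133 197)) (.both (.ref 138 260) (.both (.play 580 (.both (.play 326 (.both (.play 262 (.ref 5 261)) (.ref 363 324))) (.play 516 (.ref 6 324)))) (.play 582 (.ref 98 324)))))) (.both (.play 455 (.both (.play 517 (.both (.play 581 (.ref 111 260)) (.both (.play 581 (.ref 133 261)) (.ref 286 320)))) (.both (.play 388 (.ref 402 388)) (.both (.play 390 (.ref 188 388)) (.play 454 (.ref 327 388)))))) (.ref 499 260)))))) (.both (.play 453 (.ref 324 132)) (.both (.play 453 (.both (.ref 78 196) (.both (.play 517 (.both (.play 261 (.ref 79 196)) (.both (.ref 381 260) (.both (.ref 184 260) (.play 580 (.ref 49 324)))))) (.both (.play 452 (.both (.play 516 (.ref 174 260)) (.play 390 (.ref 1 388)))) (.play 390 (.ref 21 324)))))) (.play 324 (.ref 402 324)))))) (.play 326 (.ref 498 324))))))) (.both (.play 263 (.both (.play 199 (.both (.ref 386 2) (.play 391 (.ref 4 199)))) (.play 328 (.ref 7 263)))) (.both (.play 263 (.both (.ref 54 70) (.both (.ref 215 70) (.play 455 (.both (.ref 406 260) (.play 456 (.ref 4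 263))))))) (.play 263 (.ref 77 263))))))))
 (.seq (.one (.play 1 (.both (.play 256 (.ref 6 0)) (.play 194 (.ref 4 1)))))
 (.seq (.one (.both (.play 67 (.ref 103 0)) (.both (.ref 329 0) (.both (.play 4 (.ref 125 1)) (.ref 487 2)))))
 (.one (.play 456 (.both (.play 455 (.both (.play 521 (.both (.play 327 (.both (.play 328 (.both (.play 454 (.both (.play 326 (.both (.play 325 (.both (.play 261 (.both (.play 197 (.both (.ref 241 4) (.both (.play 390 (.ref 197 133)) (.play 389 (.both (.play 390 (.ref 4 197)) (.play 388 (.ref 1 324))))))) (.play 260 (.ref 3 260)))) (.both (.play 324 (.ref 18 259)) (.play 324 (.ref 14 259))))) (.both (.play 262 (.both (.play 390 (.ref 349 5)) (.both (.play 261 (.ref 156 259)) (.play 329 (.both (.play 261 (.ref 3 261)) (.play 390 (.both (.play 519 (.ref 4 262)) (.play 389 (.ref 1 325))))))))) (.both (.play 390 (.both (.play 262 (.ref 349 5)) (.play 389 (.both (.play 388 (.both (.play 325 (.ref 1 324)) (.play 387 (.ref 0 387)))) (.play 329 (.ref 1 325)))))) (.both (.play 262 (.both (.play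 390 (.ref 349 5)) (.both (.play 261 (.both (.play 390 (.ref 224 197)) (.play 329 (.ref 3 261)))) (.play 261 (.ref 507 259))))) (.both (.ref 300 259) (.both (.play 325 (.both (.play 388 (.ref 26 259)) (.both (.ref 89 259) (.play 329 (.ref 14 260))))) (.ref 361 259)))))))) (.play 453 (.ref 0 453)))) (.both (.play 392 (.both (.ref 506 263) (.play 585 (.ref 4 328)))) (.play 392 (.ref 224 263))))) (.both (.play 391 (.both (.play 263 (.both (.play 454 (.ref 493 134)) (.both (.play 199 (.ref 111 134)) (.ref 315 195)))) (.play 519 (.ref 4 327)))) (.both (.play 392 (.both (.play 328 (.both (.ref 226 200) (.play 263 (.ref 7 263)))) (.play 391 (.ref 7 327)))) (.play 391 (.ref 77 327)))))) (.play 522 (.ref 3 455)))) (.both (.ref 505 64) (.ref 474 455)))) (.both (.play 455 (.both (.ref 505 64) (.both (.play 392 (.both (.play 328 (.both (.ref 497 71) (.both (.play 264 (.ref 377 135)) (.play 329 (.ref 40 264))))) (.both (.play 328 (.both (.ref 497 71) (.both (.ref 376 199) (.play 327 (.ref 41 263))))) (.both (.ref 378 135)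 (.both (.play 393 (.both (.play 329 (.ref 147 200)) (.both (.play 391 (.both (.play 584 (.ref 52 327)) (.play 394 (.ref 178 390)))) (.play 394 (.ref 496 390))))) (.play 327 (.ref 82 263))))))) (.both (.ref 431 129) (.both (.play 454 (.both (.play 392 (.both (.ref 343 135) (.both (.play 393 (.both (.play 329 (.ref 5 328)) (.play 455 (.ref 231 389)))) (.play 393 (.ref 299 388))))) (.both (.ref 302 195) (.both (.play 517 (.both (.play 453 (.both (.play 390 (.both (.play 326 (.ref 71 261)) (.play 452 (.both (.play 451 (.ref 495 385)) (.both (.play 389 (.both (.play 451 (.ref 183 386)) (.play 388 (.ref 3 388)))) (.ref 17 387)))))) (.play 516 (.ref 1 452)))) (.both (.play 453 (.both (.play 389 (.both (.play 390 (.both (.play 326 (.ref 150 261)) (.play 457 (.ref 3 389)))) (.play 388 (.ref 3 388)))) (.play 516 (.ref 1 452)))) (.both (.ref 494 389) (.ref 483 451))))) (.both (.ref 95 258) (.both (.play 457 (.both (.ref 94 261) (.ref 476 262))) (.ref 300 387))))))) (.both (.play 392 (.both (.play 328 (.both (.play 264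 (.ref 493 135)) (.play 329 (.ref 40 264)))) (.both (.ref 378 135) (.both (.ref 492 199) (.both (.ref 53 263) (.ref 385 323)))))) (.both (.play 392 (.both (.ref 378 135) (.both (.ref 492 199) (.play 393 (.both (.play 329 (.ref 5 328)) (.play 454 (.ref 405 389))))))) (.ref 477 260)))))))) (.both (.play 455 (.both (.play 521 (.both (.play 454 (.both (.play 390 (.both (.play 326 (.both (.play 262 (.both (.ref 134 69) (.play 519 (.ref 4 262)))) (.both (.play 262 (.both (.ref 132 70) (.play 519 (.ref 4 262)))) (.both (.ref 241 133) (.both (.ref 54 133) (.play 518 (.both (.ref 127 259) (.play 517 (.both (.play 581 (.ref 6 325)) (.play 516 (.ref 25 451))))))))))) (.both (.play 518 (.both (.play 389 (.both (.play 325 (.ref 198 197)) (.play 457 (.ref 3 389)))) (.both (.ref 246 323) (.play 457 (.ref 21 389))))) (.play 389 (.ref 156 387))))) (.play 453 (.ref 0 453)))) (.play 522 (.ref 3 455)))) (.both (.play 454 (.both (.play 457 (.both (.ref 47 133) (.both (.ref 277 260) (.both (.ref 491 389) (.ref 484 389))))) (.both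 (.play 453 (.both (.play 452 (.both (.ref 94 259) (.both (.ref 196 384) (.both (.ref 91 385) (.both (.play 515 (.ref 26 386)) (.ref 490 386)))))) (.play 521 (.ref 0 453)))) (.both (.play 453 (.ref 165 387)) (.ref 391 450))))) (.both (.ref 431 129) (.ref 474 455))))) (.both (.ref 436 67) (.both (.play 649 (.both (.play 455 (.both (.ref 431 129) (.both (.ref 485 131) (.both (.ref 480 133) (.ref 473 455))))) (.play 585 (.ref 3 584)))) (.both (.play 392 (.both (.play 458 (.both (.play 328 (.both (.play 455 (.both (.play 454 (.both (.play 453 (.both (.ref 202 132) (.both (.ref 196 385) (.ref 122 387)))) (.both (.ref 190 387) (.both (.play 393 (.ref 299 388)) (.play 457 (.ref 18 389)))))) (.ref 220 135))) (.both (.play 264 (.both (.ref 115 135) (.both (.play 200 (.both (.play 199 (.ref 41 135)) (.play 393 (.both (.play 329 (.both (.play 136 (.ref 4 136)) (.play 584 (.ref 5 328)))) (.play 457 (.ref 4 200)))))) (.play 455 (.both (.play 519 (.ref 6 263)) (.ref 455 325)))))) (.both (.ref 119 135) (.play 329 (.ref 40 264))))))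 (.both (.play 393 (.both (.play 329 (.ref 93 200)) (.play 394 (.ref 489 323)))) (.both (.play 393 (.both (.play 329 (.ref 93 200)) (.play 459 (.both (.play 394 (.ref 125 391)) (.both (.play 457 (.ref 85 391)) (.both (.play 391 (.ref 142 391)) (.ref 487 392))))))) (.both (.play 393 (.both (.play 329 (.ref 5 328)) (.play 457 (.both (.play 459 (.both (.ref 486 392) (.play 519 (.ref 1 455)))) (.play 522 (.both (.play 586 (.ref 7 393)) (.play 455 (.ref 0 455)))))))) (.play 457 (.both (.play 455 (.both (.play 390 (.ref 23 389)) (.play 522 (.ref 0 455)))) (.both (.play 391 (.both (.ref 352 390) (.play 459 (.ref 3 391)))) (.both (.play 459 (.ref 21 391)) (.ref 453 454)))))))))) (.both (.play 585 (.both (.play 328 (.both (.ref 119 135) (.play 521 (.ref 4 328)))) (.play 649 (.ref 3 584)))) (.both (.play 521 (.both (.play 585 (.ref 240 264)) (.ref 413 327))) (.both (.ref 131 264) (.play 649 (.both (.play 522 (.both (.play 455 (.both (.ref 455 325) (.play 521 (.ref 3 455)))) (.ref 472 456))) (.play 585 (.ref 3 584)))))))))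 (.both (.play 649 (.both (.play 455 (.both (.play 457 (.both (.play 454 (.both (.ref 47 133) (.both (.play 517 (.ref 26 388)) (.both (.play 453 (.ref 14 388)) (.ref 89 388))))) (.both (.ref 95 259) (.both (.ref 300 388) (.both (.play 394 (.both (.play 518 (.both (.ref 121 389) (.ref 421 454))) (.both (.play 393 (.ref 405 390)) (.play 458 (.ref 420 391))))) (.play 458 (.both (.ref 484 390) (.play 522 (.ref 0 455))))))))) (.both (.ref 485 131) (.both (.ref 480 133) (.ref 473 455))))) (.play 585 (.ref 3 584)))) (.both (.play 392 (.both (.play 393 (.both (.play 585 (.both (.play 394 (.both (.play 391 (.both (.ref 425 134) (.play 458 (.both (.play 330 (.both (.play 331 (.ref 2 327)) (.play 521 (.ref 479 329)))) (.play 459 (.ref 0 391)))))) (.both (.ref 478 327) (.both (.ref 437 327) (.play 455 (.ref 299 389)))))) (.play 649 (.ref 4 392)))) (.play 329 (.ref 5 328)))) (.both (.play 585 (.ref 282 263)) (.both (.ref 53 263) (.ref 131 264))))) (.both (.play 455 (.both (.play 392 (.both (.play 328 (.both (.ref 317 199)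 (.ref 74 328))) (.both (.ref 131 264) (.ref 455 325)))) (.both (.ref 477 260) (.ref 474 455)))) (.both (.play 521 (.both (.play 455 (.both (.play 392 (.both (.play 393 (.both (.play 329 (.ref 147 200)) (.play 454 (.both (.play 394 (.ref 404 390)) (.play 453 (.ref 0 453)))))) (.both (.play 585 (.ref 157 328)) (.both (.play 585 (.ref 31 328)) (.play 585 (.ref 62 328)))))) (.play 522 (.ref 3 455)))) (.both (.play 392 (.both (.ref 315 324) (.ref 471 328))) (.both (.play 392 (.both (.ref 356 324) (.ref 471 328))) (.ref 413 327))))) (.both (.play 392 (.ref 470 197)) (.both (.ref 463 259) (.play 392 (.both (.play 328 (.ref 42 263)) (.both (.play 328 (.ref 99 263)) (.both (.play 328 (.ref 133 264)) (.play 393 (.both (.play 585 (.both (.play 391 (.ref 314 324)) (.play 649 (.ref 4 392)))) (.play 329 (.ref 5 328))))))))))))))))))))))))))))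
 (.seq (.seq (.seq (.seq (.seq (.one (.play 131 (.both (.play 195 (.ref 186 2)) (.play 132 (.ref 0 64)))))
 (.one (.play 132 (.both (.play 68 (.both (.play 4 (.both (.play 5 (.ref 2 1)) (.play 196 (.ref 49 3)))) (.play 133 (.ref 0 65)))) (.play 131 (.ref 0 64))))))
 (.seq (.one (.play 67 (.both (.play 0 (.ref 3 0)) (.ref 16 1))))
 (.one (.play 68 (.both (.play 1 (.ref 3 0)) (.play 133 (.ref 0 65)))))))
 (.seq (.seq (.one (.play 1 (.both (.play 0 (.ref 3 0)) (.play 133 (.both (.ref 512 1) (.play 132 (.ref 0 65)))))))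
 (.one (.play 259 (.both (.play 131 (.both (.play 67 (.both (.play 66 (.ref 7 2)) (.ref 336 66))) (.play 132 (.ref 2 128)))) (.play 260 (.ref 0 192))))))
 (.seq (.one (.play 129 (.both (.play 65 (.ref 4 1)) (.play 128 (.ref 3 128)))))
 (.seq (.one (.play 260 (.both (.play 194 (.both (.play 130 (.both (.play 193 (.both (.play 2 (.ref 6 1)) (.play 261 (.ref 3 193)))) (.play 323 (.ref 4 66)))) (.both (.play 324 (.both (.play 323 (.both (.play 130 (.ref 4 66)) (.play 256 (.ref 0 256)))) (.play 325 (.ref 0 257)))) (.play 325 (.both (.play 261 (.ref 481 193)) (.play 324 (.ref 0 257))))))) (.both (.ref 469 64) (.both (.play 261 (.both (.play 326 (.both (.play 323 (.both (.ref 515 65) (.play 262 (.ref 259 258)))) (.play 325 (.ref 0 258)))) (.ref 13 193))) (.both (.play 323 (.both (.ref 468 65) (.play 261 (.both (.ref 515 65) (.ref 437 194))))) (.play 197 (.ref 12 193))))))))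
 (.one (.play 323 (.both (.play 130 (.both (.ref 312 0) (.play 194 (.ref 4 66)))) (.play 324 (.ref 0 256)))))))))
 (.seq (.seq (.seq (.one (.both (.ref 517 2) (.both (.play 193 (.ref 23 192)) (.both (.play 325 (.ref 354 192)) (.ref 35 256)))))
 (.one (.play 133 (.both (.play 197 (.both (.play 4 (.ref 7 4)) (.play 260 (.both (.play 324 (.ref 6 68)) (.play 258 (.ref 495 192)))))) (.play 134 (.ref 0 66))))))
 (.seq (.one (.play 69 (.both (.play 65 (.ref 14 0)) (.both (.ref 16 2) (.ref 464 65)))))
 (.seq (.one (.play 69 (.both (.play 70 (.ref 66 2)) (.play 129 (.ref 9 64)))))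
 (.one (.both (.play 0 (.ref 7 0)) (.ref 264 64))))))
 (.seq (.seq (.one (.play 197 (.both (.play 195 (.ref 68 0)) (.play 261 (.ref 4 4)))))
 (.one (.play 196 (.both (.play 198 (.both (.play 262 (.ref 4 5)) (.ref 60 128))) (.play 260 (.ref 6 4))))))
 (.seq (.one (.play 261 (.both (.play 69 (.both (.play 70 (.both (.play 6 (.ref 5 5)) (.play 71 (.ref 404 67)))) (.ref 524 64))) (.both (.play 325 (.both (.play 68 (.ref 7 68)) (.ref 523 129))) (.both (.play 325 (.ref 522 68)) (.both (.ref 265 68) (.play 325 (.both (.play 68 (.ref 7 68)) (.play 389 (.both (.play 196 (.ref 7 132)) (.play 388 (.ref 38 132))))))))))))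
 (.seq (.one (.play 69 (.both (.ref 521 1) (.both (.ref 439 64) (.ref 8 65)))))
 (.one (.play 196 (.both (.play 132 (.both (.play 260 (.both (.ref 110 1) (.play 261 (.ref 0 193)))) (.play 133 (.ref 2 129)))) (.both (.ref 491 128) (.both (.ref 16 129) (.ref 464 192)))))))))))
 (.seq (.seq (.seq (.seq (.one (.play 68 (.both (.play 69 (.ref 18 0)) (.ref 8 64))))
 (.one (.play 3 (.both (.play 4 (.both (.play 65 (.ref 183 0)) (.play 71 (.ref 3 3)))) (.play 2 (.ref 3 2))))))
 (.seq (.one (.play 132 (.both (.play 131 (.both (.ref 199 1) (.play 192 (.ref 2 128)))) (.play 133 (.ref 2 129)))))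
 (.seq (.one (.play 197 (.both (.ref 530 1) (.both (.play 198 (.both (.ref 529 128) (.ref 8 194))) (.both (.play 198 (.both (.ref 529 128) (.both (.ref 13 130) (.ref 484 130)))) (.both (.ref 528 130) (.play 134 (.ref 12 130))))))))
 (.one (.play 193 (.both (.play 256 (.ref 38 0)) (.play 322 (.ref 4 65))))))))
 (.seq (.seq (.one (.both (.play 131 (.ref 316 2)) (.play 196 (.ref 2 192))))
 (.one (.play 69 (.both (.ref 17 0) (.play 70 (.ref 66 2))))))
 (.seq (.one (.play 68 (.both (.play 1 (.ref 85 0)) (.ref 8 64))))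
 (.seq (.one (.play 129 (.both (.play 65 (.ref 288 0)) (.play 130 (.ref 1 65)))))
 (.one (.play 4 (.both (.ref 536 0) (.ref 535 2))))))))
 (.seq (.seq (.seq (.one (.play 69 (.both (.ref 194 0) (.both (.ref 13 1) (.ref 534 1)))))
 (.one (.play 196 (.both (.ref 530 0) (.both (.play 197 (.both (.play 130 (.both (.play 131 (.both (.ref 199 1) (.play 198 (.ref 3 130)))) (.play 129 (.ref 3 129)))) (.both (.ref 534 129) (.ref 8 193)))) (.both (.ref 538 128) (.both (.ref 16 129) (.ref 528 129))))))))
 (.seq (.one (.play 131 (.both (.play 195 (.ref 316 2)) (.play 132 (.ref 0 64)))))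
 (.seq (.one (.play 69 (.both (.play 70 (.ref 14 1)) (.both (.play 6 (.ref 12 2)) (.play 65 (.ref 10 64))))))
 (.one (.play 194 (.both (.play 258 (.ref 6 2)) (.play 193 (.ref 231 128))))))))
 (.seq (.seq (.one (.play 130 (.both (.play 259 (.ref 4 2)) (.play 196 (.ref 85 128)))))
 (.one (.play 260 (.both (.play 69 (.ref 6 4)) (.play 195 (.both (.ref 190 128) (.both (.play 324 (.both (.play 325 (.both (.ref 166 128) (.both (.play 326 (.both (.play 323 (.both (.ref 32 131) (.both (.ref 217 256) (.ref 35 321)))) (.both (.ref 543 131) (.both (.play 323 (.both (.play 259 (.both (.play 387 (.ref 501 194)) (.play 258 (.ref 3 258)))) (.both (.play 258 (.both (.play 390 (.both (.ref 352 257) (.play 391 (.ref 0 323)))) (.play 259 (.ref 3 258)))) (.play 390 (.ref 262 321))))) (.play 259 (.ref 507 257)))))) (.both (.play 326 (.both (.ref 448 129) (.both (.play 323 (.both (.play 387 (.ref 450 130)) (.play 391 (.both (.play 261 (.both (.play 322 (.ref 183 257)) (.play 327 (.both (.play 328 (.ref 3 260)) (.play 392 (.ref 0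 324)))))) (.play 390 (.ref 0 323)))))) (.both (.ref 543 131) (.ref 307 193))))) (.play 389 (.ref 62 132)))))) (.play 388 (.ref 5 132)))) (.play 194 (.both (.play 193 (.ref 149 129)) (.play 134 (.ref 2 130)))))))))))
 (.seq (.one (.both (.play 0 (.ref 0 0)) (.play 70 (.ref 3 2))))
 (.seq (.one (.play 131 (.both (.play 195 (.ref 522 2)) (.play 132 (.ref 0 64)))))
 (.one (.both (.play 4 (.ref 2 0)) (.play 258 (.ref 5 2)))))))))))
 (.seq (.seq (.seq (.seq (.seq (.seq (.one (.both (.play 66 (.ref 4 2)) (.play 260 (.ref 0 192))))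
 (.one (.play 132 (.both (.play 261 (.both (.play 262 (.both (.play 263 (.both (.play 260 (.both (.play 198 (.both (.play 134 (.both (.play 199 (.both (.play 6 (.ref 4 6)) (.play 259 (.ref 2 195)))) (.play 325 (.ref 6 69)))) (.both (.play 324 (.both (.play 325 (.both (.play 134 (.ref 6 69)) (.play 264 (.ref 1 260)))) (.play 323 (.ref 1 259)))) (.ref 536 194)))) (.both (.ref 148 193) (.both (.ref 526 195) (.ref 464 259))))) (.both (.play 260 (.both (.play 198 (.both (.play 327 (.ref 548 68)) (.both (.play 134 (.ref 48 69)) (.ref 67 196)))) (.both (.ref 148 193) (.ref 195 193)))) (.both (.play 260 (.both (.play 199 (.both (.play 327 (.both (.play 391 (.both (.play 198 (.ref 116 134)) (.both (.ref 524 194) (.play 455 (.ref 137 198))))) (.play 328 (.ref 0 260)))) (.play 200 (.ref 2 196)))) (.both (.ref 148 193) (.both (.ref 195 193) (.play 259 (.ref 66 195)))))) (.both (.play 264 (.both (.play 328 (.both (.ref 525 131) (.play 329 (.ref 0 261)))) (.both (.play 265 (.ref 14 196)) (.both (.play 265 (.ref 66 197)) (.play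 265 (.ref 10 260)))))) (.both (.play 260 (.both (.ref 440 192) (.both (.play 259 (.both (.ref 148 192) (.ref 13 195))) (.both (.play 259 (.ref 14 194)) (.play 264 (.ref 14 195)))))) (.both (.play 260 (.ref 15 194)) (.both (.play 264 (.ref 15 195)) (.both (.ref 520 195) (.both (.ref 541 195) (.play 264 (.both (.play 260 (.ref 66 196)) (.both (.play 265 (.ref 14 196)) (.ref 464 260)))))))))))))) (.both (.play 263 (.both (.ref 540 4) (.both (.ref 546 4) (.play 260 (.both (.ref 427 192) (.both (.ref 148 193) (.both (.ref 466 258) (.ref 464 259)))))))) (.both (.play 198 (.both (.play 136 (.both (.play 72 (.both (.play 200 (.both (.play 9 (.both (.play 8 (.ref 2 5)) (.play 73 (.ref 547 6)))) (.play 199 (.ref 162 195)))) (.play 137 (.ref 0 69)))) (.play 135 (.ref 0 68)))) (.both (.ref 544 65) (.play 135 (.both (.play 136 (.ref 0 68)) (.play 134 (.ref 243 69))))))) (.both (.play 263 (.both (.play 260 (.both (.ref 517 4) (.both (.play 327 (.both (.play 199 (.both (.play 135 (.ref 41 6)) (.play 200 (.ref 2 196)))) (.play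 328 (.ref 0 260)))) (.play 199 (.ref 123 194))))) (.both (.ref 546 4) (.both (.ref 510 4) (.both (.play 198 (.both (.play 325 (.both (.play 389 (.ref 93 69)) (.play 324 (.ref 162 258)))) (.both (.play 134 (.ref 48 69)) (.play 328 (.both (.play 260 (.both (.ref 58 193) (.play 327 (.ref 0 260)))) (.both (.play 264 (.both (.play 265 (.both (.play 197 (.ref 3 197)) (.ref 13 197))) (.play 329 (.ref 0 261)))) (.play 329 (.both (.play 327 (.ref 545 260)) (.play 264 (.ref 0 261)))))))))) (.both (.ref 539 68) (.play 264 (.ref 15 195)))))))) (.both (.play 198 (.both (.play 199 (.both (.play 135 (.both (.play 263 (.ref 316 6)) (.play 136 (.ref 0 68)))) (.play 260 (.ref 405 195)))) (.both (.play 134 (.both (.play 263 (.both (.ref 69 5) (.play 327 (.ref 4 70)))) (.play 325 (.ref 6 69)))) (.both (.ref 544 65) (.both (.play 326 (.both (.play 134 (.both (.play 135 (.ref 5 70)) (.ref 415 131))) (.both (.play 134 (.both (.play 135 (.ref 5 70)) (.ref 267 133))) (.play 390 (.both (.ref 523 194) (.both (.ref 504 197) (.ref 419 197)))))))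 (.play 326 (.both (.ref 322 69) (.both (.play 135 (.ref 152 70)) (.both (.play 134 (.both (.play 135 (.ref 5 70)) (.ref 74 70))) (.both (.play 390 (.both (.play 391 (.both (.play 327 (.both (.play 134 (.ref 4 134)) (.ref 542 195))) (.play 455 (.ref 4 198)))) (.both (.play 454 (.both (.ref 393 134) (.both (.ref 138 197) (.ref 74 198)))) (.both (.play 454 (.both (.play 263 (.both (.play 327 (.both (.ref 542 195) (.play 518 (.ref 5 262)))) (.play 199 (.ref 5 198)))) (.both (.play 453 (.ref 38 197)) (.ref 138 197)))) (.both (.play 454 (.both (.play 453 (.ref 38 197)) (.play 518 (.ref 133 198)))) (.play 453 (.ref 49 197))))))) (.play 390 (.both (.ref 364 133) (.both (.ref 236 134) (.both (.play 389 (.both (.play 391 (.both (.ref 531 195) (.play 455 (.ref 4 198)))) (.play 453 (.ref 6 197)))) (.play 455 (.ref 98 197)))))))))))))))) (.both (.play 135 (.both (.play 263 (.both (.play 199 (.ref 316 6)) (.both (.play 264 (.ref 15 195)) (.ref 541 195)))) (.play 136 (.ref 0 68)))) (.both (.play 134 (.both (.ref 312 4) (.play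 263 (.both (.play 325 (.both (.play 198 (.ref 6 69)) (.play 324 (.ref 496 259)))) (.both (.play 327 (.both (.play 198 (.ref 4 70)) (.play 328 (.ref 175 260)))) (.both (.play 198 (.ref 48 69)) (.ref 541 195))))))) (.both (.play 263 (.both (.ref 540 4) (.both (.play 136 (.both (.play 264 (.both (.play 72 (.both (.play 9 (.both (.play 8 (.ref 2 5)) (.play 73 (.both (.play 10 (.ref 2 6)) (.play 200 (.ref 5 8)))))) (.play 137 (.ref 0 69)))) (.ref 464 260))) (.play 135 (.ref 0 68)))) (.both (.ref 539 68) (.ref 520 195))))) (.both (.play 263 (.both (.ref 509 4) (.both (.ref 516 4) (.ref 539 68)))) (.play 263 (.both (.ref 510 4) (.both (.ref 509 4) (.both (.ref 527 68) (.both (.play 264 (.both (.ref 514 69) (.both (.play 265 (.ref 14 196)) (.ref 464 260)))) (.both (.play 264 (.both (.play 328 (.both (.play 325 (.both (.play 392 (.both (.play 199 (.ref 240 71)) (.both (.play 200 (.both (.play 201 (.both (.play 199 (.both (.play 202 (.both (.ref 16 135) (.play 263 (.ref 1 198)))) (.play 135 (.ref 7 135)))) (.play 137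 (.ref 5 136)))) (.play 391 (.both (.play 393 (.both (.play 457 (.ref 4 200)) (.play 326 (.ref 328 325)))) (.play 455 (.ref 6 199)))))) (.both (.ref 265 199) (.ref 50 199))))) (.play 324 (.ref 1 260)))) (.play 329 (.ref 0 261)))) (.both (.ref 491 196) (.both (.ref 16 197) (.ref 464 260))))) (.play 135 (.both (.play 136 (.ref 0 68)) (.play 264 (.both (.play 265 (.both (.play 199 (.both (.play 328 (.ref 4 71)) (.play 198 (.ref 85 197)))) (.both (.play 328 (.both (.ref 180 70) (.play 199 (.ref 4 71)))) (.play 202 (.ref 12 198))))) (.both (.play 199 (.ref 48 70)) (.both (.play 265 (.ref 15 196)) (.play 265 (.both (.play 261 (.ref 14 196)) (.both (.ref 537 196) (.ref 534 197)))))))))))))))))))))))))) (.both (.play 4 (.both (.play 263 (.both (.play 260 (.both (.play 199 (.both (.play 262 (.ref 533 4)) (.both (.play 135 (.ref 97 6)) (.play 262 (.both (.ref 148 193) (.play 200 (.ref 2 196))))))) (.both (.ref 532 3) (.both (.play 259 (.both (.play 323 (.both (.play 196 (.ref 6 67)) (.play 322 (.ref 308 256)))) (.both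 (.play 325 (.both (.play 196 (.ref 4 68)) (.play 326 (.ref 498 258)))) (.both (.play 196 (.ref 48 67)) (.ref 305 192))))) (.play 196 (.both (.play 325 (.ref 31 68)) (.ref 511 195))))))) (.both (.ref 519 2) (.both (.play 260 (.both (.play 262 (.ref 518 2)) (.both (.ref 532 3) (.both (.play 134 (.both (.ref 312 4) (.play 262 (.both (.play 325 (.both (.play 198 (.ref 71 69)) (.play 324 (.ref 178 259)))) (.both (.ref 32 68) (.ref 521 195)))))) (.play 196 (.both (.ref 434 3) (.play 325 (.ref 4 68)))))))) (.both (.ref 510 4) (.both (.ref 509 4) (.play 262 (.both (.play 260 (.both (.play 259 (.both (.play 323 (.both (.play 196 (.ref 6 67)) (.play 322 (.ref 1 258)))) (.both (.play 325 (.both (.play 196 (.ref 4 68)) (.play 326 (.ref 247 258)))) (.ref 35 257)))) (.both (.play 199 (.ref 123 194)) (.both (.ref 466 258) (.ref 464 259))))) (.both (.play 200 (.both (.play 264 (.both (.play 327 (.both (.play 391 (.ref 93 71)) (.play 265 (.both (.play 266 (.both (.play 203 (.ref 12 199)) (.play 326 (.ref 1 262)))) (.both (.ref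 8 261) (.play 328 (.both (.play 329 (.ref 0 261)) (.play 266 (.ref 178 262))))))))) (.play 201 (.ref 2 197)))) (.both (.play 264 (.both (.play 328 (.both (.play 327 (.ref 151 132)) (.play 329 (.ref 0 261)))) (.play 201 (.ref 2 197)))) (.both (.play 260 (.both (.play 199 (.ref 2 196)) (.ref 35 258))) (.play 201 (.both (.play 199 (.ref 482 196)) (.play 264 (.ref 2 197)))))))) (.both (.play 264 (.both (.ref 531 68) (.both (.play 200 (.ref 123 195)) (.both (.ref 521 196) (.play 265 (.both (.ref 528 198) (.play 325 (.ref 9 260)))))))) (.both (.ref 527 68) (.both (.play 264 (.both (.ref 469 68) (.both (.play 265 (.both (.play 326 (.both (.play 327 (.both (.ref 468 69) (.play 266 (.ref 1 262)))) (.play 325 (.ref 1 261)))) (.both (.ref 13 197) (.ref 521 197)))) (.both (.ref 526 196) (.both (.play 201 (.ref 12 197)) (.ref 467 197)))))) (.both (.play 327 (.both (.ref 525 130) (.both (.play 260 (.both (.play 199 (.ref 123 194)) (.play 328 (.ref 0 260)))) (.play 328 (.ref 175 260))))) (.both (.play 260 (.both (.play 259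 (.both (.ref 13 195) (.ref 35 257))) (.both (.play 264 (.ref 14 195)) (.both (.play 264 (.both (.ref 13 196) (.ref 439 259))) (.ref 35 258))))) (.both (.play 264 (.both (.ref 521 196) (.both (.play 265 (.both (.play 328 (.both (.play 266 (.both (.ref 13 198) (.play 327 (.ref 178 262)))) (.play 329 (.ref 0 261)))) (.both (.play 202 (.ref 12 198)) (.both (.ref 467 198) (.ref 8 261))))) (.both (.ref 368 258) (.ref 35 259))))) (.both (.play 260 (.ref 15 194)) (.both (.play 264 (.ref 15 195)) (.ref 520 195)))))))))))))))))) (.play 3 (.ref 3 3)))) (.both (.play 4 (.both (.play 263 (.both (.ref 519 2) (.both (.play 262 (.both (.play 260 (.ref 518 2)) (.both (.play 196 (.both (.play 195 (.both (.play 259 (.ref 6 3)) (.play 260 (.ref 3 195)))) (.play 197 (.ref 4 4)))) (.both (.ref 516 4) (.play 264 (.both (.ref 514 69) (.both (.ref 484 196) (.ref 513 196)))))))) (.both (.play 196 (.both (.play 260 (.both (.play 259 (.ref 38 3)) (.both (.play 259 (.both (.play 323 (.ref 6 67)) (.play 262 (.ref 66 195)))) (.ref 511 195))))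 (.play 197 (.ref 4 4)))) (.both (.ref 510 4) (.ref 509 4)))))) (.play 3 (.ref 3 3)))) (.both (.play 4 (.both (.play 3 (.ref 3 3)) (.play 196 (.ref 98 3)))) (.play 134 (.both (.play 197 (.both (.play 4 (.both (.play 3 (.ref 3 3)) (.play 196 (.ref 4 4)))) (.play 198 (.ref 71 5)))) (.ref 312 4)))))))) (.play 131 (.ref 1 67))))))
 (.seq (.one (.play 323 (.both (.play 195 (.both (.play 131 (.ref 40 3)) (.play 196 (.ref 2 192)))) (.play 324 (.ref 0 256)))))
 (.one (.play 1 (.both (.play 0 (.ref 3 0)) (.play 194 (.ref 4 1)))))))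
 (.seq (.seq (.one (.both (.play 3 (.ref 2 0)) (.play 131 (.ref 0 64))))
 (.one (.play 257 (.both (.play 0 (.ref 7 0)) (.ref 101 64)))))
 (.seq (.one (.play 321 (.both (.ref 109 0) (.play 64 (.ref 7 64)))))
 (.seq (.one (.play 260 (.both (.play 258 (.both (.play 196 (.both (.play 3 (.ref 7 3)) (.play 259 (.ref 216 192)))) (.play 322 (.ref 4 65)))) (.both (.play 196 (.ref 522 3)) (.play 322 (.both (.play 258 (.ref 4 65)) (.play 321 (.both (.play 320 (.both (.play 384 (.ref 6 128)) (.play 323 (.ref 12 256)))) (.play 386 (.ref 4 129))))))))))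
 (.one (.play 68 (.both (.play 0 (.ref 3 0)) (.play 5 (.ref 12 1)))))))))
 (.seq (.seq (.seq (.one (.play 68 (.both (.play 1 (.ref 3 0)) (.ref 8 64))))
 (.one (.play 68 (.both (.play 64 (.ref 66 0)) (.both (.ref 64 1) (.ref 557 1))))))
 (.seq (.one (.play 259 (.both (.play 387 (.both (.play 195 (.both (.ref 342 2) (.ref 336 194))) (.play 388 (.ref 0 320)))) (.play 260 (.ref 2 256)))))
 (.seq (.one (.play 129 (.both (.play 257 (.both (.play 65 (.ref 5 1)) (.play 256 (.ref 1 192)))) (.play 128 (.ref 3 128)))))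
 (.one (.play 196 (.both (.play 132 (.both (.play 67 (.both (.play 1 (.both (.play 65 (.ref 481 0)) (.play 69 (.both (.play 2 (.ref 3 1)) (.play 5 (.ref 5 4)))))) (.play 3 (.ref 7 3)))) (.play 323 (.ref 6 67)))) (.play 197 (.ref 2 193))))))))
 (.seq (.seq (.one (.play 68 (.both (.ref 90 0) (.both (.ref 89 1) (.both (.ref 534 2) (.play 71 (.both (.play 72 (.both (.play 5 (.both (.play 6 (.both (.play 66 (.ref 2 2)) (.play 73 (.ref 3 5)))) (.play 4 (.ref 3 4)))) (.ref 8 68))) (.both (.ref 13 3) (.ref 16 4)))))))))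
 (.one (.play 259 (.both (.play 195 (.ref 493 2)) (.play 260 (.ref 2 256))))))
 (.seq (.one (.play 69 (.both (.play 65 (.ref 19 0)) (.both (.ref 484 1) (.ref 16 2)))))
 (.seq (.one (.play 3 (.both (.play 4 (.ref 2 0)) (.ref 535 1))))
 (.one (.play 68 (.both (.play 1 (.ref 3 0)) (.play 5 (.ref 12 1))))))))))
 (.seq (.seq (.seq (.seq (.one (.play 324 (.both (.play 326 (.both (.play 262 (.both (.play 259 (.both (.play 198 (.both (.ref 347 5) (.both (.ref 220 5) (.both (.play 389 (.ref 154 69)) (.play 390 (.both (.play 197 (.both (.play 199 (.both (.play 135 (.ref 5 134)) (.play 260 (.ref 422 195)))) (.play 133 (.ref 7 133)))) (.play 391 (.both (.play 389 (.both (.play 453 (.ref 6 197)) (.ref 566 324))) (.play 455 (.ref 4 198)))))))))) (.play 258 (.ref 3 258)))) (.play 263 (.ref 2 259)))) (.both (.ref 484 258) (.both (.ref 513 258) (.play 263 (.ref 12 259)))))) (.both (.play 389 (.both (.play 453 (.ref 493 196)) (.play 390 (.ref 125 322)))) (.both (.play 326 (.both (.ref 90 256) (.both (.ref 89 257) (.both (.ref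 534 258) (.play 327 (.both (.ref 13 259) (.both (.ref 565 259) (.both (.ref 16 260) (.ref 528 260))))))))) (.both (.play 389 (.both (.play 322 (.both (.ref 89 256) (.play 390 (.ref 0 322)))) (.both (.play 261 (.both (.play 322 (.ref 11 258)) (.play 453 (.ref 38 260)))) (.play 453 (.ref 316 260))))) (.both (.play 326 (.ref 20 257)) (.ref 564 257))))))))
 (.one (.both (.play 0 (.ref 3 0)) (.ref 67 1))))
 (.seq (.one (.play 69 (.both (.play 70 (.ref 489 0)) (.both (.ref 409 0) (.both (.play 72 (.both (.play 70 (.ref 488 4)) (.both (.play 73 (.both (.ref 478 6) (.both (.ref 437 6) (.play 134 (.ref 319 69))))) (.both (.play 132 (.ref 321 68)) (.play 134 (.ref 231 68)))))) (.both (.play 132 (.both (.play 134 (.ref 283 64)) (.both (.play 131 (.both (.ref 192 64) (.both (.ref 190 64) (.play 70 (.ref 319 67))))) (.both (.play 70 (.ref 162 66)) (.play 72 (.ref 321 68)))))) (.both (.play 134 (.both (.play 132 (.ref 283 64)) (.both (.play 68 (.ref 103 66)) (.both (.play 72 (.ref 231 68)) (.play 136 (.ref 568 68)))))) (.play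 136 (.both (.play 68 (.ref 402 68)) (.both (.play 70 (.ref 125 68)) (.both (.play 134 (.ref 568 68)) (.play 137 (.both (.play 70 (.ref 407 69)) (.both (.ref 558 70) (.ref 556 70)))))))))))))))
 (.seq (.one (.play 70 (.both (.play 66 (.both (.ref 279 0) (.both (.ref 17 1) (.ref 86 1)))) (.both (.play 66 (.ref 19 1)) (.play 71 (.both (.ref 486 4) (.ref 8 67)))))))
 (.one (.play 259 (.both (.play 323 (.ref 325 2)) (.play 260 (.ref 0 192))))))))
 (.seq (.seq (.one (.play 130 (.both (.play 198 (.both (.ref 199 3) (.play 131 (.ref 3 130)))) (.both (.play 129 (.both (.play 131 (.ref 545 128)) (.play 194 (.ref 3 129)))) (.play 194 (.ref 216 129))))))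
 (.one (.play 196 (.both (.ref 572 0) (.both (.play 198 (.both (.ref 571 3) (.play 199 (.both (.ref 13 131) (.both (.play 134 (.both (.play 135 (.ref 2 131)) (.play 200 (.ref 85 132)))) (.ref 556 132)))))) (.both (.ref 570 128) (.play 134 (.ref 405 130))))))))
 (.seq (.one (.play 129 (.both (.ref 276 1) (.play 128 (.ref 3 128)))))
 (.seq (.one (.play 257 (.both (.ref 271 0) (.both (.ref 75 64) (.both (.play 193 (.both (.ref 144 64) (.ref 74 193))) (.play 256 (.ref 97 192)))))))
 (.one (.play 257 (.both (.ref 269 0) (.both (.ref 119 64) (.play 513 (.ref 133 193))))))))))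
 (.seq (.seq (.seq (.one (.play 325 (.both (.play 261 (.both (.ref 271 4) (.both (.play 197 (.both (.ref 115 68) (.ref 74 197))) (.both (.play 197 (.ref 99 132)) (.play 517 (.both (.ref 385 256) (.ref 74 261))))))) (.both (.ref 398 2) (.both (.ref 396 2) (.both (.play 261 (.both (.ref 397 2) (.both (.play 454 (.both (.play 388 (.both (.play 452 (.both (.play 197 (.ref 6 196)) (.play 455 (.ref 85 387)))) (.both (.play 390 (.both (.play 197 (.ref 4 197)) (.play 455 (.both (.play 387 (.ref 0 387)) (.play 456 (.ref 3 388)))))) (.both (.ref 506 196) (.play 455 (.ref 507 386)))))) (.play 518 (.ref 4 261)))) (.ref 236 197)))) (.both (.ref 576 4) (.both (.ref 575 4) (.both (.ref 458 128) (.both (.play 326 (.both (.play 324 (.both (.ref 277 129) (.both (.play 262 (.both (.play 263 (.ref 231 259)) (.play 517 (.ref 5 261)))) (.play 517 (.ref 52 260))))) (.both (.play 327 (.both (.play 324 (.both (.ref 574 131) (.ref 469 131))) (.both (.ref 478 260) (.both (.ref 437 260) (.both (.play 328 (.both (.ref 467 261) (.play 388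 (.ref 1 324)))) (.play 328 (.both (.ref 466 323) (.play 388 (.ref 1 324))))))))) (.play 262 (.ref 147 133))))) (.both (.play 517 (.ref 470 130)) (.play 261 (.ref 323 132)))))))))))))
 (.one (.play 196 (.both (.play 260 (.ref 4 3)) (.play 130 (.ref 125 128))))))
 (.seq (.one (.play 325 (.both (.ref 462 2) (.both (.ref 398 2) (.both (.ref 396 2) (.both (.ref 576 4) (.both (.ref 458 128) (.both (.play 261 (.ref 323 132)) (.play 517 (.both (.ref 432 256) (.ref 578 322)))))))))))
 (.seq (.one (.play 195 (.both (.play 260 (.ref 4 3)) (.play 128 (.ref 0 128)))))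
 (.one (.play 260 (.both (.play 196 (.both (.play 3 (.ref 4 3)) (.play 261 (.ref 0 193)))) (.ref 580 64)))))))
 (.seq (.seq (.one (.play 325 (.both (.ref 396 2) (.both (.ref 463 128) (.both (.ref 460 128) (.both (.play 452 (.both (.play 390 (.both (.ref 232 130) (.play 450 (.ref 2 386)))) (.both (.play 454 (.both (.play 518 (.ref 240 197)) (.both (.ref 571 259) (.ref 67 387)))) (.both (.ref 572 256) (.both (.ref 581 258) (.play 454 (.ref 20 385))))))) (.both (.play 261 (.ref 323 132)) (.both (.play 454 (.both (.play 390 (.both (.ref 456 195) (.play 452 (.ref 183 386)))) (.both (.play 518 (.ref 31 261)) (.both (.play 518 (.ref 62 261)) (.play 452 (.ref 20 385)))))) (.play 517 (.both (.ref 315 257) (.ref 578 322)))))))))))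
 (.one (.play 129 (.both (.play 5 (.both (.ref 121 0) (.play 6 (.ref 2 2)))) (.play 130 (.ref 1 65))))))
 (.seq (.one (.play 129 (.both (.ref 53 0) (.ref 336 128))))
 (.seq (.one (.play 449 (.both (.ref 343 0) (.play 514 (.ref 98 256)))))
 (.one (.both (.ref 585 2) (.play 388 (.ref 0 320))))))))))
 (.seq (.seq (.seq (.seq (.seq (.one (.play 260 (.both (.play 388 (.both (.play 324 (.ref 586 1)) (.both (.play 320 (.ref 552 256)) (.play 387 (.ref 125 320))))) (.both (.play 324 (.both (.play 388 (.both (.ref 584 67) (.play 389 (.ref 0 321)))) (.play 261 (.ref 2 257)))) (.play 259 (.ref 405 256))))))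
 (.one (.play 259 (.both (.play 387 (.ref 586 0)) (.play 260 (.ref 2 256))))))
 (.seq (.one (.both (.ref 588 1) (.play 384 (.ref 1 320))))
 (.one (.both (.ref 584 2) (.play 196 (.ref 2 192))))))
 (.seq (.seq (.one (.play 323 (.both (.play 195 (.ref 590 0)) (.play 324 (.ref 0 256)))))
 (.one (.play 325 (.both (.play 326 (.both (.play 327 (.both (.play 328 (.both (.play 389 (.ref 589 4)) (.both (.play 329 (.ref 14 260)) (.both (.play 329 (.ref 66 261)) (.play 329 (.ref 10 324)))))) (.both (.play 324 (.both (.ref 591 68) (.ref 208 256))) (.both (.play 328 (.ref 15 259)) (.both (.ref 478 260) (.play 388 (.ref 299 322))))))) (.both (.play 327 (.both (.play 324 (.both (.ref 588 4) (.ref 208 256))) (.both (.play 328 (.ref 589 4)) (.both (.ref 587 4) (.play 388 (.ref 162 322)))))) (.both (.play 327 (.both (.play 387 (.both (.play 324 (.both (.ref 559 4) (.both (.play 323 (.both (.play 322 (.both (.ref 17 257) (.play 390 (.ref 0 322)))) (.play 386 (.ref 1 322)))) (.ref 195 257)))) (.both (.play 388 (.ref 25 322)) (.both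 (.play 388 (.ref 161 322)) (.play 388 (.ref 319 323)))))) (.both (.ref 478 260) (.both (.ref 437 260) (.play 388 (.ref 299 322)))))) (.both (.play 262 (.ref 147 133)) (.play 262 (.ref 263 197))))))) (.both (.play 518 (.both (.play 261 (.both (.play 197 (.both (.play 133 (.both (.play 69 (.ref 111 4)) (.both (.play 69 (.ref 133 5)) (.ref 331 128)))) (.both (.ref 134 4) (.play 196 (.ref 41 132))))) (.play 454 (.ref 4 261)))) (.both (.play 517 (.both (.ref 432 256) (.play 582 (.ref 4 325)))) (.play 454 (.ref 31 261))))) (.both (.play 326 (.both (.play 327 (.both (.play 328 (.ref 589 4)) (.both (.ref 587 4) (.both (.play 324 (.both (.ref 574 131) (.both (.ref 195 257) (.ref 583 258)))) (.play 388 (.ref 162 322)))))) (.both (.play 324 (.both (.play 260 (.ref 325 132)) (.ref 313 257))) (.play 262 (.ref 147 133))))) (.both (.ref 462 2) (.both (.ref 458 128) (.both (.play 261 (.ref 323 132)) (.both (.ref 457 132) (.play 261 (.both (.ref 432 192) (.both (.play 517 (.ref 99 196)) (.play 517 (.ref 133 197)))))))))))))))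
 (.seq (.one (.both (.play 0 (.ref 7 0)) (.play 1 (.ref 6 0))))
 (.seq (.one (.play 67 (.both (.play 131 (.both (.ref 176 0) (.play 324 (.ref 7 67)))) (.both (.play 131 (.ref 255 3)) (.play 68 (.ref 593 3))))))
 (.one (.play 65 (.both (.play 1 (.ref 6 0)) (.play 66 (.ref 40 1)))))))))
 (.seq (.seq (.seq (.one (.both (.play 1 (.ref 339 0)) (.both (.play 0 (.ref 338 0)) (.both (.play 129 (.ref 593 0)) (.play 128 (.ref 454 0))))))
 (.one (.both (.play 0 (.ref 3 0)) (.play 129 (.both (.play 193 (.ref 4 1)) (.play 128 (.ref 1 64)))))))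
 (.seq (.one (.play 196 (.both (.play 132 (.ref 325 4)) (.both (.ref 221 128) (.play 199 (.both (.play 132 (.ref 416 131)) (.play 136 (.ref 12 132))))))))
 (.seq (.one (.play 261 (.both (.ref 598 0) (.play 133 (.ref 4 133)))))
 (.one (.play 1 (.both (.play 0 (.ref 3 0)) (.play 130 (.ref 7 1))))))))
 (.seq (.seq (.one (.play 197 (.both (.play 133 (.ref 147 4)) (.both (.ref 313 128) (.play 194 (.both (.play 129 (.ref 23 128)) (.play 133 (.ref 547 130))))))))
 (.one (.play 260 (.both (.ref 601 0) (.play 131 (.ref 7 131))))))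
 (.seq (.one (.play 454 (.both (.play 389 (.both (.play 325 (.both (.play 261 (.both (.play 197 (.both (.ref 83 4) (.play 390 (.ref 4 197)))) (.play 262 (.ref 40 197)))) (.both (.play 388 (.both (.ref 455 258) (.both (.ref 365 258) (.both (.play 326 (.both (.play 518 (.both (.play 519 (.both (.play 327 (.both (.play 390 (.ref 218 262)) (.play 328 (.ref 1 324)))) (.play 452 (.ref 175 451)))) (.both (.ref 61 325) (.play 582 (.ref 30 325))))) (.play 262 (.ref 5 261)))) (.play 387 (.ref 507 385)))))) (.play 518 (.ref 158 261))))) (.both (.play 326 (.both (.ref 429 133) (.both (.play 390 (.both (.play 518 (.both (.ref 455 259) (.ref 169 325))) (.play 581 (.ref 5 325)))) (.play 325 (.both (.play 262 (.ref 5 261)) (.play 518 (.ref 158 261))))))) (.both (.play 388 (.both (.play 324 (.ref 325 196)) (.both (.play 390 (.both (.play 581 (.ref 52 324)) (.play 387 (.ref 247 386)))) (.play 387 (.ref 498 386))))) (.both (.ref 232 194) (.both (.play 325 (.both (.ref 53 196) (.both (.ref 131 197) (.play 581 (.ref 99 260)))))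 (.ref 457 196))))))) (.both (.play 518 (.both (.play 326 (.both (.play 325 (.both (.ref 599 128) (.both (.ref 602 130) (.both (.play 327 (.both (.play 328 (.both (.play 263 (.both (.ref 571 133) (.play 390 (.ref 5 262)))) (.both (.play 390 (.both (.play 263 (.ref 5 262)) (.play 389 (.ref 178 324)))) (.ref 16 261)))) (.both (.play 324 (.both (.ref 600 259) (.play 263 (.both (.play 264 (.ref 2 260)) (.play 390 (.ref 5 262)))))) (.both (.play 324 (.both (.ref 600 259) (.ref 16 260))) (.both (.play 324 (.both (.ref 600 259) (.play 390 (.both (.play 263 (.ref 5 262)) (.play 391 (.ref 247 323)))))) (.both (.play 263 (.both (.play 264 (.ref 231 260)) (.play 390 (.ref 5 262)))) (.play 328 (.both (.play 329 (.ref 14 260)) (.both (.play 324 (.both (.play 389 (.both (.play 260 (.ref 7 260)) (.play 388 (.ref 1 324)))) (.ref 8 324))) (.ref 16 261)))))))))) (.play 261 (.ref 338 261)))))) (.both (.play 520 (.both (.play 325 (.both (.play 389 (.both (.ref 598 128) (.play 262 (.ref 5 261)))) (.both (.ref 599 128) (.both (.play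 327 (.both (.ref 531 131) (.both (.play 324 (.both (.ref 91 257) (.both (.play 323 (.ref 55 258)) (.both (.ref 537 258) (.play 328 (.ref 19 259)))))) (.both (.play 260 (.both (.play 261 (.ref 103 258)) (.both (.play 324 (.ref 597 259)) (.ref 566 260)))) (.both (.play 324 (.both (.play 323 (.ref 18 258)) (.both (.play 323 (.ref 14 258)) (.play 260 (.ref 597 259))))) (.play 328 (.both (.ref 484 260) (.ref 546 261)))))))) (.play 389 (.ref 454 261)))))) (.both (.play 519 (.both (.ref 591 261) (.play 452 (.ref 3 452)))) (.both (.play 519 (.both (.ref 591 261) (.both (.ref 557 453) (.play 521 (.both (.play 454 (.ref 3 453)) (.ref 13 453)))))) (.play 519 (.ref 85 452)))))) (.both (.play 519 (.both (.play 390 (.both (.play 262 (.ref 6 261)) (.play 583 (.ref 4 326)))) (.ref 556 452))) (.play 325 (.ref 596 261)))))) (.both (.play 390 (.both (.play 326 (.both (.ref 342 133) (.both (.play 262 (.both (.ref 410 133) (.both (.play 261 (.ref 41 197)) (.ref 211 197)))) (.both (.play 262 (.ref 42 197)) (.both (.play 389 (.both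 (.ref 595 197) (.play 582 (.ref 116 325)))) (.ref 223 257)))))) (.both (.ref 347 197) (.both (.play 326 (.both (.ref 315 258) (.play 262 (.ref 6 261)))) (.both (.ref 594 258) (.both (.play 389 (.both (.play 325 (.both (.ref 176 258) (.play 261 (.ref 4 261)))) (.both (.play 325 (.ref 255 261)) (.play 391 (.both (.play 582 (.ref 304 325)) (.play 392 (.ref 178 388))))))) (.play 391 (.both (.play 326 (.both (.play 262 (.ref 6 261)) (.play 327 (.ref 128 262)))) (.play 392 (.ref 162 387)))))))))) (.both (.play 582 (.both (.play 390 (.both (.play 327 (.both (.play 326 (.both (.play 262 (.ref 6 261)) (.play 263 (.ref 5 262)))) (.play 391 (.ref 5 326)))) (.ref 415 387))) (.play 646 (.ref 116 389)))) (.play 516 (.both (.play 514 (.ref 2 450)) (.play 519 (.both (.play 520 (.both (.play 452 (.ref 3 452)) (.ref 64 453))) (.ref 8 515))))))))) (.both (.play 455 (.both (.ref 531 259) (.both (.play 452 (.both (.ref 530 259) (.play 516 (.ref 1 451)))) (.both (.ref 437 388) (.play 516 (.ref 404 451)))))) (.both (.play 516 (.both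 (.play 518 (.both (.ref 199 323) (.play 455 (.ref 2 451)))) (.play 514 (.ref 2 450)))) (.play 516 (.ref 299 449))))))))
 (.seq (.one (.play 131 (.both (.play 322 (.both (.ref 341 2) (.play 388 (.both (.play 324 (.ref 4 131)) (.ref 580 192))))) (.both (.play 66 (.ref 82 2)) (.ref 236 67)))))
 (.one (.play 323 (.both (.ref 411 2) (.both (.ref 271 66) (.both (.ref 53 194) (.ref 366 256)))))))))))
 (.seq (.seq (.seq (.seq (.one (.play 389 (.both (.ref 605 2) (.both (.ref 576 68) (.both (.ref 575 68) (.both (.ref 458 192) (.both (.ref 604 194) (.both (.play 325 (.ref 323 196)) (.play 581 (.both (.ref 385 320) (.ref 578 386)))))))))))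
 (.one (.play 195 (.both (.ref 204 2) (.both (.play 260 (.both (.play 322 (.both (.play 131 (.ref 6 130)) (.play 321 (.ref 405 256)))) (.play 196 (.ref 5 195)))) (.play 196 (.ref 40 131)))))))
 (.seq (.one (.play 193 (.both (.play 129 (.both (.play 64 (.ref 82 0)) (.play 386 (.ref 4 129)))) (.both (.play 258 (.both (.play 129 (.ref 158 65)) (.play 194 (.ref 5 193)))) (.play 194 (.ref 40 129))))))
 (.seq (.one (.play 323 (.both (.play 259 (.both (.ref 608 2) (.both (.ref 295 64) (.both (.ref 502 66) (.play 258 (.both (.play 260 (.both (.play 196 (.ref 5 195)) (.play 257 (.ref 0 257)))) (.play 194 (.ref 7 194)))))))) (.both (.play 322 (.both (.play 258 (.both (.play 194 (.ref 197 130)) (.play 257 (.ref 3 257)))) (.play 262 (.ref 2 258)))) (.play 262 (.ref 405 258))))))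
 (.one (.play 389 (.both (.play 452 (.both (.play 518 (.both (.play 325 (.both (.play 261 (.both (.play 197 (.both (.ref 134 4) (.play 388 (.ref 6 196)))) (.both (.play 197 (.both (.ref 53 68) (.play 388 (.ref 6 196)))) (.play 262 (.ref 40 197))))) (.play 582 (.ref 4 325)))) (.play 451 (.ref 175 450)))) (.both (.play 325 (.both (.play 324 (.both (.play 323 (.both (.play 326 (.both (.ref 425 66) (.both (.ref 312 259) (.ref 464 322)))) (.both (.ref 273 256) (.both (.play 322 (.ref 165 256)) (.play 390 (.ref 507 321)))))) (.play 260 (.ref 7 260)))) (.both (.ref 607 66) (.both (.play 518 (.both (.ref 360 68) (.play 582 (.ref 4 325)))) (.both (.ref 342 132) (.both (.play 260 (.ref 82 196)) (.ref 432 256))))))) (.both (.ref 609 128) (.both (.play 518 (.both (.play 325 (.both (.ref 342 132) (.play 582 (.ref 4 325)))) (.play 519 (.ref 103 450)))) (.both (.ref 318 193) (.play 325 (.both (.ref 432 256) (.ref 104 322))))))))) (.both (.ref 398 66) (.both (.play 516 (.both (.play 452 (.both (.ref 609 128) (.both (.play 324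 (.both (.play 388 (.ref 177 257)) (.both (.play 388 (.ref 253 259)) (.play 325 (.ref 593 260))))) (.play 518 (.both (.play 582 (.ref 31 325)) (.play 519 (.ref 103 450))))))) (.both (.play 452 (.both (.play 450 (.both (.play 451 (.both (.ref 425 193) (.play 390 (.ref 2 386)))) (.both (.play 451 (.both (.ref 249 384) (.play 390 (.ref 2 386)))) (.play 514 (.ref 327 449))))) (.play 324 (.both (.play 325 (.ref 593 260)) (.play 388 (.ref 6 323)))))) (.both (.ref 581 322) (.ref 570 448))))) (.both (.play 582 (.both (.play 581 (.both (.play 516 (.both (.ref 607 130) (.play 514 (.ref 0 514)))) (.play 646 (.ref 4 389)))) (.both (.play 518 (.both (.play 519 (.both (.play 584 (.both (.play 520 (.both (.play 456 (.both (.ref 585 199) (.play 457 (.ref 2 453)))) (.play 585 (.ref 0 517)))) (.both (.play 456 (.both (.play 520 (.ref 590 261)) (.both (.play 455 (.ref 231 452)) (.play 516 (.ref 552 452))))) (.play 583 (.ref 175 516))))) (.both (.play 516 (.both (.ref 469 323) (.ref 17 450))) (.both (.play 452 (.ref 103 450)) (.ref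 556 452))))) (.play 325 (.ref 4 325)))) (.both (.play 518 (.both (.play 325 (.ref 4 325)) (.play 516 (.ref 382 449)))) (.both (.ref 294 325) (.play 646 (.both (.play 581 (.ref 4 389)) (.play 710 (.both (.play 518 (.ref 7 453)) (.play 647 (.ref 2 643))))))))))) (.both (.ref 604 194) (.both (.play 325 (.ref 323 196)) (.play 581 (.both (.ref 223 320) (.ref 578 386))))))))))))))
 (.seq (.seq (.one (.both (.ref 239 0) (.both (.play 193 (.ref 198 0)) (.both (.play 256 (.ref 158 64)) (.play 385 (.both (.play 193 (.ref 7 128)) (.play 256 (.ref 4 128))))))))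
 (.one (.play 193 (.both (.ref 346 0) (.play 384 (.ref 6 128))))))
 (.seq (.one (.play 324 (.both (.play 260 (.both (.play 388 (.ref 344 3)) (.both (.play 261 (.both (.play 388 (.ref 117 195)) (.play 321 (.ref 2 257)))) (.play 261 (.ref 299 256))))) (.both (.play 325 (.both (.play 261 (.both (.play 197 (.both (.ref 347 4) (.both (.play 388 (.ref 92 132)) (.play 389 (.both (.play 388 (.ref 6 196)) (.play 390 (.ref 0 322))))))) (.play 262 (.ref 2 258)))) (.both (.play 326 (.ref 19 257)) (.play 326 (.ref 18 257))))) (.both (.play 260 (.both (.play 388 (.ref 344 3)) (.both (.play 261 (.ref 405 257)) (.play 321 (.both (.play 261 (.ref 2 257)) (.play 388 (.both (.play 515 (.ref 6 259)) (.play 389 (.ref 0 321))))))))) (.both (.play 388 (.both (.play 260 (.ref 344 3)) (.play 389 (.both (.play 321 (.ref 0 321)) (.play 390 (.both (.play 325 (.ref 0 322)) (.play 391 (.ref 1 387)))))))) (.both (.play 325 (.ref 20 256)) (.both (.ref 564 256) (.play 325 (.both (.play 321 (.ref 18 256)) (.both (.play 326 (.ref 19 257)) (.ref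 16 258))))))))))))
 (.seq (.one (.play 196 (.both (.play 132 (.ref 93 3)) (.play 197 (.ref 162 192)))))
 (.one (.play 65 (.both (.play 256 (.ref 6 0)) (.play 258 (.ref 7 1)))))))))
 (.seq (.seq (.seq (.one (.play 582 (.both (.play 580 (.both (.play 455 (.both (.play 391 (.both (.play 327 (.both (.ref 403 4) (.play 518 (.ref 6 326)))) (.both (.ref 410 262) (.ref 315 323)))) (.both (.play 391 (.both (.play 326 (.both (.play 328 (.both (.play 392 (.ref 93 199)) (.both (.play 327 (.ref 222 258)) (.ref 459 326)))) (.both (.play 390 (.ref 325 198)) (.play 327 (.both (.play 328 (.both (.ref 313 259) (.play 264 (.ref 5 263)))) (.play 262 (.ref 7 262))))))) (.both (.play 647 (.both (.play 390 (.ref 41 326)) (.play 648 (.ref 0 580)))) (.play 647 (.both (.play 392 (.ref 40 327)) (.play 648 (.ref 0 580))))))) (.both (.play 518 (.both (.ref 609 194) (.play 579 (.ref 2 515)))) (.both (.play 390 (.both (.play 454 (.ref 198 262)) (.both (.play 518 (.both (.play 391 (.ref 593 326)) (.play 579 (.ref 2 515)))) (.play 518 (.both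 (.ref 615 389) (.play 579 (.ref 2 515))))))) (.play 518 (.both (.ref 614 260) (.play 579 (.ref 2 515))))))))) (.both (.ref 235 513) (.ref 513 515)))) (.both (.play 584 (.both (.play 390 (.both (.play 520 (.both (.play 391 (.both (.ref 613 68) (.both (.play 392 (.both (.play 393 (.ref 20 324)) (.both (.play 393 (.both (.play 389 (.ref 19 324)) (.both (.play 455 (.both (.ref 426 324) (.ref 475 326))) (.both (.play 394 (.ref 66 326)) (.ref 467 326))))) (.both (.play 455 (.ref 52 326)) (.play 328 (.ref 339 327)))))) (.both (.play 455 (.ref 334 326)) (.play 392 (.ref 596 327)))))) (.play 521 (.ref 2 517)))) (.both (.play 454 (.both (.play 520 (.both (.play 392 (.both (.ref 612 263) (.both (.play 453 (.both (.play 391 (.both (.play 389 (.ref 145 323)) (.both (.ref 494 325) (.play 454 (.ref 162 387))))) (.play 517 (.ref 5 389)))) (.play 456 (.both (.play 391 (.both (.ref 261 323) (.play 327 (.ref 7 327)))) (.play 647 (.ref 6 391))))))) (.play 521 (.ref 2 517)))) (.play 518 (.ref 6 389)))) (.both (.play 454 (.both (.play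 453 (.both (.play 520 (.both (.play 392 (.both (.play 456 (.ref 377 263)) (.both (.play 391 (.both (.play 456 (.ref 316 327)) (.play 452 (.ref 25 387)))) (.both (.play 456 (.both (.play 393 (.both (.play 329 (.ref 5 328)) (.play 455 (.ref 2 389)))) (.play 647 (.ref 6 391)))) (.play 391 (.ref 308 387)))))) (.play 521 (.ref 2 517)))) (.play 517 (.ref 5 389)))) (.play 518 (.ref 6 389)))) (.both (.play 520 (.both (.play 454 (.both (.play 453 (.both (.play 517 (.ref 93 261)) (.play 455 (.both (.play 647 (.ref 7 390)) (.play 452 (.ref 0 452)))))) (.both (.play 518 (.ref 493 261)) (.both (.play 518 (.ref 282 261)) (.play 518 (.ref 48 389)))))) (.play 521 (.ref 2 517)))) (.both (.play 454 (.ref 611 262)) (.play 520 (.both (.play 392 (.both (.play 391 (.both (.play 326 (.both (.play 325 (.ref 103 323)) (.play 455 (.ref 7 326)))) (.both (.play 393 (.both (.play 389 (.ref 18 324)) (.both (.play 458 (.both (.play 326 (.both (.play 325 (.ref 3 325)) (.ref 512 326))) (.play 457 (.ref 0 390)))) (.both (.ref 534 325) (.play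 330 (.ref 12 326)))))) (.both (.play 328 (.both (.play 329 (.ref 320 325)) (.play 455 (.ref 5 327)))) (.play 455 (.ref 52 326)))))) (.both (.play 456 (.both (.play 391 (.both (.play 393 (.both (.ref 312 326) (.play 329 (.ref 5 328)))) (.play 327 (.ref 7 327)))) (.play 647 (.ref 6 391)))) (.play 456 (.ref 106 327))))) (.play 521 (.ref 2 517)))))))))) (.both (.ref 571 389) (.ref 513 516)))) (.both (.ref 572 386) (.both (.play 580 (.both (.play 647 (.both (.play 579 (.both (.ref 91 512) (.both (.play 642 (.ref 26 513)) (.both (.ref 490 513) (.ref 17 514))))) (.play 648 (.ref 0 580)))) (.play 520 (.ref 2 516)))) (.play 520 (.ref 320 516))))))))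
 (.one (.play 70 (.both (.play 67 (.both (.ref 207 0) (.play 6 (.ref 547 3)))) (.play 71 (.ref 178 67))))))
 (.seq (.one (.play 389 (.both (.ref 605 2) (.both (.play 325 (.both (.play 261 (.both (.ref 83 68) (.both (.play 388 (.both (.play 452 (.ref 106 196)) (.play 324 (.both (.ref 617 256) (.play 581 (.ref 7 324)))))) (.play 262 (.ref 40 197))))) (.both (.ref 271 68) (.both (.ref 119 132) (.both (.play 260 (.ref 82 196)) (.ref 223 256)))))) (.both (.play 388 (.both (.play 390 (.both (.play 387 (.both (.play 260 (.both (.play 451 (.both (.play 323 (.both (.ref 428 130) (.play 322 (.ref 3 322)))) (.play 450 (.ref 1 386)))) (.play 324 (.ref 4 260)))) (.both (.ref 179 321) (.play 450 (.both (.play 386 (.ref 188 385)) (.play 451 (.ref 1 386))))))) (.both (.ref 277 193) (.play 391 (.ref 178 387))))) (.both (.play 324 (.ref 255 260)) (.ref 617 320)))) (.both (.play 450 (.both (.play 324 (.both (.play 260 (.ref 611 132)) (.both (.play 516 (.both (.play 325 (.ref 593 260)) (.play 514 (.ref 327 449)))) (.play 516 (.both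 (.ref 615 323) (.play 514 (.ref 327 449))))))) (.both (.play 325 (.both (.ref 220 132) (.both (.play 261 (.both (.play 197 (.both (.play 388 (.both (.play 324 (.both (.play 133 (.ref 6 132)) (.play 581 (.ref 7 324)))) (.play 452 (.ref 6 196)))) (.play 198 (.ref 40 133)))) (.play 516 (.ref 6 260)))) (.play 390 (.both (.ref 176 258) (.play 451 (.ref 2 386))))))) (.both (.play 451 (.both (.ref 191 384) (.play 390 (.ref 2 386)))) (.play 451 (.ref 495 384)))))) (.both (.ref 318 193) (.ref 614 194))))))))
 (.seq (.one (.play 260 (.both (.ref 601 0) (.play 132 (.ref 6 131)))))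
 (.one (.play 325 (.both (.play 455 (.both (.play 326 (.both (.ref 613 3) (.both (.ref 619 130) (.both (.ref 602 130) (.play 390 (.ref 593 261)))))) (.play 456 (.ref 1 452)))) (.both (.play 389 (.both (.ref 385 256) (.play 580 (.ref 6 324)))) (.play 389 (.ref 253 260)))))))))
 (.seq (.seq (.one (.play 517 (.both (.ref 620 0) (.both (.play 582 (.both (.play 390 (.both (.play 391 (.both (.play 389 (.both (.play 325 (.both (.ref 461 68) (.both (.ref 75 132) (.ref 256 258)))) (.both (.play 325 (.both (.ref 75 132) (.ref 438 324))) (.play 392 (.ref 178 388))))) (.play 327 (.ref 5 326)))) (.both (.ref 343 133) (.both (.ref 594 258) (.both (.play 325 (.ref 82 261)) (.ref 595 261)))))) (.play 515 (.both (.play 514 (.ref 2 450)) (.play 583 (.ref 0 515)))))) (.play 455 (.ref 374 451))))))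
 (.one (.play 518 (.both (.ref 620 1) (.both (.play 516 (.both (.play 326 (.both (.play 327 (.both (.ref 619 131) (.both (.ref 602 131) (.both (.play 324 (.both (.play 325 (.both (.ref 196 256) (.both (.ref 195 257) (.both (.ref 534 259) (.ref 538 259))))) (.ref 515 323))) (.play 391 (.ref 593 262)))))) (.play 390 (.ref 6 325)))) (.play 515 (.ref 2 451)))) (.play 456 (.ref 374 452)))))))
 (.seq (.one (.play 65 (.both (.play 66 (.ref 40 1)) (.play 320 (.ref 6 64)))))
 (.seq (.one (.play 583 (.both (.play 517 (.both (.play 453 (.both (.play 389 (.both (.play 325 (.both (.ref 435 2) (.play 518 (.ref 4 325)))) (.both (.ref 226 261) (.ref 223 320)))) (.play 645 (.ref 6 452)))) (.both (.play 516 (.ref 156 514)) (.play 584 (.both (.play 516 (.ref 3 516)) (.play 645 (.ref 1 580))))))) (.both (.play 580 (.both (.play 516 (.both (.ref 608 259) (.both (.ref 502 323) (.play 515 (.both (.play 451 (.ref 7 451)) (.play 582 (.ref 156 513))))))) (.both (.play 518 (.both (.play 519 (.both (.play 454 (.both (.ref 232 259) (.both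 (.ref 220 261) (.both (.ref 623 325) (.play 453 (.both (.play 455 (.both (.play 391 (.ref 5 390)) (.play 520 (.both (.play 452 (.ref 0 452)) (.play 521 (.ref 1 517)))))) (.play 389 (.ref 7 389)))))))) (.play 579 (.ref 2 515)))) (.both (.play 453 (.both (.play 389 (.ref 611 261)) (.both (.play 454 (.both (.ref 623 325) (.play 389 (.ref 7 389)))) (.play 517 (.both (.play 645 (.ref 6 452)) (.play 710 (.ref 7 453))))))) (.play 519 (.ref 405 515))))) (.ref 89 514)))) (.both (.play 584 (.both (.play 585 (.both (.ref 530 389) (.both (.ref 565 517) (.both (.ref 538 517) (.both (.ref 16 518) (.ref 528 518)))))) (.play 645 (.ref 1 580)))) (.both (.ref 539 388) (.play 584 (.both (.play 580 (.ref 18 515)) (.play 585 (.ref 10 580))))))))))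
 (.one (.play 842 (.both (.play 845 (.both (.play 651 (.both (.play 653 (.both (.play 589 (.both (.play 588 (.both (.ref 624 7) (.both (.ref 622 134) (.both (.ref 621 135) (.both (.ref 618 136) (.both (.play 587 (.both (.play 523 (.both (.ref 46 266) (.both (.ref 292 456) (.play 522 (.ref 507 520))))) (.both (.play 586 (.both (.play 650 (.both (.play 522 (.ref 335 393)) (.play 649 (.ref 1 585)))) (.both (.play 525 (.ref 503 520)) (.ref 583 520)))) (.both (.play 590 (.both (.ref 484 522) (.play 650 (.ref 1 586)))) (.play 650 (.ref 162 584)))))) (.play 650 (.ref 423 584)))))))) (.both (.ref 616 70) (.both (.ref 610 136) (.both (.ref 606 136) (.both (.ref 603 136) (.both (.ref 592 200) (.both (.ref 582 200) (.both (.ref 579 200) (.both (.ref 577 200) (.both (.ref 573 456) (.ref 569 518)))))))))))) (.both (.ref 567 328) (.both (.play 781 (.both (.ref 612 524) (.play 782 (.ref 2 778)))) (.both (.ref 563 522) (.both (.play 654 (.both (.ref 562 584) (.both (.play 782 (.both (.play 846 (.ref 533 587)) (.play 781 (.ref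 2 778)))) (.play 652 (.both (.ref 484 586) (.both (.play 655 (.ref 19 586)) (.play 590 (.both (.play 591 (.ref 2 587)) (.play 718 (.both (.play 782 (.ref 49 589)) (.play 719 (.ref 0 651)))))))))))) (.ref 561 585))))))) (.ref 560 649))) (.both (.play 651 (.both (.play 653 (.both (.play 589 (.both (.play 588 (.both (.ref 624 7) (.both (.ref 622 134) (.both (.ref 621 135) (.both (.ref 618 136) (.both (.play 590 (.both (.play 591 (.both (.play 527 (.both (.play 524 (.both (.play 655 (.ref 586 268)) (.play 523 (.ref 3 523)))) (.play 528 (.ref 2 524)))) (.both (.play 592 (.ref 19 523)) (.both (.play 592 (.ref 18 523)) (.play 592 (.ref 66 524)))))) (.both (.ref 531 394) (.both (.play 587 (.both (.ref 90 520) (.play 650 (.ref 1 586)))) (.both (.play 587 (.ref 145 521)) (.play 587 (.both (.ref 534 522) (.play 650 (.ref 1 586))))))))) (.play 650 (.ref 423 584)))))))) (.both (.ref 616 70) (.both (.ref 610 136) (.both (.ref 606 136) (.both (.ref 603 136) (.both (.ref 592 200) (.both (.ref 582 200) (.both (.ref 579 200)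 (.both (.ref 577 200) (.both (.ref 573 456) (.ref 569 518)))))))))))) (.both (.ref 567 328) (.both (.ref 563 522) (.both (.play 782 (.both (.play 654 (.both (.ref 562 584) (.play 846 (.both (.play 911 (.both (.play 847 (.ref 548 652)) (.play 910 (.ref 0 843)))) (.play 783 (.ref 2 779)))))) (.play 781 (.ref 2 778)))) (.both (.ref 561 585) (.play 782 (.both (.play 846 (.both (.play 910 (.both (.play 718 (.ref 82 589)) (.play 911 (.ref 0 843)))) (.play 783 (.ref 2 779)))) (.play 781 (.ref 2 778)))))))))) (.ref 560 649))) (.both (.ref 559 522) (.both (.play 906 (.both (.play 970 (.both (.play 778 (.both (.play 714 (.both (.play 713 (.ref 41 649)) (.play 651 (.ref 5 650)))) (.play 1035 (.ref 98 777)))) (.both (.play 778 (.both (.play 714 (.both (.play 651 (.ref 5 650)) (.play 909 (.both (.play 1034 (.both (.play 1033 (.ref 38 777)) (.both (.ref 555 777) (.both (.play 1035 (.both (.play 1037 (.both (.ref 434 777) (.play 973 (.ref 522 780)))) (.play 1099 (.ref 4 842)))) (.play 1097 (.ref 49 841)))))) (.play 910 (.ref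 0 842)))))) (.play 777 (.ref 3 777)))) (.both (.play 909 (.both (.play 1034 (.both (.play 973 (.both (.ref 554 716) (.both (.play 972 (.both (.play 1036 (.ref 174 780)) (.ref 447 839))) (.both (.ref 50 780) (.ref 553 780))))) (.both (.play 1035 (.both (.play 1036 (.both (.play 1033 (.both (.ref 550 777) (.ref 59 965))) (.both (.play 969 (.ref 507 967)) (.both (.ref 558 969) (.ref 556 969))))) (.play 1099 (.ref 4 842)))) (.both (.ref 555 777) (.play 1097 (.ref 49 841)))))) (.play 910 (.ref 0 842)))) (.both (.play 909 (.both (.play 973 (.both (.ref 554 716) (.both (.play 972 (.both (.play 1033 (.both (.play 778 (.both (.play 969 (.ref 6 777)) (.play 777 (.ref 3 777)))) (.play 1034 (.both (.play 1097 (.ref 6 841)) (.play 971 (.ref 1 969)))))) (.play 1036 (.ref 174 780)))) (.both (.play 1037 (.both (.ref 105 778) (.play 780 (.ref 7 780)))) (.both (.ref 50 780) (.ref 553 780)))))) (.play 910 (.ref 0 842)))) (.both (.play 1035 (.both (.ref 551 777) (.both (.play 1037 (.both (.play 778 (.both (.play 777 (.ref 3 777))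 (.play 1034 (.both (.play 1099 (.ref 4 842)) (.ref 511 969))))) (.both (.play 1036 (.both (.play 1102 (.both (.play 1038 (.both (.play 974 (.both (.play 910 (.ref 82 781)) (.play 975 (.ref 231 971)))) (.both (.play 974 (.both (.play 910 (.ref 82 781)) (.play 1035 (.ref 11 971)))) (.both (.play 1039 (.both (.play 974 (.both (.play 910 (.ref 82 781)) (.play 1104 (.both (.play 1166 (.both (.play 1229 (.both (.play 1165 (.ref 6 973)) (.play 1230 (.ref 117 973)))) (.both (.play 1105 (.both (.ref 136 973) (.play 1040 (.ref 125 1037)))) (.ref 257 974)))) (.play 1103 (.ref 0 1036)))))) (.both (.ref 180 844) (.ref 312 972)))) (.play 1103 (.ref 125 1035)))))) (.ref 352 969))) (.both (.play 1038 (.both (.play 1102 (.both (.play 974 (.both (.play 910 (.ref 82 781)) (.play 975 (.ref 2 971)))) (.play 1103 (.ref 0 1035)))) (.both (.play 1039 (.ref 14 970)) (.play 1039 (.ref 10 1034))))) (.play 1034 (.both (.play 1099 (.ref 4 842)) (.play 969 (.ref 3 969))))))) (.both (.ref 546 778) (.both (.ref 509 778) (.play 909 (.both (.play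 973 (.both (.play 780 (.ref 7 780)) (.play 781 (.ref 137 780)))) (.play 910 (.ref 0 842))))))))) (.play 1099 (.both (.play 1034 (.ref 4 842)) (.play 1163 (.both (.play 971 (.ref 7 906)) (.play 1227 (.both (.play 1291 (.ref 111 970)) (.both (.ref 236 971) (.ref 331 1030))))))))))) (.both (.play 778 (.both (.play 777 (.ref 3 777)) (.play 971 (.both (.play 969 (.both (.play 1033 (.ref 6 777)) (.play 909 (.both (.play 1037 (.both (.play 973 (.ref 522 780)) (.both (.play 973 (.ref 266 780)) (.play 972 (.ref 552 905))))) (.play 910 (.ref 0 842)))))) (.play 1035 (.ref 4 778)))))) (.play 1035 (.both (.ref 551 777) (.play 1034 (.both (.play 1036 (.both (.play 1033 (.both (.ref 550 777) (.play 1097 (.ref 6 841)))) (.both (.play 909 (.both (.play 972 (.both (.play 973 (.ref 71 780)) (.both (.play 908 (.ref 128 780)) (.both (.play 781 (.ref 479 780)) (.play 1100 (.ref 152 844)))))) (.play 910 (.ref 125 842)))) (.play 1097 (.both (.play 1033 (.ref 6 841)) (.play 1098 (.ref 333 905))))))) (.play 1099 (.ref 4 842)))))))))))))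 (.play 905 (.ref 1 841)))) (.both (.ref 549 774) (.play 782 (.ref 12 778)))))))) (.both (.play 776 (.both (.play 712 (.both (.ref 508 192) (.both (.ref 443 257) (.both (.play 648 (.both (.ref 462 325) (.both (.ref 460 451) (.both (.ref 458 451) (.both (.play 584 (.ref 323 455)) (.both (.ref 457 455) (.both (.play 777 (.both (.play 713 (.both (.ref 456 518) (.both (.ref 413 519) (.play 585 (.both (.play 584 (.ref 454 520)) (.play 649 (.both (.play 840 (.ref 5 584)) (.play 778 (.ref 4 585))))))))) (.play 841 (.ref 3 776)))) (.play 840 (.both (.ref 143 583) (.play 841 (.both (.play 905 (.ref 4 648)) (.play 777 (.ref 3 776))))))))))))) (.both (.play 777 (.both (.play 648 (.both (.play 584 (.both (.play 649 (.both (.play 647 (.both (.play 520 (.both (.ref 220 327) (.play 713 (.ref 4 520)))) (.both (.ref 451 519) (.ref 452 646)))) (.both (.play 713 (.both (.play 520 (.ref 4 520)) (.play 840 (.ref 128 584)))) (.play 650 (.both (.play 647 (.both (.ref 195 580) (.play 714 (.ref 0 647)))) (.both (.play 585 (.both (.play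 651 (.both (.play 652 (.ref 3 584)) (.play 711 (.ref 1 647)))) (.play 840 (.ref 5 584)))) (.ref 453 646))))))) (.both (.ref 401 391) (.play 585 (.both (.play 521 (.ref 5 520)) (.play 649 (.both (.play 647 (.both (.ref 190 580) (.both (.play 586 (.both (.play 646 (.ref 2 582)) (.play 650 (.ref 420 583)))) (.ref 452 646)))) (.play 840 (.ref 5 584))))))))) (.both (.ref 379 325) (.both (.ref 135 389) (.both (.play 840 (.both (.play 584 (.both (.ref 424 391) (.both (.play 583 (.ref 41 519)) (.play 647 (.both (.ref 451 519) (.play 583 (.ref 7 583))))))) (.both (.ref 73 583) (.play 904 (.both (.play 903 (.ref 38 647)) (.play 713 (.ref 128 648))))))) (.both (.play 584 (.both (.ref 281 455) (.both (.ref 226 456) (.ref 432 515)))) (.both (.play 584 (.both (.ref 281 455) (.both (.ref 44 456) (.ref 366 517)))) (.both (.ref 241 455) (.play 840 (.both (.ref 73 583) (.both (.play 904 (.ref 111 583)) (.ref 143 583)))))))))))) (.play 841 (.ref 3 776)))) (.both (.play 904 (.both (.play 840 (.both (.play 968 (.both (.play 713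 (.both (.play 647 (.both (.play 714 (.both (.ref 412 520) (.play 711 (.ref 416 646)))) (.both (.play 583 (.both (.play 711 (.ref 293 519)) (.play 648 (.ref 7 583)))) (.play 648 (.ref 387 583))))) (.play 777 (.ref 5 712)))) (.play 1031 (.ref 49 775)))) (.both (.ref 115 583) (.ref 446 711)))) (.both (.ref 449 580) (.ref 445 776)))) (.both (.play 841 (.both (.play 840 (.both (.ref 54 519) (.both (.play 903 (.both (.play 839 (.ref 450 646)) (.play 904 (.ref 333 711)))) (.play 904 (.both (.ref 447 709) (.both (.ref 170 711) (.play 843 (.ref 9 839)))))))) (.play 777 (.ref 3 776)))) (.both (.play 840 (.both (.ref 215 519) (.both (.play 648 (.both (.play 841 (.ref 282 519)) (.both (.ref 131 520) (.ref 143 583)))) (.both (.ref 100 583) (.play 904 (.both (.ref 364 647) (.both (.ref 236 648) (.play 905 (.both (.play 903 (.both (.play 967 (.ref 6 711)) (.play 842 (.both (.play 906 (.ref 2 839)) (.play 841 (.ref 1 839)))))) (.play 969 (.ref 4 712))))))))))) (.both (.play 904 (.both (.play 840 (.both (.play 648 (.ref 111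 583)) (.both (.play 648 (.ref 133 584)) (.play 903 (.both (.play 905 (.both (.play 969 (.ref 4 712)) (.ref 235 836))) (.play 967 (.ref 6 711))))))) (.both (.ref 449 580) (.both (.play 905 (.both (.play 903 (.both (.play 902 (.both (.ref 303 581) (.both (.play 837 (.ref 23 836)) (.both (.play 969 (.ref 354 836)) (.ref 35 900))))) (.play 906 (.ref 2 839)))) (.play 841 (.ref 1 840)))) (.both (.play 840 (.both (.play 647 (.ref 82 583)) (.ref 447 709))) (.play 840 (.both (.play 647 (.ref 82 583)) (.play 905 (.both (.play 969 (.ref 4 712)) (.play 841 (.ref 1 840))))))))))) (.play 904 (.both (.play 840 (.both (.ref 364 647) (.both (.ref 138 647) (.both (.ref 447 709) (.ref 446 711))))) (.both (.play 840 (.ref 139 647)) (.both (.ref 33 708) (.ref 445 776)))))))))))))) (.both (.ref 444 256) (.both (.play 777 (.both (.play 775 (.both (.play 774 (.both (.play 838 (.both (.play 710 (.both (.ref 135 451) (.play 709 (.ref 3 709)))) (.play 837 (.ref 1 773)))) (.both (.play 709 (.ref 23 708)) (.both (.ref 89 708) (.play 713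 (.ref 123 708)))))) (.play 778 (.ref 0 775)))) (.play 841 (.ref 3 776)))) (.both (.play 904 (.both (.play 840 (.both (.ref 120 519) (.both (.play 712 (.both (.ref 115 583) (.both (.play 647 (.ref 82 583)) (.ref 113 707)))) (.both (.ref 76 579) (.both (.ref 112 583) (.both (.ref 110 645) (.both (.ref 100 647) (.play 968 (.both (.play 775 (.ref 97 711)) (.both (.ref 73 711) (.both (.play 969 (.both (.play 967 (.both (.ref 95 771) (.play 1031 (.ref 6 775)))) (.play 1033 (.ref 4 776)))) (.play 1031 (.ref 49 775))))))))))))) (.both (.play 840 (.both (.ref 84 519) (.both (.ref 78 647) (.both (.play 903 (.both (.play 967 (.ref 71 711)) (.play 841 (.ref 1 839)))) (.play 841 (.ref 21 775)))))) (.both (.play 840 (.both (.ref 76 579) (.both (.play 905 (.both (.ref 54 583) (.play 841 (.ref 1 840)))) (.both (.ref 51 711) (.play 841 (.both (.play 775 (.ref 3 775)) (.play 905 (.ref 1 840)))))))) (.both (.play 905 (.both (.play 903 (.both (.play 902 (.both (.ref 47 581) (.both (.play 901 (.ref 19 836)) (.ref 35 900)))) (.play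 906 (.ref 2 839)))) (.play 841 (.ref 1 840)))) (.both (.ref 33 708) (.play 841 (.ref 22 775)))))))) (.play 841 (.ref 23 775))))))) (.both (.ref 24 775) (.both (.play 845 (.ref 20 776)) (.play 845 (.ref 15 776))))))))))))))))))
    (by decide +kernel)

end Crest.Agent.Snaky
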