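import Crest.Agent.Lib_Snaky.Root
import Crest.Agent.Lib_Snaky.Cert0
import Crest.Agent.Lib_Snaky.Cert1
import Crest.Agent.Lib_Snaky.Cert2
import Crest.Agent.Lib_Snaky.Cert3
import Crest.Agent.Lib_Snaky.Cert4
import Crest.Agent.Lib_Snaky.Cert5
import Crest.Agent.Lib_Snaky.Cert6
import Crest.Agent.Lib_Snaky.Cert7

set_option autoImplicit false
set_option linter.all false
set_option maxRecDepth 1000000

namespace Crest.Agent.Snaky

theorem Cert_L45 : PW ⟨20, nat_lit 344728266443874206170545512964432112225507069317819522056079337263512430464013488758041250121488036739611555846958495676040441511948045769973944468809441663382665538511073745187088876036706973599091474545756168257536, nat_lit 19039834071299539704834463857615831525499735806492970419397972907450433383746975726698431437484158949703215072022779918261637719809229994216122997678711612958818323769959690188670480817524107984842699507171161651288959123713711434874937022153129129835657891866270849419716958886792991318032503360725233838316065000590728614714622859879553323777634832374736486535944425739621359848499557187933044918710892440765099364636321384448,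 22, nat_lit 19039834071299539704834463857615831525499735806492970419397972907450433383746975726698431437484158949703215072022779918261637719809229994216122997678711612958818323769959690188670480817524107984842699507171161651288959123713711434874937022153129129835657891866270849419716958886792991318032503360725233838316065000590728614714622859879553323777634832374736486535944425739621359848499557187933044918710892440765099364636321384448⟩ :=
  sound2 baseTbl baseTbl_ok
    (.seq (.seq (.seq (.seq (.seq (.seq (.seq (.seq (.seq (.seq (.one (.both (.play 67 (.ref 0 0)) (.play 69 (.ref 0 1))))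
 (.one (.play 65 (.both (.play 64 (.ref 1 0)) (.play 66 (.ref 1 1))))))
 (.seq (.one (.both (.ref 9 0) (.play 69 (.ref 8 1))))
 (.one (.play 4 (.both (.play 3 (.ref 2 0)) (.play 5 (.ref 2 1)))))))
 (.seq (.seq (.one (.both (.ref 11 0) (.play 132 (.ref 8 64))))
 (.one (.both (.ref 11 1) (.ref 9 64))))
 (.seq (.one (.both (.play 65 (.ref 13 0)) (.both (.play 70 (.ref 12 2)) (.play 70 (.ref 10 65)))))
 (.seq (.one (.both (.play 0 (.ref 3 0)) (.play 2 (.ref 3 1))))
 (.one (.both (.play 1 (.ref 15 0)) (.play 133 (.ref 8 65))))))))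
 (.seq (.seq (.seq (.one (.both (.play 1 (.ref 15 0)) (.ref 11 1)))
 (.one (.play 69 (.both (.play 65 (.ref 17 0)) (.both (.play 70 (.ref 16 1)) (.play 70 (.ref 12 2)))))))
 (.seq (.one (.both (.play 1 (.ref 15 0)) (.ref 9 64)))
 (.seq (.one (.play 69 (.both (.play 65 (.ref 19 0)) (.both (.play 70 (.ref 16 1)) (.play 70 (.ref 10 65))))))
 (.one (.play 257 (.both (.play 193 (.ref 4 0)) (.play 321 (.ref 4 64))))))))
 (.seq (.seq (.one (.play 256 (.both (.play 192 (.ref 6 0)) (.play 320 (.ref 6 64)))))
 (.one (.both (.ref 22 0) (.ref 21 1))))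
 (.seq (.one (.play 65 (.both (.play 1 (.ref 5 0)) (.play 129 (.ref 5 64)))))
 (.seq (.one (.both (.ref 24 1) (.ref 22 64)))
 (.one (.both (.ref 24 0) (.ref 21 64))))))))
 (.seq (.seq (.seq (.seq (.one (.play 321 (.both (.play 65 (.ref 26 1)) (.both (.play 385 (.ref 25 64)) (.play 385 (.ref 23 128))))))
 (.one (.both (.play 129 (.both (.ref 27 0) (.play 128 (.ref 3 128)))) (.play 256 (.ref 1 192)))))
 (.seq (.one (.play 66 (.both (.play 65 (.ref 19 0)) (.play 5 (.ref 2 2)))))
 (.one (.play 195 (.both (.play 259 (.ref 6 3)) (.ref 29 128))))))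
 (.seq (.seq (.one (.both (.play 64 (.ref 5 0)) (.play 320 (.ref 5 64))))
 (.one (.both (.play 1 (.ref 6 0)) (.play 320 (.ref 31 64)))))
 (.seq (.one (.play 131 (.both (.play 67 (.ref 32 2)) (.play 132 (.ref 2 128)))))
 (.seq (.one (.play 64 (.both (.play 0 (.ref 7 0)) (.play 128 (.ref 7 64)))))
 (.one (.both (.ref 34 0) (.ref 21 65)))))))
 (.seq (.seq (.seq (.one (.both (.ref 34 0) (.ref 24 1)))
 (.one (.play 129 (.both (.play 65 (.ref 36 0)) (.both (.play 65 (.ref 35 0)) (.play 385 (.ref 26 65)))))))
 (.seq (.one (.both (.play 193 (.both (.ref 37 0) (.play 192 (.ref 3 192)))) (.play 320 (.ref 1 256))))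
 (.seq (.one (.play 68 (.both (.play 69 (.ref 12 1)) (.play 129 (.ref 1 64)))))
 (.one (.both (.ref 39 1) (.play 128 (.ref 1 64)))))))
 (.seq (.seq (.one (.play 68 (.both (.play 1 (.ref 3 0)) (.play 69 (.ref 12 1)))))
 (.one (.both (.play 0 (.ref 3 0)) (.ref 41 1))))
 (.seq (.one (.play 69 (.both (.play 65 (.ref 19 0)) (.both (.play 2 (.ref 42 1)) (.play 130 (.ref 40 1))))))
 (.seq (.one (.play 66 (.both (.play 65 (.ref 19 0)) (.both (.play 70 (.ref 13 1)) (.both (.play 70 (.ref 19 1)) (.play 70 (.ref 17 1)))))))
 (.one (.play 66 (.both (.play 65 (.ref 19 0)) (.both (.play 65 (.ref 13 0)) (.play 70 (.ref 17 1))))))))))))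
 (.seq (.seq (.seq (.seq (.seq (.one (.play 66 (.both (.play 65 (.ref 19 0)) (.both (.play 65 (.ref 17 0)) (.play 70 (.ref 13 1))))))
 (.one (.play 4 (.both (.play 3 (.ref 2 0)) (.play 68 (.both (.play 69 (.ref 16 0)) (.play 5 (.ref 2 1))))))))
 (.seq (.one (.play 260 (.both (.play 321 (.ref 38 0)) (.both (.play 261 (.ref 19 192)) (.both (.play 261 (.ref 16 192)) (.play 261 (.ref 10 256)))))))
 (.one (.play 68 (.both (.play 5 (.ref 2 1)) (.play 69 (.ref 10 64)))))))
 (.seq (.seq (.one (.play 4 (.both (.play 3 (.ref 2 0)) (.ref 49 0))))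
 (.one (.play 68 (.both (.play 0 (.ref 3 0)) (.play 69 (.ref 13 0))))))
 (.seq (.one (.both (.play 68 (.ref 3 0)) (.play 4 (.ref 2 0))))
 (.seq (.one (.both (.play 0 (.ref 4 0)) (.play 256 (.ref 4 64))))
 (.one (.both (.play 64 (.ref 53 0)) (.play 385 (.ref 7 128))))))))
 (.seq (.seq (.seq (.one (.both (.play 192 (.ref 4 0)) (.play 321 (.ref 7 64))))
 (.one (.both (.play 0 (.ref 4 0)) (.play 321 (.ref 55 64)))))
 (.seq (.one (.both (.play 0 (.ref 4 0)) (.play 129 (.ref 7 64))))
 (.seq (.one (.both (.play 64 (.ref 57 0)) (.play 385 (.ref 7 128))))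
 (.one (.both (.play 193 (.ref 57 0)) (.play 256 (.ref 4 64)))))))
 (.seq (.seq (.one (.both (.play 64 (.ref 59 0)) (.both (.play 193 (.ref 58 0)) (.both (.play 256 (.ref 56 64)) (.play 385 (.both (.play 193 (.ref 7 128)) (.play 256 (.ref 55 128))))))))
 (.one (.both (.play 0 (.ref 0 0)) (.play 4 (.ref 0 1)))))
 (.seq (.one (.both (.play 1 (.ref 61 0)) (.play 70 (.ref 3 2))))
 (.seq (.one (.play 257 (.both (.play 321 (.ref 25 0)) (.play 322 (.ref 4 65)))))
 (.one (.both (.ref 34 0) (.ref 22 64))))))))
 (.seq (.seq (.seq (.seq (.one (.play 257 (.both (.play 321 (.ref 64 0)) (.play 322 (.ref 4 65)))))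
 (.one (.both (.ref 65 0) (.play 1 (.ref 4 1)))))
 (.seq (.one (.both (.play 65 (.ref 19 0)) (.play 6 (.ref 2 2))))
 (.seq (.one (.play 195 (.both (.play 259 (.ref 6 3)) (.play 194 (.ref 67 128)))))
 (.one (.play 197 (.both (.ref 68 0) (.play 261 (.ref 4 4))))))))
 (.seq (.seq (.one (.play 129 (.both (.play 65 (.ref 36 0)) (.play 386 (.ref 4 129)))))
 (.one (.both (.play 65 (.ref 19 0)) (.play 70 (.ref 12 2)))))
 (.seq (.one (.play 129 (.both (.play 65 (.ref 35 0)) (.play 66 (.ref 5 65)))))
 (.seq (.one (.play 130 (.both (.ref 72 0) (.play 194 (.ref 5 129)))))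
 (.one (.play 321 (.both (.play 193 (.both (.play 385 (.both (.ref 73 0) (.both (.play 449 (.ref 25 128)) (.play 449 (.ref 23 192))))) (.play 192 (.ref 3 192)))) (.play 320 (.ref 1 256)))))))))
 (.seq (.seq (.seq (.one (.play 257 (.both (.play 66 (.ref 5 1)) (.play 321 (.ref 23 64)))))
 (.one (.both (.play 2 (.ref 5 1)) (.ref 75 64))))
 (.seq (.one (.both (.play 2 (.ref 5 1)) (.play 321 (.ref 23 64))))
 (.seq (.one (.play 129 (.both (.play 65 (.ref 36 0)) (.play 320 (.ref 6 128)))))
 (.one (.both (.ref 78 0) (.play 448 (.ref 6 192)))))))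
 (.seq (.seq (.one (.play 67 (.both (.play 66 (.ref 67 0)) (.play 135 (.ref 0 67)))))
 (.one (.play 66 (.both (.play 65 (.ref 19 0)) (.play 133 (.ref 0 66))))))
 (.seq (.one (.both (.ref 81 0) (.play 135 (.ref 0 67))))
 (.seq (.one (.play 257 (.both (.play 64 (.ref 7 0)) (.play 321 (.ref 23 64)))))
 (.one (.both (.play 0 (.ref 7 0)) (.ref 83 64))))))))))
 (.seq (.seq (.seq (.seq (.seq (.seq (.one (.both (.play 0 (.ref 7 0)) (.play 321 (.ref 23 64))))
 (.one (.play 129 (.both (.play 65 (.ref 36 0)) (.play 322 (.ref 4 129))))))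
 (.seq (.one (.both (.ref 86 0) (.play 450 (.ref 4 193))))
 (.one (.play 64 (.both (.play 0 (.ref 7 0)) (.play 321 (.both (.ref 24 1) (.play 128 (.ref 7 64)))))))))
 (.seq (.seq (.one (.play 65 (.both (.play 0 (.ref 7 0)) (.play 256 (.ref 6 64)))))
 (.one (.play 64 (.both (.ref 89 0) (.play 128 (.ref 7 64))))))
 (.seq (.one (.both (.ref 90 0) (.play 384 (.ref 6 128))))
 (.seq (.one (.play 65 (.both (.ref 24 1) (.play 256 (.ref 6 64)))))
 (.one (.play 68 (.both (.play 67 (.ref 0 0)) (.play 4 (.both (.play 65 (.ref 1 0)) (.play 69 (.ref 0 1)))))))))))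
 (.seq (.seq (.seq (.one (.both (.play 64 (.ref 2 0)) (.play 2 (.ref 1 1))))
 (.one (.both (.play 65 (.ref 94 0)) (.play 6 (.ref 1 2)))))
 (.seq (.one (.play 68 (.both (.ref 11 0) (.play 129 (.ref 1 64)))))
 (.seq (.one (.play 68 (.both (.play 64 (.ref 12 0)) (.both (.ref 96 1) (.ref 93 65)))))
 (.one (.both (.play 64 (.ref 2 0)) (.play 68 (.ref 2 1)))))))
 (.seq (.seq (.one (.both (.play 65 (.ref 98 0)) (.play 6 (.ref 1 2))))
 (.one (.play 65 (.both (.play 1 (.ref 4 1)) (.play 64 (.ref 3 64))))))
 (.seq (.one (.both (.play 1 (.ref 6 0)) (.play 257 (.ref 6 64))))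
 (.seq (.one (.both (.play 65 (.ref 101 0)) (.play 384 (.ref 5 128))))
 (.one (.both (.play 0 (.ref 7 0)) (.play 2 (.ref 5 1)))))))))
 (.seq (.seq (.seq (.seq (.one (.both (.play 67 (.ref 2 0)) (.play 5 (.ref 1 1))))
 (.one (.both (.play 64 (.ref 2 0)) (.play 5 (.ref 104 1)))))
 (.seq (.one (.play 3 (.both (.play 4 (.ref 105 0)) (.play 258 (.ref 5 2)))))
 (.seq (.one (.both (.play 64 (.ref 1 0)) (.play 69 (.ref 0 1))))
 (.one (.both (.play 5 (.ref 2 1)) (.play 128 (.ref 1 64)))))))
 (.seq (.seq (.one (.play 4 (.both (.play 3 (.ref 2 0)) (.play 68 (.ref 108 0)))))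
 (.one (.both (.play 193 (.ref 6 0)) (.play 320 (.ref 5 64)))))
 (.seq (.one (.both (.play 1 (.ref 6 0)) (.play 320 (.ref 110 64))))
 (.seq (.one (.both (.play 193 (.ref 6 0)) (.play 64 (.ref 5 0))))
 (.one (.play 257 (.both (.play 66 (.ref 5 1)) (.play 320 (.ref 6 64)))))))))
 (.seq (.seq (.seq (.one (.play 66 (.both (.play 2 (.ref 5 1)) (.ref 113 64))))
 (.one (.both (.play 64 (.ref 7 0)) (.play 320 (.ref 6 64)))))
 (.seq (.one (.play 64 (.both (.play 0 (.ref 7 0)) (.play 321 (.ref 115 64)))))
 (.seq (.one (.both (.play 64 (.ref 1 0)) (.play 5 (.ref 1 1))))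
 (.one (.both (.play 0 (.ref 0 0)) (.play 69 (.ref 0 1)))))))
 (.seq (.seq (.one (.both (.play 4 (.ref 2 0)) (.play 68 (.ref 1 64))))
 (.one (.play 4 (.both (.play 3 (.ref 2 0)) (.play 68 (.ref 119 1))))))
 (.seq (.one (.play 132 (.both (.ref 120 2) (.play 65 (.ref 118 64)))))
 (.seq (.one (.both (.play 0 (.ref 7 0)) (.play 320 (.ref 6 64))))
 (.one (.play 256 (.both (.play 192 (.ref 6 0)) (.play 257 (.ref 122 0)))))))))))
 (.seq (.seq (.seq (.seq (.seq (.one (.both (.play 0 (.ref 4 0)) (.play 321 (.ref 4 64))))
 (.one (.play 257 (.both (.play 64 (.ref 124 0)) (.play 448 (.ref 5 192))))))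
 (.seq (.one (.play 193 (.both (.ref 125 0) (.play 129 (.ref 5 128)))))
 (.one (.both (.play 1 (.ref 5 0)) (.play 320 (.ref 5 64))))))
 (.seq (.seq (.one (.both (.play 0 (.ref 3 0)) (.play 69 (.ref 3 1))))
 (.one (.both (.play 1 (.ref 128 0)) (.play 128 (.ref 1 64)))))
 (.seq (.one (.play 257 (.both (.ref 21 1) (.play 321 (.ref 7 64)))))
 (.seq (.one (.play 66 (.both (.play 2 (.ref 5 1)) (.play 321 (.both (.play 130 (.ref 5 65)) (.ref 130 128))))))
 (.one (.both (.play 64 (.ref 2 0)) (.play 5 (.ref 1 1))))))))
 (.seq (.seq (.seq (.one (.play 321 (.both (.ref 34 0) (.play 385 (.ref 23 128)))))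
 (.one (.both (.play 0 (.ref 7 0)) (.play 321 (.ref 7 64)))))
 (.seq (.one (.play 65 (.both (.play 1 (.ref 6 0)) (.play 2 (.ref 5 1)))))
 (.seq (.one (.play 66 (.both (.ref 135 0) (.play 130 (.ref 5 65)))))
 (.one (.play 64 (.both (.play 65 (.both (.play 0 (.ref 7 0)) (.ref 24 1))) (.play 128 (.ref 7 64))))))))
 (.seq (.seq (.one (.play 259 (.both (.play 387 (.both (.play 195 (.both (.play 131 (.both (.ref 90 2) (.ref 24 67))) (.both (.ref 137 66) (.both (.play 258 (.both (.ref 136 66) (.play 451 (.ref 134 194)))) (.ref 133 130))))) (.play 388 (.ref 0 320)))) (.play 260 (.ref 2 256)))))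
 (.one (.both (.ref 138 1) (.play 257 (.ref 128 256)))))
 (.seq (.one (.both (.play 64 (.ref 7 0)) (.play 2 (.ref 5 1))))
 (.seq (.one (.both (.play 1 (.ref 3 0)) (.play 128 (.ref 1 64))))
 (.one (.play 1 (.both (.play 3 (.ref 61 0)) (.play 66 (.ref 3 1))))))))))
 (.seq (.seq (.seq (.seq (.one (.both (.play 1 (.ref 6 0)) (.play 128 (.ref 5 64))))
 (.one (.both (.play 65 (.ref 143 0)) (.play 384 (.ref 5 128)))))
 (.seq (.one (.play 131 (.both (.play 197 (.both (.play 133 (.ref 144 4)) (.both (.play 195 (.both (.play 130 (.ref 62 128)) (.play 388 (.ref 7 131)))) (.both (.play 198 (.both (.ref 142 129) (.both (.play 195 (.both (.play 130 (.ref 3 130)) (.play 259 (.ref 117 194)))) (.play 199 (.ref 141 131))))) (.play 388 (.ref 140 131)))))) (.both (.play 195 (.ref 54 3)) (.both (.play 67 (.both (.play 195 (.ref 53 3)) (.play 132 (.ref 7 67)))) (.play 132 (.both (.play 133 (.both (.play 69 (.ref 5 68)) (.play 197 (.both (.play 130 (.ref 118 129)) (.play 388 (.ref 5 132)))))) (.play 67 (.ref 7 67)))))))))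
 (.seq (.one (.play 66 (.both (.play 2 (.ref 7 2)) (.play 65 (.ref 118 64)))))
 (.one (.both (.play 2 (.ref 1 1)) (.play 64 (.ref 0 64)))))))
 (.seq (.seq (.one (.both (.play 68 (.ref 2 1)) (.play 64 (.ref 0 64))))
 (.one (.play 257 (.both (.play 66 (.ref 5 1)) (.play 321 (.ref 7 64))))))
 (.seq (.one (.both (.play 0 (.ref 4 0)) (.play 321 (.ref 7 64))))
 (.seq (.one (.both (.play 4 (.ref 2 0)) (.play 132 (.ref 0 64))))
 (.one (.play 4 (.both (.play 3 (.ref 2 0)) (.play 132 (.both (.play 68 (.ref 151 1)) (.play 131 (.ref 0 64)))))))))))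
 (.seq (.seq (.seq (.one (.play 68 (.both (.ref 152 1) (.play 128 (.ref 1 64)))))
 (.one (.play 4 (.both (.play 3 (.ref 2 0)) (.play 68 (.ref 151 1))))))
 (.seq (.one (.play 132 (.both (.ref 154 0) (.play 131 (.ref 0 64)))))
 (.seq (.one (.both (.play 1 (.ref 3 0)) (.play 5 (.ref 2 1))))
 (.one (.both (.play 3 (.ref 2 0)) (.play 68 (.ref 156 0)))))))
 (.seq (.seq (.one (.play 68 (.both (.play 5 (.ref 157 1)) (.play 132 (.ref 8 64)))))
 (.one (.both (.play 64 (.ref 2 0)) (.play 5 (.ref 2 1)))))
 (.seq (.one (.play 4 (.both (.play 65 (.ref 159 0)) (.play 71 (.ref 3 3)))))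
 (.seq (.one (.both (.play 0 (.ref 3 0)) (.play 130 (.ref 7 1))))
 (.one (.play 66 (.both (.play 65 (.ref 19 0)) (.ref 11 2))))))))))))
 (.seq (.seq (.seq (.seq (.seq (.seq (.seq (.one (.both (.play 1 (.ref 1 0)) (.play 67 (.ref 2 0))))
 (.one (.both (.play 64 (.ref 1 0)) (.play 68 (.ref 0 1)))))
 (.seq (.one (.play 69 (.both (.play 1 (.ref 164 0)) (.play 70 (.ref 0 2)))))
 (.one (.play 65 (.both (.ref 11 1) (.play 128 (.ref 1 64)))))))
 (.seq (.seq (.one (.both (.play 64 (.ref 7 0)) (.ref 22 0)))
 (.one (.play 258 (.both (.play 194 (.ref 4 1)) (.play 257 (.both (.play 321 (.ref 167 64)) (.play 322 (.ref 4 65))))))))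
 (.seq (.one (.play 258 (.both (.play 257 (.both (.ref 22 0) (.play 322 (.ref 4 65)))) (.play 194 (.ref 4 1)))))
 (.seq (.one (.play 192 (.both (.play 256 (.ref 6 0)) (.ref 130 64))))
 (.one (.play 257 (.both (.ref 22 0) (.both (.ref 170 0) (.both (.ref 169 64) (.ref 168 64))))))))))
 (.seq (.seq (.seq (.one (.play 64 (.both (.play 0 (.ref 7 0)) (.ref 171 64))))
 (.one (.play 320 (.both (.play 321 (.both (.ref 24 1) (.play 384 (.ref 6 128)))) (.play 256 (.ref 6 64))))))
 (.seq (.one (.play 68 (.both (.ref 11 0) (.ref 93 65))))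
 (.seq (.one (.play 68 (.both (.ref 11 0) (.play 133 (.ref 0 65)))))
 (.one (.both (.ref 175 0) (.play 131 (.ref 0 64)))))))
 (.seq (.seq (.one (.play 66 (.both (.play 65 (.ref 19 0)) (.play 134 (.ref 8 66)))))
 (.one (.play 64 (.both (.play 66 (.both (.play 65 (.ref 103 0)) (.play 130 (.ref 5 65)))) (.play 128 (.ref 7 64))))))
 (.seq (.one (.play 129 (.both (.ref 178 0) (.play 384 (.ref 6 128)))))
 (.seq (.one (.both (.play 65 (.both (.play 1 (.ref 7 1)) (.play 129 (.both (.play 68 (.ref 117 64)) (.play 322 (.ref 7 65)))))) (.play 3 (.ref 5 2))))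
 (.one (.both (.play 193 (.ref 101 0)) (.play 128 (.ref 5 64)))))))))
 (.seq (.seq (.seq (.seq (.one (.both (.play 0 (.ref 7 0)) (.play 66 (.ref 5 1))))
 (.one (.both (.play 1 (.ref 1 0)) (.play 5 (.ref 1 1)))))
 (.seq (.one (.both (.play 64 (.ref 2 0)) (.play 5 (.ref 183 1))))
 (.seq (.one (.both (.play 67 (.ref 2 0)) (.play 2 (.ref 183 0))))
 (.one (.play 64 (.both (.play 3 (.ref 2 0)) (.play 132 (.ref 0 64))))))))
 (.seq (.seq (.one (.both (.play 0 (.ref 7 0)) (.ref 21 1)))
 (.one (.both (.play 256 (.ref 6 0)) (.play 257 (.ref 187 0)))))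
 (.seq (.one (.play 256 (.both (.play 192 (.ref 6 0)) (.play 257 (.ref 188 64)))))
 (.seq (.one (.both (.play 192 (.ref 6 0)) (.play 257 (.both (.ref 21 1) (.play 320 (.ref 6 64))))))
 (.one (.play 64 (.both (.play 0 (.ref 7 0)) (.play 321 (.both (.play 128 (.ref 7 64)) (.play 384 (.ref 190 128)))))))))))
 (.seq (.seq (.seq (.one (.play 64 (.both (.play 0 (.ref 7 0)) (.play 321 (.both (.play 128 (.ref 7 64)) (.ref 168 128))))))
 (.one (.play 64 (.both (.play 0 (.ref 7 0)) (.play 321 (.ref 167 64))))))
 (.seq (.one (.both (.play 0 (.ref 0 0)) (.play 69 (.ref 3 1))))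
 (.seq (.one (.play 65 (.both (.play 1 (.ref 7 1)) (.play 132 (.ref 194 64)))))
 (.one (.play 130 (.both (.ref 195 0) (.play 321 (.ref 6 65))))))))
 (.seq (.seq (.one (.play 65 (.both (.ref 34 0) (.play 256 (.ref 6 64)))))
 (.one (.play 65 (.both (.play 1 (.ref 15 0)) (.play 133 (.ref 0 65))))))
 (.seq (.one (.play 4 (.both (.play 65 (.ref 117 0)) (.play 69 (.ref 0 1)))))
 (.seq (.one (.play 65 (.both (.play 0 (.ref 3 0)) (.play 64 (.ref 0 64)))))
 (.one (.play 1 (.both (.ref 200 0) (.play 2 (.ref 3 1)))))))))))
 (.seq (.seq (.seq (.seq (.seq (.one (.play 131 (.both (.ref 201 0) (.play 70 (.ref 117 66)))))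
 (.one (.both (.ref 195 0) (.play 3 (.ref 5 2)))))
 (.seq (.one (.play 257 (.both (.play 2 (.ref 5 1)) (.play 321 (.ref 7 64)))))
 (.one (.play 129 (.both (.play 195 (.both (.play 196 (.both (.play 260 (.ref 4 3)) (.play 197 (.ref 3 129)))) (.ref 204 2))) (.play 128 (.ref 2 64)))))))
 (.seq (.seq (.one (.play 4 (.both (.play 3 (.ref 2 0)) (.play 68 (.both (.play 5 (.ref 2 1)) (.play 129 (.ref 1 64)))))))
 (.one (.both (.play 0 (.ref 3 0)) (.play 129 (.ref 1 64)))))
 (.seq (.one (.play 67 (.both (.play 69 (.ref 207 1)) (.play 128 (.ref 1 64)))))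
 (.seq (.one (.both (.play 3 (.ref 0 0)) (.play 69 (.ref 3 1))))
 (.one (.both (.play 0 (.ref 0 0)) (.play 69 (.ref 209 1))))))))
 (.seq (.seq (.seq (.one (.both (.play 68 (.ref 0 0)) (.play 4 (.ref 1 0))))
 (.one (.play 65 (.both (.play 4 (.ref 2 1)) (.play 64 (.ref 0 64))))))
 (.seq (.one (.play 5 (.both (.ref 212 0) (.play 6 (.ref 2 2)))))
 (.seq (.one (.play 65 (.both (.play 0 (.ref 7 0)) (.play 1 (.ref 4 1)))))
 (.one (.play 64 (.both (.ref 214 0) (.play 128 (.ref 7 64))))))))
 (.seq (.seq (.one (.both (.play 64 (.ref 7 0)) (.play 66 (.ref 5 1))))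
 (.one (.both (.play 0 (.ref 0 0)) (.play 64 (.ref 1 0)))))
 (.seq (.one (.both (.play 257 (.ref 5 1)) (.play 128 (.ref 1 64))))
 (.seq (.one (.both (.play 257 (.ref 5 1)) (.play 64 (.ref 0 64))))
 (.one (.both (.play 2 (.ref 7 2)) (.play 65 (.ref 0 64)))))))))
 (.seq (.seq (.seq (.seq (.one (.both (.play 3 (.ref 0 0)) (.play 65 (.ref 3 0))))
 (.one (.both (.play 0 (.ref 0 0)) (.play 69 (.ref 221 1)))))
 (.seq (.one (.play 257 (.both (.play 66 (.both (.play 2 (.ref 5 1)) (.play 67 (.ref 211 64)))) (.play 321 (.ref 7 64)))))
 (.seq (.one (.play 1 (.both (.play 0 (.ref 0 0)) (.play 65 (.ref 1 0)))))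
 (.one (.play 194 (.both (.play 258 (.ref 6 2)) (.play 193 (.ref 2 128))))))))
 (.seq (.seq (.one (.play 321 (.both (.play 65 (.ref 64 0)) (.both (.play 385 (.ref 35 64)) (.play 385 (.ref 23 128))))))
 (.one (.play 388 (.both (.play 327 (.both (.play 326 (.both (.ref 138 4) (.play 387 (.ref 1 323)))) (.both (.play 326 (.ref 139 3)) (.both (.play 260 (.both (.play 389 (.both (.play 259 (.both (.play 196 (.both (.play 387 (.both (.play 262 (.both (.play 198 (.both (.play 134 (.ref 143 69)) (.play 199 (.ref 2 195)))) (.play 263 (.ref 211 260)))) (.play 451 (.ref 6 195)))) (.play 132 (.ref 4 132)))) (.both (.play 321 (.both (.play 257 (.both (.play 385 (.both (.ref 226 128) (.play 196 (.both (.play 132 (.ref 4 132)) (.ref 225 193))))) (.play 258 (.ref 0 257)))) (.both (.play 196 (.both (.play 132 (.ref 4 132)) (.play 387 (.both (.play 451 (.ref 6 195)) (.play 386 (.both (.play 322 (.ref 3 321)) (.play 385 (.ref 2 321)))))))) (.ref 224 257)))) (.play 258 (.both (.play 198 (.both (.play 197 (.ref 2 194)) (.play 262 (.both (.play 199 (.ref 2 195)) (.play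 263 (.ref 211 260)))))) (.play 257 (.ref 0 257))))))) (.both (.play 196 (.ref 124 132)) (.ref 223 196)))) (.both (.play 196 (.both (.play 132 (.ref 124 68)) (.play 195 (.both (.play 131 (.ref 7 131)) (.play 194 (.ref 222 193)))))) (.both (.play 196 (.both (.play 387 (.both (.play 386 (.both (.play 322 (.both (.play 258 (.both (.play 193 (.both (.play 257 (.ref 54 65)) (.play 195 (.ref 220 129)))) (.both (.play 195 (.both (.play 131 (.ref 7 131)) (.play 259 (.ref 219 193)))) (.both (.play 195 (.both (.play 131 (.ref 7 131)) (.play 259 (.ref 218 193)))) (.play 259 (.ref 217 257)))))) (.both (.play 195 (.both (.play 131 (.ref 7 131)) (.play 193 (.both (.play 194 (.ref 0 193)) (.play 450 (.both (.play 258 (.ref 216 193)) (.play 389 (.both (.play 453 (.ref 7 196)) (.play 449 (.ref 1 385)))))))))) (.play 389 (.both (.play 453 (.ref 4 196)) (.play 321 (.ref 3 321))))))) (.play 385 (.ref 2 321)))) (.play 451 (.ref 6 195)))) (.both (.ref 215 67) (.play 132 (.ref 124 68))))) (.both (.play 262 (.both (.play 259 (.both (.play 195 (.both (.play 131 (.ref 57 67))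 (.play 194 (.ref 3 194)))) (.ref 213 193))) (.play 263 (.ref 211 260)))) (.both (.play 262 (.both (.play 259 (.both (.ref 33 67) (.ref 201 193))) (.play 263 (.ref 211 260)))) (.play 196 (.both (.play 132 (.ref 124 68)) (.play 195 (.both (.play 131 (.ref 7 131)) (.play 194 (.ref 210 193)))))))))))) (.ref 208 259))))) (.both (.play 452 (.both (.play 389 (.both (.play 326 (.both (.play 327 (.both (.ref 138 4) (.both (.ref 206 260) (.ref 93 324)))) (.both (.ref 205 258) (.play 387 (.ref 132 322))))) (.play 197 (.ref 6 196)))) (.play 516 (.ref 5 260)))) (.both (.play 452 (.both (.play 260 (.both (.play 451 (.both (.play 196 (.both (.play 389 (.ref 124 132)) (.play 387 (.ref 6 195)))) (.play 515 (.ref 6 259)))) (.ref 146 193))) (.play 516 (.ref 5 260)))) (.both (.play 452 (.both (.play 260 (.ref 203 194)) (.play 516 (.ref 5 260)))) (.play 452 (.both (.play 197 (.ref 112 196)) (.play 516 (.ref 5 260)))))))))))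
 (.seq (.one (.both (.play 0 (.ref 7 0)) (.play 321 (.ref 5 65))))
 (.seq (.one (.both (.play 256 (.ref 6 0)) (.play 257 (.ref 7 0))))
 (.one (.play 68 (.both (.play 67 (.ref 3 0)) (.play 4 (.ref 211 1)))))))))
 (.seq (.seq (.seq (.one (.both (.play 3 (.ref 6 2)) (.play 68 (.ref 2 64))))
 (.one (.both (.play 257 (.ref 4 0)) (.play 256 (.ref 5 0)))))
 (.seq (.one (.both (.play 256 (.ref 6 0)) (.play 257 (.ref 5 1))))
 (.seq (.one (.play 256 (.both (.play 192 (.ref 6 0)) (.play 257 (.ref 233 64)))))
 (.one (.play 68 (.both (.play 0 (.ref 3 0)) (.play 69 (.ref 12 1))))))))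
 (.seq (.seq (.one (.both (.play 65 (.ref 7 0)) (.play 321 (.ref 7 64))))
 (.one (.both (.play 0 (.ref 4 0)) (.play 321 (.ref 236 64)))))
 (.seq (.one (.both (.play 0 (.ref 0 0)) (.play 66 (.ref 3 1))))
 (.seq (.one (.both (.play 1 (.ref 238 0)) (.play 70 (.ref 3 2))))
 (.one (.play 195 (.both (.play 131 (.both (.play 67 (.ref 237 3)) (.play 130 (.ref 239 128)))) (.both (.play 131 (.both (.play 67 (.ref 237 3)) (.ref 235 130))) (.play 194 (.ref 118 193)))))))))))))
 (.seq (.seq (.seq (.seq (.seq (.seq (.one (.both (.play 1 (.ref 15 0)) (.play 132 (.ref 0 65))))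
 (.one (.both (.play 65 (.ref 3 0)) (.play 69 (.ref 3 1)))))
 (.seq (.one (.both (.play 1 (.ref 6 0)) (.play 320 (.ref 6 64))))
 (.one (.play 131 (.both (.play 67 (.ref 243 2)) (.play 132 (.ref 2 128)))))))
 (.seq (.seq (.one (.play 1 (.both (.ref 9 0) (.play 68 (.ref 0 1)))))
 (.one (.both (.play 1 (.ref 6 0)) (.play 320 (.ref 5 64)))))
 (.seq (.one (.play 195 (.both (.play 194 (.both (.play 258 (.both (.play 130 (.both (.play 131 (.both (.play 67 (.ref 246 2)) (.play 198 (.ref 3 130)))) (.play 129 (.ref 3 129)))) (.play 257 (.ref 1 193)))) (.both (.play 193 (.ref 241 128)) (.ref 245 192)))) (.both (.play 262 (.both (.play 198 (.both (.ref 244 3) (.play 131 (.both (.play 130 (.ref 3 130)) (.play 199 (.both (.play 132 (.ref 3 131)) (.play 200 (.ref 117 196)))))))) (.both (.play 263 (.ref 209 195)) (.play 263 (.ref 242 195))))) (.both (.play 194 (.both (.play 193 (.ref 241 128)) (.play 262 (.ref 0 194)))) (.play 262 (.ref 210 194)))))))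
 (.seq (.one (.play 256 (.both (.play 1 (.ref 5 0)) (.ref 21 0))))
 (.one (.both (.play 65 (.ref 5 0)) (.play 321 (.ref 4 64))))))))
 (.seq (.seq (.seq (.one (.both (.play 193 (.ref 4 0)) (.play 256 (.ref 249 0))))
 (.one (.both (.play 1 (.ref 5 0)) (.play 321 (.ref 250 64)))))
 (.seq (.one (.both (.play 260 (.ref 4 3)) (.play 130 (.ref 0 128))))
 (.seq (.one (.both (.play 4 (.ref 2 0)) (.play 194 (.ref 5 2))))
 (.one (.play 131 (.both (.play 3 (.both (.play 4 (.ref 2 0)) (.play 195 (.ref 6 2)))) (.play 132 (.ref 0 64))))))))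
 (.seq (.seq (.one (.both (.play 0 (.ref 0 0)) (.play 69 (.ref 242 1))))
 (.one (.play 260 (.both (.play 196 (.both (.play 195 (.both (.play 131 (.ref 58 3)) (.play 194 (.ref 255 193)))) (.both (.play 132 (.ref 124 68)) (.play 195 (.both (.play 388 (.ref 85 131)) (.play 194 (.ref 255 193))))))) (.both (.play 196 (.both (.play 327 (.both (.play 326 (.both (.ref 138 4) (.play 259 (.ref 3 259)))) (.both (.play 132 (.both (.play 131 (.both (.play 67 (.ref 7 67)) (.play 133 (.both (.play 134 (.both (.ref 254 67) (.both (.play 199 (.both (.play 135 (.both (.play 72 (.both (.play 71 (.ref 2 68)) (.play 136 (.ref 253 69)))) (.play 200 (.ref 0 132)))) (.play 198 (.ref 0 131)))) (.both (.play 70 (.both (.play 71 (.ref 2 67)) (.play 262 (.both (.play 198 (.ref 6 69)) (.play 263 (.ref 211 260)))))) (.both (.play 198 (.both (.play 262 (.both (.play 70 (.ref 6 69)) (.play 263 (.ref 211 260)))) (.play 199 (.ref 0 131)))) (.play 135 (.both (.ref 11 67) (.both (.play 200 (.ref 176 68)) (.play 199 (.both (.play 263 (.both (.play 70 (.ref 7 70)) (.play 328 (.ref 252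 132)))) (.play 200 (.ref 0 132)))))))))))) (.play 69 (.ref 5 68)))))) (.play 68 (.ref 4 68)))) (.play 326 (.ref 128 259))))) (.both (.play 132 (.ref 124 68)) (.play 388 (.both (.play 387 (.both (.play 451 (.ref 6 195)) (.play 326 (.ref 99 321)))) (.both (.play 451 (.both (.play 387 (.ref 6 195)) (.play 452 (.both (.play 515 (.ref 6 259)) (.ref 248 260))))) (.play 452 (.both (.ref 21 196) (.both (.play 516 (.both (.play 389 (.both (.play 453 (.ref 4 196)) (.play 580 (.ref 5 324)))) (.play 261 (.ref 5 260)))) (.both (.play 516 (.ref 251 260)) (.ref 248 260))))))))))) (.both (.ref 247 64) (.both (.ref 240 64) (.both (.play 196 (.both (.play 132 (.both (.play 131 (.both (.play 67 (.ref 7 67)) (.play 388 (.both (.play 195 (.ref 7 131)) (.ref 234 195))))) (.play 68 (.ref 4 68)))) (.both (.play 132 (.ref 124 68)) (.play 388 (.both (.play 389 (.both (.play 387 (.both (.play 451 (.ref 6 195)) (.play 386 (.ref 159 321)))) (.play 453 (.ref 7 196)))) (.both (.ref 234 195) (.play 453 (.both (.play 389 (.ref 7 196)) (.play 452 (.ref 232 260)))))))))) (.play 259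 (.both (.play 452 (.both (.play 389 (.both (.play 262 (.both (.play 326 (.both (.play 198 (.ref 231 131)) (.play 327 (.ref 3 259)))) (.both (.play 263 (.both (.ref 11 195) (.play 264 (.ref 1 260)))) (.ref 230 259)))) (.play 453 (.ref 229 260)))) (.both (.play 327 (.both (.play 195 (.both (.play 262 (.both (.play 194 (.ref 3 194)) (.play 263 (.ref 211 260)))) (.play 388 (.ref 7 195)))) (.play 326 (.ref 3 259)))) (.play 388 (.ref 228 195))))) (.both (.play 258 (.both (.play 194 (.both (.play 193 (.ref 3 193)) (.play 262 (.both (.play 195 (.ref 3 194)) (.ref 120 195))))) (.play 257 (.ref 0 257)))) (.play 258 (.ref 118 257)))))))))))))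
 (.seq (.one (.both (.ref 96 1) (.play 128 (.ref 1 64))))
 (.seq (.one (.play 4 (.both (.play 3 (.ref 2 0)) (.play 68 (.ref 5 3)))))
 (.one (.play 69 (.both (.play 70 (.ref 12 2)) (.ref 9 64)))))))))
 (.seq (.seq (.seq (.seq (.one (.both (.play 1 (.ref 15 0)) (.play 128 (.ref 1 64))))
 (.one (.play 129 (.both (.play 65 (.ref 260 0)) (.play 130 (.ref 1 65))))))
 (.seq (.one (.both (.play 1 (.ref 164 0)) (.play 66 (.ref 1 1))))
 (.seq (.one (.play 67 (.both (.play 66 (.both (.play 2 (.ref 15 1)) (.play 129 (.ref 262 64)))) (.both (.ref 261 1) (.both (.ref 202 1) (.ref 259 2))))))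
 (.one (.play 66 (.both (.play 65 (.ref 132 0)) (.play 259 (.ref 7 2))))))))
 (.seq (.seq (.one (.both (.play 66 (.both (.play 2 (.ref 7 2)) (.ref 264 64))) (.play 4 (.ref 5 3))))
 (.one (.both (.play 3 (.ref 2 0)) (.play 68 (.both (.play 5 (.ref 2 1)) (.play 132 (.ref 8 64)))))))
 (.seq (.one (.both (.play 5 (.ref 266 1)) (.play 128 (.ref 1 64))))
 (.seq (.one (.play 196 (.both (.play 260 (.ref 124 3)) (.play 128 (.ref 0 128)))))
 (.one (.both (.play 65 (.ref 36 0)) (.both (.play 65 (.ref 26 1)) (.play 385 (.ref 35 64)))))))))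
 (.seq (.seq (.seq (.one (.both (.play 4 (.ref 5 3)) (.play 128 (.ref 2 64))))
 (.one (.play 68 (.both (.play 1 (.ref 3 0)) (.ref 11 0)))))
 (.seq (.one (.both (.play 3 (.ref 94 0)) (.play 68 (.ref 2 1))))
 (.seq (.one (.both (.play 196 (.both (.play 195 (.both (.play 4 (.ref 6 3)) (.play 128 (.ref 0 128)))) (.play 197 (.ref 0 129)))) (.play 69 (.ref 2 65))))
 (.one (.play 197 (.both (.play 388 (.both (.play 327 (.both (.play 198 (.both (.play 196 (.both (.play 132 (.ref 54 4)) (.both (.ref 263 128) (.play 132 (.both (.play 131 (.ref 239 129)) (.play 389 (.ref 7 132))))))) (.both (.play 134 (.both (.play 199 (.both (.play 136 (.both (.play 263 (.both (.play 72 (.ref 181 7)) (.both (.play 135 (.ref 270 68)) (.both (.play 264 (.both (.play 200 (.both (.play 72 (.ref 6 71)) (.play 265 (.ref 0 197)))) (.play 196 (.ref 0 196)))) (.ref 186 132))))) (.both (.play 200 (.ref 273 68)) (.both (.play 137 (.ref 272 132)) (.both (.play 135 (.ref 184 132)) (.play 137 (.ref 185 133))))))) (.both (.play 263 (.ref 58 6)) (.both (.play 200 (.both (.play 136 (.both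 (.play 264 (.both (.play 135 (.both (.play 328 (.ref 122 71)) (.play 196 (.ref 2 132)))) (.play 265 (.ref 0 197)))) (.play 137 (.ref 2 133)))) (.both (.play 265 (.both (.play 201 (.both (.ref 160 131) (.play 266 (.ref 0 198)))) (.play 264 (.ref 0 197)))) (.both (.play 201 (.both (.ref 160 131) (.both (.ref 11 133) (.ref 271 134)))) (.both (.play 137 (.ref 266 133)) (.play 265 (.both (.play 201 (.both (.play 138 (.ref 157 134)) (.play 266 (.ref 0 198)))) (.play 264 (.ref 0 197))))))))) (.play 263 (.both (.play 391 (.ref 7 134)) (.play 264 (.ref 210 196)))))))) (.play 389 (.ref 5 133)))) (.both (.play 199 (.both (.play 135 (.both (.play 263 (.both (.play 71 (.ref 26 7)) (.both (.play 136 (.ref 270 68)) (.ref 268 68)))) (.both (.play 263 (.ref 269 6)) (.both (.play 263 (.both (.ref 268 68) (.play 134 (.ref 134 70)))) (.play 136 (.ref 184 132)))))) (.both (.play 200 (.both (.play 264 (.both (.play 263 (.both (.play 136 (.ref 246 71)) (.play 196 (.ref 0 196)))) (.play 265 (.ref 0 197)))) (.play 260 (.ref 1 196)))) (.both (.play 200 (.both (.play 136 (.both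 (.play 135 (.both (.play 263 (.ref 127 71)) (.play 196 (.ref 2 132)))) (.play 137 (.ref 2 133)))) (.play 260 (.ref 1 196)))) (.both (.play 200 (.ref 267 132)) (.play 200 (.both (.play 264 (.both (.play 263 (.both (.play 391 (.ref 228 134)) (.play 196 (.ref 0 196)))) (.play 265 (.ref 0 197)))) (.play 260 (.ref 1 196))))))))) (.both (.play 134 (.both (.play 70 (.both (.play 6 (.ref 6 5)) (.play 199 (.both (.play 263 (.ref 236 70)) (.play 200 (.ref 267 132)))))) (.play 389 (.ref 5 133)))) (.both (.play 389 (.ref 265 130)) (.play 389 (.both (.play 196 (.both (.play 132 (.ref 7 132)) (.play 453 (.both (.play 260 (.ref 7 196)) (.ref 130 260))))) (.play 134 (.ref 5 133)))))))))) (.both (.play 326 (.both (.play 196 (.both (.play 260 (.both (.ref 215 67) (.play 259 (.ref 3 259)))) (.both (.play 392 (.both (.play 198 (.both (.ref 263 128) (.both (.ref 106 131) (.play 260 (.both (.play 389 (.both (.play 134 (.ref 5 133)) (.play 453 (.ref 4 196)))) (.play 259 (.ref 3 259))))))) (.play 391 (.ref 0 324)))) (.both (.play 260 (.both (.play 389 (.both (.play 132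 (.ref 7 132)) (.play 453 (.ref 4 196)))) (.play 259 (.ref 3 259)))) (.play 391 (.both (.play 263 (.both (.play 198 (.both (.play 132 (.both (.play 199 (.both (.play 131 (.ref 3 131)) (.ref 258 132))) (.play 389 (.ref 7 132)))) (.both (.play 389 (.ref 103 132)) (.play 199 (.both (.ref 258 132) (.play 134 (.ref 7 134))))))) (.play 264 (.ref 2 260)))) (.play 392 (.ref 0 324)))))))) (.play 387 (.ref 1 323)))) (.both (.ref 208 259) (.both (.play 326 (.ref 129 259)) (.play 326 (.ref 257 259))))))) (.both (.play 452 (.ref 31 196)) (.play 452 (.ref 110 196))))) (.both (.ref 145 1) (.both (.play 133 (.ref 91 4)) (.play 388 (.ref 111 132))))))))))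
 (.seq (.seq (.one (.both (.play 0 (.ref 7 0)) (.play 1 (.ref 6 0))))
 (.one (.play 131 (.both (.play 67 (.ref 275 2)) (.play 132 (.ref 2 128))))))
 (.seq (.one (.both (.play 257 (.both (.play 66 (.ref 246 1)) (.play 256 (.ref 1 192)))) (.play 197 (.ref 3 129))))
 (.seq (.one (.play 257 (.both (.play 259 (.both (.play 193 (.both (.play 2 (.ref 6 1)) (.play 260 (.ref 128 192)))) (.play 323 (.ref 4 66)))) (.play 321 (.ref 6 65)))))
 (.one (.play 258 (.both (.ref 278 0) (.play 322 (.ref 5 66)))))))))))
 (.seq (.seq (.seq (.seq (.seq (.one (.both (.play 0 (.ref 4 0)) (.play 1 (.ref 5 0))))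
 (.one (.play 65 (.both (.play 64 (.ref 280 0)) (.play 129 (.ref 6 64))))))
 (.seq (.one (.play 65 (.both (.ref 34 0) (.play 1 (.ref 4 1)))))
 (.one (.play 385 (.both (.play 384 (.both (.play 129 (.both (.ref 215 0) (.play 320 (.ref 6 128)))) (.play 448 (.ref 6 192)))) (.play 449 (.ref 5 193)))))))
 (.seq (.seq (.one (.play 1 (.both (.play 0 (.ref 3 0)) (.ref 271 1))))
 (.one (.play 65 (.both (.ref 284 0) (.play 64 (.ref 0 64))))))
 (.seq (.one (.play 66 (.both (.play 2 (.ref 5 1)) (.play 67 (.ref 0 64)))))
 (.seq (.one (.play 132 (.both (.ref 286 0) (.play 130 (.ref 3 64)))))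
 (.one (.play 258 (.both (.play 326 (.both (.play 198 (.both (.play 262 (.both (.ref 37 5) (.both (.play 261 (.ref 151 195)) (.both (.play 261 (.ref 119 195)) (.play 261 (.ref 211 259)))))) (.both (.play 196 (.both (.play 132 (.both (.play 131 (.both (.play 133 (.both (.play 69 (.ref 5 68)) (.play 197 (.both (.play 130 (.ref 0 130)) (.play 195 (.ref 1 194)))))) (.play 67 (.ref 7 67)))) (.play 68 (.ref 6 67)))) (.both (.play 132 (.both (.play 131 (.both (.play 133 (.both (.play 69 (.ref 5 68)) (.ref 199 130))) (.play 67 (.ref 7 67)))) (.play 68 (.ref 6 67)))) (.both (.play 132 (.both (.play 68 (.ref 6 67)) (.play 131 (.both (.play 67 (.ref 7 67)) (.ref 287 67))))) (.play 197 (.ref 183 194)))))) (.both (.play 197 (.ref 185 194)) (.play 261 (.both (.play 197 (.ref 2 194)) (.play 262 (.ref 211 259)))))))) (.play 325 (.ref 3 258)))) (.both (.ref 285 192) (.play 257 (.ref 118 256))))))))))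
 (.seq (.seq (.seq (.one (.both (.play 64 (.ref 2 0)) (.play 6 (.ref 1 2))))
 (.one (.play 5 (.both (.play 3 (.ref 289 0)) (.play 68 (.ref 2 1))))))
 (.seq (.one (.play 6 (.both (.ref 29 0) (.both (.ref 290 2) (.play 70 (.both (.play 7 (.ref 2 3)) (.play 134 (.both (.play 198 (.ref 6 5)) (.play 135 (.ref 0 67))))))))))
 (.seq (.one (.play 3 (.both (.play 2 (.ref 239 0)) (.play 132 (.ref 7 3)))))
 (.one (.play 133 (.both (.play 69 (.both (.play 1 (.ref 15 0)) (.play 134 (.ref 0 66)))) (.play 132 (.ref 0 65))))))))
 (.seq (.seq (.one (.play 5 (.both (.play 69 (.both (.play 1 (.ref 15 0)) (.play 6 (.ref 2 2)))) (.play 4 (.ref 2 1)))))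
 (.one (.play 3 (.both (.ref 160 0) (.play 2 (.ref 3 2))))))
 (.seq (.one (.play 70 (.both (.ref 295 0) (.both (.ref 11 2) (.ref 284 2)))))
 (.seq (.one (.play 1 (.both (.play 65 (.both (.play 0 (.ref 3 0)) (.ref 11 1))) (.play 2 (.ref 3 1)))))
 (.one (.play 129 (.both (.ref 166 0) (.play 130 (.ref 1 65))))))))))
 (.seq (.seq (.seq (.seq (.one (.play 66 (.both (.play 65 (.ref 17 0)) (.ref 9 65))))
 (.one (.play 261 (.both (.play 327 (.both (.play 389 (.both (.play 134 (.both (.play 133 (.both (.play 132 (.both (.play 259 (.both (.play 131 (.both (.play 195 (.both (.play 68 (.both (.play 67 (.both (.play 4 (.ref 5 3)) (.play 135 (.ref 3 67)))) (.play 323 (.ref 5 67)))) (.play 194 (.ref 1 130)))) (.both (.play 67 (.both (.play 68 (.both (.play 195 (.ref 127 3)) (.play 135 (.ref 3 67)))) (.play 66 (.ref 3 66)))) (.both (.ref 299 64) (.both (.play 130 (.both (.play 129 (.ref 13 64)) (.play 66 (.ref 15 65)))) (.play 66 (.both (.play 130 (.both (.play 65 (.ref 3 65)) (.play 195 (.both (.play 323 (.ref 7 66)) (.play 194 (.ref 1 130)))))) (.play 67 (.ref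 3 66))))))))) (.play 260 (.ref 0 259)))) (.both (.play 259 (.both (.play 131 (.both (.play 195 (.both (.play 67 (.both (.play 68 (.ref 127 3)) (.play 66 (.ref 3 66)))) (.play 194 (.ref 1 130)))) (.both (.ref 298 65) (.ref 297 65)))) (.play 260 (.ref 0 259)))) (.both (.play 259 (.both (.ref 291 65) (.play 260 (.ref 0 259)))) (.both (.play 135 (.both (.play 136 (.both (.ref 295 66) (.play 200 (.ref 8 132)))) (.both (.ref 296 66) (.both (.play 199 (.both (.play 71 (.both (.play 70 (.both (.play 131 (.ref 2 67)) (.play 263 (.ref 7 70)))) (.play 72 (.ref 2 68)))) (.play 200 (.ref 0 132)))) (.both (.play 72 (.both (.play 71 (.ref 2 68)) (.play 136 (.both (.play 199 (.both (.play 263 (.ref 5 71)) (.play 200 (.ref 0 132)))) (.play 73 (.ref 2 69)))))) (.play 136 (.both (.ref 294 68) (.both (.ref 293 68) (.play 200 (.both (.play 72 (.both (.play 73 (.ref 2 69)) (.play 263 (.both (.play 264 (.ref 6 71)) (.play 199 (.ref 5 71)))))) (.play 201 (.ref 0 133)))))))))))) (.play 259 (.both (.play 135 (.both (.ref 293 67) (.both (.ref 284 67) (.ref 254 68)))) (.play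 260 (.ref 0 259))))))))) (.both (.play 259 (.both (.play 132 (.both (.ref 292 65) (.both (.ref 291 65) (.play 197 (.ref 103 68))))) (.play 260 (.ref 0 259)))) (.both (.play 260 (.both (.play 135 (.both (.play 69 (.both (.play 68 (.ref 239 66)) (.play 197 (.ref 4 69)))) (.both (.play 132 (.both (.play 68 (.ref 161 67)) (.ref 254 68))) (.both (.play 69 (.both (.ref 235 68) (.play 197 (.ref 4 69)))) (.play 199 (.both (.play 263 (.both (.play 71 (.ref 6 70)) (.play 200 (.ref 2 196)))) (.both (.play 71 (.both (.play 72 (.ref 105 68)) (.play 263 (.ref 6 70)))) (.play 200 (.ref 210 132))))))))) (.play 259 (.ref 0 259)))) (.play 197 (.ref 280 69)))))) (.play 198 (.ref 6 133)))) (.both (.play 198 (.ref 246 133)) (.ref 279 195)))) (.both (.play 328 (.ref 277 132)) (.play 328 (.ref 128 260))))) (.both (.ref 288 2) (.both (.ref 240 65) (.both (.play 389 (.both (.play 197 (.both (.ref 215 68) (.both (.ref 281 69) (.play 198 (.both (.ref 146 130) (.play 134 (.ref 6 133))))))) (.both (.ref 283 68) (.play 198 (.ref 246 133))))) (.both (.play 327 (.both (.play 259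 (.both (.play 389 (.both (.play 197 (.both (.ref 282 68) (.both (.ref 281 69) (.play 196 (.both (.play 198 (.both (.play 134 (.ref 5 133)) (.play 195 (.ref 217 194)))) (.play 132 (.ref 7 132))))))) (.both (.play 198 (.ref 246 133)) (.ref 279 195)))) (.play 260 (.ref 0 259)))) (.both (.play 328 (.ref 277 132)) (.play 328 (.ref 128 260))))) (.play 260 (.both (.play 259 (.both (.ref 244 67) (.play 258 (.ref 0 258)))) (.both (.play 389 (.both (.play 134 (.both (.play 263 (.both (.play 327 (.both (.ref 276 68) (.play 328 (.ref 3 260)))) (.both (.ref 120 196) (.ref 230 260)))) (.play 198 (.ref 6 133)))) (.both (.play 453 (.ref 103 196)) (.play 453 (.ref 228 196))))) (.play 259 (.ref 118 258)))))))))))))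
 (.seq (.one (.both (.play 5 (.ref 2 1)) (.ref 9 64)))
 (.seq (.one (.play 68 (.both (.ref 146 1) (.play 259 (.both (.play 261 (.both (.play 325 (.ref 4 68)) (.play 262 (.both (.play 258 (.both (.play 257 (.ref 301 192)) (.play 194 (.ref 15 193)))) (.both (.play 195 (.ref 128 194)) (.ref 158 195)))))) (.play 323 (.ref 6 67)))))))
 (.one (.both (.play 2 (.ref 1 0)) (.play 66 (.ref 2 0)))))))
 (.seq (.seq (.one (.play 67 (.both (.play 1 (.ref 128 0)) (.play 5 (.ref 2 1)))))
 (.one (.play 65 (.both (.play 1 (.ref 15 0)) (.play 64 (.ref 0 64))))))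
 (.seq (.one (.both (.play 66 (.both (.ref 305 0) (.play 5 (.ref 2 2)))) (.play 7 (.ref 2 3))))
 (.seq (.one (.both (.play 6 (.ref 306 0)) (.play 135 (.ref 0 67))))
 (.one (.both (.play 66 (.ref 3 0)) (.play 2 (.ref 0 0))))))))
 (.seq (.seq (.seq (.one (.play 66 (.both (.play 65 (.both (.play 1 (.both (.play 0 (.ref 3 0)) (.play 69 (.both (.play 2 (.ref 3 1)) (.ref 11 2))))) (.play 64 (.ref 0 64)))) (.play 133 (.ref 3 66)))))
 (.one (.play 67 (.both (.ref 309 0) (.both (.play 69 (.ref 307 0)) (.both (.play 133 (.ref 128 66)) (.play 135 (.ref 308 67))))))))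
 (.seq (.one (.both (.play 2 (.ref 5 1)) (.play 320 (.ref 6 64))))
 (.seq (.one (.both (.ref 245 0) (.play 70 (.ref 0 2))))
 (.one (.play 66 (.both (.play 65 (.ref 16 0)) (.ref 9 65)))))))
 (.seq (.seq (.one (.play 69 (.both (.ref 177 0) (.both (.ref 313 0) (.both (.ref 259 2) (.both (.play 71 (.both (.play 72 (.ref 13 3)) (.play 135 (.ref 8 67)))) (.play 134 (.ref 312 65))))))))
 (.one (.both (.play 194 (.both (.play 258 (.ref 6 2)) (.play 193 (.ref 3 128)))) (.play 260 (.ref 4 3)))))
 (.seq (.one (.play 260 (.both (.play 196 (.ref 4 3)) (.play 259 (.ref 315 64)))))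
 (.seq (.one (.play 260 (.both (.play 196 (.ref 4 3)) (.play 259 (.ref 252 64)))))
 (.one (.both (.play 258 (.ref 6 2)) (.play 132 (.ref 2 128)))))))))))))
 (.seq (.seq (.seq (.seq (.seq (.seq (.seq (.seq (.one (.play 135 (.both (.play 262 (.both (.play 198 (.both (.play 5 (.ref 7 5)) (.play 261 (.ref 318 67)))) (.both (.play 198 (.both (.play 5 (.ref 7 5)) (.ref 317 67))) (.both (.play 198 (.both (.play 5 (.ref 7 5)) (.ref 316 67))) (.ref 314 192))))) (.play 67 (.ref 0 67)))))
 (.one (.play 257 (.both (.ref 22 0) (.play 66 (.ref 5 1))))))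
 (.seq (.one (.both (.play 2 (.ref 5 1)) (.ref 320 64)))
 (.one (.play 64 (.both (.play 1 (.ref 5 0)) (.play 257 (.ref 4 64)))))))
 (.seq (.seq (.one (.play 65 (.both (.ref 322 0) (.play 129 (.ref 5 64)))))
 (.one (.play 321 (.both (.ref 323 0) (.play 385 (.ref 4 128))))))
 (.seq (.one (.play 65 (.both (.ref 34 0) (.play 258 (.ref 4 65)))))
 (.seq (.one (.both (.ref 325 0) (.play 386 (.ref 4 129))))
 (.one (.both (.play 256 (.ref 6 0)) (.play 258 (.ref 4 1))))))))
 (.seq (.seq (.seq (.one (.play 258 (.both (.play 256 (.both (.play 192 (.ref 6 0)) (.play 257 (.ref 327 64)))) (.play 194 (.ref 4 1)))))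
 (.one (.both (.play 1 (.ref 5 0)) (.play 321 (.ref 4 64)))))
 (.seq (.one (.play 65 (.both (.play 64 (.ref 329 0)) (.play 129 (.ref 5 64)))))
 (.seq (.one (.play 129 (.both (.ref 330 1) (.ref 34 64))))
 (.one (.play 65 (.both (.play 4 (.ref 159 0)) (.play 133 (.ref 0 65))))))))
 (.seq (.seq (.one (.play 67 (.both (.play 3 (.ref 5 2)) (.play 68 (.ref 117 64)))))
 (.one (.play 64 (.both (.play 65 (.ref 275 0)) (.play 128 (.ref 4 64))))))
 (.seq (.one (.both (.play 256 (.ref 6 0)) (.play 257 (.ref 182 0))))
 (.seq (.one (.play 69 (.both (.play 65 (.ref 262 0)) (.play 70 (.ref 0 2)))))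
 (.one (.both (.play 130 (.ref 4 2)) (.play 260 (.ref 0 192)))))))))
 (.seq (.seq (.seq (.seq (.one (.play 260 (.both (.play 196 (.ref 337 1)) (.play 259 (.ref 0 192)))))
 (.one (.play 259 (.both (.play 132 (.ref 6 3)) (.play 258 (.ref 95 192))))))
 (.seq (.one (.play 197 (.both (.ref 339 0) (.both (.play 70 (.both (.play 198 (.both (.play 134 (.ref 318 3)) (.both (.ref 338 3) (.ref 336 193)))) (.play 71 (.ref 255 3)))) (.both (.play 261 (.both (.play 132 (.ref 4 4)) (.play 262 (.ref 210 194)))) (.play 132 (.ref 327 3)))))))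
 (.one (.play 69 (.both (.play 5 (.both (.ref 9 0) (.play 70 (.ref 0 2)))) (.play 68 (.ref 0 1)))))))
 (.seq (.seq (.one (.play 4 (.both (.play 65 (.ref 1 0)) (.play 68 (.ref 8 0)))))
 (.one (.both (.play 64 (.ref 1 0)) (.ref 342 1))))
 (.seq (.one (.play 67 (.both (.play 68 (.both (.play 1 (.ref 118 0)) (.play 7 (.ref 1 3)))) (.play 66 (.ref 1 2)))))
 (.seq (.one (.both (.play 0 (.ref 3 0)) (.play 128 (.ref 1 64))))
 (.one (.play 129 (.both (.play 1 (.both (.play 65 (.ref 345 0)) (.play 2 (.ref 3 1)))) (.play 130 (.ref 1 65)))))))))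
 (.seq (.seq (.seq (.one (.play 66 (.both (.play 2 (.ref 15 1)) (.play 65 (.ref 10 64)))))
 (.one (.play 70 (.both (.play 67 (.both (.ref 347 0) (.both (.ref 346 1) (.both (.ref 344 65) (.ref 9 66))))) (.both (.ref 177 1) (.both (.ref 336 66) (.both (.play 72 (.both (.ref 344 66) (.both (.play 136 (.ref 8 68)) (.play 133 (.ref 343 68))))) (.ref 341 67))))))))
 (.seq (.one (.both (.play 65 (.ref 5 0)) (.ref 21 0)))
 (.seq (.one (.both (.play 1 (.ref 5 0)) (.play 320 (.ref 349 64))))
 (.one (.play 260 (.both (.play 196 (.ref 4 3)) (.play 259 (.ref 0 192))))))))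
 (.seq (.seq (.one (.both (.ref 351 0) (.play 132 (.ref 2 128))))
 (.one (.both (.play 66 (.ref 7 2)) (.play 194 (.ref 0 192)))))
 (.seq (.one (.both (.play 192 (.ref 6 0)) (.play 257 (.ref 115 0))))
 (.seq (.one (.both (.play 128 (.ref 4 0)) (.play 194 (.ref 6 1))))
 (.one (.play 259 (.both (.play 130 (.ref 4 2)) (.play 260 (.ref 255 192)))))))))))
 (.seq (.seq (.seq (.seq (.seq (.one (.play 260 (.both (.play 3 (.ref 4 3)) (.play 259 (.both (.play 324 (.ref 4 67)) (.play 258 (.ref 2 192)))))))
 (.one (.both (.ref 357 0) (.play 130 (.ref 0 128)))))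
 (.seq (.one (.play 64 (.both (.ref 24 0) (.play 257 (.ref 4 64)))))
 (.one (.both (.ref 359 0) (.play 385 (.ref 4 128))))))
 (.seq (.seq (.one (.play 196 (.both (.play 132 (.ref 144 3)) (.play 256 (.ref 2 192)))))
 (.one (.both (.play 193 (.both (.play 0 (.ref 4 0)) (.play 385 (.ref 7 128)))) (.play 256 (.ref 4 64)))))
 (.seq (.one (.play 129 (.both (.ref 178 0) (.play 322 (.ref 4 129)))))
 (.seq (.one (.play 325 (.both (.play 197 (.both (.play 390 (.both (.ref 363 4) (.both (.play 454 (.ref 362 133)) (.play 452 (.both (.play 389 (.both (.play 454 (.ref 4 197)) (.play 453 (.ref 2 386)))) (.ref 356 257)))))) (.both (.ref 361 2) (.play 258 (.ref 151 194))))) (.both (.play 389 (.both (.play 390 (.both (.play 197 (.ref 360 69)) (.play 324 (.ref 0 322)))) (.both (.play 390 (.ref 358 194)) (.both (.play 452 (.both (.ref 356 257) (.both (.play 453 (.ref 352 258)) (.play 516 (.ref 355 259))))) (.play 516 (.both (.play 515 (.both (.play 517 (.both (.play 453 (.ref 115 260)) (.play 518 (.ref 3 450)))) (.both (.play 517 (.both (.play 324 (.both (.play 387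 (.ref 5 259)) (.play 453 (.ref 7 260)))) (.play 518 (.ref 3 450)))) (.both (.play 387 (.ref 249 259)) (.play 580 (.both (.play 517 (.both (.play 453 (.ref 6 324)) (.play 518 (.ref 3 450)))) (.play 387 (.ref 4 323)))))))) (.both (.play 452 (.ref 355 259)) (.both (.play 387 (.ref 250 259)) (.play 453 (.ref 354 260)))))))))) (.both (.play 515 (.both (.play 389 (.both (.play 390 (.both (.play 197 (.both (.play 198 (.ref 270 130)) (.play 454 (.ref 4 197)))) (.play 324 (.ref 0 322)))) (.both (.play 324 (.both (.play 517 (.both (.play 453 (.ref 7 260)) (.play 516 (.ref 62 448)))) (.play 390 (.ref 0 322)))) (.both (.play 517 (.both (.play 518 (.both (.play 453 (.ref 353 258)) (.play 516 (.ref 3 450)))) (.both (.play 453 (.both (.play 518 (.both (.play 454 (.ref 4 261)) (.play 452 (.ref 0 450)))) (.play 324 (.ref 7 260)))) (.both (.play 453 (.both (.play 518 (.both (.play 454 (.ref 4 261)) (.play 516 (.ref 3 450)))) (.play 324 (.ref 7 260)))) (.both (.play 453 (.ref 167 260)) (.play 516 (.ref 62 448))))))) (.play 453 (.both (.play 452 (.ref 318 258)) (.both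 (.play 518 (.both (.play 454 (.ref 4 261)) (.play 517 (.both (.play 582 (.ref 4 325)) (.play 516 (.ref 3 450)))))) (.play 452 (.ref 352 258))))))))) (.both (.play 387 (.ref 182 258)) (.both (.play 387 (.ref 187 258)) (.play 387 (.ref 349 259)))))) (.play 326 (.ref 255 258)))))))
 (.one (.play 196 (.both (.play 260 (.ref 237 3)) (.play 130 (.ref 0 128)))))))))
 (.seq (.seq (.seq (.one (.play 196 (.both (.play 132 (.ref 144 3)) (.play 258 (.ref 2 192)))))
 (.one (.play 195 (.both (.ref 317 0) (.both (.play 194 (.ref 318 0)) (.ref 316 0))))))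
 (.seq (.one (.play 193 (.both (.play 321 (.both (.play 322 (.both (.play 324 (.both (.play 260 (.ref 362 3)) (.play 323 (.ref 3 256)))) (.play 386 (.ref 4 129)))) (.play 64 (.ref 7 64)))) (.play 320 (.ref 6 64)))))
 (.seq (.one (.play 65 (.both (.play 321 (.both (.ref 322 0) (.play 385 (.ref 4 128)))) (.play 129 (.ref 5 64)))))
 (.one (.both (.play 0 (.ref 0 0)) (.play 70 (.ref 3 2)))))))
 (.seq (.seq (.one (.play 69 (.both (.play 70 (.ref 13 1)) (.both (.play 70 (.ref 12 2)) (.play 65 (.ref 10 64))))))
 (.one (.play 131 (.both (.ref 316 0) (.play 132 (.ref 0 64))))))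
 (.seq (.one (.play 258 (.both (.play 194 (.ref 6 2)) (.play 259 (.both (.play 260 (.both (.play 324 (.ref 4 67)) (.play 257 (.ref 3 192)))) (.play 322 (.ref 6 66)))))))
 (.seq (.one (.play 131 (.both (.ref 373 0) (.play 132 (.ref 0 64)))))
 (.one (.play 131 (.both (.ref 317 0) (.play 132 (.ref 0 64))))))))))
 (.seq (.seq (.seq (.seq (.one (.both (.play 195 (.both (.play 259 (.ref 6 3)) (.ref 9 192))) (.play 261 (.ref 4 4))))
 (.one (.play 132 (.both (.play 197 (.ref 376 0)) (.play 133 (.ref 0 65))))))
 (.seq (.one (.both (.play 6 (.ref 2 2)) (.ref 9 64)))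
 (.seq (.one (.both (.play 69 (.ref 378 0)) (.play 4 (.ref 2 1))))
 (.one (.both (.play 259 (.ref 6 3)) (.play 128 (.ref 0 128)))))))
 (.seq (.seq (.one (.play 197 (.both (.play 134 (.both (.play 261 (.both (.play 6 (.ref 6 5)) (.play 262 (.ref 380 66)))) (.play 135 (.ref 2 131)))) (.both (.ref 313 128) (.play 135 (.ref 379 130))))))
 (.one (.play 70 (.both (.play 199 (.both (.ref 381 1) (.both (.ref 377 3) (.both (.ref 375 4) (.both (.ref 374 4) (.both (.ref 372 4) (.ref 348 128))))))) (.play 4 (.ref 128 3))))))
 (.seq (.one (.both (.play 0 (.ref 3 0)) (.play 133 (.ref 0 65))))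
 (.seq (.one (.both (.play 65 (.ref 3 0)) (.play 2 (.ref 209 0))))
 (.one (.both (.play 0 (.ref 7 0)) (.play 322 (.ref 4 65))))))))
 (.seq (.seq (.seq (.one (.both (.play 321 (.ref 26 1)) (.play 320 (.ref 6 64))))
 (.one (.play 256 (.both (.play 192 (.ref 6 0)) (.play 257 (.ref 386 0))))))
 (.seq (.one (.play 196 (.both (.play 3 (.ref 4 3)) (.play 257 (.ref 159 192)))))
 (.seq (.one (.both (.play 260 (.both (.ref 388 0) (.play 324 (.ref 4 67)))) (.play 322 (.ref 6 66))))
 (.one (.play 321 (.both (.play 320 (.both (.ref 24 0) (.play 385 (.ref 4 128)))) (.play 257 (.ref 4 64))))))))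
 (.seq (.seq (.one (.play 67 (.both (.play 68 (.ref 194 0)) (.play 258 (.ref 5 2)))))
 (.one (.play 67 (.both (.play 3 (.ref 5 2)) (.ref 391 64)))))
 (.seq (.one (.both (.ref 392 0) (.play 1 (.ref 7 1))))
 (.seq (.one (.play 65 (.both (.play 0 (.ref 7 0)) (.play 258 (.ref 4 65)))))
 (.one (.play 64 (.both (.ref 394 0) (.play 128 (.ref 7 64))))))))))))
 (.seq (.seq (.seq (.seq (.seq (.seq (.one (.play 322 (.both (.ref 395 0) (.play 386 (.ref 4 129)))))
 (.one (.play 129 (.both (.play 65 (.ref 36 0)) (.ref 21 129)))))
 (.seq (.one (.both (.ref 197 0) (.play 66 (.ref 5 65))))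
 (.one (.both (.play 2 (.ref 7 2)) (.play 64 (.ref 0 64))))))
 (.seq (.seq (.one (.play 131 (.both (.play 130 (.both (.play 194 (.ref 398 1)) (.both (.play 133 (.both (.play 132 (.both (.play 65 (.both (.play 129 (.ref 161 64)) (.play 66 (.ref 3 65)))) (.play 198 (.ref 0 130)))) (.play 196 (.ref 5 132)))) (.both (.play 196 (.both (.play 132 (.ref 399 65)) (.play 133 (.ref 5 132)))) (.play 196 (.both (.play 67 (.both (.play 194 (.ref 5 66)) (.play 132 (.ref 7 67)))) (.play 133 (.ref 5 132)))))))) (.both (.play 194 (.both (.play 130 (.ref 398 1)) (.both (.play 195 (.ref 144 2)) (.play 386 (.both (.play 195 (.ref 5 130)) (.play 450 (.ref 188 257))))))) (.play 196 (.ref 140 131))))))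
 (.one (.both (.play 192 (.ref 6 0)) (.play 258 (.ref 4 1)))))
 (.seq (.one (.play 69 (.both (.play 65 (.ref 16 0)) (.both (.play 65 (.ref 17 0)) (.play 70 (.ref 12 2))))))
 (.seq (.one (.play 68 (.both (.play 69 (.ref 209 1)) (.play 128 (.ref 2 64)))))
 (.one (.both (.play 0 (.ref 0 0)) (.play 128 (.ref 2 64))))))))
 (.seq (.seq (.seq (.one (.play 132 (.both (.play 68 (.both (.play 1 (.ref 3 0)) (.play 133 (.ref 0 65)))) (.play 131 (.ref 0 64)))))
 (.one (.play 1 (.both (.play 0 (.ref 3 0)) (.ref 405 1)))))
 (.seq (.one (.play 3 (.both (.play 4 (.ref 159 0)) (.play 2 (.ref 128 1)))))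
 (.seq (.one (.both (.play 3 (.ref 5 2)) (.play 68 (.ref 1 64))))
 (.one (.play 1 (.both (.play 0 (.ref 3 0)) (.play 5 (.ref 157 1))))))))
 (.seq (.seq (.one (.both (.play 0 (.ref 3 0)) (.play 5 (.ref 2 1))))
 (.one (.both (.play 0 (.ref 3 0)) (.play 64 (.ref 2 0)))))
 (.seq (.one (.play 132 (.both (.play 131 (.both (.play 67 (.ref 150 3)) (.play 192 (.ref 2 128)))) (.play 133 (.ref 2 129)))))
 (.seq (.one (.both (.ref 412 0) (.play 261 (.ref 0 193))))
 (.one (.play 257 (.both (.play 64 (.ref 7 0)) (.ref 21 1)))))))))
 (.seq (.seq (.seq (.seq (.one (.both (.play 0 (.ref 7 0)) (.ref 414 64)))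
 (.one (.play 66 (.both (.ref 201 0) (.play 133 (.ref 3 66))))))
 (.seq (.one (.play 257 (.both (.ref 21 1) (.play 320 (.ref 354 64)))))
 (.seq (.one (.play 326 (.both (.play 259 (.both (.play 198 (.both (.play 390 (.both (.play 134 (.both (.play 70 (.both (.ref 24 6) (.play 325 (.ref 6 69)))) (.ref 34 69))) (.both (.play 197 (.ref 134 133)) (.ref 417 197)))) (.play 199 (.ref 2 195)))) (.both (.ref 412 66) (.both (.ref 416 192) (.play 258 (.both (.ref 11 194) (.play 325 (.ref 3 258)))))))) (.both (.play 390 (.both (.play 197 (.both (.play 198 (.both (.play 391 (.both (.play 134 (.both (.play 70 (.ref 243 5)) (.play 327 (.ref 4 134)))) (.play 455 (.ref 4 198)))) (.ref 333 132))) (.both (.play 133 (.ref 53 69)) (.play 133 (.ref 57 69))))) (.both (.play 197 (.ref 58 69)) (.both (.play 454 (.both (.play 453 (.both (.play 455 (.both (.play 391 (.both (.play 198 (.ref 4 198)) (.play 392 (.ref 132 388)))) (.play 519 (.ref 4 262)))) (.play 517 (.ref 6 261)))) (.both (.play 518 (.ref 167 261)) (.ref 414 261)))) (.play 454 (.ref 415 197)))))) (.both (.play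 259 (.ref 413 66)) (.play 327 (.ref 255 259)))))))
 (.one (.play 128 (.both (.play 129 (.both (.ref 359 1) (.play 64 (.ref 7 64)))) (.play 192 (.ref 7 128))))))))
 (.seq (.seq (.one (.play 258 (.both (.play 257 (.both (.play 64 (.ref 7 0)) (.play 322 (.ref 4 65)))) (.play 194 (.ref 4 1)))))
 (.one (.play 65 (.both (.ref 34 0) (.play 320 (.ref 6 64))))))
 (.seq (.one (.play 192 (.both (.play 1 (.ref 6 0)) (.play 128 (.ref 7 128)))))
 (.seq (.one (.play 257 (.both (.play 197 (.both (.play 132 (.ref 327 3)) (.play 258 (.ref 1 193)))) (.play 256 (.ref 1 192)))))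
 (.one (.both (.play 66 (.both (.play 2 (.ref 7 2)) (.play 65 (.ref 1 64)))) (.play 4 (.ref 5 3))))))))
 (.seq (.seq (.seq (.one (.play 64 (.both (.play 0 (.ref 7 0)) (.ref 286 0))))
 (.one (.play 129 (.both (.play 65 (.both (.play 1 (.ref 6 0)) (.ref 425 0))) (.play 130 (.ref 1 128))))))
 (.seq (.one (.play 256 (.both (.play 192 (.both (.play 1 (.ref 6 0)) (.play 385 (.ref 134 128)))) (.play 320 (.ref 6 64)))))
 (.seq (.one (.play 66 (.both (.play 65 (.both (.ref 34 0) (.play 2 (.ref 5 1)))) (.play 130 (.ref 5 65)))))
 (.one (.both (.play 65 (.ref 64 0)) (.play 66 (.ref 5 65)))))))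
 (.seq (.seq (.one (.play 130 (.both (.play 129 (.ref 429 0)) (.play 194 (.ref 5 129)))))
 (.one (.play 320 (.both (.ref 197 0) (.play 384 (.ref 6 128))))))
 (.seq (.one (.play 65 (.both (.play 64 (.both (.play 1 (.ref 5 0)) (.ref 21 64))) (.play 129 (.ref 5 64)))))
 (.seq (.one (.both (.play 131 (.ref 7 2)) (.play 260 (.ref 0 192))))
 (.one (.play 195 (.both (.play 196 (.ref 315 0)) (.both (.ref 320 2) (.play 260 (.ref 250 3))))))))))))
 (.seq (.seq (.seq (.seq (.seq (.one (.both (.play 129 (.ref 7 0)) (.play 128 (.ref 4 0))))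
 (.one (.both (.play 64 (.both (.play 65 (.ref 103 0)) (.play 128 (.ref 7 64)))) (.play 130 (.ref 5 65)))))
 (.seq (.one (.play 129 (.both (.ref 197 0) (.ref 24 65))))
 (.one (.play 193 (.both (.ref 437 0) (.both (.play 130 (.ref 436 64)) (.both (.play 130 (.both (.play 256 (.both (.ref 135 64) (.play 192 (.ref 7 192)))) (.play 194 (.ref 5 129)))) (.ref 34 128))))))))
 (.seq (.seq (.one (.play 517 (.both (.play 391 (.both (.play 326 (.both (.play 263 (.both (.play 455 (.both (.ref 438 6) (.both (.play 262 (.ref 134 198)) (.play 520 (.both (.play 456 (.ref 4 263)) (.play 519 (.ref 376 323))))))) (.both (.ref 361 68) (.play 264 (.ref 184 260))))) (.both (.play 519 (.both (.play 455 (.both (.play 263 (.both (.ref 369 135) (.both (.play 264 (.ref 270 196)) (.ref 268 196)))) (.both (.play 324 (.both (.play 520 (.both (.play 263 (.both (.play 264 (.ref 2 260)) (.play 456 (.ref 4 263)))) (.play 584 (.ref 4 327)))) (.play 392 (.ref 0 324)))) (.both (.ref 316 324) (.play 392 (.both (.play 324 (.ref 0 324)) (.ref 434 388))))))) (.both (.ref 381 321) (.both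 (.play 392 (.both (.play 518 (.both (.ref 423 323) (.both (.play 580 (.both (.play 520 (.both (.play 584 (.ref 433 325)) (.play 581 (.ref 1 516)))) (.play 579 (.ref 1 515)))) (.play 455 (.ref 318 324))))) (.play 324 (.ref 0 324)))) (.both (.play 392 (.both (.play 394 (.both (.play 520 (.both (.play 584 (.both (.play 455 (.ref 4 327)) (.play 518 (.ref 8 516)))) (.both (.play 584 (.both (.play 456 (.ref 7 327)) (.play 518 (.ref 8 516)))) (.both (.play 584 (.ref 435 327)) (.play 518 (.ref 13 451)))))) (.play 393 (.ref 3 326)))) (.play 324 (.ref 0 324)))) (.both (.play 392 (.both (.play 324 (.ref 0 324)) (.play 455 (.both (.play 518 (.ref 318 324)) (.both (.ref 373 324) (.both (.play 583 (.both (.play 584 (.ref 252 388)) (.both (.play 456 (.both (.play 647 (.ref 5 391)) (.play 518 (.ref 2 452)))) (.play 648 (.ref 250 391))))) (.ref 434 388))))))) (.both (.play 392 (.both (.play 324 (.ref 0 324)) (.play 394 (.both (.play 518 (.both (.play 455 (.ref 318 324)) (.both (.ref 338 324) (.play 584 (.both (.play 520 (.ref 433 325)) (.play 583 (.ref 0 516)))))))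 (.play 393 (.ref 3 326)))))) (.ref 348 448)))))))) (.both (.play 324 (.ref 413 131)) (.both (.play 455 (.both (.play 263 (.both (.play 456 (.ref 326 134)) (.both (.ref 432 135) (.play 262 (.both (.ref 333 197) (.play 198 (.ref 7 198))))))) (.both (.play 262 (.ref 58 134)) (.ref 367 324)))) (.both (.play 324 (.ref 307 257)) (.ref 319 257))))))) (.both (.play 324 (.both (.play 263 (.both (.play 199 (.both (.play 135 (.both (.ref 431 6) (.both (.ref 34 70) (.ref 427 70)))) (.both (.ref 430 6) (.both (.ref 428 70) (.both (.play 135 (.both (.ref 427 70) (.ref 24 71))) (.play 200 (.ref 180 133))))))) (.both (.play 264 (.both (.ref 426 132) (.play 326 (.ref 2 260)))) (.both (.play 264 (.both (.play 455 (.ref 424 196)) (.play 326 (.ref 2 260)))) (.both (.play 455 (.both (.play 264 (.ref 424 196)) (.play 456 (.ref 252 260)))) (.play 264 (.both (.play 455 (.both (.play 200 (.ref 5 199)) (.play 456 (.ref 252 260)))) (.play 326 (.ref 2 260))))))))) (.both (.play 263 (.both (.play 262 (.both (.play 198 (.ref 58 70)) (.play 323 (.both (.ref 212 257) (.play 326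 (.ref 2 259)))))) (.both (.ref 366 68) (.both (.play 264 (.both (.play 200 (.ref 144 71)) (.both (.ref 426 132) (.play 455 (.ref 424 196))))) (.play 326 (.ref 306 257)))))) (.both (.ref 309 257) (.play 390 (.both (.play 519 (.both (.ref 381 321) (.both (.play 518 (.both (.play 579 (.both (.play 582 (.both (.play 455 (.ref 6 326)) (.play 515 (.ref 107 514)))) (.play 580 (.ref 1 515)))) (.both (.ref 423 323) (.both (.ref 338 324) (.ref 341 515))))) (.both (.ref 377 323) (.both (.ref 375 324) (.both (.ref 374 324) (.both (.ref 372 324) (.ref 314 449)))))))) (.play 323 (.ref 3 323)))))))) (.both (.play 455 (.both (.play 326 (.both (.play 263 (.both (.play 199 (.both (.play 135 (.ref 91 6)) (.both (.ref 421 70) (.both (.play 135 (.both (.ref 422 70) (.play 390 (.ref 6 134)))) (.ref 34 134))))) (.both (.play 200 (.both (.play 199 (.both (.ref 421 70) (.play 136 (.ref 5 135)))) (.play 264 (.ref 5 199)))) (.play 264 (.both (.play 200 (.ref 5 199)) (.play 265 (.ref 183 261))))))) (.both (.play 262 (.ref 54 134)) (.both (.play 262 (.ref 58 134)) (.play 519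 (.both (.play 520 (.ref 376 323)) (.both (.play 584 (.both (.play 583 (.ref 353 324)) (.play 520 (.ref 4 327)))) (.both (.play 582 (.ref 354 326)) (.ref 420 326))))))))) (.both (.play 456 (.both (.play 519 (.both (.ref 419 134) (.play 518 (.ref 2 452)))) (.play 390 (.ref 0 388)))) (.both (.play 263 (.ref 269 134)) (.both (.play 456 (.both (.play 263 (.both (.play 519 (.both (.ref 34 198) (.play 518 (.ref 2 452)))) (.play 520 (.ref 4 263)))) (.play 390 (.ref 0 388)))) (.both (.ref 365 260) (.play 456 (.both (.play 519 (.both (.ref 316 324) (.play 518 (.ref 2 452)))) (.play 390 (.ref 0 388)))))))))) (.both (.ref 310 257) (.ref 382 320)))))) (.both (.play 326 (.both (.ref 418 65) (.both (.play 453 (.ref 311 260)) (.ref 340 321)))) (.both (.play 326 (.both (.ref 418 65) (.both (.ref 364 66) (.both (.play 453 (.both (.play 262 (.ref 5 261)) (.play 581 (.ref 182 324)))) (.both (.play 453 (.both (.play 262 (.ref 5 261)) (.play 581 (.ref 187 324)))) (.play 453 (.ref 350 261))))))) (.both (.play 453 (.both (.play 581 (.both (.ref 24 261) (.play 324 (.ref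 7 324)))) (.play 580 (.ref 6 324)))) (.both (.play 453 (.both (.ref 390 261) (.play 580 (.ref 6 324)))) (.play 453 (.ref 188 324)))))))))
 (.one (.play 516 (.both (.play 327 (.both (.ref 439 0) (.both (.play 326 (.both (.play 453 (.both (.play 198 (.both (.play 197 (.both (.play 199 (.both (.play 200 (.both (.play 134 (.both (.play 263 (.both (.play 70 (.ref 57 6)) (.play 264 (.ref 404 196)))) (.play 133 (.ref 128 132)))) (.both (.play 201 (.both (.play 133 (.ref 15 132)) (.play 202 (.ref 12 134)))) (.play 264 (.both (.play 263 (.ref 404 196)) (.play 265 (.ref 0 197))))))) (.both (.play 132 (.both (.play 135 (.both (.play 134 (.both (.play 263 (.ref 122 70)) (.play 196 (.ref 411 131)))) (.both (.play 136 (.both (.play 263 (.ref 311 70)) (.play 137 (.ref 163 133)))) (.play 196 (.ref 410 131))))) (.both (.play 136 (.both (.play 135 (.both (.play 263 (.ref 311 70)) (.play 196 (.ref 2 132)))) (.play 200 (.ref 156 132)))) (.both (.ref 142 130) (.play 133 (.ref 62 130)))))) (.both (.play 200 (.both (.play 136 (.ref 273 68)) (.both (.play 132 (.both (.play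 196 (.both (.play 131 (.ref 3 131)) (.play 264 (.ref 8 196)))) (.play 133 (.ref 3 132)))) (.ref 409 132)))) (.both (.play 263 (.both (.play 135 (.both (.play 134 (.both (.play 136 (.ref 408 69)) (.play 70 (.ref 7 70)))) (.play 390 (.ref 6 134)))) (.play 264 (.ref 404 196)))) (.both (.play 136 (.both (.play 200 (.both (.play 264 (.both (.play 263 (.both (.play 72 (.ref 6 71)) (.play 324 (.ref 2 260)))) (.play 265 (.ref 0 197)))) (.play 137 (.ref 2 133)))) (.both (.play 263 (.both (.play 135 (.ref 311 70)) (.ref 403 196))) (.both (.play 135 (.both (.play 263 (.ref 311 70)) (.play 137 (.ref 183 133)))) (.play 137 (.ref 185 133)))))) (.both (.play 196 (.both (.ref 162 129) (.both (.ref 297 130) (.both (.ref 406 131) (.play 200 (.both (.ref 407 131) (.play 264 (.ref 8 196)))))))) (.both (.ref 402 131) (.play 200 (.both (.ref 297 131) (.both (.ref 406 132) (.ref 155 133)))))))))))) (.both (.play 199 (.both (.play 132 (.both (.play 133 (.both (.play 261 (.ref 385 68)) (.play 200 (.ref 3 132)))) (.both (.play 131 (.both (.play 133 (.ref 370 130)) (.play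 196 (.ref 3 131)))) (.play 196 (.ref 161 131))))) (.both (.play 263 (.both (.play 135 (.both (.play 136 (.ref 270 68)) (.play 390 (.ref 6 134)))) (.both (.play 264 (.ref 404 196)) (.ref 403 196)))) (.both (.ref 402 131) (.both (.play 196 (.both (.play 132 (.ref 161 131)) (.play 263 (.both (.play 135 (.both (.play 136 (.ref 2 132)) (.play 390 (.ref 6 134)))) (.play 264 (.ref 0 196)))))) (.play 133 (.both (.ref 235 132) (.play 261 (.ref 401 132))))))))) (.both (.play 261 (.ref 398 68)) (.both (.play 196 (.both (.ref 292 129) (.both (.play 135 (.both (.ref 29 129) (.both (.ref 290 131) (.play 199 (.both (.play 136 (.ref 2 132)) (.play 263 (.both (.play 390 (.ref 6 134)) (.play 264 (.ref 0 196))))))))) (.play 261 (.ref 103 132))))) (.play 261 (.both (.play 133 (.ref 401 132)) (.play 134 (.ref 5 133))))))))) (.both (.play 262 (.ref 143 133)) (.both (.play 262 (.ref 101 133)) (.play 262 (.ref 112 197)))))) (.both (.play 517 (.ref 311 260)) (.play 517 (.ref 335 324))))) (.play 328 (.ref 1 324)))) (.both (.play 391 (.both (.play 455 (.both (.play 264 (.both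 (.ref 400 67) (.both (.play 328 (.ref 144 135)) (.play 519 (.both (.play 328 (.ref 5 263)) (.play 518 (.both (.play 517 (.both (.play 580 (.both (.play 453 (.ref 6 324)) (.play 579 (.ref 1 515)))) (.play 456 (.ref 2 452)))) (.play 582 (.ref 6 326))))))))) (.both (.play 264 (.both (.ref 400 67) (.both (.play 328 (.ref 144 135)) (.play 519 (.both (.play 328 (.ref 5 263)) (.play 582 (.ref 190 326))))))) (.both (.play 517 (.both (.play 580 (.both (.play 519 (.both (.ref 397 134) (.both (.ref 317 324) (.play 518 (.ref 108 451))))) (.play 453 (.ref 6 324)))) (.both (.ref 368 260) (.both (.play 453 (.ref 188 324)) (.ref 367 324))))) (.both (.play 263 (.both (.ref 396 134) (.both (.ref 178 134) (.both (.ref 369 135) (.play 262 (.both (.play 264 (.both (.play 265 (.both (.play 456 (.both (.play 328 (.both (.play 201 (.ref 253 198)) (.play 261 (.ref 107 260)))) (.play 520 (.ref 4 263)))) (.both (.ref 174 198) (.both (.play 202 (.ref 266 198)) (.play 261 (.both (.play 324 (.ref 1 260)) (.play 329 (.ref 8 261)))))))) (.play 200 (.ref 5 199)))) (.play 198 (.ref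 7 198)))))))) (.both (.play 263 (.both (.play 198 (.both (.play 456 (.both (.ref 394 134) (.play 520 (.ref 4 263)))) (.play 262 (.ref 7 198)))) (.both (.play 262 (.ref 393 197)) (.ref 390 199)))) (.both (.play 519 (.both (.play 583 (.both (.ref 126 199) (.ref 22 326))) (.both (.play 583 (.both (.ref 126 199) (.both (.ref 21 327) (.play 392 (.ref 350 327))))) (.both (.play 518 (.ref 389 260)) (.both (.play 582 (.ref 190 326)) (.ref 387 326)))))) (.play 519 (.both (.play 582 (.both (.ref 114 262) (.play 518 (.ref 6 326)))) (.both (.play 328 (.ref 251 263)) (.play 518 (.both (.play 520 (.both (.play 584 (.ref 4 327)) (.play 517 (.ref 301 451)))) (.play 582 (.ref 6 326)))))))))))))) (.both (.play 517 (.both (.play 456 (.both (.play 455 (.both (.play 263 (.ref 326 134)) (.both (.ref 357 260) (.play 518 (.both (.ref 356 323) (.play 519 (.ref 2 452))))))) (.both (.play 392 (.both (.play 584 (.both (.play 263 (.both (.play 199 (.ref 4 199)) (.play 582 (.both (.play 518 (.both (.play 453 (.ref 4 325)) (.play 583 (.ref 370 515)))) (.both (.play 453 (.both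 (.play 581 (.ref 385 324)) (.play 518 (.ref 4 325)))) (.both (.play 581 (.both (.play 453 (.ref 385 324)) (.play 583 (.ref 3 516)))) (.play 583 (.ref 384 516)))))))) (.play 520 (.ref 7 327)))) (.both (.play 457 (.both (.play 518 (.both (.play 515 (.both (.play 582 (.ref 337 323)) (.play 514 (.ref 19 449)))) (.play 520 (.both (.play 584 (.ref 7 327)) (.play 519 (.ref 2 453)))))) (.play 390 (.ref 0 389)))) (.play 390 (.ref 383 324))))) (.both (.play 455 (.ref 358 260)) (.play 390 (.both (.play 324 (.ref 128 323)) (.play 455 (.ref 0 388)))))))) (.both (.ref 382 320) (.both (.play 518 (.both (.ref 339 321) (.both (.ref 356 323) (.both (.play 453 (.ref 327 324)) (.ref 371 450))))) (.both (.play 390 (.both (.play 324 (.both (.play 455 (.both (.play 518 (.both (.ref 339 321) (.both (.play 453 (.ref 327 324)) (.play 519 (.both (.ref 351 324) (.play 582 (.ref 6 326))))))) (.play 456 (.ref 0 388)))) (.play 323 (.ref 3 323)))) (.both (.play 324 (.ref 128 323)) (.play 456 (.both (.play 392 (.both (.play 518 (.both (.play 584 (.both (.play 520 (.ref 7 327)) (.play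 583 (.both (.play 582 (.ref 370 515)) (.play 519 (.ref 0 516)))))) (.both (.play 580 (.both (.play 584 (.both (.play 520 (.ref 7 327)) (.play 519 (.ref 164 515)))) (.play 453 (.ref 6 324)))) (.play 453 (.ref 327 324))))) (.play 457 (.ref 0 389)))) (.play 455 (.ref 0 388))))))) (.play 453 (.both (.play 324 (.both (.play 390 (.ref 128 323)) (.play 581 (.ref 7 324)))) (.play 580 (.ref 6 324))))))))) (.both (.play 455 (.both (.ref 366 132) (.both (.play 517 (.both (.play 580 (.both (.play 519 (.both (.ref 369 199) (.both (.ref 317 324) (.play 518 (.ref 108 451))))) (.play 453 (.ref 6 324)))) (.both (.ref 368 260) (.both (.play 453 (.ref 188 324)) (.ref 367 324))))) (.both (.play 456 (.both (.play 520 (.ref 56 263)) (.play 390 (.ref 0 388)))) (.play 390 (.ref 151 324)))))) (.both (.play 455 (.both (.ref 366 132) (.both (.ref 27 198) (.both (.ref 365 260) (.play 390 (.ref 151 324)))))) (.ref 304 323)))))) (.both (.play 517 (.both (.play 326 (.both (.ref 364 66) (.play 328 (.ref 1 324)))) (.both (.play 328 (.both (.play 391 (.both (.play 519 (.both (.play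 455 (.both (.play 264 (.ref 5 263)) (.play 518 (.ref 318 324)))) (.both (.play 455 (.ref 350 263)) (.ref 348 448)))) (.play 390 (.ref 2 324)))) (.play 326 (.ref 1 324)))) (.both (.play 326 (.both (.ref 340 321) (.play 328 (.ref 1 324)))) (.both (.play 453 (.ref 188 324)) (.play 326 (.both (.play 328 (.ref 1 324)) (.play 453 (.ref 335 324))))))))) (.both (.play 326 (.both (.play 262 (.both (.play 263 (.both (.play 391 (.both (.play 199 (.both (.ref 136 70) (.both (.ref 334 70) (.play 198 (.both (.ref 333 133) (.play 134 (.ref 4 134))))))) (.both (.play 455 (.both (.play 456 (.both (.play 199 (.both (.ref 136 70) (.play 392 (.ref 4 199)))) (.play 520 (.ref 4 263)))) (.play 519 (.ref 7 262)))) (.play 198 (.ref 150 134))))) (.play 324 (.ref 159 259)))) (.both (.play 198 (.ref 32 133)) (.play 517 (.both (.play 391 (.both (.play 519 (.both (.play 455 (.ref 7 262)) (.ref 314 449))) (.ref 332 259))) (.play 453 (.ref 5 261))))))) (.play 328 (.ref 1 324)))) (.both (.play 328 (.both (.play 391 (.both (.play 455 (.both (.play 519 (.both (.play 263 (.both (.ref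 331 70) (.ref 21 263))) (.both (.ref 328 326) (.ref 320 326)))) (.both (.play 263 (.both (.play 456 (.ref 326 134)) (.both (.ref 324 135) (.play 264 (.ref 203 197))))) (.both (.play 264 (.ref 102 135)) (.both (.play 264 (.ref 144 135)) (.play 519 (.ref 321 262))))))) (.play 390 (.ref 2 324)))) (.play 326 (.ref 1 324)))) (.both (.play 326 (.both (.play 391 (.both (.play 262 (.both (.play 198 (.ref 32 133)) (.both (.play 198 (.ref 56 134)) (.play 519 (.both (.play 517 (.both (.play 453 (.ref 5 261)) (.ref 314 449))) (.play 455 (.ref 7 262))))))) (.both (.play 517 (.both (.ref 319 257) (.both (.play 453 (.ref 311 260)) (.both (.play 453 (.both (.play 262 (.ref 5 261)) (.play 324 (.both (.play 581 (.ref 7 324)) (.play 392 (.ref 0 324)))))) (.play 324 (.both (.play 392 (.ref 0 324)) (.play 453 (.ref 229 324)))))))) (.play 392 (.ref 255 324))))) (.play 328 (.ref 1 324)))) (.play 391 (.both (.ref 310 257) (.both (.play 326 (.both (.play 324 (.ref 307 257)) (.play 328 (.ref 1 324)))) (.both (.ref 304 323) (.play 328 (.ref 303 324)))))))))))))) (.both (.play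 452 (.both (.play 261 (.ref 101 196)) (.both (.play 261 (.ref 143 196)) (.ref 302 256)))) (.both (.play 452 (.ref 144 196)) (.both (.play 452 (.ref 102 196)) (.play 452 (.both (.ref 302 256) (.play 580 (.ref 5 324)))))))))))
 (.seq (.one (.play 193 (.both (.play 129 (.both (.play 130 (.both (.play 257 (.both (.play 66 (.both (.play 2 (.ref 4 2)) (.play 321 (.ref 5 65)))) (.play 256 (.ref 1 192)))) (.play 197 (.ref 3 129)))) (.play 128 (.ref 3 128)))) (.play 192 (.ref 0 192)))))
 (.seq (.one (.play 3 (.both (.play 4 (.ref 2 0)) (.play 130 (.ref 5 2)))))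
 (.one (.play 129 (.both (.play 1 (.ref 4 1)) (.play 128 (.ref 3 128)))))))))
 (.seq (.seq (.seq (.one (.both (.play 0 (.ref 3 0)) (.play 4 (.ref 2 1))))
 (.one (.play 1 (.both (.play 5 (.both (.play 65 (.ref 444 0)) (.play 6 (.ref 2 2)))) (.play 2 (.ref 3 1))))))
 (.seq (.one (.both (.play 129 (.both (.play 65 (.ref 345 0)) (.play 130 (.ref 1 65)))) (.play 2 (.ref 3 1))))
 (.seq (.one (.both (.play 129 (.ref 6 0)) (.play 128 (.ref 5 0))))
 (.one (.both (.play 4 (.ref 2 0)) (.play 131 (.ref 6 2)))))))
 (.seq (.seq (.one (.play 68 (.both (.play 0 (.ref 3 0)) (.play 69 (.ref 1 65)))))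
 (.one (.play 67 (.both (.ref 109 0) (.play 132 (.ref 0 64))))))
 (.seq (.one (.play 2 (.both (.play 66 (.both (.play 1 (.ref 3 1)) (.ref 245 64))) (.play 3 (.ref 3 2)))))
 (.seq (.one (.play 70 (.both (.play 68 (.both (.play 67 (.both (.ref 451 0) (.both (.play 135 (.both (.ref 450 4) (.play 134 (.ref 0 67)))) (.play 134 (.ref 118 66))))) (.play 4 (.ref 7 4)))) (.play 6 (.ref 5 5)))))
 (.one (.play 68 (.both (.play 1 (.ref 3 0)) (.play 132 (.ref 8 64))))))))))
 (.seq (.seq (.seq (.seq (.one (.play 259 (.both (.play 387 (.both (.play 451 (.both (.ref 438 2) (.both (.play 258 (.ref 134 194)) (.play 514 (.ref 190 258))))) (.play 388 (.ref 0 320)))) (.play 260 (.ref 2 256)))))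
 (.one (.play 322 (.both (.ref 454 0) (.both (.ref 453 256) (.ref 271 256))))))
 (.seq (.one (.both (.play 68 (.ref 3 0)) (.play 132 (.ref 0 64))))
 (.seq (.one (.play 68 (.both (.play 2 (.ref 0 0)) (.play 131 (.ref 2 64)))))
 (.one (.both (.play 64 (.ref 5 0)) (.play 129 (.ref 6 0)))))))
 (.seq (.seq (.one (.play 66 (.both (.play 68 (.ref 3 0)) (.play 131 (.ref 0 64)))))
 (.one (.play 388 (.both (.play 326 (.both (.play 197 (.both (.play 391 (.both (.play 327 (.both (.play 199 (.both (.play 263 (.both (.ref 397 6) (.both (.play 135 (.both (.play 71 (.ref 35 6)) (.ref 24 71))) (.both (.ref 324 71) (.both (.play 455 (.both (.ref 24 135) (.play 519 (.ref 23 262)))) (.play 455 (.both (.play 519 (.ref 25 198)) (.ref 21 199)))))))) (.play 196 (.both (.play 133 (.ref 5 132)) (.play 198 (.ref 1 195)))))) (.play 325 (.ref 3 259)))) (.both (.ref 459 259) (.play 452 (.both (.play 516 (.ref 7 259)) (.play 453 (.both (.play 451 (.both (.play 515 (.ref 6 259)) (.play 454 (.ref 266 387)))) (.play 517 (.ref 4 260))))))))) (.both (.play 325 (.both (.play 133 (.ref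 458 132)) (.play 327 (.ref 3 259)))) (.ref 149 195)))) (.both (.ref 455 3) (.both (.play 452 (.both (.play 453 (.both (.play 451 (.both (.play 262 (.both (.play 197 (.both (.play 133 (.both (.play 390 (.both (.play 198 (.ref 7 133)) (.ref 457 323))) (.play 196 (.ref 5 132)))) (.play 261 (.ref 5 196)))) (.both (.play 261 (.both (.play 197 (.ref 5 196)) (.play 263 (.ref 1 259)))) (.play 390 (.both (.play 263 (.both (.play 454 (.both (.play 199 (.ref 5 198)) (.ref 351 259))) (.play 325 (.ref 2 259)))) (.both (.play 325 (.ref 151 259)) (.play 454 (.ref 352 259)))))))) (.play 515 (.ref 6 259)))) (.play 517 (.ref 4 260)))) (.play 516 (.ref 7 259)))) (.both (.play 452 (.both (.ref 287 195) (.play 516 (.ref 7 259)))) (.both (.ref 223 195) (.play 390 (.both (.play 517 (.both (.play 327 (.both (.play 516 (.both (.play 518 (.both (.play 454 (.both (.play 263 (.ref 5 262)) (.play 515 (.ref 352 323)))) (.both (.play 454 (.ref 311 261)) (.ref 371 450)))) (.play 452 (.ref 7 259)))) (.play 325 (.ref 3 259)))) (.both (.play 452 (.both (.play 516 (.ref 7 259)) (.play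 453 (.ref 4 260)))) (.play 325 (.both (.play 327 (.ref 3 259)) (.play 262 (.both (.play 263 (.ref 2 259)) (.play 454 (.ref 190 261))))))))) (.both (.play 325 (.ref 456 259)) (.play 452 (.both (.play 516 (.ref 7 259)) (.play 453 (.both (.play 451 (.both (.play 515 (.ref 6 259)) (.play 454 (.both (.play 519 (.both (.play 455 (.both (.play 262 (.ref 4 262)) (.play 520 (.ref 0 452)))) (.play 518 (.ref 0 451)))) (.play 391 (.ref 2 387)))))) (.play 517 (.ref 4 260))))))))))))))) (.both (.play 131 (.both (.play 133 (.both (.play 132 (.both (.ref 45 64) (.both (.ref 292 64) (.both (.play 69 (.both (.play 70 (.both (.play 130 (.ref 2 66)) (.play 71 (.ref 163 67)))) (.play 196 (.ref 5 68)))) (.play 196 (.ref 103 67)))))) (.both (.play 196 (.both (.play 132 (.ref 275 67)) (.play 197 (.ref 5 132)))) (.both (.play 261 (.both (.play 262 (.both (.play 198 (.both (.play 326 (.both (.play 197 (.both (.play 69 (.ref 6 68)) (.play 390 (.ref 7 133)))) (.play 327 (.ref 0 259)))) (.play 199 (.ref 2 195)))) (.play 263 (.ref 1 259)))) (.both (.play 262 (.both (.play 198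 (.both (.play 326 (.both (.play 134 (.both (.play 70 (.both (.play 71 (.both (.play 132 (.ref 2 67)) (.play 135 (.ref 5 70)))) (.play 325 (.ref 6 69)))) (.play 69 (.ref 7 69)))) (.play 327 (.ref 0 259)))) (.play 199 (.ref 2 195)))) (.play 263 (.ref 1 259)))) (.both (.play 197 (.ref 101 68)) (.play 262 (.both (.play 198 (.both (.play 326 (.both (.play 197 (.both (.play 325 (.ref 6 132)) (.play 390 (.ref 7 133)))) (.play 327 (.ref 0 259)))) (.play 199 (.ref 2 195)))) (.play 263 (.ref 1 259)))))))) (.play 197 (.ref 181 68)))))) (.play 195 (.ref 4 131)))) (.play 195 (.ref 150 131)))))))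
 (.seq (.one (.play 67 (.both (.play 131 (.ref 231 0)) (.both (.play 66 (.ref 408 0)) (.both (.play 3 (.ref 458 2)) (.play 68 (.both (.play 131 (.ref 2 64)) (.play 66 (.ref 1 64)))))))))
 (.seq (.one (.play 68 (.both (.ref 11 0) (.ref 342 65))))
 (.one (.play 132 (.both (.ref 325 3) (.both (.ref 323 4) (.play 133 (.both (.play 131 (.both (.play 130 (.both (.ref 261 64) (.both (.play 134 (.both (.play 71 (.both (.play 197 (.both (.play 135 (.ref 119 68)) (.play 198 (.ref 0 130)))) (.play 70 (.ref 2 67)))) (.both (.ref 152 67) (.both (.ref 462 67) (.play 198 (.ref 8 130)))))) (.play 197 (.ref 118 129))))) (.play 67 (.ref 7 67)))) (.play 69 (.ref 5 68))))))))))))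
 (.seq (.seq (.seq (.one (.play 65 (.both (.play 1 (.both (.play 0 (.ref 3 0)) (.play 69 (.both (.play 2 (.ref 3 1)) (.play 70 (.ref 211 67)))))) (.play 64 (.ref 0 64)))))
 (.one (.play 65 (.both (.play 5 (.ref 2 1)) (.play 64 (.ref 0 64))))))
 (.seq (.one (.play 67 (.both (.play 66 (.ref 399 0)) (.ref 21 67))))
 (.seq (.one (.play 1 (.both (.play 65 (.ref 383 0)) (.play 2 (.ref 3 1)))))
 (.one (.play 65 (.both (.play 4 (.ref 2 1)) (.ref 9 64)))))))
 (.seq (.seq (.one (.play 325 (.both (.play 324 (.both (.play 197 (.both (.play 392 (.both (.play 198 (.both (.play 196 (.both (.play 260 (.both (.play 195 (.both (.play 259 (.both (.play 131 (.both (.play 67 (.ref 124 3)) (.play 130 (.ref 3 130)))) (.play 258 (.ref 1 194)))) (.both (.ref 297 129) (.play 134 (.both (.ref 468 129) (.play 135 (.ref 2 131))))))) (.play 132 (.ref 4 132)))) (.both (.play 132 (.both (.play 131 (.ref 62 129)) (.play 260 (.ref 4 132)))) (.both (.play 260 (.both (.play 132 (.ref 4 132)) (.play 259 (.ref 95 193)))) (.play 195 (.both (.ref 261 129) (.play 135 (.both (.play 134 (.ref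 2 131)) (.play 199 (.both (.play 136 (.ref 2 132)) (.play 264 (.both (.play 200 (.both (.play 328 (.ref 7 135)) (.play 265 (.ref 0 197)))) (.play 263 (.ref 0 196)))))))))))))) (.both (.play 262 (.both (.ref 392 132) (.play 134 (.ref 6 133)))) (.both (.play 262 (.ref 393 132)) (.play 262 (.ref 275 133)))))) (.play 391 (.ref 3 324)))) (.both (.play 261 (.both (.ref 325 68) (.both (.ref 323 69) (.play 196 (.both (.play 198 (.both (.play 199 (.both (.play 259 (.both (.play 195 (.both (.ref 467 129) (.play 258 (.ref 1 194)))) (.play 260 (.ref 1 195)))) (.both (.play 136 (.both (.play 135 (.ref 2 132)) (.play 200 (.both (.play 137 (.ref 2 133)) (.ref 342 197))))) (.play 260 (.ref 117 195))))) (.play 134 (.ref 5 133)))) (.play 132 (.ref 7 132))))))) (.both (.play 261 (.both (.ref 452 128) (.play 454 (.ref 4 197)))) (.play 261 (.ref 124 133)))))) (.both (.play 323 (.both (.play 262 (.both (.play 198 (.both (.play 259 (.both (.play 199 (.both (.play 261 (.both (.play 197 (.ref 134 133)) (.play 260 (.ref 2 195)))) (.play 135 (.ref 5 134)))) (.play 258 (.ref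 3 258)))) (.play 134 (.ref 6 133)))) (.play 263 (.ref 2 259)))) (.play 322 (.ref 0 322)))) (.play 323 (.ref 118 322))))) (.both (.play 454 (.both (.play 392 (.both (.play 262 (.both (.play 264 (.both (.play 328 (.both (.play 201 (.both (.play 200 (.both (.play 136 (.both (.ref 125 8) (.play 134 (.both (.play 135 (.ref 399 69)) (.play 198 (.ref 6 133)))))) (.both (.play 134 (.both (.ref 466 69) (.play 198 (.ref 6 133)))) (.play 456 (.ref 349 200))))) (.both (.play 134 (.both (.play 200 (.both (.ref 466 69) (.play 137 (.ref 5 136)))) (.play 198 (.ref 6 133)))) (.both (.play 265 (.ref 144 72)) (.play 265 (.ref 102 72)))))) (.both (.play 327 (.ref 151 261)) (.both (.play 327 (.ref 119 261)) (.play 327 (.ref 211 325)))))) (.both (.play 198 (.both (.play 134 (.ref 6 133)) (.play 324 (.both (.ref 465 258) (.both (.ref 464 258) (.play 263 (.ref 163 260))))))) (.play 263 (.ref 95 259))))) (.both (.play 324 (.both (.play 327 (.both (.play 261 (.both (.play 263 (.both (.play 260 (.both (.ref 100 131) (.play 259 (.ref 0 259)))) (.play 264 (.ref 1 260)))) (.play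 197 (.ref 7 197)))) (.play 328 (.ref 211 325)))) (.both (.ref 465 258) (.ref 464 258)))) (.both (.play 324 (.both (.play 327 (.both (.play 198 (.both (.play 197 (.both (.play 263 (.both (.play 196 (.both (.ref 443 131) (.play 195 (.ref 0 195)))) (.play 264 (.ref 2 260)))) (.play 133 (.ref 7 133)))) (.play 134 (.ref 6 133)))) (.play 328 (.ref 211 325)))) (.both (.ref 465 258) (.ref 464 258)))) (.ref 334 133))))) (.both (.play 324 (.both (.play 197 (.both (.play 323 (.both (.ref 276 131) (.play 322 (.ref 0 322)))) (.play 261 (.ref 4 197)))) (.play 391 (.ref 3 324)))) (.both (.play 261 (.both (.play 197 (.ref 4 197)) (.play 391 (.both (.play 456 (.both (.play 328 (.both (.play 327 (.both (.play 260 (.ref 3 260)) (.play 520 (.ref 134 263)))) (.play 329 (.ref 2 325)))) (.play 457 (.ref 0 389)))) (.play 393 (.ref 3 325)))))) (.play 391 (.ref 128 324)))))) (.both (.play 261 (.ref 150 197)) (.play 518 (.both (.play 327 (.both (.play 328 (.both (.play 392 (.both (.ref 416 258) (.play 393 (.ref 0 325)))) (.play 329 (.ref 1 325)))) (.play 263 (.ref 5 262))))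 (.play 582 (.ref 7 325))))))) (.both (.play 261 (.both (.ref 463 65) (.both (.play 197 (.ref 124 133)) (.play 454 (.both (.play 324 (.both (.play 391 (.both (.ref 461 196) (.play 392 (.ref 3 324)))) (.both (.ref 285 258) (.play 323 (.ref 118 322))))) (.play 518 (.ref 7 261))))))) (.both (.play 261 (.both (.ref 463 65) (.both (.play 454 (.both (.play 327 (.both (.play 263 (.both (.play 199 (.ref 143 134)) (.play 324 (.both (.ref 305 258) (.play 264 (.ref 2 260)))))) (.both (.play 328 (.both (.play 264 (.both (.play 263 (.both (.play 199 (.ref 143 134)) (.play 324 (.ref 2 260)))) (.play 265 (.ref 2 261)))) (.play 329 (.ref 1 325)))) (.ref 449 260)))) (.play 518 (.ref 7 261)))) (.play 197 (.ref 124 133))))) (.both (.play 261 (.both (.ref 463 65) (.both (.play 391 (.both (.play 392 (.both (.ref 454 69) (.both (.play 329 (.ref 157 325)) (.ref 453 325)))) (.both (.play 454 (.both (.play 324 (.both (.ref 461 196) (.play 323 (.ref 0 323)))) (.play 518 (.ref 7 261)))) (.play 324 (.ref 194 323))))) (.play 197 (.ref 124 133))))) (.both (.ref 288 66) (.both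 (.ref 460 66) (.both (.play 392 (.both (.ref 455 69) (.both (.play 454 (.both (.play 197 (.both (.play 262 (.both (.play 198 (.ref 275 133)) (.play 263 (.both (.play 199 (.ref 5 198)) (.play 324 (.ref 105 259)))))) (.play 261 (.ref 4 197)))) (.both (.play 261 (.ref 150 197)) (.ref 223 261)))) (.both (.play 324 (.both (.play 323 (.both (.play 263 (.both (.play 262 (.ref 2 259)) (.play 327 (.both (.play 260 (.both (.play 259 (.ref 3 259)) (.play 328 (.both (.play 261 (.ref 3 260)) (.play 329 (.ref 1 325)))))) (.play 264 (.ref 2 260)))))) (.play 322 (.ref 0 322)))) (.play 391 (.ref 3 324)))) (.play 391 (.ref 128 324)))))) (.both (.play 261 (.both (.play 197 (.both (.ref 452 128) (.play 133 (.ref 4 133)))) (.both (.play 197 (.ref 124 133)) (.play 454 (.both (.play 324 (.both (.play 391 (.both (.play 327 (.both (.play 263 (.ref 231 196)) (.ref 449 260))) (.play 392 (.ref 3 324)))) (.both (.play 323 (.both (.play 263 (.both (.play 262 (.ref 2 259)) (.play 327 (.both (.play 264 (.ref 2 260)) (.ref 449 260))))) (.play 322 (.ref 0 322)))) (.play 323 (.ref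 118 322))))) (.play 518 (.ref 7 261))))))) (.both (.ref 247 129) (.both (.play 324 (.both (.play 392 (.both (.play 327 (.both (.play 197 (.both (.play 198 (.both (.play 196 (.both (.ref 45 129) (.both (.play 259 (.both (.play 195 (.both (.play 135 (.both (.play 134 (.ref 2 131)) (.play 199 (.ref 448 132)))) (.play 258 (.ref 1 194)))) (.play 260 (.ref 3 259)))) (.both (.ref 443 131) (.play 132 (.both (.play 199 (.both (.play 131 (.ref 3 131)) (.play 135 (.ref 448 132)))) (.play 260 (.ref 4 132)))))))) (.both (.play 260 (.both (.play 262 (.both (.play 196 (.both (.play 132 (.ref 4 132)) (.play 263 (.both (.play 195 (.ref 0 195)) (.play 454 (.ref 127 198)))))) (.play 133 (.ref 7 133)))) (.play 259 (.ref 3 259)))) (.both (.play 262 (.both (.play 260 (.both (.play 199 (.both (.play 263 (.both (.play 196 (.both (.play 132 (.ref 4 132)) (.play 195 (.ref 0 195)))) (.play 454 (.ref 5 198)))) (.play 135 (.ref 5 134)))) (.play 259 (.ref 3 259)))) (.play 134 (.ref 6 133)))) (.play 262 (.ref 275 133)))))) (.both (.play 260 (.both (.play 261 (.both (.play 198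 (.both (.play 199 (.both (.play 135 (.ref 447 134)) (.play 200 (.ref 1 196)))) (.play 134 (.ref 5 133)))) (.play 133 (.ref 4 133)))) (.play 259 (.ref 3 259)))) (.both (.play 261 (.ref 124 133)) (.play 454 (.both (.play 261 (.ref 4 197)) (.ref 204 261))))))) (.play 328 (.ref 211 325)))) (.play 391 (.ref 3 324)))) (.both (.ref 441 130) (.play 323 (.ref 118 322))))) (.both (.play 324 (.both (.play 392 (.both (.play 327 (.both (.play 197 (.both (.play 198 (.both (.play 196 (.both (.ref 45 129) (.both (.play 195 (.both (.play 130 (.ref 446 129)) (.both (.ref 445 129) (.play 259 (.ref 257 130))))) (.both (.play 132 (.both (.play 131 (.both (.play 130 (.ref 221 130)) (.play 199 (.ref 3 131)))) (.play 260 (.ref 4 132)))) (.ref 443 131))))) (.both (.play 260 (.both (.play 199 (.both (.play 200 (.both (.play 132 (.both (.play 133 (.ref 3 132)) (.play 196 (.ref 4 132)))) (.play 201 (.ref 12 133)))) (.both (.play 196 (.both (.play 132 (.ref 4 132)) (.ref 442 132))) (.play 262 (.ref 103 133))))) (.play 259 (.ref 3 259)))) (.both (.play 260 (.both (.play 134 (.both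 (.play 196 (.both (.play 135 (.ref 105 131)) (.play 132 (.ref 4 132)))) (.play 262 (.ref 6 133)))) (.play 259 (.ref 3 259)))) (.play 262 (.ref 275 133)))))) (.both (.play 261 (.both (.play 260 (.both (.play 196 (.both (.play 132 (.ref 7 132)) (.play 198 (.both (.play 199 (.both (.ref 442 132) (.play 200 (.ref 1 196)))) (.play 134 (.ref 5 133)))))) (.play 259 (.ref 3 259)))) (.play 454 (.ref 4 197)))) (.play 261 (.ref 124 133))))) (.play 328 (.ref 211 325)))) (.play 391 (.ref 3 324)))) (.both (.ref 441 130) (.play 323 (.ref 118 322))))) (.both (.play 324 (.both (.play 392 (.both (.play 327 (.both (.play 263 (.both (.play 454 (.both (.play 262 (.both (.play 198 (.both (.play 134 (.ref 6 133)) (.play 197 (.both (.play 133 (.ref 7 133)) (.play 261 (.ref 4 197)))))) (.play 199 (.ref 5 198)))) (.play 518 (.ref 5 262)))) (.play 264 (.ref 2 260)))) (.play 328 (.ref 211 325)))) (.play 391 (.ref 3 324)))) (.both (.ref 285 258) (.play 323 (.ref 118 322))))) (.play 324 (.both (.play 392 (.both (.play 327 (.both (.ref 33 132) (.play 328 (.ref 211 325)))) (.play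 391 (.ref 3 324)))) (.both (.ref 285 258) (.play 323 (.ref 118 322))))))))))))))))))))
 (.one (.play 67 (.both (.play 68 (.ref 0 0)) (.play 258 (.ref 5 2))))))
 (.seq (.one (.play 66 (.both (.play 1 (.ref 446 0)) (.play 134 (.ref 0 66)))))
 (.seq (.one (.play 3 (.both (.play 64 (.ref 2 0)) (.play 70 (.ref 128 2)))))
 (.one (.both (.play 65 (.ref 444 0)) (.play 2 (.ref 3 1))))))))))))
 (.seq (.seq (.seq (.seq (.seq (.seq (.seq (.one (.play 66 (.both (.play 1 (.ref 473 0)) (.ref 9 65))))
 (.one (.play 129 (.both (.ref 324 1) (.play 64 (.ref 7 64))))))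
 (.seq (.one (.both (.play 64 (.ref 2 0)) (.play 133 (.ref 0 65))))
 (.one (.play 256 (.both (.play 192 (.ref 6 0)) (.play 257 (.ref 1 192)))))))
 (.seq (.seq (.one (.play 326 (.both (.play 262 (.both (.play 198 (.both (.play 197 (.both (.play 261 (.both (.play 196 (.both (.play 195 (.both (.play 131 (.both (.play 259 (.both (.play 260 (.both (.play 67 (.ref 124 3)) (.play 327 (.ref 0 259)))) (.play 258 (.ref 1 194)))) (.play 130 (.ref 3 130)))) (.play 194 (.ref 0 194)))) (.both (.play 263 (.both (.play 132 (.both (.play 68 (.both (.play 260 (.both (.play 324 (.both (.ref 34 3) (.play 323 (.ref 1 259)))) (.both (.ref 477 67) (.play 259 (.ref 476 194))))) (.play 4 (.ref 4 4)))) (.play 325 (.ref 7 132)))) (.play 264 (.ref 3 196)))) (.play 195 (.ref 118 194))))) (.play 454 (.ref 7 197)))) (.play 133 (.ref 7 133)))) (.both (.play 133 (.both (.ref 475 5) (.play 197 (.ref 7 133)))) (.both (.play 134 (.both (.ref 324 6) (.play 325 (.ref 6 133)))) (.ref 90 69))))) (.both (.play 453 (.both (.play 391 (.both (.play 261 (.both (.play 260 (.both (.play 196 (.both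 (.play 325 (.ref 54 68)) (.play 195 (.ref 62 193)))) (.both (.play 327 (.ref 255 259)) (.play 327 (.ref 210 259))))) (.both (.play 197 (.ref 54 69)) (.both (.play 260 (.both (.play 197 (.both (.play 259 (.both (.ref 474 192) (.both (.play 258 (.both (.play 193 (.ref 473 192)) (.both (.play 194 (.ref 15 193)) (.ref 472 193)))) (.both (.ref 346 193) (.play 323 (.both (.play 263 (.both (.play 196 (.ref 128 195)) (.play 324 (.ref 1 259)))) (.play 322 (.ref 1 258)))))))) (.play 454 (.ref 7 197)))) (.both (.ref 471 193) (.both (.play 263 (.both (.play 197 (.both (.play 196 (.ref 128 195)) (.play 454 (.ref 7 197)))) (.both (.play 324 (.both (.play 264 (.both (.play 327 (.both (.ref 120 197) (.play 328 (.ref 0 260)))) (.both (.ref 152 197) (.both (.ref 174 197) (.play 328 (.ref 8 260)))))) (.play 323 (.ref 1 259)))) (.play 454 (.both (.play 197 (.ref 7 197)) (.ref 470 260)))))) (.play 327 (.ref 210 259)))))) (.play 452 (.both (.ref 196 195) (.play 451 (.ref 98 386)))))))) (.both (.play 325 (.both (.play 261 (.both (.play 260 (.both (.play 196 (.ref 54 68))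 (.play 327 (.ref 62 258)))) (.play 197 (.ref 124 133)))) (.both (.play 392 (.both (.play 457 (.both (.play 329 (.both (.play 261 (.both (.play 197 (.ref 124 133)) (.ref 146 194))) (.play 328 (.ref 2 325)))) (.play 456 (.ref 0 389)))) (.play 393 (.ref 3 325)))) (.play 324 (.ref 194 323))))) (.both (.play 392 (.ref 129 324)) (.play 452 (.ref 99 386)))))) (.both (.play 517 (.ref 31 261)) (.play 517 (.ref 110 261))))) (.both (.play 198 (.ref 91 69)) (.play 453 (.ref 111 197)))))) (.both (.ref 469 0) (.both (.ref 440 1) (.both (.ref 300 64) (.both (.ref 274 65) (.both (.ref 256 65) (.both (.ref 227 65) (.both (.play 262 (.both (.ref 145 66) (.both (.play 198 (.ref 91 69)) (.both (.play 517 (.both (.play 454 (.both (.play 261 (.both (.play 263 (.both (.play 260 (.both (.ref 202 194) (.both (.play 327 (.ref 118 259)) (.play 328 (.both (.play 327 (.ref 0 260)) (.ref 199 260)))))) (.play 199 (.ref 5 198)))) (.play 197 (.ref 7 197)))) (.both (.ref 116 197) (.ref 114 197)))) (.both (.play 453 (.ref 110 261)) (.both (.play 453 (.ref 112 261)) (.play 453 (.ref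 31 261)))))) (.play 453 (.ref 111 197)))))) (.both (.play 262 (.both (.ref 145 66) (.both (.play 198 (.ref 91 69)) (.both (.play 517 (.both (.play 454 (.both (.play 261 (.both (.play 263 (.both (.play 264 (.both (.play 260 (.both (.ref 198 194) (.ref 9 259))) (.both (.ref 174 197) (.play 325 (.ref 117 260))))) (.play 199 (.ref 5 198)))) (.play 197 (.ref 7 197)))) (.both (.ref 116 197) (.ref 114 197)))) (.both (.play 453 (.ref 110 261)) (.both (.play 453 (.ref 112 261)) (.play 453 (.ref 31 261)))))) (.play 453 (.ref 111 197)))))) (.both (.play 262 (.both (.play 198 (.both (.ref 197 69) (.both (.ref 92 69) (.play 197 (.both (.play 261 (.both (.play 199 (.both (.play 135 (.ref 5 134)) (.play 260 (.ref 132 195)))) (.play 454 (.ref 7 197)))) (.play 133 (.ref 7 133))))))) (.both (.play 198 (.ref 91 69)) (.both (.play 454 (.both (.play 261 (.both (.play 453 (.both (.play 452 (.both (.ref 196 195) (.play 451 (.ref 159 386)))) (.play 517 (.ref 6 261)))) (.play 197 (.ref 7 197)))) (.both (.ref 193 197) (.both (.ref 192 197) (.both (.ref 191 197) (.both (.ref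 172 197) (.ref 189 261))))))) (.play 453 (.ref 111 197)))))) (.both (.play 262 (.both (.play 199 (.both (.play 261 (.both (.play 197 (.ref 58 69)) (.both (.play 260 (.both (.ref 186 195) (.both (.play 263 (.both (.play 200 (.ref 2 196)) (.play 327 (.ref 118 259)))) (.play 200 (.ref 185 196))))) (.both (.play 263 (.both (.play 200 (.ref 184 196)) (.play 454 (.ref 5 198)))) (.play 454 (.ref 182 197)))))) (.both (.play 263 (.ref 102 70)) (.both (.play 135 (.ref 181 70)) (.play 198 (.ref 180 132)))))) (.both (.ref 179 69) (.both (.play 454 (.both (.play 263 (.both (.play 261 (.both (.play 264 (.both (.ref 177 194) (.both (.ref 121 195) (.both (.play 329 (.ref 176 197)) (.ref 174 197))))) (.play 197 (.ref 7 197)))) (.play 199 (.ref 5 198)))) (.both (.ref 173 197) (.ref 172 197)))) (.play 453 (.ref 111 197)))))) (.both (.play 453 (.both (.play 262 (.both (.play 391 (.both (.play 263 (.both (.play 264 (.both (.play 324 (.both (.play 261 (.both (.play 328 (.both (.play 200 (.both (.play 135 (.both (.play 199 (.both (.play 71 (.ref 4 71)) (.play 327 (.ref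 6 134)))) (.both (.ref 89 71) (.both (.play 71 (.both (.play 136 (.ref 7 71)) (.play 199 (.ref 4 71)))) (.play 327 (.both (.play 199 (.ref 6 134)) (.play 136 (.ref 6 135)))))))) (.play 201 (.ref 2 197)))) (.play 329 (.ref 0 261)))) (.both (.ref 166 195) (.ref 165 259)))) (.both (.play 325 (.ref 148 259)) (.both (.play 325 (.ref 147 259)) (.play 325 (.ref 163 260)))))) (.both (.ref 97 197) (.both (.play 325 (.ref 99 259)) (.play 325 (.ref 95 259)))))) (.both (.play 199 (.ref 102 70)) (.both (.play 264 (.both (.play 451 (.both (.play 452 (.both (.play 261 (.both (.ref 162 194) (.both (.play 200 (.both (.play 325 (.both (.play 260 (.both (.play 196 (.ref 7 196)) (.play 199 (.ref 2 196)))) (.play 516 (.ref 6 260)))) (.play 201 (.ref 2 197)))) (.play 325 (.both (.play 516 (.ref 6 260)) (.play 324 (.ref 1 260))))))) (.play 450 (.ref 2 386)))) (.both (.play 261 (.both (.play 201 (.both (.play 260 (.both (.play 259 (.ref 19 194)) (.both (.play 196 (.ref 161 195)) (.ref 9 259)))) (.play 200 (.ref 2 197)))) (.both (.play 199 (.both (.play 200 (.ref 159 196))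 (.play 454 (.ref 5 198)))) (.play 454 (.both (.play 199 (.ref 5 198)) (.play 325 (.both (.play 324 (.ref 1 260)) (.play 518 (.ref 7 261))))))))) (.both (.play 454 (.both (.play 199 (.ref 5 198)) (.play 452 (.ref 2 387)))) (.play 452 (.ref 98 386)))))) (.both (.play 199 (.both (.play 265 (.both (.play 329 (.both (.play 261 (.both (.play 200 (.ref 159 196)) (.play 328 (.ref 0 261)))) (.play 330 (.ref 0 262)))) (.both (.play 266 (.both (.ref 160 196) (.both (.ref 11 198) (.play 203 (.ref 157 199))))) (.both (.ref 158 198) (.ref 155 198))))) (.play 454 (.ref 5 198)))) (.both (.ref 153 197) (.play 325 (.ref 95 259)))))) (.play 264 (.both (.play 325 (.both (.play 454 (.both (.play 452 (.both (.play 261 (.both (.play 328 (.both (.play 260 (.both (.play 196 (.ref 7 196)) (.play 327 (.ref 3 260)))) (.play 329 (.ref 0 261)))) (.play 516 (.ref 6 260)))) (.play 451 (.ref 2 387)))) (.both (.play 518 (.ref 150 261)) (.ref 149 261)))) (.both (.play 324 (.ref 148 259)) (.play 324 (.ref 147 259))))) (.both (.ref 97 197) (.both (.play 325 (.ref 99 259)) (.play 325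 (.ref 95 259)))))))))) (.both (.play 392 (.ref 139 68)) (.both (.play 392 (.ref 129 324)) (.play 452 (.ref 99 386)))))) (.play 198 (.ref 6 197)))) (.both (.play 262 (.ref 111 197)) (.both (.play 262 (.ref 32 197)) (.play 517 (.both (.play 325 (.both (.ref 146 258) (.play 261 (.ref 23 260)))) (.play 581 (.ref 5 325)))))))) (.both (.play 262 (.both (.ref 145 66) (.both (.play 453 (.both (.play 391 (.both (.play 392 (.ref 139 68)) (.both (.play 454 (.both (.play 452 (.both (.play 261 (.both (.play 197 (.ref 7 197)) (.play 325 (.both (.play 516 (.ref 6 260)) (.play 518 (.ref 7 261)))))) (.play 451 (.ref 2 387)))) (.both (.play 261 (.both (.play 452 (.both (.play 263 (.both (.play 199 (.ref 5 198)) (.play 325 (.both (.play 324 (.ref 132 259)) (.play 516 (.ref 6 260)))))) (.play 451 (.ref 2 387)))) (.play 197 (.ref 7 197)))) (.ref 131 197)))) (.both (.play 392 (.ref 129 324)) (.play 452 (.ref 99 386)))))) (.both (.play 517 (.ref 31 261)) (.play 517 (.ref 110 261))))) (.both (.play 198 (.ref 91 69)) (.play 453 (.ref 111 197)))))) (.both (.play 262 (.both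 (.play 198 (.ref 91 69)) (.both (.play 198 (.both (.ref 90 69) (.both (.play 134 (.both (.play 327 (.both (.play 263 (.both (.play 70 (.ref 4 70)) (.play 454 (.ref 127 198)))) (.play 391 (.ref 4 134)))) (.play 325 (.ref 6 133)))) (.both (.play 197 (.both (.play 454 (.both (.ref 126 70) (.play 261 (.ref 7 197)))) (.play 133 (.ref 7 133)))) (.play 197 (.both (.play 133 (.ref 7 133)) (.play 454 (.both (.play 261 (.ref 7 197)) (.play 263 (.both (.play 199 (.ref 5 198)) (.play 518 (.both (.play 327 (.ref 5 262)) (.ref 123 325))))))))))))) (.both (.play 517 (.both (.play 454 (.both (.play 263 (.both (.play 261 (.both (.play 264 (.both (.ref 121 195) (.both (.play 324 (.both (.play 260 (.both (.play 327 (.ref 118 259)) (.play 323 (.ref 1 259)))) (.play 325 (.ref 1 260)))) (.play 325 (.ref 117 260))))) (.play 197 (.ref 7 197)))) (.play 199 (.ref 5 198)))) (.both (.ref 116 197) (.ref 114 197)))) (.both (.play 453 (.ref 110 261)) (.both (.play 453 (.ref 112 261)) (.play 453 (.ref 31 261)))))) (.play 453 (.ref 111 197)))))) (.play 262 (.both (.play 263 (.both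 (.play 261 (.both (.play 197 (.ref 54 69)) (.both (.play 264 (.both (.play 260 (.ref 17 195)) (.both (.ref 109 197) (.play 329 (.both (.play 328 (.ref 0 261)) (.play 265 (.ref 107 261))))))) (.both (.ref 106 196) (.play 454 (.ref 103 197)))))) (.both (.play 199 (.ref 102 70)) (.both (.play 264 (.both (.play 261 (.both (.play 325 (.both (.ref 100 132) (.play 324 (.ref 1 260)))) (.play 260 (.ref 12 196)))) (.both (.ref 97 197) (.both (.play 325 (.ref 99 259)) (.play 325 (.ref 95 259)))))) (.play 264 (.both (.play 261 (.both (.play 197 (.both (.play 196 (.ref 3 196)) (.play 454 (.ref 7 197)))) (.play 260 (.ref 10 259)))) (.both (.ref 97 197) (.both (.play 325 (.ref 95 259)) (.play 265 (.both (.play 325 (.ref 1 261)) (.ref 93 262))))))))))) (.both (.play 198 (.both (.ref 92 69) (.play 453 (.ref 6 197)))) (.both (.play 198 (.ref 91 69)) (.play 198 (.both (.ref 88 133) (.play 453 (.ref 6 197))))))))))))))))))))))))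
 (.one (.play 68 (.both (.play 69 (.ref 16 0)) (.play 128 (.ref 1 64))))))
 (.seq (.one (.play 68 (.both (.play 69 (.ref 12 1)) (.play 128 (.ref 1 64)))))
 (.seq (.one (.play 129 (.both (.play 65 (.ref 26 1)) (.play 64 (.ref 7 64)))))
 (.one (.play 321 (.both (.ref 481 0) (.play 385 (.ref 7 128)))))))))
 (.seq (.seq (.seq (.one (.play 129 (.both (.ref 482 1) (.play 128 (.ref 3 128)))))
 (.one (.both (.ref 29 0) (.play 7 (.ref 2 3)))))
 (.seq (.one (.play 66 (.both (.play 1 (.ref 3 1)) (.play 65 (.ref 10 64)))))
 (.seq (.one (.play 2 (.both (.ref 485 0) (.play 3 (.ref 3 2)))))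
 (.one (.both (.play 67 (.both (.ref 486 0) (.play 6 (.ref 2 3)))) (.play 8 (.ref 2 4)))))))
 (.seq (.seq (.one (.play 257 (.both (.play 65 (.ref 7 0)) (.ref 83 64))))
 (.one (.both (.play 0 (.ref 4 0)) (.ref 488 64))))
 (.seq (.one (.play 129 (.both (.play 65 (.ref 489 1)) (.play 128 (.ref 3 128)))))
 (.seq (.one (.both (.ref 70 0) (.play 192 (.ref 3 192))))
 (.one (.both (.play 193 (.ref 491 0)) (.play 320 (.ref 1 256)))))))))
 (.seq (.seq (.seq (.seq (.one (.play 258 (.both (.play 322 (.ref 492 1)) (.both (.play 257 (.ref 19 192)) (.both (.play 257 (.ref 17 192)) (.play 257 (.ref 13 192)))))))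
 (.one (.play 68 (.both (.ref 47 1) (.play 129 (.ref 1 64))))))
 (.seq (.one (.play 68 (.both (.play 69 (.ref 17 0)) (.play 133 (.ref 0 65)))))
 (.seq (.one (.play 132 (.both (.ref 495 0) (.play 131 (.ref 0 64)))))
 (.one (.play 68 (.both (.ref 496 1) (.play 129 (.ref 1 64))))))))
 (.seq (.seq (.one (.play 195 (.both (.play 259 (.ref 85 2)) (.play 196 (.ref 0 128)))))
 (.one (.play 68 (.both (.play 67 (.both (.ref 498 1) (.play 128 (.ref 2 64)))) (.play 69 (.ref 2 65))))))
 (.seq (.one (.both (.play 193 (.ref 491 0)) (.play 261 (.ref 1 257))))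
 (.seq (.one (.play 66 (.both (.play 65 (.ref 19 0)) (.play 134 (.ref 0 66)))))
 (.one (.play 68 (.both (.play 67 (.ref 82 0)) (.both (.ref 501 1) (.ref 9 67)))))))))
 (.seq (.seq (.seq (.one (.play 68 (.both (.ref 39 1) (.play 65 (.ref 1 64)))))
 (.one (.both (.ref 503 1) (.play 128 (.ref 2 64)))))
 (.seq (.one (.play 129 (.both (.play 65 (.ref 36 0)) (.both (.play 65 (.ref 25 0)) (.play 385 (.ref 64 64))))))
 (.seq (.one (.both (.play 323 (.both (.ref 505 2) (.play 324 (.ref 0 256)))) (.play 196 (.ref 2 192))))
 (.one (.play 257 (.both (.play 260 (.ref 506 1)) (.play 256 (.ref 2 192))))))))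
 (.seq (.seq (.one (.both (.play 321 (.ref 64 0)) (.play 2 (.ref 5 1))))
 (.one (.play 257 (.both (.play 0 (.ref 7 0)) (.play 321 (.ref 25 0))))))
 (.seq (.one (.play 257 (.both (.play 0 (.ref 7 0)) (.play 321 (.ref 26 1)))))
 (.seq (.one (.both (.play 4 (.ref 4 4)) (.ref 68 64)))
 (.one (.play 261 (.both (.play 197 (.ref 511 0)) (.play 325 (.ref 4 68)))))))))))
 (.seq (.seq (.seq (.seq (.seq (.one (.play 260 (.both (.ref 512 0) (.both (.play 324 (.ref 23 67)) (.both (.ref 510 67) (.ref 509 67))))))
 (.one (.play 195 (.both (.play 259 (.ref 4 2)) (.ref 235 128)))))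
 (.seq (.one (.play 67 (.both (.ref 480 0) (.play 3 (.ref 5 2)))))
 (.one (.play 66 (.both (.play 258 (.both (.play 194 (.both (.ref 515 0) (.ref 514 64))) (.play 322 (.ref 4 65)))) (.play 2 (.ref 5 1)))))))
 (.seq (.seq (.one (.play 450 (.both (.play 193 (.both (.ref 78 0) (.play 386 (.ref 4 193)))) (.play 514 (.ref 4 257)))))
 (.one (.play 68 (.both (.play 129 (.ref 504 0)) (.play 4 (.ref 5 3))))))
 (.seq (.one (.play 67 (.both (.ref 501 0) (.play 3 (.ref 7 3)))))
 (.seq (.one (.both (.ref 519 0) (.play 5 (.ref 5 4))))
 (.one (.play 256 (.both (.play 257 (.both (.play 193 (.ref 87 0)) (.play 192 (.ref 7 192)))) (.play 320 (.ref 7 256)))))))))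
 (.seq (.seq (.seq (.one (.both (.ref 519 0) (.play 324 (.ref 5 68))))
 (.one (.play 69 (.both (.play 133 (.ref 522 0)) (.play 5 (.ref 5 4))))))
 (.seq (.one (.play 193 (.both (.ref 86 0) (.play 384 (.ref 6 192)))))
 (.seq (.one (.both (.play 321 (.ref 36 0)) (.play 320 (.ref 6 64))))
 (.one (.play 65 (.both (.play 1 (.ref 6 0)) (.play 257 (.ref 525 0))))))))
 (.seq (.seq (.one (.play 321 (.both (.ref 72 0) (.play 385 (.ref 5 129)))))
 (.one (.both (.play 65 (.ref 5 1)) (.ref 75 64))))
 (.seq (.one (.both (.play 2 (.ref 6 1)) (.play 321 (.ref 528 64))))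
 (.seq (.one (.play 64 (.both (.play 0 (.ref 7 0)) (.play 321 (.both (.play 128 (.ref 7 64)) (.play 385 (.ref 77 128)))))))
 (.one (.play 257 (.both (.play 66 (.ref 5 1)) (.play 321 (.ref 85 64))))))))))
 (.seq (.seq (.seq (.seq (.one (.play 66 (.both (.play 2 (.ref 5 1)) (.ref 531 64))))
 (.one (.both (.ref 515 0) (.play 322 (.ref 7 65)))))
 (.seq (.one (.play 65 (.both (.play 129 (.ref 533 0)) (.play 1 (.ref 7 1)))))
 (.seq (.one (.play 66 (.both (.play 65 (.ref 16 0)) (.both (.play 65 (.ref 19 0)) (.play 70 (.ref 10 65))))))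
 (.one (.both (.play 69 (.both (.ref 535 0) (.play 5 (.ref 5 4)))) (.play 3 (.ref 7 3)))))))
 (.seq (.seq (.one (.play 193 (.both (.ref 78 0) (.play 385 (.ref 6 192)))))
 (.one (.both (.ref 537 0) (.play 512 (.ref 5 256)))))
 (.seq (.one (.play 193 (.both (.ref 514 0) (.play 257 (.ref 6 1)))))
 (.seq (.one (.play 193 (.both (.ref 86 0) (.play 385 (.ref 4 193)))))
 (.one (.both (.ref 540 0) (.play 514 (.ref 7 257))))))))
 (.seq (.seq (.seq (.one (.play 68 (.both (.play 65 (.ref 3 0)) (.ref 41 1))))
 (.one (.both (.play 0 (.ref 0 0)) (.ref 542 1))))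
 (.seq (.one (.play 66 (.both (.play 2 (.ref 7 2)) (.play 65 (.ref 543 64)))))
 (.seq (.one (.both (.ref 29 0) (.play 70 (.ref 2 3))))
 (.one (.both (.play 65 (.ref 17 0)) (.play 129 (.ref 1 65)))))))
 (.seq (.seq (.one (.play 65 (.both (.ref 515 0) (.play 1 (.ref 7 1)))))
 (.one (.play 130 (.both (.play 66 (.ref 36 1)) (.both (.play 66 (.ref 35 1)) (.both (.play 66 (.ref 26 2)) (.ref 547 64)))))))
 (.seq (.one (.both (.play 65 (.ref 36 0)) (.play 384 (.ref 6 128))))
 (.seq (.one (.play 320 (.both (.play 129 (.ref 549 0)) (.play 258 (.ref 1 256)))))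
 (.one (.both (.ref 81 0) (.play 70 (.ref 0 67)))))))))))
 (.seq (.seq (.seq (.seq (.seq (.seq (.one (.play 66 (.both (.play 65 (.ref 16 0)) (.play 129 (.ref 1 65)))))
 (.one (.play 195 (.both (.play 131 (.ref 549 2)) (.play 196 (.ref 2 192))))))
 (.seq (.one (.play 324 (.both (.play 323 (.both (.ref 553 1) (.play 256 (.ref 0 256)))) (.play 325 (.ref 0 257)))))
 (.one (.play 260 (.both (.ref 554 0) (.both (.play 261 (.ref 12 193)) (.play 261 (.ref 40 193))))))))
 (.seq (.seq (.one (.play 257 (.both (.play 259 (.both (.ref 555 0) (.play 195 (.ref 5 194)))) (.play 193 (.ref 7 193)))))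
 (.one (.both (.play 65 (.ref 35 0)) (.both (.play 385 (.ref 64 64)) (.play 385 (.ref 23 128))))))
 (.seq (.one (.play 129 (.both (.play 65 (.ref 64 0)) (.play 322 (.ref 4 129)))))
 (.seq (.one (.play 386 (.both (.ref 558 0) (.play 450 (.ref 4 193)))))
 (.one (.play 193 (.both (.ref 559 0) (.ref 24 129))))))))
 (.seq (.seq (.seq (.one (.play 321 (.both (.play 322 (.ref 500 0)) (.play 320 (.ref 1 256)))))
 (.one (.play 260 (.both (.ref 561 3) (.both (.play 259 (.ref 82 192)) (.play 259 (.ref 19 194)))))))
 (.seq (.one (.play 263 (.both (.play 261 (.both (.ref 562 0) (.play 197 (.ref 7 197)))) (.play 199 (.ref 5 198)))))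
 (.seq (.one (.play 193 (.both (.ref 430 0) (.play 386 (.ref 4 193)))))
 (.one (.play 450 (.both (.ref 564 0) (.play 514 (.ref 4 257))))))))
 (.seq (.seq (.one (.play 257 (.both (.ref 565 0) (.both (.play 450 (.ref 87 64)) (.ref 34 192)))))
 (.one (.both (.play 67 (.ref 545 0)) (.play 8 (.ref 1 4)))))
 (.seq (.one (.play 70 (.both (.play 6 (.ref 5 5)) (.play 71 (.ref 567 64)))))
 (.seq (.one (.play 454 (.both (.play 518 (.both (.play 326 (.both (.play 262 (.both (.play 389 (.both (.play 198 (.ref 79 5)) (.ref 568 257))) (.both (.ref 565 5) (.ref 24 198)))) (.both (.ref 566 5) (.both (.ref 563 64) (.both (.ref 560 69) (.both (.play 262 (.both (.play 197 (.both (.play 198 (.both (.ref 512 130) (.play 133 (.ref 7 133)))) (.play 261 (.ref 7 197)))) (.both (.play 198 (.ref 36 133)) (.ref 24 198)))) (.play 262 (.ref 36 197)))))))) (.both (.play 582 (.ref 557 261)) (.play 582 (.ref 77 325))))) (.both (.play 392 (.both (.play 452 (.both (.play 324 (.both (.play 326 (.both (.play 262 (.both (.play 519 (.both (.ref 556 4) (.play 455 (.ref 4 262)))) (.both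 (.play 198 (.ref 36 133)) (.both (.play 198 (.ref 35 133)) (.play 198 (.ref 26 134)))))) (.both (.play 262 (.both (.play 198 (.ref 36 133)) (.both (.play 198 (.ref 35 133)) (.both (.play 198 (.ref 26 134)) (.play 263 (.both (.play 261 (.both (.ref 552 194) (.play 197 (.ref 7 197)))) (.play 199 (.ref 5 198)))))))) (.both (.play 325 (.both (.ref 548 132) (.play 323 (.ref 0 323)))) (.play 325 (.ref 551 257)))))) (.both (.play 388 (.both (.play 451 (.both (.play 260 (.ref 79 67)) (.play 389 (.ref 1 387)))) (.both (.ref 505 131) (.both (.ref 550 131) (.play 323 (.both (.play 516 (.ref 84 259)) (.play 389 (.ref 3 323)))))))) (.both (.play 325 (.both (.play 326 (.both (.ref 548 132) (.play 327 (.ref 0 324)))) (.play 389 (.ref 3 324)))) (.play 389 (.both (.play 388 (.ref 546 322)) (.play 325 (.ref 3 324)))))))) (.both (.play 389 (.both (.play 388 (.ref 17 323)) (.play 453 (.ref 1 388)))) (.play 453 (.ref 545 385))))) (.both (.ref 18 324) (.both (.ref 480 325) (.ref 479 325))))) (.both (.play 327 (.both (.play 326 (.both (.play 262 (.both (.play 198 (.ref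 87 5)) (.both (.play 198 (.ref 35 133)) (.ref 544 195)))) (.both (.play 519 (.both (.play 455 (.ref 541 69)) (.both (.play 455 (.both (.play 262 (.ref 4 262)) (.ref 539 325))) (.play 518 (.ref 232 326))))) (.both (.play 518 (.both (.play 262 (.ref 35 197)) (.play 582 (.ref 5 326)))) (.play 518 (.ref 522 258)))))) (.both (.play 518 (.ref 538 70)) (.both (.play 392 (.both (.play 263 (.both (.play 455 (.both (.play 262 (.ref 536 195)) (.both (.ref 523 195) (.both (.ref 534 197) (.both (.play 519 (.ref 36 198)) (.both (.ref 532 198) (.ref 530 198))))))) (.play 199 (.ref 6 198)))) (.both (.ref 480 325) (.ref 479 325)))) (.both (.play 263 (.ref 529 197)) (.both (.ref 527 197) (.ref 526 198))))))) (.both (.play 453 (.both (.play 518 (.both (.play 326 (.both (.play 262 (.both (.ref 524 5) (.both (.play 198 (.ref 36 133)) (.ref 523 194)))) (.both (.ref 517 69) (.both (.play 262 (.ref 26 198)) (.ref 516 261))))) (.both (.ref 513 322) (.both (.play 582 (.ref 77 325)) (.play 582 (.ref 76 325)))))) (.both (.ref 507 195) (.play 452 (.ref 504 323))))) (.both (.play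 518 (.both (.play 582 (.both (.play 455 (.both (.ref 521 69) (.play 646 (.ref 5 390)))) (.both (.play 326 (.ref 35 261)) (.ref 75 389)))) (.both (.play 326 (.both (.play 262 (.ref 36 197)) (.both (.play 262 (.ref 35 197)) (.both (.play 262 (.ref 26 198)) (.play 327 (.ref 520 258)))))) (.both (.play 582 (.ref 77 325)) (.play 582 (.ref 76 325)))))) (.both (.play 453 (.both (.play 518 (.both (.play 326 (.both (.play 262 (.both (.ref 78 69) (.both (.play 389 (.both (.play 198 (.ref 6 197)) (.ref 518 259))) (.ref 24 198)))) (.both (.ref 517 69) (.both (.play 262 (.ref 26 198)) (.ref 516 261))))) (.both (.ref 513 322) (.both (.play 582 (.ref 77 325)) (.play 582 (.ref 508 325)))))) (.both (.ref 507 195) (.play 452 (.ref 504 323))))) (.both (.play 392 (.both (.play 389 (.both (.play 453 (.ref 492 132)) (.both (.ref 502 320) (.both (.play 388 (.both (.play 325 (.both (.ref 80 320) (.play 324 (.ref 3 324)))) (.both (.ref 501 321) (.play 324 (.ref 15 323))))) (.play 388 (.ref 19 323)))))) (.both (.play 393 (.both (.play 455 (.ref 500 133)) (.both (.play 389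 (.ref 17 324)) (.ref 39 326)))) (.ref 480 325)))) (.both (.play 392 (.both (.ref 493 131) (.both (.play 393 (.both (.ref 499 261) (.both (.ref 39 326) (.both (.ref 497 326) (.ref 494 326))))) (.both (.ref 480 325) (.play 393 (.ref 40 325)))))) (.both (.play 392 (.both (.ref 493 131) (.both (.ref 18 324) (.both (.ref 480 325) (.ref 479 325))))) (.both (.play 392 (.both (.play 389 (.both (.ref 490 196) (.both (.play 388 (.both (.play 327 (.ref 487 320)) (.both (.play 327 (.ref 484 321)) (.ref 9 387)))) (.play 388 (.ref 19 323))))) (.both (.ref 18 324) (.ref 480 325)))) (.play 392 (.both (.play 389 (.both (.ref 483 196) (.both (.play 388 (.ref 19 323)) (.play 388 (.ref 13 323))))) (.both (.ref 18 324) (.both (.ref 480 325) (.ref 479 325)))))))))))))))))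
 (.one (.both (.play 65 (.ref 19 0)) (.both (.play 65 (.ref 17 0)) (.both (.play 65 (.ref 13 0)) (.play 70 (.ref 13 1)))))))))))
 (.seq (.seq (.seq (.seq (.one (.play 68 (.both (.play 1 (.ref 3 0)) (.play 69 (.ref 10 64)))))
 (.one (.both (.play 0 (.ref 3 0)) (.ref 571 1))))
 (.seq (.one (.play 69 (.both (.play 65 (.ref 17 0)) (.both (.play 2 (.ref 572 1)) (.ref 50 2)))))
 (.seq (.one (.play 68 (.both (.play 69 (.ref 17 0)) (.play 129 (.ref 1 64)))))
 (.one (.play 129 (.both (.ref 574 1) (.play 128 (.ref 1 64))))))))
 (.seq (.seq (.one (.play 66 (.both (.play 5 (.ref 2 2)) (.play 65 (.ref 10 64)))))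
 (.one (.both (.ref 576 0) (.play 7 (.ref 2 3)))))
 (.seq (.one (.play 67 (.both (.ref 501 0) (.play 6 (.ref 2 3)))))
 (.seq (.one (.play 7 (.both (.ref 578 0) (.play 8 (.ref 2 4)))))
 (.one (.play 130 (.both (.ref 552 0) (.play 131 (.ref 1 66)))))))))
 (.seq (.seq (.seq (.one (.both (.play 66 (.both (.play 65 (.ref 17 0)) (.play 133 (.ref 0 66)))) (.play 135 (.ref 0 67))))
 (.one (.both (.play 192 (.ref 143 0)) (.play 257 (.ref 6 64)))))
 (.seq (.one (.both (.play 65 (.ref 582 0)) (.both (.play 192 (.ref 144 0)) (.both (.play 257 (.ref 111 64)) (.play 384 (.both (.play 192 (.ref 5 128)) (.play 257 (.ref 110 128))))))))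
 (.seq (.one (.play 321 (.both (.play 130 (.ref 583 1)) (.play 320 (.ref 1 256)))))
 (.one (.play 195 (.both (.play 131 (.ref 583 2)) (.play 196 (.ref 2 192))))))))
 (.seq (.seq (.one (.play 7 (.both (.play 67 (.both (.play 134 (.ref 82 0)) (.play 6 (.ref 2 3)))) (.play 8 (.ref 2 4)))))
 (.one (.play 257 (.both (.play 66 (.ref 529 0)) (.play 256 (.ref 1 192))))))
 (.seq (.one (.play 129 (.both (.play 130 (.both (.ref 587 0) (.play 197 (.ref 3 129)))) (.play 128 (.ref 3 128)))))
 (.seq (.one (.play 259 (.both (.play 66 (.ref 489 2)) (.play 260 (.ref 0 192)))))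
 (.one (.play 132 (.both (.play 131 (.both (.ref 589 1) (.play 192 (.ref 2 128)))) (.play 133 (.ref 2 129)))))))))))
 (.seq (.seq (.seq (.seq (.seq (.one (.play 129 (.both (.play 193 (.both (.ref 590 0) (.play 128 (.ref 3 128)))) (.play 130 (.ref 3 129)))))
 (.one (.play 131 (.both (.play 67 (.ref 529 1)) (.play 132 (.ref 2 128))))))
 (.seq (.one (.play 197 (.both (.play 259 (.both (.ref 592 1) (.play 198 (.ref 40 130)))) (.play 129 (.ref 15 128)))))
 (.one (.play 259 (.both (.play 450 (.ref 538 2)) (.play 260 (.ref 2 256)))))))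
 (.seq (.seq (.one (.both (.ref 594 1) (.play 320 (.ref 0 320))))
 (.one (.play 388 (.both (.play 387 (.ref 595 0)) (.play 389 (.ref 0 321))))))
 (.seq (.one (.play 257 (.both (.play 450 (.ref 541 0)) (.play 256 (.ref 3 256)))))
 (.seq (.one (.both (.ref 597 0) (.play 325 (.ref 1 321))))
 (.one (.play 385 (.both (.play 386 (.ref 598 0)) (.play 384 (.ref 1 320)))))))))
 (.seq (.seq (.seq (.one (.play 389 (.both (.play 391 (.both (.ref 594 5) (.both (.ref 592 133) (.play 390 (.both (.play 453 (.both (.play 262 (.ref 529 196)) (.play 452 (.ref 567 384)))) (.play 329 (.ref 1 325))))))) (.play 388 (.ref 1 324)))))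
 (.one (.play 67 (.both (.ref 29 0) (.play 134 (.ref 0 67))))))
 (.seq (.one (.both (.ref 70 2) (.play 256 (.ref 0 256))))
 (.seq (.one (.play 260 (.both (.play 325 (.both (.play 327 (.both (.play 198 (.both (.play 326 (.ref 602 3)) (.both (.play 134 (.ref 529 68)) (.ref 601 192)))) (.play 328 (.ref 0 260)))) (.play 324 (.ref 1 260)))) (.both (.play 327 (.ref 82 193)) (.ref 9 259)))))
 (.one (.play 196 (.both (.play 262 (.both (.ref 490 4) (.play 195 (.ref 82 128)))) (.both (.play 263 (.ref 82 129)) (.play 132 (.ref 15 131)))))))))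
 (.seq (.seq (.one (.play 67 (.both (.ref 81 0) (.play 6 (.ref 2 3)))))
 (.one (.play 324 (.both (.play 261 (.both (.play 263 (.both (.play 390 (.both (.play 454 (.ref 541 4)) (.both (.play 262 (.both (.play 454 (.ref 77 197)) (.play 323 (.ref 2 259)))) (.ref 605 256)))) (.play 264 (.ref 2 260)))) (.play 260 (.ref 3 260)))) (.both (.play 263 (.ref 484 257)) (.play 260 (.ref 15 259)))))))
 (.seq (.one (.both (.play 129 (.ref 549 0)) (.play 260 (.ref 1 256))))
 (.seq (.one (.play 321 (.both (.play 322 (.ref 607 1)) (.play 320 (.ref 1 256)))))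
 (.one (.play 258 (.both (.play 257 (.both (.ref 608 0) (.play 324 (.ref 0 257)))) (.play 193 (.ref 3 193))))))))))
 (.seq (.seq (.seq (.seq (.one (.play 258 (.both (.play 389 (.both (.ref 594 3) (.both (.ref 609 64) (.ref 501 256)))) (.play 259 (.ref 3 258)))))
 (.one (.play 135 (.both (.play 67 (.both (.play 6 (.ref 484 0)) (.play 134 (.ref 0 67)))) (.play 136 (.ref 0 68))))))
 (.seq (.one (.play 68 (.both (.ref 611 0) (.both (.play 135 (.ref 82 1)) (.play 4 (.ref 15 3))))))
 (.seq (.one (.both (.play 0 (.ref 3 0)) (.play 69 (.both (.play 2 (.ref 3 1)) (.play 130 (.ref 40 1))))))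
 (.one (.both (.play 257 (.ref 85 0)) (.play 132 (.ref 3 64)))))))
 (.seq (.seq (.one (.play 385 (.both (.play 386 (.ref 87 0)) (.both (.play 194 (.ref 127 129)) (.play 449 (.ref 23 192))))))
 (.one (.both (.play 67 (.ref 551 0)) (.play 136 (.ref 3 68)))))
 (.seq (.one (.play 321 (.both (.play 65 (.ref 36 0)) (.both (.play 130 (.ref 127 65)) (.play 385 (.ref 23 128))))))
 (.seq (.one (.play 257 (.both (.play 1 (.ref 23 0)) (.both (.play 321 (.ref 23 64)) (.play 321 (.ref 76 64))))))
 (.one (.play 68 (.both (.play 67 (.ref 551 0)) (.play 261 (.ref 85 4)))))))))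
 (.seq (.seq (.seq (.one (.play 324 (.both (.play 133 (.ref 549 4)) (.play 323 (.ref 545 256)))))
 (.one (.play 257 (.both (.play 193 (.ref 87 0)) (.both (.play 193 (.ref 36 128)) (.play 513 (.ref 36 192)))))))
 (.seq (.one (.play 132 (.both (.play 68 (.both (.ref 611 0) (.play 131 (.ref 1 67)))) (.play 133 (.ref 1 68)))))
 (.seq (.one (.play 257 (.both (.play 193 (.ref 87 0)) (.both (.play 193 (.ref 36 128)) (.play 258 (.ref 76 192))))))
 (.one (.play 66 (.both (.play 65 (.ref 19 0)) (.both (.play 70 (.ref 13 1)) (.play 70 (.ref 17 1)))))))))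
 (.seq (.seq (.one (.play 134 (.both (.play 67 (.ref 82 0)) (.play 73 (.ref 1 69)))))
 (.one (.play 321 (.both (.play 193 (.both (.ref 615 0) (.play 192 (.ref 3 192)))) (.play 320 (.ref 1 256))))))
 (.seq (.one (.both (.play 65 (.ref 36 0)) (.play 385 (.ref 23 128))))
 (.seq (.one (.play 129 (.both (.ref 497 1) (.play 128 (.ref 1 64)))))
 (.one (.play 67 (.both (.ref 486 0) (.both (.play 3 (.ref 15 2)) (.ref 9 66)))))))))))))))
 (.seq (.seq (.seq (.seq (.seq (.seq (.seq (.seq (.seq (.one (.play 130 (.both (.play 66 (.ref 546 0)) (.play 131 (.ref 1 66)))))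
 (.one (.play 67 (.both (.ref 630 0) (.both (.play 3 (.ref 15 2)) (.ref 9 66))))))
 (.seq (.one (.play 257 (.both (.ref 22 0) (.both (.ref 21 1) (.ref 387 64)))))
 (.one (.play 257 (.both (.play 129 (.both (.play 321 (.both (.play 65 (.ref 26 1)) (.both (.play 385 (.ref 25 64)) (.both (.play 66 (.both (.play 130 (.ref 5 65)) (.ref 632 128))) (.both (.play 385 (.ref 26 65)) (.both (.ref 387 128) (.ref 632 128))))))) (.play 128 (.ref 3 128)))) (.play 256 (.ref 1 192)))))))
 (.seq (.seq (.one (.both (.ref 633 0) (.both (.play 197 (.ref 13 128)) (.play 197 (.ref 17 128)))))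
 (.one (.play 258 (.both (.ref 65 0) (.play 194 (.ref 4 1))))))
 (.seq (.one (.play 257 (.both (.ref 22 0) (.both (.ref 21 1) (.ref 635 64)))))
 (.seq (.one (.play 196 (.both (.play 260 (.both (.play 132 (.both (.play 324 (.both (.play 68 (.ref 64 3)) (.both (.play 388 (.ref 64 67)) (.both (.play 388 (.ref 35 67)) (.both (.play 67 (.both (.play 131 (.ref 7 67)) (.ref 636 131))) (.both (.ref 635 131) (.ref 636 131))))))) (.play 133 (.ref 2 129)))) (.play 261 (.ref 0 193)))) (.both (.ref 11 128) (.play 260 (.ref 8 192))))))
 (.one (.play 129 (.both (.play 197 (.both (.ref 637 2) (.play 130 (.ref 3 129)))) (.play 128 (.ref 3 128)))))))))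
 (.seq (.seq (.seq (.one (.play 68 (.both (.ref 11 0) (.both (.ref 496 1) (.play 132 (.ref 8 64))))))
 (.one (.play 193 (.both (.ref 430 0) (.both (.ref 34 128) (.ref 24 129))))))
 (.seq (.one (.play 128 (.both (.ref 481 0) (.play 192 (.ref 7 128)))))
 (.seq (.one (.play 193 (.both (.ref 641 0) (.both (.ref 34 128) (.ref 24 129)))))
 (.one (.play 390 (.both (.play 393 (.both (.play 326 (.both (.play 454 (.both (.play 262 (.both (.ref 642 5) (.both (.play 519 (.both (.ref 642 5) (.play 455 (.ref 4 262)))) (.both (.ref 641 69) (.both (.play 198 (.ref 35 133)) (.both (.play 198 (.ref 26 134)) (.play 518 (.ref 26 198)))))))) (.play 453 (.ref 1 389)))) (.play 325 (.ref 3 325)))) (.both (.play 454 (.both (.play 394 (.both (.play 395 (.both (.play 331 (.both (.play 459 (.both (.play 267 (.both (.ref 640 10) (.both (.play 522 (.both (.ref 640 10) (.play 458 (.ref 6 266)))) (.both (.ref 430 74) (.both (.play 203 (.ref 64 138)) (.both (.play 203 (.ref 25 138)) (.play 523 (.ref 64 202)))))))) (.play 460 (.ref 0 392)))) (.play 332 (.ref 2 328)))) (.both (.ref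 11 327) (.play 459 (.ref 8 391))))) (.play 455 (.ref 1 390)))) (.play 453 (.ref 1 389)))) (.both (.ref 638 197) (.ref 575 325))))) (.both (.play 393 (.both (.play 326 (.both (.play 455 (.both (.play 519 (.both (.play 262 (.both (.play 198 (.both (.play 134 (.both (.play 133 (.both (.play 135 (.both (.play 132 (.both (.ref 629 64) (.both (.play 200 (.both (.ref 629 64) (.play 199 (.ref 0 132)))) (.both (.ref 486 65) (.both (.play 131 (.ref 16 66)) (.both (.play 131 (.ref 10 130)) (.play 136 (.ref 10 131)))))))) (.play 71 (.ref 5 70)))) (.play 69 (.ref 7 69)))) (.both (.ref 34 69) (.ref 24 70)))) (.play 391 (.ref 4 198)))) (.play 454 (.ref 4 262)))) (.play 583 (.ref 7 326)))) (.both (.play 262 (.both (.play 198 (.ref 4 198)) (.play 519 (.both (.play 327 (.ref 7 262)) (.play 583 (.both (.play 390 (.ref 7 326)) (.play 647 (.both (.ref 22 390) (.both (.ref 21 391) (.play 648 (.both (.play 646 (.both (.play 710 (.ref 6 454)) (.play 649 (.both (.play 645 (.ref 17 580)) (.both (.play 650 (.ref 16 581)) (.both (.play 650 (.ref 17 581)) (.both (.play 581 (.both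 (.play 582 (.ref 3 581)) (.ref 639 582))) (.both (.ref 496 582) (.ref 639 582))))))))) (.play 712 (.ref 4 455))))))))))))) (.ref 479 326)))) (.play 325 (.ref 3 325)))) (.both (.ref 638 197) (.both (.play 394 (.both (.ref 637 199) (.both (.play 329 (.both (.ref 472 325) (.play 330 (.ref 2 326)))) (.both (.ref 11 326) (.ref 496 327))))) (.play 389 (.ref 17 324)))))) (.both (.play 389 (.both (.play 329 (.both (.ref 633 196) (.play 328 (.ref 2 325)))) (.both (.ref 631 321) (.both (.play 388 (.ref 17 323)) (.play 388 (.ref 13 323)))))) (.both (.play 389 (.ref 634 196)) (.both (.play 393 (.ref 634 197)) (.both (.play 389 (.both (.ref 631 321) (.both (.play 329 (.both (.ref 631 321) (.play 328 (.ref 2 325)))) (.both (.ref 630 322) (.both (.play 388 (.ref 17 323)) (.both (.play 388 (.ref 13 323)) (.play 393 (.ref 17 324)))))))) (.both (.play 389 (.both (.ref 629 321) (.both (.play 388 (.ref 17 323)) (.play 393 (.ref 13 324))))) (.play 393 (.both (.play 389 (.ref 13 324)) (.both (.play 394 (.ref 13 325)) (.both (.ref 575 325) (.both (.ref 628 325) (.play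 394 (.both (.ref 11 326) (.play 395 (.ref 16 326)))))))))))))))))))))
 (.seq (.seq (.one (.play 68 (.both (.play 67 (.both (.play 0 (.ref 0 0)) (.play 6 (.ref 117 2)))) (.play 69 (.ref 0 1)))))
 (.one (.play 2 (.both (.play 66 (.both (.play 1 (.ref 3 1)) (.ref 336 64))) (.play 3 (.ref 3 2))))))
 (.seq (.one (.play 193 (.both (.play 257 (.ref 150 0)) (.play 132 (.ref 1 128)))))
 (.seq (.one (.both (.play 193 (.both (.ref 646 1) (.play 192 (.ref 1 128)))) (.play 64 (.ref 3 64))))
 (.one (.play 129 (.both (.play 65 (.both (.play 4 (.ref 2 1)) (.play 128 (.ref 1 64)))) (.play 130 (.ref 1 65))))))))))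
 (.seq (.seq (.seq (.seq (.one (.play 5 (.both (.ref 648 0) (.play 6 (.ref 2 2)))))
 (.one (.play 257 (.both (.ref 22 0) (.play 322 (.ref 250 65))))))
 (.seq (.one (.play 4 (.both (.play 3 (.ref 2 0)) (.play 68 (.both (.play 5 (.ref 2 1)) (.ref 341 64))))))
 (.one (.play 3 (.both (.play 4 (.both (.play 64 (.ref 2 0)) (.play 71 (.ref 3 3)))) (.play 2 (.ref 3 2)))))))
 (.seq (.seq (.one (.play 256 (.both (.play 192 (.ref 6 0)) (.play 258 (.both (.play 194 (.ref 4 1)) (.play 257 (.ref 327 64)))))))
 (.one (.both (.play 258 (.both (.play 129 (.both (.play 259 (.both (.play 257 (.both (.play 193 (.both (.play 2 (.ref 5 1)) (.play 192 (.ref 3 192)))) (.ref 9 256))) (.play 198 (.ref 2 194)))) (.play 130 (.ref 1 65)))) (.both (.play 130 (.both (.play 259 (.both (.play 194 (.ref 329 2)) (.play 198 (.ref 2 194)))) (.play 129 (.ref 1 65)))) (.both (.play 130 (.both (.play 194 (.ref 321 1)) (.play 129 (.ref 1 65)))) (.both (.play 259 (.both (.play 194 (.both (.play 130 (.ref 329 2)) (.play 193 (.ref 3 193)))) (.play 198 (.ref 2 194)))) (.play 259 (.both (.play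 193 (.both (.play 322 (.both (.play 257 (.both (.play 129 (.ref 4 65)) (.play 192 (.ref 3 192)))) (.play 321 (.ref 1 257)))) (.play 194 (.ref 3 193)))) (.play 198 (.ref 2 194))))))))) (.play 324 (.ref 6 68)))))
 (.seq (.one (.play 65 (.both (.play 64 (.both (.play 1 (.ref 5 0)) (.play 257 (.ref 124 0)))) (.play 129 (.ref 5 64)))))
 (.seq (.one (.play 130 (.both (.play 129 (.both (.play 64 (.both (.play 65 (.ref 385 0)) (.play 128 (.ref 7 64)))) (.play 66 (.ref 5 65)))) (.play 194 (.ref 5 129)))))
 (.one (.both (.play 1 (.ref 473 0)) (.play 6 (.ref 2 2))))))))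
 (.seq (.seq (.seq (.one (.play 64 (.both (.play 0 (.ref 7 0)) (.play 66 (.both (.ref 450 0) (.play 2 (.ref 5 1)))))))
 (.one (.play 193 (.both (.play 257 (.ref 7 0)) (.play 258 (.ref 4 1))))))
 (.seq (.one (.play 258 (.both (.play 194 (.ref 4 1)) (.ref 659 64))))
 (.seq (.one (.play 192 (.both (.play 256 (.ref 6 0)) (.ref 660 64))))
 (.one (.play 320 (.both (.play 321 (.both (.ref 34 0) (.play 384 (.ref 6 128)))) (.play 256 (.ref 6 64))))))))
 (.seq (.seq (.one (.play 260 (.both (.play 194 (.both (.play 130 (.ref 91 1)) (.both (.play 130 (.both (.ref 90 1) (.both (.play 67 (.both (.play 66 (.both (.play 3 (.ref 5 2)) (.play 257 (.ref 6 65)))) (.play 131 (.ref 5 66)))) (.ref 88 65)))) (.both (.play 385 (.ref 111 129)) (.play 386 (.both (.ref 662 129) (.both (.play 195 (.both (.play 131 (.ref 5 130)) (.play 450 (.both (.ref 22 193) (.both (.ref 661 193) (.both (.ref 328 257) (.ref 417 257))))))) (.ref 658 129)))))))) (.both (.play 259 (.ref 183 256)) (.both (.play 259 (.ref 104 256)) (.play 259 (.ref 163 256)))))))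
 (.one (.play 64 (.both (.play 320 (.both (.ref 89 0) (.play 384 (.ref 6 128)))) (.play 128 (.ref 7 64))))))
 (.seq (.one (.play 195 (.both (.play 132 (.both (.play 131 (.both (.play 322 (.ref 91 2)) (.play 68 (.ref 5 67)))) (.play 196 (.ref 5 131)))) (.both (.play 131 (.both (.ref 664 2) (.both (.ref 34 66) (.ref 427 66)))) (.both (.play 132 (.ref 436 66)) (.both (.play 132 (.both (.play 131 (.both (.ref 427 66) (.play 68 (.ref 5 67)))) (.play 196 (.ref 5 131)))) (.play 196 (.ref 265 128))))))))
 (.seq (.one (.play 65 (.both (.play 1 (.ref 7 1)) (.play 64 (.ref 0 64)))))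
 (.one (.play 257 (.both (.ref 22 0) (.both (.ref 170 0) (.both (.ref 169 64) (.ref 417 64))))))))))))
 (.seq (.seq (.seq (.seq (.seq (.one (.play 195 (.both (.play 68 (.both (.play 194 (.both (.play 130 (.ref 58 2)) (.play 193 (.ref 61 192)))) (.both (.play 131 (.ref 436 2)) (.both (.play 196 (.both (.play 132 (.ref 6 67)) (.play 387 (.both (.ref 666 129) (.play 451 (.ref 5 195)))))) (.play 132 (.ref 458 67)))))) (.both (.ref 179 2) (.both (.play 387 (.both (.play 194 (.both (.play 130 (.ref 7 130)) (.play 193 (.both (.play 192 (.ref 0 192)) (.ref 667 194))))) (.both (.play 196 (.both (.ref 666 129) (.play 132 (.ref 5 131)))) (.play 196 (.ref 127 131))))) (.play 386 (.ref 111 130)))))))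
 (.one (.both (.ref 668 0) (.play 258 (.ref 1 257)))))
 (.seq (.one (.play 256 (.both (.play 192 (.ref 6 0)) (.ref 113 0))))
 (.one (.both (.play 197 (.both (.play 261 (.ref 4 4)) (.ref 45 128))) (.play 259 (.ref 6 3))))))
 (.seq (.seq (.one (.play 196 (.both (.play 195 (.ref 671 0)) (.both (.ref 670 3) (.play 261 (.ref 250 4))))))
 (.one (.play 193 (.both (.play 129 (.both (.ref 323 1) (.ref 34 64))) (.both (.play 130 (.ref 436 64)) (.both (.play 128 (.both (.play 258 (.both (.ref 214 64) (.play 194 (.ref 5 193)))) (.play 192 (.ref 7 128)))) (.ref 24 129)))))))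
 (.seq (.one (.play 68 (.both (.play 4 (.ref 5 3)) (.play 130 (.both (.play 69 (.ref 95 64)) (.both (.play 132 (.both (.play 129 (.ref 159 64)) (.play 323 (.ref 5 67)))) (.play 323 (.ref 182 66))))))))
 (.seq (.one (.play 1 (.both (.play 0 (.ref 3 0)) (.play 129 (.both (.play 256 (.ref 6 0)) (.play 128 (.ref 1 64)))))))
 (.one (.play 1 (.both (.play 0 (.ref 3 0)) (.play 258 (.ref 435 1)))))))))
 (.seq (.seq (.seq (.one (.play 65 (.both (.ref 676 0) (.play 133 (.ref 0 65)))))
 (.one (.both (.play 0 (.ref 3 0)) (.play 129 (.ref 327 0)))))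
 (.seq (.one (.play 129 (.both (.play 65 (.both (.play 66 (.both (.play 194 (.ref 134 1)) (.play 133 (.ref 3 65)))) (.play 64 (.ref 3 64)))) (.both (.ref 676 64) (.both (.play 65 (.both (.play 64 (.ref 3 64)) (.play 133 (.both (.play 193 (.both (.play 320 (.ref 6 64)) (.play 194 (.ref 1 129)))) (.play 66 (.ref 3 65)))))) (.both (.play 65 (.ref 678 64)) (.play 321 (.both (.play 193 (.ref 77 64)) (.both (.play 66 (.ref 447 65)) (.both (.play 194 (.ref 111 65)) (.play 385 (.both (.play 193 (.ref 23 128)) (.both (.play 194 (.ref 31 129)) (.play 194 (.ref 110 129)))))))))))))))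
 (.seq (.one (.play 256 (.both (.play 192 (.ref 6 0)) (.play 257 (.both (.play 66 (.ref 127 1)) (.play 320 (.ref 6 64)))))))
 (.one (.play 257 (.both (.play 194 (.both (.play 258 (.ref 4 1)) (.ref 680 64))) (.both (.ref 21 1) (.both (.play 320 (.ref 190 64)) (.play 320 (.both (.play 256 (.ref 6 64)) (.play 321 (.both (.play 130 (.ref 350 65)) (.play 384 (.ref 6 128))))))))))))))
 (.seq (.seq (.one (.play 64 (.both (.play 65 (.both (.play 0 (.ref 7 0)) (.play 258 (.ref 124 1)))) (.play 128 (.ref 7 64)))))
 (.one (.play 193 (.both (.play 128 (.both (.play 129 (.both (.play 322 (.ref 360 1)) (.play 64 (.ref 7 64)))) (.play 192 (.ref 7 128)))) (.both (.ref 137 64) (.both (.play 258 (.both (.ref 682 64) (.play 194 (.ref 5 193)))) (.ref 24 129)))))))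
 (.seq (.one (.play 391 (.both (.play 455 (.both (.play 327 (.both (.play 263 (.both (.ref 683 6) (.both (.ref 178 134) (.both (.play 262 (.both (.play 326 (.both (.play 261 (.both (.play 260 (.both (.play 324 (.both (.play 388 (.ref 329 196)) (.play 323 (.ref 1 259)))) (.play 259 (.ref 0 259)))) (.both (.play 260 (.ref 118 259)) (.play 329 (.both (.play 325 (.both (.play 324 (.ref 476 259)) (.play 389 (.ref 233 260)))) (.play 328 (.ref 3 261))))))) (.play 519 (.ref 7 262)))) (.play 198 (.ref 7 198)))) (.ref 674 196))))) (.both (.play 263 (.both (.ref 683 6) (.both (.play 456 (.both (.ref 363 70) (.play 520 (.ref 4 263)))) (.both (.ref 369 135) (.both (.play 519 (.both (.ref 126 135) (.both (.ref 21 263) (.play 584 (.both (.play 328 (.both (.play 264 (.ref 5 263)) (.play 583 (.ref 249 327)))) (.play 520 (.ref 4 327))))))) (.ref 390 199)))))) (.both (.play 263 (.both (.ref 396 134) (.both (.ref 324 135) (.play 262 (.ref 536 195))))) (.both (.play 326 (.both (.play 325 (.both (.play 262 (.both (.play 198 (.both (.play 134 (.ref 4 134)) (.play 389 (.ref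 31 197)))) (.play 519 (.ref 7 262)))) (.both (.ref 679 195) (.both (.play 519 (.both (.play 328 (.both (.play 260 (.both (.play 324 (.ref 678 259)) (.play 261 (.ref 3 260)))) (.play 264 (.ref 5 263)))) (.play 262 (.ref 7 262)))) (.both (.play 519 (.both (.play 328 (.both (.play 389 (.both (.play 261 (.both (.play 516 (.ref 6 260)) (.play 260 (.ref 3 260)))) (.play 388 (.ref 1 324)))) (.play 264 (.ref 5 263)))) (.play 262 (.ref 7 262)))) (.play 389 (.both (.play 328 (.both (.play 264 (.both (.play 265 (.ref 2 261)) (.play 519 (.ref 5 263)))) (.play 388 (.ref 1 324)))) (.both (.play 388 (.both (.play 517 (.both (.play 262 (.ref 5 261)) (.play 581 (.ref 134 324)))) (.play 328 (.ref 1 324)))) (.play 262 (.both (.play 517 (.ref 5 261)) (.play 519 (.ref 7 262)))))))))))) (.both (.play 325 (.both (.play 392 (.both (.play 389 (.both (.play 262 (.ref 144 133)) (.both (.play 516 (.ref 32 260)) (.play 517 (.both (.play 262 (.ref 5 261)) (.play 581 (.both (.ref 22 324) (.play 645 (.ref 187 388))))))))) (.play 393 (.ref 209 325)))) (.both (.ref 679 195) (.both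 (.ref 677 259) (.play 392 (.ref 210 324)))))) (.both (.play 328 (.both (.play 394 (.both (.play 264 (.both (.play 200 (.ref 101 135)) (.play 265 (.ref 105 261)))) (.both (.play 392 (.both (.play 264 (.both (.play 200 (.ref 6 199)) (.ref 465 260))) (.play 393 (.ref 3 326)))) (.both (.play 329 (.ref 176 262)) (.play 393 (.both (.play 329 (.ref 0 326)) (.play 392 (.ref 3 326)))))))) (.both (.play 264 (.ref 102 135)) (.both (.play 392 (.both (.play 325 (.both (.ref 675 260) (.play 324 (.ref 0 324)))) (.both (.play 394 (.both (.play 519 (.both (.play 520 (.both (.play 329 (.both (.play 265 (.ref 253 262)) (.play 330 (.ref 211 327)))) (.play 584 (.ref 4 327)))) (.play 583 (.ref 5 327)))) (.play 393 (.ref 3 326)))) (.play 325 (.ref 118 324))))) (.ref 106 261))))) (.both (.play 519 (.ref 393 261)) (.play 519 (.both (.play 262 (.ref 7 262)) (.ref 681 326)))))))) (.both (.ref 37 134) (.both (.play 262 (.both (.play 326 (.ref 58 134)) (.both (.ref 475 134) (.play 519 (.both (.play 326 (.ref 7 262)) (.ref 681 326)))))) (.both (.play 263 (.both (.play 200 (.ref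 436 134)) (.both (.play 262 (.ref 415 198)) (.ref 390 199)))) (.both (.play 519 (.both (.play 326 (.both (.play 325 (.both (.ref 679 195) (.both (.ref 677 259) (.both (.play 328 (.both (.ref 675 260) (.ref 470 325))) (.play 392 (.ref 210 324)))))) (.play 262 (.ref 7 262)))) (.both (.ref 396 198) (.play 584 (.both (.play 583 (.both (.ref 173 326) (.play 648 (.ref 4 391)))) (.play 520 (.ref 4 327))))))) (.play 520 (.both (.play 263 (.both (.ref 674 196) (.play 456 (.ref 4 263)))) (.both (.play 519 (.both (.play 326 (.ref 393 261)) (.play 584 (.ref 4 327)))) (.both (.play 584 (.ref 59 263)) (.play 456 (.ref 237 263))))))))))))))) (.both (.play 516 (.both (.play 580 (.both (.play 388 (.both (.play 581 (.both (.play 324 (.both (.ref 419 131) (.play 517 (.ref 4 324)))) (.play 645 (.ref 4 388)))) (.both (.play 645 (.both (.play 643 (.both (.ref 673 131) (.play 579 (.ref 6 387)))) (.play 581 (.ref 4 388)))) (.both (.ref 656 195) (.both (.play 581 (.both (.play 324 (.both (.play 261 (.ref 436 195)) (.play 517 (.ref 4 324)))) (.play 645 (.ref 4 388)))) (.both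 (.ref 655 260) (.play 389 (.both (.play 325 (.ref 5 324)) (.play 581 (.both (.play 582 (.both (.play 579 (.both (.play 643 (.ref 6 387)) (.play 646 (.ref 337 387)))) (.both (.play 519 (.both (.play 579 (.both (.play 643 (.ref 6 387)) (.play 646 (.both (.play 583 (.ref 6 390)) (.play 647 (.ref 0 579)))))) (.play 454 (.ref 456 388)))) (.play 520 (.both (.ref 459 388) (.both (.play 584 (.both (.play 456 (.both (.play 454 (.ref 3 388)) (.play 648 (.ref 7 391)))) (.play 583 (.ref 156 516)))) (.play 583 (.ref 157 516)))))))) (.play 645 (.ref 4 388)))))))))))) (.both (.play 389 (.ref 102 260)) (.both (.play 389 (.ref 144 260)) (.ref 672 448))))) (.both (.play 580 (.both (.play 389 (.both (.play 388 (.both (.play 581 (.both (.play 324 (.both (.ref 282 195) (.play 517 (.ref 4 324)))) (.play 645 (.ref 4 388)))) (.both (.play 579 (.both (.play 324 (.both (.play 260 (.ref 124 196)) (.play 515 (.ref 6 323)))) (.play 643 (.ref 6 387)))) (.both (.ref 278 322) (.play 579 (.both (.play 581 (.both (.play 582 (.both (.play 646 (.ref 337 387)) (.play 515 (.ref 128 514))))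 (.play 645 (.ref 4 388)))) (.play 643 (.ref 6 387)))))))) (.both (.play 325 (.ref 101 260)) (.play 325 (.ref 143 260))))) (.both (.play 389 (.ref 144 260)) (.ref 672 448)))) (.both (.play 515 (.both (.play 579 (.both (.play 388 (.both (.play 324 (.ref 6 323)) (.ref 205 385))) (.both (.play 643 (.both (.play 642 (.both (.play 644 (.both (.play 580 (.both (.play 389 (.ref 5 388)) (.play 641 (.ref 159 576)))) (.play 708 (.ref 4 451)))) (.play 706 (.ref 6 450)))) (.play 707 (.ref 5 451)))) (.play 643 (.ref 127 387))))) (.play 454 (.ref 1 451)))) (.play 454 (.ref 343 451)))))) (.both (.play 519 (.both (.ref 366 196) (.both (.ref 37 198) (.both (.ref 365 324) (.play 454 (.ref 151 388)))))) (.play 454 (.ref 378 386)))))) (.both (.play 389 (.both (.play 325 (.both (.ref 665 66) (.both (.play 261 (.ref 91 132)) (.both (.play 516 (.ref 111 260)) (.play 517 (.both (.ref 662 260) (.both (.ref 658 260) (.both (.play 324 (.both (.play 260 (.ref 7 260)) (.play 326 (.both (.play 262 (.ref 5 261)) (.play 392 (.both (.play 327 (.ref 0 324)) (.ref 667 324))))))) (.ref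 189 324))))))))) (.both (.play 390 (.ref 669 130)) (.both (.play 390 (.both (.ref 668 130) (.play 392 (.ref 1 388)))) (.play 390 (.ref 183 387)))))) (.both (.play 390 (.both (.play 389 (.ref 669 130)) (.play 454 (.ref 2 387)))) (.both (.play 454 (.ref 379 386)) (.play 390 (.ref 185 387))))))))
 (.seq (.one (.play 452 (.both (.ref 684 1) (.both (.play 390 (.both (.play 326 (.both (.ref 665 67) (.both (.play 262 (.ref 91 133)) (.both (.play 518 (.both (.play 325 (.both (.play 386 (.both (.play 450 (.both (.play 324 (.both (.play 322 (.both (.ref 226 193) (.both (.play 517 (.both (.play 389 (.ref 220 258)) (.play 581 (.ref 6 325)))) (.play 323 (.ref 164 321))))) (.both (.play 322 (.both (.ref 226 193) (.both (.play 323 (.ref 241 257)) (.play 323 (.ref 164 321))))) (.both (.play 327 (.both (.play 259 (.both (.play 323 (.both (.play 322 (.ref 218 257)) (.play 258 (.ref 3 258)))) (.play 260 (.ref 3 259)))) (.play 263 (.ref 5 262)))) (.play 517 (.both (.play 260 (.both (.play 327 (.both (.play 259 (.ref 3 259)) (.play 263 (.ref 5 262)))) (.play 389 (.ref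 7 260)))) (.play 581 (.ref 6 325)))))))) (.both (.play 517 (.both (.play 581 (.ref 6 325)) (.play 451 (.ref 0 450)))) (.play 451 (.ref 444 385))))) (.both (.play 517 (.both (.play 327 (.both (.play 324 (.both (.play 259 (.both (.play 323 (.ref 207 258)) (.play 260 (.ref 3 259)))) (.both (.play 260 (.ref 161 259)) (.play 323 (.ref 262 321))))) (.play 263 (.ref 5 262)))) (.play 581 (.ref 6 325)))) (.both (.play 517 (.both (.play 581 (.ref 6 325)) (.play 451 (.both (.play 387 (.ref 3 386)) (.play 450 (.ref 0 450)))))) (.play 451 (.ref 473 385)))))) (.play 261 (.ref 7 261)))) (.both (.play 325 (.both (.play 327 (.both (.play 263 (.ref 5 262)) (.play 451 (.both (.play 517 (.ref 380 322)) (.both (.play 515 (.both (.play 582 (.both (.ref 22 325) (.both (.ref 661 325) (.both (.ref 169 389) (.ref 417 389))))) (.play 514 (.ref 1 450)))) (.ref 346 385)))))) (.play 261 (.ref 7 261)))) (.both (.ref 193 261) (.both (.ref 192 261) (.both (.ref 191 261) (.ref 189 325))))))) (.play 517 (.ref 111 261)))))) (.both (.ref 663 132) (.play 391 (.ref 105 387))))) (.both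 (.play 390 (.both (.play 326 (.both (.play 262 (.both (.ref 90 133) (.both (.ref 92 133) (.play 518 (.ref 36 197))))) (.both (.play 262 (.ref 91 133)) (.both (.play 517 (.both (.play 451 (.both (.play 387 (.both (.play 516 (.both (.play 259 (.both (.play 325 (.both (.play 261 (.both (.play 260 (.ref 255 258)) (.play 518 (.ref 7 261)))) (.play 580 (.both (.play 389 (.ref 6 324)) (.play 644 (.ref 7 387)))))) (.play 323 (.ref 4 259)))) (.play 455 (.ref 117 451)))) (.play 386 (.ref 3 386)))) (.both (.play 386 (.ref 473 385)) (.both (.ref 198 385) (.ref 186 386))))) (.both (.play 581 (.ref 31 325)) (.play 581 (.ref 110 325))))) (.play 517 (.ref 111 261)))))) (.both (.ref 663 132) (.both (.play 451 (.ref 657 385)) (.play 391 (.ref 105 387)))))) (.both (.play 455 (.both (.play 456 (.both (.play 520 (.both (.play 584 (.both (.play 517 (.both (.play 581 (.both (.play 389 (.both (.ref 656 196) (.both (.ref 655 261) (.play 582 (.both (.play 648 (.both (.play 647 (.both (.play 580 (.both (.play 644 (.ref 6 388)) (.play 583 (.ref 0 580)))) (.play 711 (.ref 6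 455)))) (.both (.play 649 (.ref 252 453)) (.play 712 (.ref 23 455))))) (.play 646 (.ref 4 389))))))) (.both (.play 390 (.ref 102 261)) (.both (.play 390 (.ref 144 261)) (.play 645 (.both (.play 389 (.ref 23 388)) (.both (.ref 320 452) (.play 710 (.ref 250 453))))))))) (.play 516 (.ref 1 452)))) (.both (.play 517 (.both (.play 392 (.both (.play 581 (.both (.play 390 (.ref 102 261)) (.both (.play 390 (.ref 144 261)) (.play 649 (.both (.play 582 (.both (.play 646 (.ref 237 389)) (.play 648 (.ref 252 453)))) (.play 585 (.ref 4 392))))))) (.play 393 (.ref 2 389)))) (.play 516 (.ref 1 452)))) (.both (.play 647 (.both (.play 648 (.ref 654 387)) (.play 392 (.both (.play 393 (.ref 2 389)) (.play 583 (.ref 6 391)))))) (.both (.play 648 (.both (.play 647 (.ref 654 387)) (.both (.play 392 (.both (.play 393 (.ref 2 389)) (.ref 21 392))) (.ref 653 455)))) (.both (.play 392 (.both (.play 517 (.both (.play 585 (.both (.play 583 (.both (.play 582 (.both (.play 645 (.both (.play 581 (.both (.play 390 (.ref 5 389)) (.play 644 (.ref 1 580)))) (.play 646 (.ref 1 581))))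 (.play 518 (.ref 3 517)))) (.play 647 (.ref 6 391)))) (.play 649 (.ref 4 392)))) (.play 516 (.ref 1 452)))) (.play 393 (.ref 2 389)))) (.play 392 (.both (.play 393 (.ref 2 389)) (.ref 169 391))))))))) (.play 521 (.ref 0 453)))) (.both (.play 393 (.ref 379 388)) (.both (.play 393 (.ref 266 389)) (.play 517 (.ref 343 452)))))) (.both (.play 456 (.both (.play 521 (.both (.play 517 (.both (.play 390 (.both (.play 581 (.ref 144 261)) (.both (.play 581 (.ref 102 261)) (.play 451 (.both (.ref 186 386) (.play 391 (.ref 2 387))))))) (.play 516 (.ref 1 452)))) (.play 520 (.ref 0 453)))) (.both (.play 521 (.both (.play 457 (.both (.ref 652 387) (.play 522 (.ref 0 454)))) (.play 520 (.ref 0 453)))) (.both (.play 517 (.both (.play 457 (.both (.ref 652 387) (.play 518 (.ref 1 453)))) (.play 516 (.ref 1 452)))) (.ref 341 452))))) (.both (.play 456 (.both (.play 520 (.ref 413 260)) (.both (.play 457 (.both (.ref 295 387) (.both (.ref 11 389) (.play 394 (.both (.play 390 (.both (.play 389 (.ref 3 389)) (.play 458 (.ref 156 390)))) (.play 393 (.ref 2 390))))))) (.both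 (.play 521 (.both (.play 457 (.both (.ref 295 387) (.play 522 (.ref 0 454)))) (.play 520 (.ref 0 453)))) (.both (.ref 155 389) (.play 521 (.both (.play 457 (.both (.ref 409 389) (.play 522 (.ref 0 454)))) (.play 520 (.ref 0 453))))))))) (.both (.play 391 (.both (.play 451 (.both (.ref 645 384) (.play 390 (.ref 2 387)))) (.play 392 (.ref 2 388)))) (.ref 651 388)))))) (.both (.play 451 (.both (.play 387 (.both (.play 515 (.both (.play 391 (.both (.play 323 (.both (.ref 178 194) (.both (.play 324 (.both (.play 322 (.both (.play 258 (.ref 7 258)) (.play 579 (.both (.play 516 (.both (.play 580 (.ref 4 323)) (.ref 234 386))) (.both (.ref 21 323) (.both (.play 642 (.ref 190 386)) (.ref 650 386))))))) (.play 260 (.ref 5 259)))) (.play 516 (.ref 124 259))))) (.play 390 (.ref 2 387)))) (.play 514 (.ref 1 450)))) (.play 386 (.ref 3 386)))) (.both (.play 386 (.ref 446 385)) (.both (.ref 445 385) (.ref 649 385))))) (.both (.play 451 (.both (.play 387 (.ref 647 322)) (.both (.ref 645 384) (.both (.play 386 (.ref 446 385)) (.both (.play 386 (.both (.play 450 (.both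 (.play 385 (.ref 3 385)) (.ref 644 449))) (.play 387 (.ref 3 386)))) (.play 450 (.both (.play 513 (.both (.ref 165 448) (.play 514 (.ref 1 449)))) (.both (.ref 9 449) (.ref 644 449))))))))) (.play 391 (.both (.play 451 (.both (.ref 261 385) (.play 390 (.ref 2 387)))) (.both (.play 455 (.both (.play 451 (.both (.play 386 (.both (.play 450 (.both (.play 385 (.ref 3 385)) (.ref 9 449))) (.play 387 (.ref 3 386)))) (.both (.play 386 (.both (.play 450 (.both (.play 385 (.ref 3 385)) (.play 517 (.both (.play 516 (.both (.play 449 (.ref 0 449)) (.play 456 (.ref 1 452)))) (.play 518 (.ref 0 450)))))) (.play 387 (.ref 3 386)))) (.ref 9 450)))) (.play 392 (.ref 2 388)))) (.both (.play 390 (.ref 105 387)) (.play 392 (.ref 185 388))))))))))))))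
 (.one (.play 2 (.both (.play 66 (.both (.play 65 (.ref 13 0)) (.play 1 (.ref 3 1)))) (.play 3 (.ref 3 2))))))))))
 (.seq (.seq (.seq (.seq (.one (.play 258 (.both (.ref 63 0) (.play 194 (.ref 4 1)))))
 (.one (.play 260 (.both (.ref 512 0) (.both (.play 324 (.ref 23 67)) (.play 324 (.ref 76 67)))))))
 (.seq (.one (.play 260 (.both (.play 324 (.ref 64 3)) (.both (.play 324 (.ref 35 3)) (.ref 69 64)))))
 (.seq (.one (.play 128 (.both (.play 129 (.both (.play 65 (.ref 25 0)) (.play 64 (.ref 7 64)))) (.play 192 (.ref 7 128)))))
 (.one (.play 193 (.both (.ref 690 0) (.play 386 (.ref 4 193))))))))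
 (.seq (.seq (.one (.play 66 (.both (.play 5 (.ref 657 0)) (.play 129 (.ref 1 65)))))
 (.one (.play 66 (.both (.play 1 (.ref 446 0)) (.play 5 (.ref 2 2))))))
 (.seq (.one (.play 6 (.both (.ref 693 0) (.play 7 (.ref 2 3)))))
 (.seq (.one (.play 65 (.both (.play 1 (.ref 15 0)) (.play 4 (.ref 2 1)))))
 (.one (.both (.play 129 (.both (.play 65 (.ref 243 0)) (.both (.play 65 (.both (.play 1 (.ref 6 0)) (.ref 131 0))) (.play 321 (.both (.play 322 (.both (.play 323 (.both (.play 387 (.both (.play 130 (.both (.play 66 (.ref 5 65)) (.play 259 (.ref 7 130)))) (.play 320 (.both (.play 384 (.ref 5 128)) (.play 388 (.ref 0 320)))))) (.play 324 (.ref 3 256)))) (.play 386 (.ref 4 129)))) (.both (.play 130 (.ref 127 65)) (.play 384 (.both (.play 320 (.ref 5 128)) (.play 385 (.ref 229 192)))))))))) (.play 196 (.ref 1 192))))))))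
 (.seq (.seq (.seq (.one (.play 68 (.both (.play 1 (.ref 3 0)) (.play 129 (.ref 1 64)))))
 (.one (.play 65 (.both (.play 256 (.ref 127 0)) (.play 132 (.ref 3 64))))))
 (.seq (.one (.play 65 (.both (.play 193 (.both (.play 1 (.ref 6 0)) (.play 384 (.ref 5 128)))) (.play 128 (.ref 5 64)))))
 (.seq (.one (.play 64 (.both (.play 65 (.both (.play 0 (.ref 7 0)) (.ref 21 65))) (.play 128 (.ref 7 64)))))
 (.one (.both (.play 130 (.both (.play 129 (.both (.ref 700 0) (.play 66 (.ref 5 65)))) (.both (.ref 699 1) (.play 385 (.both (.play 194 (.ref 5 129)) (.ref 328 192)))))) (.play 320 (.ref 1 256)))))))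
 (.seq (.seq (.one (.play 192 (.both (.play 256 (.ref 6 0)) (.play 132 (.ref 1 128)))))
 (.one (.both (.play 258 (.ref 32 2)) (.play 132 (.ref 2 128)))))
 (.seq (.one (.both (.play 194 (.ref 246 2)) (.play 68 (.ref 2 64))))
 (.seq (.one (.play 69 (.both (.play 70 (.ref 12 2)) (.both (.play 65 (.ref 10 64)) (.play 130 (.ref 117 65))))))
 (.one (.play 66 (.both (.play 68 (.both (.ref 705 0) (.play 4 (.ref 5 3)))) (.play 2 (.ref 7 2))))))))))))
 (.seq (.seq (.seq (.seq (.seq (.seq (.one (.play 68 (.both (.play 69 (.ref 3 1)) (.play 128 (.ref 1 64)))))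
 (.one (.play 67 (.both (.play 3 (.ref 5 2)) (.play 131 (.both (.play 132 (.both (.play 196 (.both (.ref 332 64) (.play 324 (.ref 7 67)))) (.ref 707 65))) (.play 322 (.ref 5 66))))))))
 (.seq (.one (.play 66 (.both (.play 2 (.ref 7 2)) (.play 132 (.both (.play 133 (.ref 62 64)) (.both (.play 133 (.ref 239 64)) (.play 323 (.ref 140 66))))))))
 (.one (.play 193 (.both (.play 130 (.both (.play 129 (.both (.ref 431 0) (.play 66 (.ref 5 65)))) (.play 194 (.ref 5 129)))) (.both (.ref 428 64) (.both (.play 256 (.both (.play 130 (.both (.play 129 (.both (.play 320 (.ref 243 64)) (.play 66 (.ref 5 65)))) (.play 194 (.ref 5 129)))) (.play 192 (.ref 7 192)))) (.ref 34 128))))))))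
 (.seq (.seq (.one (.play 259 (.both (.ref 710 2) (.both (.play 196 (.ref 436 130)) (.both (.ref 709 192) (.ref 708 193))))))
 (.one (.play 195 (.both (.play 131 (.both (.play 196 (.both (.play 129 (.both (.play 132 (.both (.play 68 (.ref 231 1)) (.ref 465 128))) (.play 128 (.ref 0 128)))) (.both (.play 129 (.ref 194 128)) (.play 197 (.both (.ref 213 128) (.play 198 (.ref 3 130))))))) (.play 322 (.ref 127 66)))) (.play 2 (.ref 4 2))))))
 (.seq (.one (.play 66 (.both (.play 65 (.ref 19 0)) (.both (.play 133 (.ref 118 65)) (.play 70 (.ref 10 65))))))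
 (.seq (.one (.play 69 (.both (.play 67 (.both (.ref 713 0) (.play 3 (.ref 7 3)))) (.play 5 (.ref 5 4)))))
 (.one (.play 453 (.both (.play 389 (.both (.play 325 (.both (.ref 711 2) (.both (.play 261 (.both (.ref 710 4) (.both (.play 197 (.both (.play 134 (.both (.play 133 (.both (.play 324 (.both (.play 260 (.both (.play 69 (.ref 6 68)) (.play 517 (.ref 7 260)))) (.play 388 (.ref 6 132)))) (.play 70 (.ref 5 69)))) (.play 198 (.ref 5 133)))) (.play 390 (.ref 4 197)))) (.both (.ref 363 68) (.both (.ref 325 132) (.play 260 (.both (.play 196 (.ref 7 196)) (.play 517 (.both (.play 324 (.ref 7 260)) (.ref 680 324)))))))))) (.both (.play 261 (.both (.ref 363 68) (.both (.ref 359 133) (.both (.ref 708 195) (.ref 712 195))))) (.both (.play 261 (.both (.ref 325 132) (.both (.ref 323 133) (.ref 714 193)))) (.both (.play 388 (.both (.play 387 (.both (.play 326 (.both (.play 262 (.both (.play 327 (.both (.play 391 (.ref 58 134)) (.play 328 (.ref 1 324)))) (.play 517 (.ref 5 261)))) (.both (.play 517 (.both (.play 324 (.ref 134 260)) (.play 262 (.ref 5 261))))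 (.play 327 (.ref 183 323))))) (.play 386 (.ref 0 386)))) (.both (.play 517 (.both (.play 324 (.both (.play 326 (.both (.play 323 (.both (.ref 305 257) (.both (.play 322 (.ref 118 321)) (.play 391 (.both (.play 390 (.ref 0 323)) (.play 327 (.ref 211 324))))))) (.play 262 (.ref 5 261)))) (.play 260 (.ref 7 260)))) (.both (.play 324 (.ref 134 260)) (.play 326 (.ref 321 260))))) (.play 387 (.ref 61 386))))) (.both (.play 261 (.both (.ref 325 132) (.both (.ref 359 133) (.play 262 (.ref 265 194))))) (.both (.play 261 (.both (.ref 325 132) (.both (.ref 709 194) (.ref 712 195)))) (.both (.play 261 (.both (.ref 325 132) (.both (.ref 359 133) (.play 262 (.both (.play 326 (.both (.ref 195 195) (.play 517 (.ref 5 261)))) (.play 198 (.ref 5 197))))))) (.play 261 (.both (.ref 395 132) (.both (.ref 359 133) (.play 517 (.ref 36 196)))))))))))))) (.both (.play 325 (.both (.ref 711 2) (.both (.play 388 (.both (.play 261 (.both (.play 197 (.both (.play 326 (.both (.play 133 (.both (.ref 359 5) (.play 324 (.ref 6 132)))) (.both (.play 387 (.both (.play 324 (.both (.play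 133 (.ref 6 132)) (.play 327 (.ref 1 323)))) (.play 386 (.ref 0 386)))) (.play 327 (.both (.play 260 (.both (.play 196 (.ref 7 196)) (.play 259 (.ref 61 258)))) (.play 328 (.ref 1 324))))))) (.both (.play 133 (.both (.ref 178 4) (.play 324 (.ref 6 132)))) (.ref 34 132)))) (.both (.play 387 (.both (.play 197 (.both (.ref 78 4) (.both (.play 133 (.both (.play 69 (.both (.ref 34 4) (.play 262 (.both (.play 326 (.ref 4 69)) (.play 198 (.ref 5 197)))))) (.play 324 (.ref 6 132)))) (.ref 24 133)))) (.play 386 (.ref 0 386)))) (.both (.play 196 (.both (.play 197 (.both (.ref 92 68) (.play 132 (.ref 7 132)))) (.play 260 (.ref 7 196)))) (.both (.ref 178 132) (.ref 706 194)))))) (.play 456 (.ref 3 388)))) (.both (.play 326 (.both (.play 328 (.both (.play 392 (.both (.play 264 (.both (.play 265 (.both (.play 200 (.both (.play 201 (.ref 127 136)) (.play 391 (.ref 6 199)))) (.play 327 (.ref 2 261)))) (.both (.play 327 (.ref 704 197)) (.both (.play 265 (.both (.play 456 (.ref 311 199)) (.play 327 (.ref 2 261)))) (.play 391 (.ref 111 199)))))) (.both (.play 327 (.both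 (.play 264 (.ref 704 197)) (.play 393 (.ref 0 325)))) (.both (.play 456 (.ref 703 261)) (.ref 457 325))))) (.both (.play 327 (.ref 267 260)) (.both (.play 456 (.both (.play 392 (.ref 703 261)) (.play 388 (.ref 3 388)))) (.play 388 (.both (.play 327 (.ref 1 324)) (.play 456 (.ref 3 388)))))))) (.play 262 (.ref 144 133)))) (.both (.play 517 (.both (.ref 178 196) (.ref 702 324))) (.play 517 (.both (.ref 662 260) (.both (.play 324 (.both (.play 260 (.ref 7 260)) (.play 388 (.both (.play 581 (.ref 7 324)) (.play 456 (.ref 3 388)))))) (.ref 702 324))))))))) (.both (.play 517 (.both (.play 581 (.both (.ref 673 132) (.both (.play 390 (.ref 127 325)) (.ref 169 388)))) (.both (.play 516 (.both (.play 580 (.ref 111 324)) (.play 456 (.ref 1 452)))) (.play 456 (.both (.play 393 (.ref 157 389)) (.play 516 (.ref 1 452))))))) (.play 388 (.ref 62 386)))))) (.both (.play 452 (.both (.play 388 (.both (.play 516 (.ref 701 195)) (.play 387 (.ref 3 387)))) (.both (.play 387 (.ref 446 386)) (.both (.ref 445 386) (.ref 649 386))))) (.both (.play 388 (.both (.play 516 (.both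 (.play 452 (.ref 701 195)) (.both (.play 452 (.both (.ref 698 324) (.play 515 (.ref 1 451)))) (.both (.ref 697 388) (.play 517 (.ref 95 450)))))) (.both (.play 452 (.ref 647 323)) (.both (.ref 142 386) (.play 389 (.ref 62 386)))))) (.both (.play 452 (.both (.play 516 (.both (.play 517 (.ref 696 260)) (.play 515 (.ref 1 451)))) (.both (.play 517 (.both (.play 391 (.both (.play 390 (.both (.play 326 (.ref 32 261)) (.play 451 (.ref 2 387)))) (.play 392 (.ref 2 388)))) (.both (.play 516 (.ref 696 260)) (.ref 109 388)))) (.both (.play 515 (.both (.ref 692 385) (.play 516 (.ref 1 451)))) (.both (.ref 694 385) (.play 392 (.ref 379 387))))))) (.both (.play 392 (.both (.play 452 (.both (.play 516 (.both (.play 389 (.both (.play 325 (.ref 111 260)) (.both (.play 325 (.ref 32 260)) (.play 456 (.ref 207 388))))) (.play 515 (.ref 1 451)))) (.play 391 (.ref 2 388)))) (.both (.play 456 (.both (.play 389 (.both (.play 390 (.ref 277 260)) (.play 388 (.ref 3 388)))) (.play 393 (.ref 2 389)))) (.both (.ref 290 388) (.play 391 (.ref 184 388)))))) (.both (.play 452 (.both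 (.play 451 (.both (.play 514 (.both (.play 450 (.both (.play 389 (.both (.ref 695 384) (.play 390 (.ref 2 386)))) (.play 513 (.ref 1 449)))) (.play 515 (.ref 1 450)))) (.both (.ref 261 385) (.both (.play 388 (.both (.play 514 (.both (.play 450 (.both (.play 389 (.ref 159 385)) (.play 513 (.ref 1 449)))) (.play 515 (.ref 1 450)))) (.play 387 (.ref 3 387)))) (.play 387 (.ref 15 386)))))) (.both (.ref 694 385) (.both (.ref 445 386) (.both (.ref 296 386) (.ref 284 387)))))) (.both (.play 516 (.both (.ref 692 386) (.both (.play 456 (.both (.play 457 (.both (.ref 11 389) (.both (.play 392 (.both (.play 393 (.ref 2 389)) (.play 522 (.both (.play 458 (.both (.play 391 (.ref 128 390)) (.play 523 (.ref 0 455)))) (.play 521 (.ref 0 454)))))) (.both (.play 522 (.ref 176 390)) (.play 522 (.both (.play 458 (.both (.ref 284 390) (.play 523 (.ref 0 455)))) (.play 521 (.ref 0 454)))))))) (.play 517 (.ref 1 452)))) (.play 517 (.ref 95 450))))) (.both (.play 388 (.both (.ref 142 386) (.both (.play 389 (.ref 62 386)) (.both (.play 452 (.both (.play 387 (.ref 3 387))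 (.play 392 (.ref 379 387)))) (.play 456 (.both (.ref 649 387) (.play 389 (.ref 3 388)))))))) (.play 452 (.both (.ref 346 386) (.both (.ref 294 387) (.play 516 (.ref 257 387)))))))))))))))))))
 (.seq (.seq (.seq (.one (.play 198 (.both (.play 262 (.ref 4 5)) (.play 199 (.ref 616 64)))))
 (.one (.play 260 (.both (.play 196 (.ref 6 4)) (.play 261 (.both (.play 325 (.both (.play 134 (.ref 5 69)) (.ref 716 128))) (.play 324 (.ref 6 68))))))))
 (.seq (.one (.play 323 (.both (.play 322 (.both (.play 131 (.ref 549 2)) (.play 321 (.ref 98 256)))) (.both (.play 131 (.both (.play 387 (.ref 36 66)) (.play 324 (.ref 124 67)))) (.both (.play 387 (.ref 85 130)) (.play 387 (.both (.play 131 (.ref 23 130)) (.play 196 (.ref 127 131)))))))))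
 (.seq (.one (.play 129 (.both (.play 68 (.both (.play 259 (.ref 77 2)) (.play 69 (.ref 183 65)))) (.play 128 (.ref 0 128)))))
 (.one (.play 257 (.both (.play 2 (.ref 5 1)) (.play 321 (.ref 85 64))))))))
 (.seq (.seq (.one (.play 196 (.both (.ref 688 0) (.play 195 (.ref 1 131)))))
 (.one (.play 132 (.both (.ref 197 3) (.both (.ref 92 3) (.play 131 (.both (.play 133 (.both (.play 134 (.both (.play 198 (.ref 82 64)) (.both (.play 135 (.ref 12 67)) (.play 135 (.ref 40 67))))) (.play 69 (.ref 5 68)))) (.play 67 (.ref 7 67)))))))))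
 (.seq (.one (.play 257 (.both (.play 0 (.ref 7 0)) (.play 321 (.ref 77 64)))))
 (.seq (.one (.play 193 (.both (.ref 70 0) (.play 448 (.ref 6 192)))))
 (.one (.play 257 (.both (.play 64 (.ref 134 0)) (.play 1 (.ref 23 0))))))))))
 (.seq (.seq (.seq (.seq (.one (.play 66 (.both (.play 257 (.ref 76 0)) (.play 68 (.ref 1 64)))))
 (.one (.play 193 (.both (.play 129 (.ref 549 0)) (.play 450 (.ref 4 193))))))
 (.seq (.one (.play 456 (.both (.play 389 (.both (.play 392 (.both (.play 328 (.both (.play 390 (.both (.play 326 (.both (.play 262 (.both (.play 198 (.ref 79 5)) (.play 519 (.ref 4 262)))) (.both (.ref 725 261) (.both (.ref 726 261) (.play 519 (.ref 489 262)))))) (.both (.play 391 (.both (.ref 597 68) (.play 329 (.ref 2 325)))) (.both (.play 326 (.both (.play 262 (.ref 87 69)) (.both (.ref 727 69) (.ref 726 261)))) (.both (.play 329 (.both (.play 326 (.both (.ref 70 133) (.play 327 (.ref 1 325)))) (.play 391 (.ref 2 325)))) (.both (.play 326 (.both (.ref 70 133) (.both (.play 262 (.both (.play 453 (.ref 243 197)) (.play 518 (.ref 36 197)))) (.both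 (.play 327 (.both (.play 518 (.ref 77 261)) (.play 329 (.ref 1 325)))) (.ref 725 261))))) (.ref 718 195))))))) (.both (.ref 722 132) (.both (.play 264 (.ref 549 135)) (.play 519 (.ref 529 262)))))) (.both (.play 328 (.both (.play 391 (.both (.play 327 (.both (.ref 724 70) (.play 393 (.both (.play 326 (.both (.ref 723 262) (.play 325 (.ref 0 325)))) (.play 394 (.ref 1 390)))))) (.both (.play 329 (.both (.play 394 (.both (.play 330 (.both (.play 327 (.both (.play 263 (.ref 491 70)) (.play 395 (.ref 0 327)))) (.play 331 (.ref 1 327)))) (.play 393 (.ref 1 390)))) (.play 390 (.ref 2 325)))) (.play 390 (.both (.ref 490 196) (.play 329 (.ref 2 325))))))) (.both (.ref 722 132) (.both (.play 264 (.ref 549 135)) (.play 519 (.ref 529 262)))))) (.both (.play 453 (.both (.ref 721 321) (.play 393 (.ref 2 389)))) (.play 393 (.ref 504 325)))))) (.both (.play 390 (.both (.play 326 (.both (.play 388 (.both (.play 327 (.both (.play 328 (.both (.play 325 (.ref 492 68)) (.play 329 (.ref 1 325)))) (.both (.play 263 (.both (.play 262 (.ref 520 194)) (.play 518 (.ref 5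 262)))) (.ref 720 261)))) (.play 387 (.ref 0 387)))) (.both (.ref 70 133) (.both (.ref 719 259) (.play 519 (.ref 56 262)))))) (.both (.ref 718 195) (.play 388 (.ref 61 387))))) (.both (.play 453 (.both (.play 517 (.both (.play 581 (.both (.play 582 (.ref 87 196)) (.both (.play 645 (.both (.play 518 (.both (.ref 70 196) (.play 709 (.ref 5 453)))) (.ref 22 388))) (.both (.ref 717 384) (.play 645 (.ref 23 388)))))) (.play 516 (.ref 1 452)))) (.play 388 (.ref 3 388)))) (.ref 142 387))))) (.both (.play 389 (.both (.play 388 (.both (.play 387 (.both (.play 386 (.both (.play 450 (.both (.play 322 (.both (.ref 623 1) (.play 321 (.ref 3 321)))) (.play 449 (.ref 1 385)))) (.both (.play 385 (.ref 19 320)) (.both (.play 385 (.ref 17 320)) (.play 385 (.ref 13 320)))))) (.play 390 (.ref 0 387)))) (.play 453 (.ref 3 388)))) (.both (.play 517 (.both (.play 518 (.both (.play 453 (.ref 491 196)) (.play 457 (.ref 1 453)))) (.both (.play 453 (.ref 345 388)) (.play 518 (.ref 567 449))))) (.ref 571 389)))) (.both (.play 457 (.both (.play 390 (.both (.play 518 (.both (.play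 582 (.both (.play 583 (.ref 87 197)) (.both (.play 646 (.ref 23 389)) (.play 646 (.ref 76 389))))) (.play 517 (.ref 1 453)))) (.play 389 (.ref 3 389)))) (.both (.play 458 (.ref 19 389)) (.both (.play 390 (.ref 42 389)) (.play 394 (.both (.play 518 (.ref 40 389)) (.play 393 (.ref 2 390)))))))) (.both (.ref 18 388) (.play 457 (.ref 14 388))))))))
 (.seq (.one (.play 4 (.both (.play 3 (.both (.play 64 (.ref 2 0)) (.play 70 (.ref 42 2)))) (.play 5 (.ref 2 1)))))
 (.one (.play 67 (.both (.play 6 (.ref 484 0)) (.both (.play 3 (.ref 15 2)) (.ref 729 2))))))))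
 (.seq (.seq (.one (.play 193 (.both (.play 257 (.ref 77 0)) (.play 192 (.ref 1 128)))))
 (.one (.play 65 (.both (.play 66 (.both (.ref 731 0) (.play 133 (.ref 3 65)))) (.play 64 (.ref 3 64))))))
 (.seq (.one (.play 321 (.both (.play 193 (.both (.play 385 (.both (.play 386 (.ref 87 0)) (.both (.play 194 (.ref 583 65)) (.both (.play 449 (.ref 23 192)) (.play 449 (.ref 77 192)))))) (.play 192 (.ref 3 192)))) (.play 320 (.ref 1 256)))))
 (.seq (.one (.play 65 (.both (.play 64 (.ref 12 0)) (.play 128 (.ref 1 64)))))
 (.one (.play 131 (.both (.play 70 (.ref 40 2)) (.play 64 (.ref 0 64)))))))))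
 (.seq (.seq (.seq (.one (.play 132 (.both (.ref 735 0) (.play 133 (.ref 0 65)))))
 (.one (.play 67 (.both (.play 134 (.ref 82 0)) (.both (.ref 736 2) (.ref 9 66))))))
 (.seq (.one (.both (.play 1 (.ref 23 0)) (.play 2 (.ref 5 1))))
 (.seq (.one (.play 260 (.both (.ref 512 0) (.play 324 (.ref 7 67)))))
 (.one (.play 65 (.both (.play 321 (.ref 36 0)) (.play 322 (.ref 4 65))))))))
 (.seq (.seq (.one (.play 68 (.both (.ref 523 0) (.play 4 (.ref 6 3)))))
 (.one (.play 453 (.both (.play 452 (.both (.play 388 (.both (.play 389 (.both (.play 325 (.both (.play 326 (.both (.play 327 (.both (.play 324 (.both (.play 263 (.both (.play 390 (.ref 538 6)) (.play 264 (.ref 2 260)))) (.play 260 (.ref 491 67)))) (.play 328 (.ref 1 324)))) (.both (.play 517 (.ref 76 260)) (.ref 720 260)))) (.both (.ref 70 132) (.both (.ref 741 193) (.both (.ref 740 196) (.play 518 (.ref 60 197))))))) (.play 456 (.ref 3 388)))) (.play 387 (.ref 3 387)))) (.both (.play 451 (.both (.play 518 (.both (.play 390 (.both (.play 582 (.both (.play 581 (.ref 79 197)) (.both (.play 389 (.ref 60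 261)) (.both (.play 646 (.ref 23 389)) (.play 646 (.ref 85 389)))))) (.play 391 (.ref 2 387)))) (.play 519 (.ref 0 451)))) (.both (.play 450 (.ref 13 385)) (.play 450 (.ref 10 449))))) (.both (.ref 730 384) (.ref 347 385))))) (.both (.play 452 (.both (.play 451 (.both (.play 390 (.both (.play 518 (.both (.play 326 (.both (.play 262 (.ref 549 133)) (.both (.play 262 (.ref 36 197)) (.both (.play 517 (.ref 583 197)) (.play 325 (.ref 84 261)))))) (.play 519 (.ref 0 451)))) (.play 391 (.ref 2 387)))) (.both (.play 450 (.ref 16 385)) (.play 450 (.ref 17 385))))) (.both (.play 516 (.both (.play 517 (.both (.play 581 (.both (.play 582 (.both (.play 389 (.ref 87 196)) (.both (.ref 727 196) (.play 583 (.both (.play 580 (.both (.play 647 (.both (.play 518 (.ref 489 390)) (.play 648 (.ref 0 580)))) (.ref 731 451))) (.play 584 (.ref 3 516))))))) (.both (.play 390 (.ref 583 261)) (.both (.ref 739 385) (.both (.play 645 (.ref 77 388)) (.play 645 (.ref 738 388))))))) (.play 456 (.ref 1 452)))) (.play 515 (.ref 1 451)))) (.both (.ref 737 384) (.ref 299 385))))) (.both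 (.play 452 (.both (.ref 561 195) (.both (.ref 737 384) (.both (.ref 347 385) (.both (.play 451 (.ref 19 386)) (.play 451 (.both (.play 387 (.ref 15 386)) (.ref 736 386)))))))) (.both (.play 452 (.both (.ref 733 195) (.both (.play 451 (.ref 19 386)) (.both (.play 515 (.both (.ref 734 386) (.play 516 (.ref 1 451)))) (.play 387 (.both (.play 451 (.both (.play 386 (.ref 3 386)) (.play 450 (.ref 12 386)))) (.play 388 (.ref 3 387)))))))) (.both (.play 456 (.both (.ref 733 196) (.both (.play 457 (.ref 19 388)) (.both (.play 389 (.ref 42 388)) (.play 517 (.ref 40 388)))))) (.both (.play 452 (.both (.ref 732 323) (.both (.ref 730 384) (.both (.ref 299 385) (.both (.play 451 (.ref 19 386)) (.play 451 (.both (.ref 729 386) (.ref 9 450)))))))) (.ref 43 387))))))))))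
 (.seq (.one (.play 66 (.both (.play 68 (.both (.ref 371 0) (.play 4 (.ref 5 3)))) (.play 2 (.ref 7 2)))))
 (.seq (.one (.play 321 (.both (.play 65 (.ref 36 0)) (.both (.play 130 (.ref 76 64)) (.play 128 (.ref 84 64))))))
 (.one (.both (.play 65 (.ref 272 0)) (.both (.play 3 (.ref 95 0)) (.both (.play 68 (.ref 105 1)) (.play 6 (.both (.play 3 (.ref 1 2)) (.play 68 (.ref 104 2))))))))))))))
 (.seq (.seq (.seq (.seq (.seq (.one (.play 257 (.both (.play 64 (.ref 7 0)) (.ref 75 64))))
 (.one (.play 64 (.both (.play 0 (.ref 7 0)) (.ref 746 64)))))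
 (.seq (.one (.play 261 (.both (.play 260 (.both (.play 68 (.both (.play 67 (.both (.play 3 (.both (.play 195 (.both (.play 131 (.ref 4 3)) (.play 194 (.ref 67 128)))) (.play 132 (.ref 7 3)))) (.play 66 (.ref 0 66)))) (.play 4 (.ref 7 4)))) (.play 324 (.ref 6 68)))) (.both (.play 325 (.ref 64 4)) (.both (.ref 747 4) (.ref 717 64))))))
 (.one (.play 195 (.both (.ref 588 2) (.both (.ref 29 128) (.both (.ref 468 129) (.ref 695 129))))))))
 (.seq (.seq (.one (.play 69 (.both (.play 3 (.both (.play 4 (.ref 2 0)) (.play 70 (.ref 3 2)))) (.play 133 (.ref 8 65)))))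
 (.one (.play 260 (.both (.play 196 (.both (.play 197 (.both (.ref 592 2) (.play 130 (.ref 3 129)))) (.play 261 (.ref 0 193)))) (.play 259 (.ref 0 192))))))
 (.seq (.one (.play 196 (.both (.ref 751 1) (.both (.ref 11 128) (.both (.ref 750 128) (.play 197 (.ref 12 129)))))))
 (.seq (.one (.play 129 (.both (.play 197 (.both (.ref 751 2) (.play 130 (.ref 3 129)))) (.play 128 (.ref 3 128)))))
 (.one (.both (.play 321 (.ref 35 0)) (.play 2 (.ref 5 1))))))))
 (.seq (.seq (.seq (.one (.play 260 (.both (.play 258 (.both (.play 257 (.both (.ref 561 0) (.play 256 (.ref 0 256)))) (.play 194 (.ref 7 194)))) (.play 196 (.ref 5 195)))))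
 (.one (.play 68 (.both (.play 135 (.ref 616 0)) (.play 4 (.ref 7 4))))))
 (.seq (.one (.play 70 (.both (.play 134 (.both (.ref 756 0) (.play 325 (.ref 5 69)))) (.play 6 (.ref 5 5)))))
 (.seq (.one (.play 260 (.both (.play 261 (.both (.ref 757 0) (.play 324 (.ref 6 68)))) (.play 5 (.ref 6 4)))))
 (.one (.play 129 (.both (.play 65 (.ref 26 1)) (.play 320 (.ref 6 128))))))))
 (.seq (.seq (.one (.both (.ref 759 0) (.play 448 (.ref 6 192))))
 (.one (.play 69 (.both (.play 66 (.ref 546 0)) (.play 70 (.ref 1 66))))))
 (.seq (.one (.play 451 (.both (.ref 755 0) (.both (.ref 747 194) (.both (.play 515 (.ref 754 258)) (.play 515 (.ref 76 258)))))))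
 (.seq (.one (.play 193 (.both (.ref 641 0) (.play 448 (.ref 6 192)))))
 (.one (.play 327 (.both (.play 324 (.both (.ref 597 3) (.both (.ref 579 256) (.play 323 (.ref 17 258))))) (.play 328 (.ref 1 324))))))))))
 (.seq (.seq (.seq (.seq (.one (.both (.play 65 (.ref 25 0)) (.play 386 (.ref 4 129))))
 (.one (.play 129 (.both (.play 65 (.ref 64 0)) (.play 386 (.ref 4 129))))))
 (.seq (.one (.play 194 (.both (.ref 766 1) (.both (.play 130 (.ref 765 1)) (.both (.play 130 (.ref 36 65)) (.ref 534 128))))))
 (.seq (.one (.both (.ref 495 0) (.play 64 (.ref 0 64))))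
 (.one (.both (.play 65 (.ref 768 0)) (.play 134 (.ref 3 66)))))))
 (.seq (.seq (.one (.play 323 (.both (.ref 553 0) (.play 324 (.ref 0 256)))))
 (.one (.play 257 (.both (.ref 22 0) (.both (.play 321 (.ref 85 64)) (.play 321 (.ref 84 64)))))))
 (.seq (.one (.play 1 (.both (.play 0 (.ref 3 0)) (.play 69 (.both (.play 2 (.ref 3 1)) (.ref 480 2))))))
 (.seq (.one (.play 65 (.both (.ref 772 0) (.play 64 (.ref 0 64)))))
 (.one (.play 69 (.both (.play 65 (.ref 17 0)) (.play 70 (.ref 1 66)))))))))
 (.seq (.seq (.seq (.one (.play 68 (.both (.play 67 (.ref 551 0)) (.play 4 (.ref 7 4)))))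
 (.one (.play 65 (.both (.ref 530 0) (.play 1 (.ref 4 1))))))
 (.seq (.one (.play 66 (.both (.play 130 (.both (.ref 518 0) (.play 323 (.ref 7 66)))) (.play 2 (.ref 7 2)))))
 (.seq (.one (.play 195 (.both (.ref 78 2) (.both (.ref 197 66) (.both (.ref 92 66) (.ref 777 128))))))
 (.one (.play 69 (.both (.play 67 (.both (.ref 535 0) (.play 3 (.ref 7 3)))) (.play 5 (.ref 5 4))))))))
 (.seq (.seq (.one (.play 194 (.both (.play 258 (.ref 6 2)) (.play 193 (.ref 504 64)))))
 (.one (.play 260 (.both (.play 196 (.ref 4 3)) (.play 259 (.both (.play 323 (.both (.play 130 (.ref 7 66)) (.ref 780 128))) (.play 324 (.ref 4 67))))))))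
 (.seq (.one (.play 321 (.both (.play 192 (.both (.play 256 (.ref 6 0)) (.play 385 (.ref 7 128)))) (.ref 21 65))))
 (.seq (.one (.play 259 (.both (.ref 22 2) (.both (.ref 782 2) (.both (.ref 781 64) (.play 323 (.ref 23 66)))))))
 (.one (.play 68 (.both (.play 69 (.ref 13 0)) (.play 133 (.ref 0 65)))))))))))))
 (.seq (.seq (.seq (.seq (.seq (.seq (.seq (.one (.both (.ref 235 0) (.play 258 (.ref 7 1))))
 (.one (.play 196 (.both (.play 260 (.ref 4 3)) (.play 129 (.ref 543 128))))))
 (.seq (.one (.play 258 (.both (.play 194 (.both (.play 3 (.ref 6 2)) (.ref 786 64))) (.play 322 (.ref 6 66)))))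
 (.one (.play 196 (.both (.play 260 (.ref 6 4)) (.play 135 (.ref 567 128)))))))
 (.seq (.seq (.one (.play 133 (.both (.play 68 (.both (.play 69 (.both (.play 262 (.both (.play 198 (.both (.play 5 (.ref 4 5)) (.ref 788 64))) (.play 326 (.ref 4 69)))) (.play 4 (.ref 7 4)))) (.play 132 (.ref 7 68)))) (.both (.play 69 (.ref 36 4)) (.ref 24 69)))))
 (.one (.play 261 (.both (.play 197 (.both (.ref 789 0) (.play 388 (.ref 6 196)))) (.both (.play 197 (.both (.play 133 (.both (.play 70 (.both (.play 69 (.both (.ref 787 2) (.play 6 (.ref 5 5)))) (.play 134 (.ref 5 69)))) (.both (.play 69 (.ref 36 4)) (.ref 34 68)))) (.play 388 (.ref 6 196)))) (.both (.ref 78 68) (.both (.play 197 (.ref 36 132)) (.ref 757 192))))))))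
 (.seq (.one (.play 385 (.both (.play 449 (.ref 538 1)) (.play 384 (.ref 1 320)))))
 (.seq (.one (.play 258 (.both (.play 322 (.both (.play 321 (.both (.ref 791 0) (.play 388 (.ref 0 321)))) (.play 257 (.ref 3 257)))) (.play 259 (.ref 3 258)))))
 (.one (.play 258 (.both (.play 194 (.ref 79 1)) (.both (.play 194 (.ref 36 129)) (.ref 534 192)))))))))
 (.seq (.seq (.seq (.one (.both (.play 260 (.both (.ref 553 1) (.play 320 (.ref 1 256)))) (.play 256 (.ref 0 256))))
 (.one (.play 387 (.both (.play 451 (.ref 541 1)) (.play 388 (.ref 0 320))))))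
 (.seq (.one (.play 260 (.both (.play 196 (.ref 87 3)) (.both (.play 196 (.ref 36 131)) (.ref 523 192)))))
 (.seq (.one (.play 455 (.both (.play 391 (.both (.play 456 (.both (.play 390 (.both (.play 326 (.both (.play 262 (.both (.play 198 (.both (.play 134 (.both (.play 70 (.ref 64 5)) (.both (.play 70 (.ref 25 5)) (.ref 779 66)))) (.play 390 (.ref 4 198)))) (.play 327 (.ref 7 262)))) (.play 583 (.ref 7 326)))) (.both (.play 457 (.both (.play 389 (.ref 551 322)) (.play 458 (.ref 1 454)))) (.ref 723 326)))) (.both (.ref 796 67) (.play 457 (.ref 567 450))))) (.both (.play 583 (.both (.play 392 (.both (.play 390 (.both (.play 389 (.both (.play 393 (.both (.play 330 (.both (.play 394 (.both (.play 395 (.both (.ref 795 72) (.play 456 (.ref 1 391)))) (.play 331 (.ref 2 327)))) (.play 329 (.ref 2 326)))) (.both (.play 394 (.both (.ref 11 326) (.play 456 (.both (.play 457 (.ref 0 389)) (.play 395 (.ref 1 391)))))) (.both (.play 394 (.ref 12 326)) (.play 457 (.ref 8 389)))))) (.play 388 (.ref 19 323)))) (.play 326 (.ref 7 326)))) (.play 328 (.ref 5 327))))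 (.both (.play 647 (.ref 25 326)) (.ref 783 388)))) (.both (.ref 763 134) (.both (.play 327 (.both (.ref 73 134) (.play 582 (.ref 6 326)))) (.play 327 (.ref 549 198))))))) (.both (.play 456 (.both (.play 517 (.both (.play 453 (.both (.play 389 (.both (.play 325 (.both (.play 261 (.both (.ref 789 64) (.play 454 (.ref 4 261)))) (.both (.ref 86 132) (.both (.ref 325 196) (.ref 779 257))))) (.both (.ref 70 196) (.both (.play 388 (.both (.play 391 (.both (.play 327 (.ref 549 198)) (.play 390 (.ref 0 388)))) (.play 454 (.ref 3 388)))) (.play 582 (.ref 489 325)))))) (.both (.play 391 (.both (.play 327 (.both (.play 263 (.ref 87 70)) (.both (.play 263 (.ref 36 198)) (.ref 743 260)))) (.both (.play 389 (.both (.play 390 (.ref 794 132)) (.ref 70 196))) (.both (.play 327 (.ref 549 198)) (.play 582 (.both (.play 452 (.both (.play 389 (.both (.play 390 (.both (.ref 501 322) (.play 392 (.ref 1 388)))) (.play 325 (.ref 4 325)))) (.play 520 (.ref 3 452)))) (.play 327 (.ref 6 326)))))))) (.play 452 (.ref 616 384))))) (.play 516 (.ref 2 452)))) (.both (.play 457 (.both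 (.play 454 (.both (.play 393 (.both (.play 521 (.both (.ref 793 71) (.play 522 (.ref 0 454)))) (.play 394 (.ref 2 390)))) (.both (.play 453 (.ref 16 388)) (.play 453 (.ref 17 388))))) (.play 458 (.ref 1 454)))) (.both (.ref 761 388) (.both (.play 457 (.ref 567 450)) (.play 457 (.ref 745 452))))))) (.both (.play 391 (.both (.play 583 (.both (.play 390 (.both (.play 392 (.both (.play 393 (.both (.play 389 (.both (.ref 792 66) (.both (.play 388 (.ref 19 323)) (.both (.play 388 (.both (.play 324 (.ref 15 323)) (.play 454 (.both (.play 387 (.ref 0 387)) (.play 453 (.ref 1 389)))))) (.ref 9 388))))) (.play 394 (.ref 12 326)))) (.play 328 (.ref 5 327)))) (.play 326 (.ref 7 326)))) (.both (.play 392 (.both (.play 390 (.both (.play 393 (.both (.play 394 (.ref 12 326)) (.ref 783 388))) (.play 326 (.ref 7 326)))) (.play 328 (.ref 5 327)))) (.both (.play 647 (.ref 64 326)) (.ref 771 390))))) (.both (.ref 778 132) (.both (.play 327 (.ref 549 198)) (.play 582 (.ref 583 262)))))) (.both (.play 517 (.both (.play 452 (.both (.play 453 (.both (.play 391 (.both (.ref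 790 66) (.both (.play 327 (.ref 549 198)) (.both (.play 582 (.ref 583 262)) (.play 583 (.both (.play 390 (.both (.play 392 (.both (.ref 39 325) (.play 328 (.ref 5 327)))) (.play 326 (.ref 7 326)))) (.both (.play 647 (.ref 64 326)) (.ref 783 388)))))))) (.play 520 (.ref 3 452)))) (.both (.play 516 (.both (.play 515 (.both (.ref 791 194) (.play 454 (.ref 2 451)))) (.play 451 (.ref 3 451)))) (.play 453 (.ref 239 450))))) (.both (.play 457 (.both (.play 391 (.both (.ref 790 66) (.both (.play 583 (.both (.play 392 (.both (.play 390 (.both (.play 326 (.ref 541 69)) (.both (.play 326 (.ref 785 325)) (.ref 784 325)))) (.play 328 (.ref 5 327)))) (.both (.play 647 (.ref 64 326)) (.ref 783 388)))) (.both (.play 327 (.ref 549 198)) (.play 582 (.ref 583 262)))))) (.both (.play 456 (.both (.play 458 (.both (.play 459 (.both (.play 523 (.both (.play 395 (.both (.play 331 (.both (.play 267 (.ref 64 202)) (.both (.play 267 (.ref 36 202)) (.both (.play 267 (.ref 25 202)) (.play 587 (.ref 64 266)))))) (.play 396 (.ref 2 392)))) (.play 524 (.ref 0 456)))) (.both (.play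 460 (.ref 16 391)) (.play 460 (.ref 17 391))))) (.play 455 (.ref 1 454)))) (.play 520 (.ref 2 453)))) (.play 456 (.ref 163 453))))) (.play 516 (.ref 67 450))))) (.both (.play 517 (.both (.play 520 (.both (.play 456 (.both (.play 391 (.both (.ref 762 132) (.both (.play 328 (.both (.play 392 (.ref 79 135)) (.both (.play 392 (.ref 583 199)) (.both (.play 392 (.both (.ref 547 262) (.play 583 (.ref 5 327)))) (.play 327 (.ref 280 263)))))) (.both (.play 327 (.both (.ref 523 259) (.play 263 (.ref 4 263)))) (.both (.play 327 (.both (.ref 779 259) (.play 263 (.ref 4 263)))) (.both (.play 327 (.both (.ref 534 261) (.play 263 (.ref 4 263)))) (.ref 776 262))))))) (.play 457 (.ref 2 453)))) (.both (.ref 753 324) (.both (.ref 752 325) (.both (.play 521 (.ref 17 452)) (.play 453 (.ref 42 452))))))) (.both (.ref 749 321) (.both (.play 516 (.ref 67 450)) (.play 456 (.ref 745 451)))))) (.both (.play 391 (.both (.play 583 (.both (.play 390 (.both (.play 392 (.both (.ref 562 129) (.play 328 (.ref 5 327)))) (.play 326 (.ref 7 326)))) (.both (.play 647 (.ref 64 326))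 (.play 647 (.ref 25 326))))) (.both (.ref 778 132) (.both (.play 327 (.ref 549 198)) (.play 582 (.ref 583 262)))))) (.both (.play 456 (.both (.play 454 (.both (.play 390 (.both (.play 326 (.ref 87 133)) (.both (.ref 776 261) (.both (.play 583 (.ref 60 262)) (.play 582 (.both (.ref 775 321) (.both (.play 646 (.ref 77 389)) (.play 646 (.both (.ref 21 390) (.both (.play 710 (.ref 77 453)) (.play 710 (.ref 76 453)))))))))))) (.both (.play 392 (.both (.play 583 (.ref 538 135)) (.play 453 (.ref 67 387)))) (.both (.play 453 (.both (.ref 594 133) (.both (.play 452 (.ref 13 387)) (.play 452 (.ref 10 451))))) (.ref 493 195))))) (.both (.ref 764 130) (.both (.ref 761 388) (.both (.play 457 (.ref 567 450)) (.play 457 (.ref 745 452))))))) (.both (.play 517 (.both (.play 453 (.both (.play 454 (.both (.play 452 (.ref 595 131)) (.both (.play 456 (.both (.ref 592 261) (.play 457 (.ref 1 453)))) (.both (.ref 774 387) (.ref 773 387))))) (.both (.play 454 (.both (.play 456 (.ref 598 132)) (.both (.play 391 (.both (.play 327 (.ref 79 134)) (.both (.play 582 (.ref 583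 262)) (.both (.play 327 (.both (.play 263 (.ref 6 262)) (.ref 532 262))) (.play 583 (.both (.play 392 (.both (.ref 503 325) (.play 328 (.ref 5 327)))) (.both (.play 647 (.ref 85 390)) (.ref 771 390)))))))) (.play 456 (.both (.ref 770 197) (.play 457 (.ref 1 453))))))) (.both (.play 520 (.both (.ref 752 325) (.play 452 (.ref 3 452)))) (.both (.play 452 (.ref 769 386)) (.play 520 (.ref 42 452))))))) (.both (.ref 749 321) (.both (.play 516 (.ref 67 450)) (.play 456 (.ref 745 451)))))) (.both (.play 456 (.both (.play 391 (.both (.ref 767 133) (.both (.play 327 (.ref 549 198)) (.both (.play 582 (.ref 583 262)) (.ref 748 322))))) (.both (.play 391 (.both (.ref 767 133) (.both (.play 327 (.ref 549 198)) (.both (.play 582 (.ref 583 262)) (.play 390 (.both (.play 583 (.both (.play 326 (.ref 7 326)) (.ref 717 386))) (.both (.play 583 (.ref 84 326)) (.play 389 (.ref 543 388))))))))) (.both (.play 517 (.ref 504 388)) (.both (.play 457 (.ref 567 450)) (.play 457 (.ref 745 452))))))) (.both (.play 391 (.both (.play 456 (.both (.ref 764 130) (.both (.ref 748 322)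 (.both (.ref 761 388) (.both (.play 457 (.ref 567 450)) (.play 457 (.ref 745 452))))))) (.both (.play 327 (.both (.ref 78 134) (.both (.ref 759 134) (.both (.ref 641 134) (.play 326 (.both (.play 262 (.ref 7 262)) (.play 583 (.both (.play 390 (.ref 7 326)) (.play 456 (.both (.play 517 (.ref 504 388)) (.play 647 (.ref 77 390)))))))))))) (.both (.ref 763 134) (.both (.play 582 (.ref 583 262)) (.play 582 (.ref 529 325))))))) (.both (.play 391 (.both (.play 456 (.both (.ref 762 132) (.both (.ref 761 388) (.both (.play 457 (.ref 567 450)) (.play 457 (.ref 745 452)))))) (.both (.play 582 (.ref 583 262)) (.both (.ref 758 322) (.play 582 (.ref 529 325)))))) (.both (.play 391 (.both (.play 327 (.ref 760 134)) (.both (.play 582 (.ref 583 262)) (.both (.ref 758 322) (.play 583 (.both (.ref 743 324) (.both (.play 392 (.ref 76 326)) (.play 390 (.ref 84 326))))))))) (.both (.play 456 (.both (.play 583 (.both (.play 391 (.both (.ref 755 132) (.both (.play 327 (.ref 64 262)) (.both (.play 327 (.ref 36 262)) (.play 327 (.ref 25 262)))))) (.both (.ref 226 326) (.both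 (.play 647 (.ref 77 390)) (.play 647 (.ref 754 390)))))) (.both (.play 457 (.ref 567 450)) (.play 457 (.ref 745 452))))) (.both (.play 391 (.both (.play 583 (.both (.play 392 (.both (.play 390 (.both (.ref 555 133) (.play 326 (.ref 7 326)))) (.play 328 (.ref 5 327)))) (.both (.play 647 (.ref 64 326)) (.both (.play 647 (.ref 25 326)) (.ref 532 326))))) (.both (.play 327 (.ref 549 198)) (.both (.play 582 (.ref 583 262)) (.ref 744 262))))) (.both (.play 517 (.both (.play 520 (.both (.play 456 (.both (.play 453 (.both (.play 454 (.both (.play 389 (.ref 491 196)) (.ref 553 197))) (.play 452 (.ref 3 452)))) (.play 457 (.ref 2 453)))) (.both (.ref 753 324) (.both (.ref 752 325) (.both (.play 521 (.ref 17 452)) (.play 453 (.ref 42 452))))))) (.both (.ref 749 321) (.both (.play 516 (.ref 67 450)) (.play 456 (.ref 745 451)))))) (.both (.play 391 (.both (.play 327 (.ref 549 198)) (.both (.play 582 (.ref 583 262)) (.both (.ref 744 262) (.play 456 (.both (.ref 748 322) (.both (.play 583 (.both (.play 392 (.ref 520 323)) (.both (.play 647 (.ref 64 326)) (.play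 647 (.ref 25 326))))) (.both (.play 457 (.ref 567 450)) (.play 457 (.ref 745 452)))))))))) (.play 391 (.both (.play 327 (.ref 549 198)) (.both (.ref 744 262) (.both (.play 583 (.both (.ref 743 324) (.both (.play 647 (.ref 64 326)) (.ref 387 390)))) (.play 582 (.ref 111 326))))))))))))))))))))))))
 (.one (.play 65 (.both (.play 67 (.ref 98 0)) (.play 2 (.ref 1 1))))))))
 (.seq (.seq (.one (.play 129 (.both (.play 69 (.both (.play 6 (.ref 266 2)) (.play 130 (.ref 1 65)))) (.play 128 (.ref 1 64)))))
 (.one (.both (.play 195 (.both (.play 262 (.both (.play 132 (.both (.play 261 (.both (.play 68 (.ref 56 4)) (.play 194 (.ref 0 194)))) (.play 131 (.ref 3 131)))) (.play 263 (.ref 0 195)))) (.both (.play 262 (.both (.play 194 (.both (.play 129 (.ref 446 128)) (.play 261 (.ref 0 194)))) (.play 263 (.ref 0 195)))) (.play 131 (.ref 15 130))))) (.play 135 (.ref 2 132)))))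
 (.seq (.one (.play 66 (.both (.play 65 (.both (.play 1 (.both (.play 0 (.ref 3 0)) (.play 129 (.ref 4 1)))) (.play 64 (.ref 0 64)))) (.play 2 (.ref 7 2)))))
 (.seq (.one (.play 66 (.both (.play 69 (.both (.play 5 (.ref 5 4)) (.play 130 (.ref 1 65)))) (.play 65 (.ref 107 64)))))
 (.one (.play 65 (.both (.play 64 (.ref 2 0)) (.play 128 (.ref 1 64))))))))))
 (.seq (.seq (.seq (.seq (.one (.play 129 (.both (.ref 803 0) (.play 130 (.ref 1 65)))))
 (.one (.play 129 (.both (.play 196 (.both (.play 260 (.ref 56 3)) (.play 197 (.ref 242 129)))) (.play 128 (.ref 2 64))))))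
 (.seq (.one (.play 259 (.both (.play 197 (.both (.play 195 (.both (.play 4 (.ref 6 3)) (.play 258 (.ref 95 192)))) (.both (.play 4 (.ref 401 3)) (.both (.play 261 (.ref 56 4)) (.play 258 (.ref 745 192)))))) (.both (.play 260 (.ref 389 1)) (.both (.play 323 (.ref 582 3)) (.both (.play 195 (.ref 32 3)) (.play 323 (.both (.play 260 (.ref 6 67)) (.play 195 (.ref 31 67))))))))))
 (.seq (.one (.play 64 (.both (.play 0 (.ref 7 0)) (.play 132 (.ref 3 64)))))
 (.one (.play 69 (.both (.play 65 (.ref 17 0)) (.both (.play 2 (.ref 128 1)) (.play 70 (.ref 12 2)))))))))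
 (.seq (.seq (.one (.play 257 (.both (.play 66 (.ref 5 1)) (.play 320 (.ref 354 64)))))
 (.one (.play 64 (.both (.play 65 (.ref 122 0)) (.play 128 (.ref 7 64))))))
 (.seq (.one (.play 1 (.both (.play 192 (.ref 6 0)) (.play 194 (.ref 4 1)))))
 (.seq (.one (.play 256 (.both (.play 192 (.ref 6 0)) (.play 257 (.both (.play 320 (.ref 6 64)) (.play 322 (.ref 250 65)))))))
 (.one (.play 64 (.both (.ref 24 0) (.play 321 (.ref 4 64)))))))))
 (.seq (.seq (.seq (.one (.play 193 (.both (.play 194 (.both (.play 258 (.both (.play 1 (.ref 4 1)) (.play 322 (.ref 5 66)))) (.play 133 (.ref 1 129)))) (.play 192 (.ref 1 128)))))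
 (.one (.play 325 (.both (.play 389 (.both (.play 324 (.both (.play 388 (.both (.play 322 (.both (.play 197 (.both (.play 386 (.both (.play 194 (.both (.play 258 (.both (.play 130 (.both (.play 66 (.ref 36 1)) (.ref 22 129))) (.both (.play 130 (.both (.play 66 (.ref 25 1)) (.ref 34 65))) (.both (.ref 431 65) (.both (.ref 133 129) (.play 450 (.both (.ref 22 193) (.play 514 (.ref 35 193))))))))) (.play 196 (.ref 220 130)))) (.both (.play 387 (.both (.ref 814 257) (.play 321 (.ref 3 321)))) (.both (.play 387 (.both (.ref 814 257) (.play 385 (.ref 2 321)))) (.play 387 (.ref 411 321)))))) (.play 133 (.ref 6 132)))) (.play 323 (.ref 2 258)))) (.both (.play 452 (.both (.play 390 (.both (.play 322 (.both (.play 450 (.both (.play 386 (.both (.play 321 (.both (.play 257 (.ref 58 129)) (.play 387 (.ref 3 321)))) (.both (.ref 226 193) (.both (.play 449 (.both (.play 513 (.ref 32 257)) (.play 387 (.ref 1 385)))) (.play 387 (.ref 345 321)))))) (.both (.play 451 (.ref 98 385)) (.play 451 (.ref 163 386))))) (.play 323 (.ref 0 322)))) (.both (.play 391 (.ref 345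 323)) (.both (.play 391 (.ref 128 323)) (.ref 707 323))))) (.play 516 (.ref 5 260)))) (.play 197 (.ref 243 132))))) (.both (.play 197 (.both (.ref 682 68) (.both (.play 196 (.both (.play 132 (.ref 7 132)) (.play 195 (.both (.play 194 (.ref 0 194)) (.play 453 (.both (.ref 22 196) (.both (.play 388 (.both (.play 452 (.ref 6 196)) (.ref 149 260))) (.both (.ref 320 260) (.ref 809 260))))))))) (.play 388 (.ref 243 132))))) (.play 323 (.ref 98 258))))) (.both (.play 197 (.both (.play 132 (.both (.play 133 (.both (.ref 813 5) (.play 68 (.ref 7 68)))) (.play 196 (.ref 7 132)))) (.both (.ref 664 68) (.ref 812 196)))) (.both (.play 197 (.both (.ref 664 68) (.both (.ref 396 68) (.both (.play 388 (.both (.play 196 (.both (.play 132 (.ref 7 132)) (.play 390 (.both (.play 195 (.both (.play 194 (.ref 0 194)) (.play 323 (.both (.play 322 (.both (.play 324 (.ref 2 258)) (.play 387 (.ref 3 322)))) (.both (.play 324 (.both (.play 326 (.ref 2 259)) (.play 391 (.ref 3 323)))) (.play 387 (.both (.play 322 (.ref 3 322)) (.play 326 (.ref 159 322))))))))) (.play 454 (.ref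 4 197)))))) (.play 452 (.ref 6 196)))) (.play 390 (.both (.play 388 (.both (.ref 811 132) (.play 452 (.ref 6 196)))) (.play 454 (.ref 4 197)))))))) (.both (.play 324 (.both (.play 197 (.both (.ref 396 68) (.both (.ref 810 68) (.play 454 (.both (.play 390 (.ref 4 197)) (.play 453 (.both (.ref 809 260) (.play 518 (.ref 4 261))))))))) (.both (.ref 805 194) (.play 323 (.ref 98 258))))) (.both (.ref 806 193) (.both (.play 453 (.both (.play 454 (.both (.play 452 (.both (.ref 388 194) (.play 516 (.ref 6 260)))) (.play 518 (.ref 4 261)))) (.both (.ref 670 260) (.play 517 (.ref 349 261))))) (.both (.play 453 (.both (.play 452 (.both (.play 197 (.both (.play 388 (.ref 6 196)) (.ref 21 197))) (.play 516 (.ref 6 260)))) (.both (.ref 670 260) (.play 518 (.ref 250 261))))) (.play 453 (.both (.play 452 (.both (.play 454 (.both (.play 518 (.ref 4 261)) (.ref 808 386))) (.play 516 (.ref 6 260)))) (.both (.ref 670 260) (.play 518 (.ref 250 261))))))))))))) (.both (.play 197 (.both (.play 196 (.both (.play 132 (.ref 58 4)) (.play 264 (.ref 3 196)))) (.both (.play 133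 (.both (.ref 428 4) (.both (.play 326 (.ref 124 69)) (.play 389 (.both (.play 452 (.both (.play 326 (.both (.play 390 (.ref 4 133)) (.play 453 (.ref 233 260)))) (.play 388 (.ref 6 196)))) (.both (.ref 21 133) (.both (.ref 328 196) (.ref 650 196)))))))) (.play 264 (.both (.play 196 (.ref 3 196)) (.ref 206 197)))))) (.both (.play 389 (.both (.play 197 (.both (.ref 664 68) (.both (.ref 807 132) (.play 324 (.both (.play 388 (.ref 243 132)) (.play 264 (.ref 1 260))))))) (.both (.play 197 (.both (.ref 807 132) (.ref 169 196))) (.both (.ref 806 193) (.both (.play 324 (.both (.ref 805 194) (.play 264 (.ref 1 260)))) (.both (.play 264 (.both (.play 197 (.both (.play 196 (.ref 3 196)) (.play 201 (.both (.play 265 (.both (.play 329 (.both (.play 456 (.both (.play 454 (.both (.play 390 (.ref 4 197)) (.play 453 (.both (.play 516 (.both (.play 452 (.ref 6 260)) (.play 517 (.both (.play 580 (.ref 6 324)) (.play 455 (.ref 1 452)))))) (.play 518 (.ref 4 261)))))) (.play 393 (.ref 190 200)))) (.play 330 (.ref 0 262)))) (.play 202 (.ref 2 198)))) (.play 200 (.ref 2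 197)))))) (.play 324 (.ref 1 260)))) (.play 324 (.both (.play 323 (.both (.play 453 (.both (.play 452 (.both (.play 454 (.both (.play 518 (.ref 4 261)) (.play 455 (.both (.play 451 (.both (.ref 474 384) (.both (.play 386 (.ref 446 385)) (.both (.play 514 (.both (.play 388 (.both (.ref 803 385) (.play 387 (.ref 3 387)))) (.play 515 (.ref 1 450)))) (.play 387 (.ref 15 386)))))) (.both (.play 388 (.ref 128 387)) (.play 392 (.ref 266 388))))))) (.play 516 (.ref 6 260)))) (.both (.play 516 (.both (.play 452 (.ref 6 260)) (.play 517 (.both (.play 388 (.both (.play 390 (.both (.play 387 (.both (.play 386 (.ref 476 321)) (.both (.ref 804 321) (.play 515 (.both (.play 451 (.ref 218 322)) (.play 454 (.both (.play 455 (.ref 0 387)) (.play 514 (.ref 2 450))))))))) (.play 391 (.ref 3 323)))) (.play 581 (.ref 7 324)))) (.play 580 (.ref 6 324)))))) (.both (.ref 169 260) (.both (.play 516 (.both (.play 452 (.ref 6 260)) (.play 517 (.both (.play 580 (.ref 6 324)) (.ref 414 324))))) (.play 517 (.both (.play 454 (.both (.play 518 (.ref 4 261)) (.play 581 (.both (.play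 388 (.ref 7 324)) (.play 644 (.both (.play 580 (.ref 6 388)) (.play 645 (.ref 311 388)))))))) (.both (.ref 21 261) (.play 581 (.both (.play 388 (.ref 7 324)) (.ref 169 388))))))))))) (.play 322 (.ref 2 258)))) (.play 264 (.ref 1 260)))))))))) (.play 324 (.ref 99 258))))))))
 (.seq (.one (.play 1 (.both (.play 65 (.both (.play 0 (.ref 3 0)) (.play 132 (.ref 0 65)))) (.play 2 (.ref 3 1)))))
 (.seq (.one (.play 257 (.both (.ref 22 0) (.play 321 (.ref 5 65)))))
 (.one (.both (.play 1 (.ref 446 0)) (.play 6 (.ref 2 2)))))))
 (.seq (.seq (.one (.play 129 (.both (.play 65 (.ref 36 0)) (.both (.play 322 (.ref 124 65)) (.play 385 (.ref 26 65))))))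
 (.one (.play 260 (.both (.play 196 (.both (.play 132 (.both (.ref 428 3) (.both (.play 67 (.both (.play 68 (.both (.play 3 (.ref 7 3)) (.ref 22 67))) (.play 131 (.ref 7 67)))) (.both (.play 69 (.both (.play 68 (.both (.play 5 (.ref 5 4)) (.ref 22 67))) (.play 133 (.ref 5 68)))) (.ref 714 64))))) (.play 388 (.ref 4 196)))) (.play 325 (.ref 7 260))))))
 (.seq (.one (.play 389 (.both (.play 326 (.both (.play 324 (.both (.ref 820 0) (.both (.play 325 (.both (.play 260 (.ref 7 260)) (.ref 391 323))) (.play 581 (.ref 216 324))))) (.both (.play 390 (.ref 144 197)) (.both (.play 390 (.ref 102 197)) (.both (.play 262 (.ref 181 197)) (.play 325 (.ref 180 259))))))) (.both (.ref 179 196) (.both (.play 454 (.both (.play 581 (.both (.play 580 (.both (.play 390 (.both (.ref 801 322) (.play 326 (.ref 5 325)))) (.play 644 (.ref 6 388)))) (.both (.play 390 (.ref 127 325)) (.ref 812 388)))) (.both (.play 456 (.both (.play 581 (.both (.play 388 (.both (.play 324 (.ref 7 324)) (.play 387 (.both (.play 386 (.ref 0 386)) (.ref 171 388))))) (.both (.play 580 (.both (.play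 388 (.both (.play 387 (.both (.play 390 (.both (.play 451 (.both (.play 323 (.ref 4 323)) (.play 450 (.ref 1 386)))) (.play 326 (.ref 5 325)))) (.play 386 (.ref 0 386)))) (.play 324 (.ref 7 324)))) (.play 644 (.ref 6 388)))) (.play 390 (.ref 127 325))))) (.play 455 (.ref 1 452)))) (.play 455 (.ref 104 451))))) (.play 580 (.ref 111 324)))))))
 (.seq (.one (.play 193 (.both (.play 257 (.ref 5 1)) (.play 192 (.ref 1 128)))))
 (.one (.play 518 (.both (.play 456 (.both (.ref 821 3) (.both (.play 583 (.both (.play 392 (.both (.play 328 (.ref 6 327)) (.play 517 (.both (.ref 451 450) (.both (.ref 467 451) (.both (.play 453 (.both (.play 452 (.ref 3 452)) (.play 521 (.both (.play 454 (.ref 3 453)) (.play 522 (.ref 257 454)))))) (.play 516 (.ref 312 514)))))))) (.both (.play 647 (.both (.play 454 (.both (.play 390 (.ref 53 326)) (.play 453 (.ref 239 451)))) (.play 711 (.ref 5 455)))) (.play 392 (.ref 111 327))))) (.both (.play 517 (.both (.ref 645 450) (.play 457 (.ref 2 453)))) (.play 457 (.ref 105 453)))))) (.both (.play 456 (.both (.play 392 (.both (.play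 327 (.both (.ref 820 3) (.both (.play 329 (.both (.play 265 (.both (.play 201 (.both (.play 137 (.both (.ref 700 8) (.both (.ref 432 9) (.ref 706 70)))) (.play 393 (.ref 6 200)))) (.play 328 (.ref 5 264)))) (.both (.play 328 (.both (.play 265 (.ref 5 264)) (.ref 264 325))) (.play 584 (.ref 216 327))))) (.both (.play 391 (.both (.play 263 (.both (.play 199 (.ref 4 199)) (.play 453 (.both (.play 454 (.both (.play 390 (.both (.play 326 (.ref 5 262)) (.play 393 (.ref 1 389)))) (.play 521 (.ref 3 453)))) (.both (.play 517 (.both (.play 580 (.both (.play 516 (.both (.play 325 (.both (.play 389 (.ref 6 324)) (.play 326 (.ref 255 324)))) (.play 579 (.ref 1 515)))) (.play 581 (.ref 1 516)))) (.play 452 (.ref 3 452)))) (.play 454 (.ref 239 451))))))) (.play 584 (.ref 7 327)))) (.both (.play 391 (.ref 58 199)) (.play 328 (.ref 393 262))))))) (.both (.play 453 (.both (.play 584 (.both (.play 391 (.both (.play 393 (.both (.play 389 (.both (.play 325 (.both (.play 517 (.both (.play 262 (.ref 436 196)) (.ref 477 324))) (.both (.play 324 (.both (.play 517 (.both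 (.play 260 (.ref 7 260)) (.play 581 (.both (.play 388 (.ref 7 324)) (.play 580 (.ref 1 516)))))) (.play 390 (.ref 3 324)))) (.both (.play 326 (.both (.play 517 (.both (.play 262 (.ref 5 261)) (.ref 477 324))) (.play 390 (.ref 3 325)))) (.play 390 (.ref 15 324)))))) (.both (.play 517 (.both (.play 580 (.both (.play 516 (.both (.play 325 (.ref 6 324)) (.play 579 (.ref 1 515)))) (.play 581 (.ref 1 516)))) (.play 452 (.ref 3 452)))) (.both (.play 390 (.ref 260 324)) (.play 452 (.both (.play 390 (.ref 1 388)) (.play 517 (.ref 3 452)))))))) (.play 329 (.ref 5 328)))) (.play 327 (.ref 7 327)))) (.both (.play 393 (.both (.ref 172 327) (.play 329 (.ref 5 328)))) (.play 517 (.both (.play 583 (.ref 380 388)) (.play 452 (.ref 3 452))))))) (.both (.play 454 (.both (.play 452 (.both (.play 583 (.both (.play 390 (.both (.play 326 (.ref 4 326)) (.play 391 (.ref 183 388)))) (.play 647 (.both (.play 584 (.ref 6 391)) (.play 711 (.ref 7 454)))))) (.play 451 (.ref 0 451)))) (.play 521 (.ref 3 453)))) (.both (.play 454 (.both (.play 584 (.both (.play 583 (.both (.play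 390 (.both (.play 326 (.ref 4 326)) (.play 517 (.both (.ref 822 388) (.play 516 (.ref 0 516)))))) (.play 647 (.ref 6 391)))) (.both (.play 391 (.both (.play 393 (.both (.play 329 (.ref 5 328)) (.play 390 (.ref 1 389)))) (.play 327 (.ref 7 327)))) (.play 391 (.both (.play 327 (.ref 7 327)) (.play 393 (.both (.play 329 (.ref 5 328)) (.ref 171 391)))))))) (.play 521 (.ref 3 453)))) (.play 454 (.ref 239 451)))))) (.both (.ref 179 199) (.play 583 (.ref 111 327)))))) (.both (.ref 821 3) (.both (.play 517 (.ref 818 451)) (.play 457 (.ref 105 453)))))) (.both (.play 581 (.both (.play 453 (.both (.play 452 (.both (.play 451 (.both (.play 450 (.both (.play 514 (.both (.play 386 (.both (.ref 819 193) (.play 385 (.ref 3 385)))) (.play 513 (.ref 1 449)))) (.both (.ref 261 384) (.both (.ref 298 384) (.ref 297 384))))) (.play 454 (.ref 0 451)))) (.play 517 (.ref 3 452)))) (.both (.play 517 (.both (.ref 646 389) (.play 452 (.ref 3 452)))) (.ref 697 453)))) (.both (.play 517 (.both (.play 453 (.both (.ref 698 389) (.play 452 (.ref 3 452)))) (.play 580 (.ref 1 516))))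 (.both (.play 582 (.ref 95 515)) (.both (.ref 798 515) (.play 582 (.ref 99 515))))))) (.both (.play 457 (.both (.play 458 (.both (.play 459 (.both (.play 460 (.both (.play 524 (.both (.play 396 (.both (.play 332 (.both (.play 268 (.ref 36 203)) (.both (.play 523 (.ref 243 267)) (.play 588 (.ref 64 267))))) (.play 397 (.ref 2 393)))) (.play 525 (.ref 0 457)))) (.both (.ref 294 392) (.ref 293 392)))) (.play 456 (.ref 1 455)))) (.play 521 (.ref 2 454)))) (.both (.ref 693 451) (.both (.play 521 (.ref 818 452)) (.ref 290 453))))) (.both (.play 517 (.both (.play 457 (.both (.play 453 (.both (.play 581 (.both (.play 389 (.both (.play 326 (.ref 436 260)) (.both (.play 390 (.both (.play 326 (.ref 5 325)) (.play 645 (.both (.play 582 (.both (.play 646 (.ref 4 389)) (.ref 817 452))) (.both (.ref 21 389) (.both (.ref 653 452) (.ref 650 452))))))) (.play 582 (.ref 124 325))))) (.play 580 (.ref 1 516)))) (.play 452 (.ref 3 452)))) (.play 456 (.ref 2 453)))) (.both (.play 457 (.ref 800 321)) (.both (.play 457 (.both (.play 580 (.both (.play 516 (.both (.play 583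 (.both (.play 582 (.both (.play 454 (.both (.play 390 (.both (.play 389 (.both (.play 325 (.ref 7 325)) (.play 646 (.both (.play 453 (.ref 7 389)) (.ref 817 453))))) (.play 326 (.ref 4 326)))) (.both (.play 390 (.ref 124 326)) (.play 711 (.both (.play 646 (.both (.play 453 (.both (.play 389 (.ref 7 389)) (.play 644 (.both (.play 645 (.both (.play 709 (.ref 6 453)) (.play 643 (.ref 2 579)))) (.play 708 (.ref 5 452)))))) (.both (.play 710 (.ref 385 453)) (.play 710 (.ref 232 518))))) (.play 647 (.ref 7 454))))))) (.play 515 (.ref 0 515)))) (.play 584 (.ref 0 516)))) (.play 579 (.ref 1 515)))) (.play 581 (.ref 1 516)))) (.play 456 (.ref 2 453)))) (.both (.play 580 (.both (.play 516 (.both (.play 583 (.both (.ref 816 450) (.play 584 (.ref 0 516)))) (.play 579 (.ref 1 515)))) (.play 581 (.ref 1 516)))) (.both (.ref 645 450) (.play 452 (.ref 446 451)))))))) (.both (.ref 815 257) (.both (.play 521 (.both (.play 582 (.both (.play 583 (.both (.play 456 (.both (.play 390 (.both (.play 711 (.both (.play 328 (.both (.play 329 (.both (.play 327 (.both (.play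 326 (.ref 546 260)) (.both (.ref 574 262) (.play 389 (.both (.play 391 (.ref 289 324)) (.play 326 (.ref 1 325))))))) (.both (.play 457 (.both (.play 393 (.ref 275 264)) (.play 517 (.ref 2 453)))) (.both (.play 457 (.both (.play 393 (.both (.ref 802 261) (.play 264 (.ref 7 264)))) (.play 517 (.ref 2 453)))) (.play 457 (.both (.play 393 (.both (.ref 802 261) (.play 265 (.ref 6 264)))) (.play 517 (.ref 2 453)))))))) (.play 392 (.ref 6 327)))) (.play 647 (.ref 5 455)))) (.both (.play 392 (.both (.play 457 (.both (.play 454 (.both (.play 389 (.both (.play 325 (.ref 7 325)) (.play 391 (.ref 0 389)))) (.play 326 (.ref 4 326)))) (.play 517 (.ref 2 453)))) (.play 328 (.ref 6 327)))) (.both (.play 454 (.ref 124 326)) (.play 647 (.both (.play 454 (.ref 4 390)) (.play 711 (.ref 5 455)))))))) (.both (.play 647 (.ref 102 327)) (.play 517 (.both (.play 457 (.ref 2 453)) (.play 516 (.ref 118 515))))))) (.play 522 (.ref 1 518)))) (.play 581 (.ref 1 517)))) (.both (.play 457 (.both (.play 456 (.both (.play 584 (.both (.play 393 (.both (.play 392 (.both (.ref 282 263)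 (.both (.play 328 (.both (.play 264 (.ref 4 264)) (.play 583 (.ref 6 327)))) (.play 583 (.both (.ref 801 325) (.play 647 (.ref 6 391))))))) (.play 329 (.ref 6 328)))) (.both (.ref 283 263) (.play 393 (.ref 246 328))))) (.play 517 (.ref 2 453)))) (.play 458 (.ref 2 454)))) (.both (.ref 649 452) (.ref 799 453))))) (.both (.play 457 (.both (.play 517 (.ref 800 321)) (.both (.play 521 (.both (.play 454 (.ref 647 389)) (.play 458 (.ref 2 454)))) (.ref 290 453)))) (.both (.play 521 (.both (.play 582 (.both (.play 583 (.both (.play 517 (.both (.play 456 (.both (.play 392 (.ref 111 327)) (.play 457 (.ref 2 453)))) (.both (.ref 201 451) (.play 516 (.ref 118 515))))) (.play 522 (.ref 1 518)))) (.play 581 (.ref 1 517)))) (.both (.ref 694 451) (.both (.ref 649 452) (.both (.ref 799 453) (.ref 651 454)))))) (.play 581 (.both (.play 517 (.both (.ref 294 452) (.play 580 (.ref 1 516)))) (.both (.play 521 (.both (.play 457 (.ref 657 452)) (.play 582 (.ref 1 517)))) (.both (.play 582 (.ref 95 515)) (.both (.ref 798 515) (.play 582 (.ref 99 515))))))))))))))))))))))))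
 (.seq (.seq (.seq (.seq (.seq (.one (.play 321 (.both (.play 129 (.ref 429 0)) (.play 385 (.ref 5 129)))))
 (.one (.both (.play 67 (.ref 239 0)) (.both (.play 1 (.both (.play 67 (.ref 238 0)) (.play 4 (.ref 0 1)))) (.both (.play 4 (.ref 210 1)) (.play 70 (.ref 384 2)))))))
 (.seq (.one (.play 259 (.both (.play 196 (.ref 6 3)) (.play 323 (.both (.play 131 (.ref 5 67)) (.play 387 (.both (.play 451 (.ref 64 130)) (.both (.play 451 (.ref 35 130)) (.play 388 (.both (.play 386 (.both (.play 450 (.ref 6 194)) (.play 389 (.both (.play 385 (.ref 17 320)) (.both (.play 322 (.ref 825 320)) (.both (.play 390 (.ref 12 322)) (.ref 235 322))))))) (.play 452 (.ref 4 195))))))))))))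
 (.one (.both (.play 4 (.ref 6 3)) (.ref 826 64)))))
 (.seq (.seq (.one (.play 257 (.both (.play 66 (.ref 5 1)) (.ref 635 64))))
 (.one (.both (.play 2 (.ref 5 1)) (.ref 828 64))))
 (.seq (.one (.play 67 (.both (.play 3 (.ref 7 3)) (.play 66 (.ref 825 64)))))
 (.seq (.one (.play 259 (.both (.play 68 (.both (.play 66 (.both (.ref 705 0) (.play 2 (.ref 7 2)))) (.play 4 (.ref 5 3)))) (.both (.play 323 (.ref 64 2)) (.play 323 (.ref 25 2))))))
 (.one (.play 65 (.both (.play 64 (.ref 2 0)) (.play 68 (.both (.play 1 (.ref 572 0)) (.play 5 (.ref 2 1)))))))))))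
 (.seq (.seq (.seq (.one (.play 69 (.both (.ref 552 0) (.play 70 (.ref 1 66)))))
 (.one (.play 260 (.both (.ref 554 0) (.play 261 (.ref 3 193))))))
 (.seq (.one (.play 324 (.both (.ref 791 0) (.both (.ref 834 65) (.play 325 (.ref 10 320))))))
 (.seq (.one (.play 4 (.both (.play 64 (.ref 2 0)) (.ref 49 0))))
 (.one (.play 68 (.both (.play 67 (.ref 82 0)) (.play 3 (.ref 3 3))))))))
 (.seq (.seq (.one (.play 4 (.both (.ref 837 0) (.play 5 (.ref 3 4)))))
 (.one (.play 257 (.both (.play 321 (.ref 583 1)) (.play 256 (.ref 1 192))))))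
 (.seq (.one (.both (.play 197 (.both (.play 198 (.both (.play 199 (.both (.play 263 (.both (.play 135 (.both (.play 327 (.both (.play 71 (.ref 64 6)) (.both (.play 134 (.ref 60 6)) (.both (.play 391 (.ref 23 134)) (.play 391 (.ref 85 134)))))) (.play 136 (.ref 2 132)))) (.play 264 (.ref 0 196)))) (.both (.play 200 (.ref 16 131)) (.play 200 (.ref 17 131))))) (.play 195 (.ref 1 194)))) (.play 260 (.ref 2 193)))) (.play 256 (.ref 2 192))))
 (.seq (.one (.play 193 (.both (.play 256 (.ref 6 0)) (.play 257 (.ref 76 0)))))
 (.one (.play 65 (.both (.play 1 (.ref 6 0)) (.ref 841 64)))))))))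
 (.seq (.seq (.seq (.seq (.one (.play 195 (.both (.play 196 (.both (.play 260 (.ref 489 3)) (.play 130 (.ref 0 128)))) (.play 259 (.ref 7 2)))))
 (.one (.play 68 (.both (.play 67 (.ref 484 0)) (.play 136 (.ref 0 68))))))
 (.seq (.one (.play 262 (.both (.play 453 (.ref 538 5)) (.both (.play 198 (.ref 583 69)) (.both (.play 198 (.ref 529 132)) (.both (.play 327 (.both (.play 391 (.both (.play 390 (.both (.ref 587 195) (.ref 498 260))) (.both (.ref 844 256) (.both (.play 324 (.ref 581 257)) (.ref 843 260))))) (.play 328 (.ref 1 324)))) (.play 327 (.both (.play 391 (.both (.ref 844 256) (.both (.play 324 (.ref 581 257)) (.both (.play 390 (.both (.play 324 (.both (.ref 731 259) (.play 323 (.ref 3 323)))) (.ref 498 260))) (.ref 843 260))))) (.play 328 (.ref 1 324))))))))))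
 (.seq (.one (.play 67 (.both (.ref 486 0) (.play 7 (.ref 2 3)))))
 (.one (.play 193 (.both (.play 129 (.ref 60 1)) (.play 192 (.ref 3 192))))))))
 (.seq (.seq (.one (.both (.ref 847 0) (.play 197 (.ref 2 193))))
 (.one (.both (.play 193 (.both (.ref 641 0) (.play 384 (.ref 6 192)))) (.play 512 (.ref 6 256)))))
 (.seq (.one (.play 129 (.both (.play 65 (.ref 66 0)) (.play 386 (.ref 7 129)))))
 (.seq (.one (.both (.play 66 (.ref 67 0)) (.play 260 (.ref 5 4))))
 (.one (.play 325 (.both (.play 323 (.both (.play 259 (.ref 541 2)) (.both (.play 261 (.ref 851 256)) (.play 326 (.ref 71 257))))) (.both (.play 323 (.both (.play 261 (.both (.ref 537 4) (.play 322 (.ref 67 256)))) (.both (.play 259 (.both (.ref 540 2) (.ref 235 258))) (.both (.ref 713 256) (.ref 705 257))))) (.both (.play 261 (.ref 538 4)) (.play 323 (.both (.ref 850 130) (.both (.ref 705 257) (.play 259 (.ref 785 258))))))))))))))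
 (.seq (.seq (.seq (.one (.play 68 (.both (.play 0 (.ref 3 0)) (.play 69 (.ref 40 1)))))
 (.one (.play 322 (.both (.play 321 (.both (.play 257 (.ref 541 0)) (.play 387 (.ref 3 321)))) (.play 258 (.ref 4 258))))))
 (.seq (.one (.play 450 (.both (.play 386 (.both (.ref 854 0) (.both (.play 387 (.both (.ref 594 66) (.play 322 (.ref 491 129)))) (.both (.ref 853 385) (.play 453 (.ref 572 385)))))) (.play 449 (.ref 2 385)))))
 (.seq (.one (.both (.play 193 (.ref 491 0)) (.ref 770 1)))
 (.one (.play 257 (.both (.play 65 (.ref 738 0)) (.play 321 (.ref 5 65))))))))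
 (.seq (.seq (.one (.play 69 (.both (.play 260 (.ref 76 3)) (.both (.ref 720 3) (.play 130 (.ref 745 64))))))
 (.one (.play 69 (.both (.play 5 (.ref 5 4)) (.play 130 (.ref 745 64))))))
 (.seq (.one (.play 324 (.both (.play 131 (.ref 60 3)) (.both (.ref 859 64) (.both (.play 388 (.ref 36 67)) (.play 133 (.ref 829 67)))))))
 (.seq (.one (.play 68 (.both (.play 0 (.ref 3 0)) (.play 69 (.ref 10 64)))))
 (.one (.play 67 (.both (.ref 501 0) (.play 7 (.ref 2 3))))))))))))
 (.seq (.seq (.seq (.seq (.seq (.seq (.one (.play 448 (.both (.play 193 (.both (.ref 70 0) (.play 384 (.ref 6 192)))) (.play 512 (.ref 6 256)))))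
 (.one (.play 449 (.both (.ref 863 0) (.play 513 (.ref 5 257))))))
 (.seq (.one (.play 196 (.both (.ref 590 0) (.play 197 (.ref 1 193)))))
 (.one (.play 67 (.both (.play 4 (.ref 2 0)) (.play 68 (.ref 40 0)))))))
 (.seq (.seq (.one (.play 4 (.both (.play 3 (.ref 2 0)) (.ref 866 1))))
 (.one (.play 68 (.both (.ref 480 1) (.both (.play 69 (.ref 40 1)) (.play 132 (.ref 8 64)))))))
 (.seq (.one (.play 324 (.both (.play 260 (.ref 538 3)) (.play 386 (.ref 504 256)))))
 (.seq (.one (.play 517 (.both (.play 455 (.both (.play 388 (.both (.play 326 (.both (.ref 869 3) (.play 262 (.ref 6 261)))) (.both (.play 391 (.both (.play 327 (.both (.play 328 (.both (.play 326 (.both (.ref 724 69) (.both (.ref 865 133) (.ref 774 260)))) (.play 389 (.ref 2 324)))) (.both (.play 263 (.ref 549 134)) (.play 518 (.ref 529 261))))) (.play 452 (.ref 159 387)))) (.both (.play 387 (.both (.play 389 (.ref 551 320)) (.play 452 (.ref 3 387)))) (.play 452 (.both (.ref 862 384) (.play 387 (.ref 3 387)))))))) (.both (.play 456 (.ref 546 387)) (.both (.play 456 (.both (.play 389 (.ref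 825 387)) (.play 516 (.ref 1 452)))) (.play 456 (.ref 40 388)))))) (.both (.play 518 (.both (.play 389 (.both (.play 388 (.both (.play 391 (.both (.ref 770 132) (.both (.ref 865 196) (.both (.play 392 (.ref 12 324)) (.both (.ref 868 324) (.ref 867 324)))))) (.both (.play 387 (.both (.play 451 (.both (.play 391 (.both (.ref 865 196) (.play 452 (.ref 1 387)))) (.play 450 (.ref 1 386)))) (.play 386 (.ref 0 386)))) (.ref 501 321)))) (.both (.ref 864 132) (.play 455 (.both (.play 391 (.both (.play 327 (.both (.play 263 (.ref 6 262)) (.ref 862 321))) (.both (.play 392 (.ref 40 324)) (.play 452 (.ref 745 386))))) (.both (.play 456 (.ref 546 387)) (.both (.ref 480 388) (.ref 861 388)))))))) (.both (.ref 860 258) (.both (.ref 858 322) (.both (.play 391 (.both (.play 582 (.ref 77 325)) (.play 392 (.ref 745 387)))) (.both (.ref 831 323) (.play 582 (.both (.play 647 (.both (.play 583 (.ref 4 390)) (.play 646 (.both (.play 710 (.both (.play 453 (.ref 7 453)) (.ref 780 515))) (.play 711 (.ref 4 454)))))) (.both (.ref 539 388) (.both (.play 646 (.ref 23 389)) (.both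 (.ref 771 389) (.play 647 (.both (.play 583 (.ref 4 390)) (.play 646 (.both (.play 710 (.ref 84 453)) (.play 711 (.ref 4 454))))))))))))))))) (.both (.play 581 (.ref 538 133)) (.both (.play 326 (.ref 529 260)) (.both (.play 581 (.ref 583 261)) (.both (.ref 526 261) (.ref 857 324)))))))))
 (.one (.play 193 (.both (.play 321 (.both (.ref 86 0) (.play 320 (.ref 1 256)))) (.play 192 (.ref 3 192)))))))))
 (.seq (.seq (.seq (.one (.play 257 (.both (.ref 540 0) (.play 256 (.ref 3 256)))))
 (.one (.play 68 (.both (.play 67 (.ref 82 0)) (.both (.ref 501 1) (.ref 772 3))))))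
 (.seq (.one (.both (.play 321 (.ref 64 0)) (.play 1 (.ref 4 1))))
 (.seq (.one (.play 257 (.both (.play 193 (.ref 87 0)) (.play 512 (.ref 6 256)))))
 (.one (.play 197 (.both (.play 196 (.both (.play 195 (.both (.play 194 (.both (.play 258 (.both (.play 130 (.both (.play 322 (.both (.play 66 (.ref 26 2)) (.both (.play 131 (.ref 583 2)) (.both (.play 386 (.ref 23 129)) (.play 386 (.ref 77 129)))))) (.play 129 (.ref 3 129)))) (.play 257 (.ref 1 193)))) (.both (.play 193 (.ref 19 128)) (.both (.play 193 (.ref 17 128)) (.play 193 (.ref 13 128)))))) (.play 198 (.ref 0 195)))) (.play 261 (.ref 3 196)))) (.play 265 (.ref 3 197))))))))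
 (.seq (.seq (.one (.play 198 (.both (.ref 876 0) (.play 327 (.ref 7 198)))))
 (.one (.play 69 (.both (.play 68 (.both (.play 67 (.both (.ref 630 0) (.play 134 (.ref 0 67)))) (.both (.ref 81 1) (.play 4 (.ref 15 3))))) (.play 9 (.ref 2 5))))))
 (.seq (.one (.play 65 (.both (.play 64 (.ref 2 0)) (.ref 866 1))))
 (.seq (.one (.play 68 (.both (.ref 235 1) (.play 128 (.ref 1 64)))))
 (.one (.play 68 (.both (.play 0 (.ref 3 0)) (.ref 480 1)))))))))
 (.seq (.seq (.seq (.seq (.one (.play 519 (.both (.play 393 (.both (.play 391 (.both (.play 327 (.both (.play 263 (.both (.ref 564 6) (.both (.ref 86 70) (.ref 34 198)))) (.both (.play 263 (.both (.play 199 (.ref 87 6)) (.both (.ref 70 70) (.ref 24 199)))) (.both (.play 263 (.ref 36 198)) (.play 328 (.ref 520 259)))))) (.both (.play 327 (.both (.ref 863 70) (.both (.play 263 (.ref 64 198)) (.ref 775 258)))) (.both (.play 390 (.both (.ref 871 133) (.both (.play 389 (.ref 16 324)) (.play 389 (.ref 10 388))))) (.both (.play 390 (.both (.play 454 (.ref 492 133)) (.both (.play 389 (.ref 13 324)) (.play 389 (.ref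 12 325))))) (.play 264 (.both (.play 390 (.both (.play 329 (.both (.play 265 (.both (.play 457 (.both (.play 200 (.ref 7 200)) (.ref 786 262))) (.play 201 (.ref 6 200)))) (.play 330 (.ref 2 326)))) (.both (.ref 502 321) (.play 389 (.ref 10 388))))) (.play 328 (.ref 6 263))))))))) (.both (.play 394 (.both (.play 391 (.both (.play 327 (.both (.play 263 (.both (.ref 757 194) (.play 199 (.ref 4 199)))) (.play 326 (.ref 3 326)))) (.both (.ref 838 322) (.both (.ref 579 323) (.play 390 (.ref 17 325)))))) (.play 395 (.ref 1 391)))) (.both (.play 454 (.ref 840 197)) (.both (.ref 761 325) (.play 394 (.ref 745 389))))))) (.both (.play 454 (.both (.play 390 (.both (.play 583 (.ref 541 133)) (.both (.ref 876 192) (.ref 881 389)))) (.both (.play 457 (.both (.ref 597 133) (.both (.ref 752 262) (.ref 480 390)))) (.both (.play 393 (.ref 840 197)) (.ref 878 384))))) (.both (.play 583 (.both (.play 457 (.both (.play 454 (.both (.ref 872 133) (.both (.play 453 (.ref 484 386)) (.play 453 (.ref 17 388))))) (.both (.ref 808 389) (.both (.ref 480 390) (.ref 880 390)))))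 (.play 647 (.ref 5 391)))) (.both (.ref 824 262) (.play 328 (.ref 529 262))))))))
 (.one (.play 257 (.both (.play 64 (.ref 84 0)) (.play 66 (.ref 5 1))))))
 (.seq (.one (.play 66 (.both (.play 2 (.ref 5 1)) (.ref 883 64))))
 (.seq (.one (.play 193 (.both (.ref 78 0) (.both (.ref 90 64) (.both (.play 449 (.ref 36 128)) (.ref 884 128))))))
 (.one (.play 261 (.both (.play 258 (.both (.ref 847 1) (.both (.play 257 (.ref 17 192)) (.play 257 (.ref 12 193))))) (.play 262 (.ref 1 258))))))))
 (.seq (.seq (.one (.both (.ref 852 0) (.play 260 (.ref 6 259))))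
 (.one (.play 65 (.both (.play 129 (.both (.ref 480 0) (.play 322 (.ref 7 65)))) (.play 1 (.ref 7 1))))))
 (.seq (.one (.both (.ref 888 0) (.play 3 (.ref 5 2))))
 (.seq (.one (.play 5 (.both (.play 66 (.ref 67 0)) (.play 132 (.ref 5 4)))))
 (.one (.play 193 (.both (.play 384 (.ref 79 0)) (.play 450 (.ref 4 193)))))))))
 (.seq (.seq (.seq (.one (.play 321 (.both (.ref 891 0) (.play 194 (.ref 5 193)))))
 (.one (.play 257 (.both (.play 385 (.both (.play 193 (.both (.ref 70 0) (.both (.play 129 (.ref 36 64)) (.both (.play 386 (.ref 60 65)) (.play 449 (.ref 26 129)))))) (.play 384 (.ref 1 320)))) (.play 256 (.ref 3 256))))))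
 (.seq (.one (.play 456 (.both (.play 328 (.both (.play 392 (.both (.ref 852 4) (.both (.play 583 (.ref 528 326)) (.play 583 (.ref 110 327))))) (.both (.play 392 (.ref 887 4)) (.both (.play 327 (.both (.play 326 (.both (.play 261 (.both (.play 390 (.both (.play 389 (.both (.play 388 (.both (.play 387 (.both (.play 386 (.both (.ref 893 65) (.both (.play 385 (.ref 16 320)) (.play 385 (.ref 10 384))))) (.play 390 (.ref 2 323)))) (.play 325 (.ref 1 324)))) (.play 329 (.ref 1 325)))) (.both (.play 197 (.ref 60 69)) (.both (.play 262 (.ref 614 197)) (.play 329 (.both (.play 262 (.ref 42 261)) (.play 389 (.ref 1 325)))))))) (.both (.play 325 (.both (.play 389 (.both (.play 390 (.both (.ref 70 68) (.play 329 (.ref 1 325)))) (.play 388 (.ref 1 324)))) (.play 260 (.ref 3 260)))) (.both (.play 262 (.ref 769 195)) (.both (.play 260 (.both (.play 262 (.ref 768 195)) (.play 325 (.ref 3 260)))) (.play 262 (.ref 825 259))))))) (.both (.play 325 (.both (.play 261 (.both (.play 389 (.both (.ref 819 68) (.play 388 (.ref 1 324)))) (.play 260 (.ref 3 260)))) (.both (.play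 324 (.ref 19 259)) (.both (.play 324 (.ref 17 259)) (.play 324 (.ref 13 259)))))) (.both (.ref 624 259) (.both (.play 325 (.both (.play 324 (.ref 19 259)) (.both (.play 324 (.ref 17 259)) (.play 389 (.ref 40 260))))) (.both (.ref 18 260) (.play 390 (.both (.ref 480 261) (.play 454 (.ref 280 262)))))))))) (.both (.play 391 (.both (.ref 891 70) (.both (.ref 766 134) (.both (.play 263 (.both (.ref 544 196) (.play 454 (.ref 6 262)))) (.ref 888 261))))) (.both (.ref 892 70) (.both (.play 391 (.both (.ref 766 134) (.play 264 (.ref 5 263)))) (.both (.play 326 (.both (.play 262 (.both (.play 261 (.ref 616 193)) (.play 391 (.ref 7 262)))) (.both (.play 264 (.both (.play 265 (.ref 504 197)) (.play 391 (.ref 5 263)))) (.both (.ref 45 259) (.ref 890 259))))) (.play 391 (.ref 889 261)))))))) (.both (.play 392 (.ref 529 262)) (.play 392 (.ref 111 263))))))) (.both (.ref 886 196) (.both (.play 517 (.ref 840 260)) (.both (.ref 761 388) (.play 457 (.ref 745 452))))))))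
 (.seq (.one (.play 65 (.both (.play 69 (.ref 17 0)) (.play 64 (.ref 0 64)))))
 (.one (.play 68 (.both (.play 67 (.ref 82 0)) (.play 8 (.ref 2 4))))))))
 (.seq (.seq (.one (.both (.play 1 (.ref 6 0)) (.play 257 (.ref 386 0))))
 (.one (.play 257 (.both (.play 0 (.ref 7 0)) (.play 66 (.ref 76 0))))))
 (.seq (.one (.play 68 (.both (.play 66 (.both (.play 69 (.both (.play 70 (.ref 12 2)) (.both (.ref 480 2) (.both (.play 65 (.ref 10 64)) (.play 130 (.ref 745 64)))))) (.play 2 (.ref 7 2)))) (.play 4 (.ref 5 3)))))
 (.seq (.one (.play 456 (.both (.play 392 (.both (.play 329 (.both (.play 391 (.both (.play 327 (.both (.play 263 (.both (.play 199 (.both (.play 135 (.both (.play 71 (.ref 64 6)) (.both (.play 71 (.ref 25 6)) (.ref 899 68)))) (.play 391 (.ref 4 199)))) (.play 328 (.ref 7 263)))) (.play 584 (.ref 7 327)))) (.both (.play 393 (.ref 851 324)) (.both (.play 330 (.ref 745 325)) (.ref 898 327))))) (.both (.play 393 (.ref 583 200)) (.both (.play 393 (.both (.play 265 (.ref 897 200)) (.play 584 (.ref 5 328)))) (.both (.play 265 (.both (.play 393 (.ref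 897 200)) (.play 328 (.ref 5 264)))) (.play 328 (.ref 889 262))))))) (.both (.play 584 (.both (.play 583 (.both (.play 518 (.both (.play 390 (.both (.play 391 (.both (.play 457 (.both (.play 458 (.both (.play 459 (.both (.play 460 (.both (.play 396 (.both (.play 524 (.both (.play 332 (.both (.play 268 (.ref 549 139)) (.both (.play 268 (.ref 36 203)) (.both (.play 523 (.ref 583 203)) (.play 588 (.ref 64 267)))))) (.play 525 (.ref 0 457)))) (.play 397 (.ref 2 393)))) (.both (.play 461 (.ref 13 392)) (.play 461 (.ref 10 456))))) (.play 456 (.ref 3 391)))) (.play 393 (.ref 0 390)))) (.play 389 (.ref 0 389)))) (.play 327 (.ref 7 327)))) (.both (.play 391 (.both (.ref 501 323) (.play 327 (.ref 7 327)))) (.play 454 (.both (.play 326 (.ref 4 326)) (.ref 881 453)))))) (.both (.ref 896 449) (.both (.ref 895 452) (.ref 773 452))))) (.play 647 (.ref 6 391)))) (.both (.ref 523 324) (.both (.ref 783 389) (.ref 387 391))))) (.both (.play 328 (.ref 549 199)) (.play 583 (.ref 827 324)))))) (.both (.ref 894 1) (.both (.play 457 (.both (.play 393 (.both (.play 329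 (.ref 887 5)) (.both (.play 584 (.ref 538 136)) (.both (.play 455 (.both (.play 391 (.both (.ref 70 198) (.both (.play 327 (.ref 60 199)) (.both (.play 327 (.both (.play 583 (.ref 36 262)) (.play 263 (.ref 4 263)))) (.ref 619 322))))) (.both (.play 454 (.ref 848 197)) (.play 394 (.ref 504 326))))) (.play 329 (.ref 583 200)))))) (.both (.ref 886 197) (.both (.play 518 (.ref 840 261)) (.both (.ref 761 389) (.play 458 (.ref 745 453))))))) (.both (.play 392 (.both (.play 584 (.both (.play 393 (.both (.play 583 (.both (.play 391 (.both (.play 327 (.ref 541 70)) (.both (.play 390 (.both (.ref 877 128) (.both (.play 389 (.ref 19 324)) (.play 454 (.ref 40 325))))) (.play 327 (.ref 785 326))))) (.both (.ref 824 326) (.both (.ref 826 388) (.play 647 (.ref 528 390)))))) (.play 329 (.ref 5 328)))) (.both (.ref 777 325) (.both (.play 648 (.ref 64 327)) (.ref 783 389))))) (.both (.ref 885 135) (.both (.play 328 (.ref 549 199)) (.play 583 (.ref 583 263)))))) (.both (.ref 882 64) (.both (.play 583 (.both (.play 457 (.both (.ref 855 68) (.both (.play 458 (.both (.play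 455 (.both (.ref 597 134) (.both (.play 454 (.ref 17 389)) (.play 454 (.ref 12 390))))) (.play 459 (.ref 1 455)))) (.both (.ref 761 389) (.both (.play 458 (.ref 745 453)) (.both (.ref 832 453) (.ref 879 453))))))) (.both (.play 647 (.both (.play 518 (.both (.play 454 (.both (.ref 540 197) (.play 521 (.both (.play 453 (.ref 3 453)) (.play 522 (.both (.ref 11 454) (.both (.ref 39 455) (.ref 497 455)))))))) (.both (.ref 878 448) (.both (.ref 873 449) (.ref 862 450))))) (.play 711 (.ref 5 455)))) (.both (.ref 824 326) (.both (.ref 527 326) (.ref 857 390)))))) (.both (.play 392 (.both (.play 584 (.both (.play 391 (.both (.play 390 (.both (.play 393 (.both (.play 330 (.both (.play 394 (.both (.play 395 (.both (.ref 795 72) (.play 455 (.ref 1 391)))) (.play 331 (.ref 2 327)))) (.play 329 (.ref 2 326)))) (.both (.ref 770 134) (.both (.play 394 (.ref 12 326)) (.both (.ref 868 326) (.ref 867 326)))))) (.both (.play 583 (.both (.ref 877 128) (.play 647 (.ref 6 391)))) (.ref 501 323)))) (.play 327 (.ref 7 327)))) (.both (.play 648 (.ref 64 327)) (.both (.play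 648 (.ref 25 327)) (.play 648 (.ref 36 327)))))) (.both (.play 328 (.ref 549 199)) (.both (.play 583 (.ref 583 263)) (.ref 744 263))))) (.both (.play 518 (.both (.play 521 (.both (.play 457 (.both (.play 392 (.both (.ref 875 71) (.both (.play 390 (.both (.play 454 (.both (.ref 70 197) (.play 453 (.ref 3 453)))) (.both (.play 454 (.both (.play 583 (.both (.play 326 (.ref 4 326)) (.play 647 (.both (.play 582 (.ref 4 390)) (.play 711 (.both (.play 519 (.ref 7 454)) (.play 775 (.both (.play 839 (.ref 25 518)) (.both (.play 839 (.ref 26 519)) (.play 774 (.both (.play 776 (.both (.play 840 (.ref 4 583)) (.play 773 (.both (.play 772 (.ref 67 706)) (.both (.play 772 (.ref 19 707)) (.both (.play 712 (.ref 745 707)) (.play 777 (.ref 17 708)))))))) (.play 838 (.ref 6 582))))))))))))) (.play 453 (.ref 3 453)))) (.play 391 (.both (.ref 723 327) (.play 389 (.ref 0 389))))))) (.both (.play 328 (.ref 874 263)) (.ref 776 263))))) (.play 458 (.ref 2 454)))) (.both (.play 522 (.ref 17 453)) (.both (.play 454 (.ref 572 453)) (.ref 50 454))))) (.both (.play 583 (.both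 (.ref 824 326) (.both (.play 647 (.ref 583 327)) (.ref 873 449)))) (.both (.ref 846 450) (.play 457 (.ref 745 452)))))) (.both (.play 392 (.both (.play 393 (.both (.play 394 (.both (.play 391 (.both (.ref 872 70) (.both (.ref 579 323) (.play 390 (.ref 17 325))))) (.both (.play 395 (.both (.ref 499 263) (.both (.play 396 (.ref 12 328)) (.both (.ref 39 328) (.both (.ref 497 328) (.ref 494 328)))))) (.both (.ref 480 327) (.play 395 (.ref 40 327)))))) (.both (.play 391 (.both (.play 390 (.both (.ref 871 133) (.both (.play 389 (.ref 82 322)) (.play 389 (.ref 19 324))))) (.both (.play 584 (.ref 84 327)) (.play 584 (.both (.play 327 (.ref 7 327)) (.ref 75 391)))))) (.both (.play 584 (.ref 508 327)) (.play 584 (.ref 76 327)))))) (.both (.play 328 (.ref 549 199)) (.both (.play 583 (.ref 583 263)) (.ref 744 263))))) (.both (.play 392 (.both (.play 455 (.both (.play 583 (.both (.play 391 (.both (.play 390 (.both (.play 389 (.both (.ref 599 68) (.play 388 (.ref 0 388)))) (.play 326 (.ref 7 326)))) (.both (.ref 521 70) (.both (.ref 863 134) (.play 327 (.ref 64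 262)))))) (.play 647 (.ref 5 391)))) (.both (.play 583 (.both (.play 391 (.both (.ref 863 134) (.both (.play 327 (.ref 64 262)) (.ref 519 323)))) (.play 647 (.ref 5 391)))) (.both (.play 583 (.both (.play 391 (.both (.play 327 (.ref 64 262)) (.both (.ref 756 322) (.play 327 (.ref 23 326))))) (.play 647 (.ref 5 391)))) (.both (.play 583 (.both (.play 391 (.own 392 (.both (.play 584 (.ref 60 263)) (.ref 830 323)))) (.play 647 (.ref 5 391)))) (.both (.ref 860 260) (.both (.play 393 (.both (.play 584 (.ref 76 327)) (.both (.play 584 (.both (.play 329 (.ref 5 328)) (.ref 771 391))) (.play 394 (.ref 567 387))))) (.ref 858 324)))))))) (.both (.play 328 (.ref 549 199)) (.both (.play 583 (.ref 583 263)) (.ref 744 263))))) (.both (.ref 870 66) (.both (.play 457 (.both (.play 583 (.both (.play 518 (.both (.play 454 (.both (.ref 854 68) (.both (.play 455 (.ref 856 197)) (.both (.ref 853 453) (.play 521 (.ref 572 453)))))) (.play 517 (.ref 2 453)))) (.both (.ref 855 68) (.both (.play 647 (.ref 538 199)) (.both (.play 392 (.ref 529 326)) (.play 647 (.ref 583 327)))))))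 (.both (.ref 845 131) (.both (.play 518 (.ref 840 261)) (.both (.play 518 (.ref 504 389)) (.both (.play 458 (.both (.ref 734 390) (.play 459 (.ref 1 455)))) (.both (.play 458 (.ref 745 453)) (.ref 832 453)))))))) (.both (.play 392 (.both (.ref 852 68) (.both (.play 328 (.ref 849 71)) (.both (.play 328 (.ref 760 135)) (.both (.play 328 (.ref 549 199)) (.play 328 (.ref 525 263))))))) (.both (.play 518 (.both (.play 517 (.both (.play 453 (.both (.play 454 (.both (.play 389 (.both (.play 388 (.both (.play 387 (.both (.play 390 (.both (.ref 553 131) (.both (.ref 588 194) (.play 391 (.ref 17 322))))) (.play 386 (.ref 0 386)))) (.play 455 (.ref 3 388)))) (.both (.play 325 (.ref 60 197)) (.play 582 (.ref 489 325))))) (.play 521 (.ref 3 453)))) (.play 452 (.ref 3 452)))) (.both (.play 455 (.both (.play 453 (.both (.play 454 (.both (.ref 847 196) (.play 521 (.ref 3 453)))) (.play 452 (.ref 3 452)))) (.play 516 (.ref 2 452)))) (.both (.ref 29 450) (.both (.ref 486 450) (.ref 576 450)))))) (.both (.play 521 (.both (.play 454 (.both (.play 457 (.both (.play 393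 (.both (.play 455 (.ref 848 197)) (.play 329 (.ref 549 200)))) (.play 458 (.ref 2 454)))) (.play 453 (.ref 3 453)))) (.both (.play 522 (.ref 17 453)) (.both (.play 454 (.ref 572 453)) (.ref 50 454))))) (.both (.ref 846 450) (.play 457 (.ref 745 452)))))) (.both (.play 457 (.both (.ref 845 131) (.both (.play 518 (.both (.play 521 (.both (.play 454 (.both (.play 455 (.both (.ref 553 198) (.ref 490 261))) (.play 453 (.ref 3 453)))) (.both (.play 454 (.both (.play 522 (.both (.ref 834 263) (.play 455 (.ref 3 454)))) (.play 453 (.ref 3 453)))) (.both (.play 522 (.both (.ref 834 263) (.both (.play 583 (.both (.ref 842 327) (.play 582 (.ref 1 518)))) (.play 523 (.ref 10 518))))) (.play 454 (.ref 572 453)))))) (.play 517 (.ref 2 453)))) (.both (.play 518 (.ref 840 261)) (.both (.ref 761 389) (.both (.play 458 (.ref 745 453)) (.ref 832 453))))))) (.both (.play 457 (.both (.play 455 (.both (.play 391 (.both (.play 327 (.ref 60 199)) (.ref 235 390))) (.both (.play 454 (.both (.ref 483 261) (.both (.play 453 (.ref 82 386)) (.ref 501 387)))) (.both (.play 522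 (.both (.play 521 (.both (.ref 839 326) (.play 454 (.ref 0 454)))) (.play 458 (.ref 211 455)))) (.play 458 (.both (.ref 838 386) (.play 459 (.ref 1 455)))))))) (.both (.play 521 (.both (.ref 835 198) (.both (.play 458 (.ref 504 390)) (.both (.play 518 (.ref 487 450)) (.ref 836 454))))) (.both (.play 521 (.both (.play 518 (.both (.play 454 (.both (.play 522 (.both (.play 523 (.both (.ref 596 199) (.play 524 (.ref 3 456)))) (.play 455 (.ref 3 454)))) (.play 453 (.ref 3 453)))) (.play 517 (.ref 2 453)))) (.both (.play 518 (.both (.play 454 (.both (.play 392 (.both (.play 390 (.both (.ref 70 197) (.both (.play 583 (.ref 60 262)) (.play 391 (.both (.play 584 (.ref 84 327)) (.play 389 (.ref 0 389))))))) (.both (.play 328 (.ref 549 199)) (.both (.play 328 (.both (.ref 777 261) (.play 264 (.ref 4 264)))) (.play 583 (.ref 583 263)))))) (.play 453 (.ref 3 453)))) (.play 517 (.ref 2 453)))) (.both (.ref 835 198) (.play 518 (.both (.play 517 (.ref 2 453)) (.play 454 (.ref 572 453)))))))) (.both (.play 518 (.ref 504 389)) (.both (.ref 833 389) (.both (.play 458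 (.ref 745 453)) (.ref 832 453)))))))) (.both (.play 392 (.both (.play 328 (.ref 549 199)) (.both (.play 583 (.ref 583 263)) (.both (.ref 744 263) (.ref 831 325))))) (.play 583 (.both (.play 647 (.both (.play 455 (.both (.play 391 (.ref 64 326)) (.both (.ref 830 387) (.play 391 (.ref 23 390))))) (.play 711 (.ref 5 455)))) (.both (.play 392 (.both (.play 584 (.both (.ref 757 323) (.both (.play 391 (.both (.play 455 (.both (.ref 830 323) (.play 648 (.ref 7 391)))) (.play 327 (.ref 7 327)))) (.both (.play 391 (.both (.play 393 (.both (.ref 713 324) (.play 329 (.ref 5 328)))) (.play 327 (.ref 7 327)))) (.both (.ref 777 325) (.both (.play 648 (.ref 36 327)) (.play 393 (.ref 829 327)))))))) (.play 328 (.ref 6 327)))) (.both (.play 392 (.ref 827 324)) (.both (.ref 824 326) (.both (.play 647 (.ref 583 327)) (.ref 526 327))))))))))))))))))))))))))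
 (.one (.play 68 (.both (.play 67 (.ref 484 0)) (.play 131 (.ref 1 67)))))))))))
 (.seq (.seq (.seq (.seq (.seq (.one (.play 71 (.both (.ref 901 0) (.play 72 (.ref 1 68)))))
 (.one (.both (.play 66 (.both (.play 2 (.ref 7 2)) (.play 133 (.ref 825 64)))) (.play 322 (.ref 6 66)))))
 (.seq (.one (.play 67 (.both (.play 131 (.ref 903 0)) (.play 3 (.ref 7 3)))))
 (.one (.play 69 (.both (.play 5 (.ref 5 4)) (.play 324 (.both (.play 133 (.ref 5 68)) (.ref 739 128))))))))
 (.seq (.seq (.one (.play 67 (.both (.play 3 (.ref 7 3)) (.play 324 (.both (.play 131 (.ref 7 67)) (.ref 739 128))))))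
 (.one (.play 199 (.both (.play 197 (.both (.play 261 (.ref 6 5)) (.play 196 (.both (.ref 732 67) (.both (.play 195 (.ref 484 128)) (.play 195 (.ref 19 130))))))) (.play 263 (.ref 4 6))))))
 (.seq (.one (.play 326 (.both (.play 134 (.both (.play 70 (.ref 64 5)) (.both (.play 70 (.ref 35 5)) (.ref 907 128)))) (.play 390 (.ref 5 134)))))
 (.seq (.one (.play 257 (.both (.play 321 (.ref 35 0)) (.play 320 (.ref 6 64)))))
 (.one (.play 129 (.both (.play 65 (.ref 35 0)) (.play 320 (.ref 6 128)))))))))
 (.seq (.seq (.seq (.one (.both (.ref 910 0) (.play 448 (.ref 6 192))))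
 (.one (.play 321 (.both (.play 261 (.both (.play 262 (.both (.play 263 (.both (.play 199 (.both (.play 327 (.both (.play 135 (.both (.play 71 (.ref 36 6)) (.both (.play 326 (.ref 243 70)) (.play 134 (.ref 84 70))))) (.play 328 (.ref 0 260)))) (.play 200 (.ref 2 196)))) (.both (.play 264 (.ref 16 195)) (.play 264 (.ref 17 195))))) (.play 259 (.ref 1 258)))) (.play 324 (.ref 2 257)))) (.play 320 (.ref 2 256))))))
 (.seq (.one (.play 196 (.both (.play 260 (.both (.ref 912 0) (.play 451 (.ref 5 195)))) (.play 132 (.ref 5 131)))))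
 (.seq (.one (.play 193 (.both (.play 321 (.both (.play 129 (.both (.play 65 (.ref 36 0)) (.both (.play 130 (.ref 76 64)) (.play 322 (.ref 124 65))))) (.play 320 (.ref 1 256)))) (.play 192 (.ref 3 192)))))
 (.one (.play 321 (.both (.play 130 (.ref 583 1)) (.both (.play 260 (.ref 40 192)) (.ref 880 192))))))))
 (.seq (.seq (.one (.play 323 (.both (.play 195 (.both (.play 387 (.both (.play 386 (.ref 79 2)) (.both (.play 194 (.ref 134 130)) (.play 451 (.ref 23 194))))) (.play 196 (.ref 2 192)))) (.play 324 (.ref 0 256)))))
 (.one (.play 68 (.both (.play 260 (.both (.play 67 (.both (.play 132 (.both (.play 3 (.ref 7 3)) (.ref 68 64))) (.play 66 (.ref 0 66)))) (.play 324 (.ref 6 68)))) (.play 4 (.ref 7 4))))))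
 (.seq (.one (.play 259 (.both (.ref 22 2) (.both (.ref 781 64) (.both (.play 323 (.both (.play 260 (.both (.play 324 (.ref 4 67)) (.play 194 (.both (.play 387 (.ref 7 130)) (.play 193 (.ref 543 192)))))) (.both (.ref 21 67) (.ref 83 130)))) (.play 323 (.ref 23 66)))))))
 (.seq (.one (.play 196 (.both (.play 260 (.ref 529 3)) (.both (.play 135 (.ref 567 128)) (.play 195 (.ref 745 129))))))
 (.one (.play 257 (.both (.play 66 (.ref 5 1)) (.ref 83 64)))))))))
 (.seq (.seq (.seq (.seq (.one (.play 68 (.both (.ref 41 1) (.play 129 (.ref 1 64)))))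
 (.one (.play 195 (.both (.play 197 (.both (.play 261 (.ref 4 4)) (.play 194 (.both (.play 193 (.ref 19 128)) (.both (.play 133 (.ref 159 129)) (.play 130 (.ref 42 129))))))) (.play 259 (.ref 6 3))))))
 (.seq (.one (.play 196 (.both (.ref 922 0) (.play 260 (.ref 5 4)))))
 (.seq (.one (.play 257 (.both (.play 193 (.both (.play 2 (.ref 6 1)) (.ref 514 64))) (.play 321 (.ref 6 65)))))
 (.one (.both (.play 64 (.ref 2 0)) (.play 68 (.both (.play 129 (.both (.play 69 (.both (.play 70 (.ref 16 1)) (.play 130 (.ref 1 65)))) (.play 128 (.ref 1 64)))) (.play 5 (.ref 2 1)))))))))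
 (.seq (.seq (.one (.play 68 (.both (.play 64 (.ref 12 0)) (.play 69 (.ref 1 65)))))
 (.one (.play 133 (.both (.play 69 (.ref 35 4)) (.both (.play 326 (.ref 60 5)) (.ref 775 64))))))
 (.seq (.one (.play 68 (.both (.play 69 (.ref 42 1)) (.play 128 (.ref 1 64)))))
 (.seq (.one (.play 257 (.both (.play 321 (.both (.play 130 (.ref 583 1)) (.both (.ref 928 192) (.play 260 (.both (.ref 921 193) (.play 320 (.ref 1 256))))))) (.play 256 (.ref 2 192)))))
 (.one (.both (.ref 580 0) (.play 7 (.ref 2 3))))))))
 (.seq (.seq (.seq (.one (.play 66 (.both (.play 65 (.ref 16 0)) (.play 5 (.ref 2 2)))))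
 (.one (.play 450 (.both (.play 193 (.both (.play 129 (.ref 549 0)) (.play 386 (.ref 4 193)))) (.play 514 (.ref 4 257))))))
 (.seq (.one (.play 261 (.both (.play 325 (.both (.play 326 (.both (.play 389 (.both (.play 390 (.both (.play 454 (.both (.ref 932 5) (.play 518 (.ref 7 261)))) (.both (.play 327 (.both (.play 199 (.both (.play 391 (.both (.play 198 (.ref 60 70)) (.both (.play 455 (.ref 35 134)) (.play 392 (.both (.play 456 (.ref 4 199)) (.ref 542 325)))))) (.play 135 (.ref 6 134)))) (.play 388 (.ref 567 320)))) (.both (.play 199 (.ref 583 70)) (.play 454 (.ref 76 197)))))) (.both (.play 198 (.ref 897 133)) (.both (.play 453 (.ref 77 196)) (.both (.play 453 (.ref 76 196)) (.ref 923 257)))))) (.play 265 (.ref 1 261)))) (.play 324 (.ref 1 260)))) (.both (.ref 29 194) (.both (.ref 931 194) (.ref 580 194))))))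
 (.seq (.one (.play 261 (.both (.play 70 (.ref 529 4)) (.both (.play 325 (.ref 583 5)) (.play 260 (.ref 567 192))))))
 (.one (.play 259 (.both (.play 450 (.ref 538 2)) (.both (.play 195 (.ref 583 66)) (.play 260 (.ref 504 192)))))))))
 (.seq (.seq (.one (.play 323 (.both (.ref 935 0) (.play 324 (.ref 1 320)))))
 (.one (.play 68 (.both (.ref 11 0) (.both (.ref 235 1) (.play 69 (.ref 42 1)))))))
 (.seq (.one (.play 68 (.both (.ref 937 1) (.play 128 (.ref 1 64)))))
 (.seq (.one (.play 257 (.both (.play 321 (.ref 35 0)) (.play 66 (.ref 5 1)))))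
 (.one (.play 66 (.both (.play 2 (.ref 5 1)) (.ref 939 64)))))))))))))
 (.seq (.seq (.seq (.seq (.seq (.seq (.seq (.seq (.one (.both (.play 5 (.ref 6 4)) (.play 324 (.both (.play 261 (.ref 6 68)) (.play 388 (.both (.play 196 (.ref 5 132)) (.play 452 (.both (.play 516 (.ref 64 195)) (.both (.play 516 (.ref 35 195)) (.ref 922 256))))))))))
 (.one (.both (.ref 931 0) (.play 7 (.ref 2 3)))))
 (.seq (.one (.play 325 (.both (.ref 521 4) (.both (.play 261 (.ref 79 68)) (.both (.play 261 (.ref 64 196)) (.ref 917 256))))))
 (.one (.both (.play 67 (.both (.ref 580 0) (.play 6 (.ref 2 3)))) (.play 8 (.ref 2 4))))))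
 (.seq (.seq (.one (.play 197 (.both (.play 196 (.both (.play 260 (.ref 6 4)) (.ref 902 64))) (.play 261 (.ref 5 5)))))
 (.one (.play 195 (.both (.play 259 (.ref 6 3)) (.play 194 (.ref 745 128))))))
 (.seq (.one (.play 261 (.both (.play 258 (.both (.play 194 (.ref 491 1)) (.both (.play 257 (.ref 16 192)) (.play 257 (.ref 12 193))))) (.play 262 (.ref 1 258)))))
 (.seq (.one (.play 197 (.both (.play 261 (.ref 529 4)) (.play 196 (.ref 567 128)))))
 (.one (.play 66 (.both (.play 258 (.both (.play 1 (.ref 7 1)) (.ref 514 64))) (.play 2 (.ref 6 1)))))))))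
 (.seq (.seq (.seq (.one (.play 197 (.both (.play 198 (.both (.ref 934 0) (.play 137 (.ref 1 133)))) (.play 196 (.ref 1 132)))))
 (.one (.play 193 (.both (.play 257 (.ref 77 0)) (.play 1 (.ref 4 1))))))
 (.seq (.one (.play 130 (.both (.play 195 (.both (.play 259 (.ref 5 3)) (.play 196 (.ref 239 128)))) (.play 70 (.ref 1 66)))))
 (.seq (.one (.play 129 (.both (.ref 880 0) (.play 257 (.ref 5 1)))))
 (.one (.play 193 (.both (.play 257 (.both (.play 130 (.ref 111 1)) (.play 256 (.ref 1 192)))) (.play 261 (.ref 0 193))))))))
 (.seq (.seq (.one (.both (.play 65 (.ref 19 0)) (.both (.play 70 (.ref 16 1)) (.play 65 (.ref 10 64)))))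
 (.one (.play 259 (.both (.play 131 (.ref 5 3)) (.play 258 (.ref 745 192))))))
 (.seq (.one (.play 129 (.both (.ref 928 0) (.play 257 (.ref 5 1)))))
 (.seq (.one (.play 133 (.both (.play 261 (.both (.play 68 (.ref 7 4)) (.ref 716 64))) (.play 260 (.ref 6 4)))))
 (.one (.play 131 (.both (.ref 949 1) (.play 132 (.ref 2 128))))))))))
 (.seq (.seq (.seq (.seq (.one (.play 67 (.both (.play 3 (.ref 5 2)) (.play 133 (.ref 825 64)))))
 (.one (.both (.play 324 (.both (.play 260 (.ref 538 3)) (.play 386 (.ref 2 320)))) (.both (.play 452 (.both (.ref 70 130) (.play 386 (.ref 0 384)))) (.both (.ref 37 130) (.play 386 (.ref 151 320)))))))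
 (.seq (.one (.play 518 (.both (.play 455 (.both (.play 328 (.both (.play 392 (.both (.play 522 (.both (.play 394 (.both (.play 327 (.both (.play 329 (.both (.play 265 (.ref 538 8)) (.both (.play 265 (.ref 851 260)) (.ref 81 260)))) (.play 263 (.ref 7 263)))) (.both (.play 458 (.ref 961 71)) (.both (.ref 960 262) (.play 457 (.both (.play 393 (.ref 504 326)) (.play 458 (.ref 1 454)))))))) (.both (.play 521 (.both (.ref 499 390) (.play 454 (.ref 3 454)))) (.both (.play 521 (.ref 42 454)) (.both (.play 457 (.both (.play 458 (.ref 1 454)) (.play 521 (.ref 543 454)))) (.play 458 (.both (.play 459 (.ref 303 455)) (.both (.play 523 (.ref 308 455)) (.both (.play 457 (.ref 211 455)) (.play 521 (.ref 52 455))))))))))) (.play 583 (.ref 6 327)))) (.both (.play 457 (.both (.play 454 (.both (.play 390 (.ref 491 197)) (.ref 959 262))) (.play 458 (.ref 1 454)))) (.both (.play 521 (.both (.play 457 (.both (.play 329 (.both (.play 265 (.ref 447 264)) (.both (.play 264 (.ref 435 264)) (.both (.play 393 (.ref 275 264)) (.play 392 (.ref 280 264)))))) (.play 458 (.ref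 2 454)))) (.play 522 (.ref 42 454)))) (.play 392 (.ref 111 263)))))) (.both (.ref 936 134) (.both (.play 392 (.both (.play 328 (.ref 549 199)) (.both (.ref 741 260) (.play 647 (.both (.play 648 (.both (.play 584 (.both (.ref 515 390) (.play 711 (.ref 6 455)))) (.both (.play 584 (.ref 533 390)) (.both (.play 584 (.ref 386 391)) (.both (.ref 958 451) (.play 646 (.both (.ref 956 451) (.both (.play 582 (.both (.ref 938 453) (.play 710 (.ref 5 454)))) (.both (.ref 535 579) (.play 645 (.ref 955 579))))))))))) (.play 583 (.ref 5 391))))))) (.both (.play 457 (.both (.play 454 (.ref 856 197)) (.play 458 (.ref 1 454)))) (.both (.play 457 (.both (.play 454 (.both (.play 390 (.ref 491 197)) (.ref 592 262))) (.play 458 (.ref 1 454)))) (.both (.play 647 (.both (.play 392 (.both (.ref 741 260) (.play 583 (.ref 5 391)))) (.both (.play 583 (.ref 144 327)) (.play 648 (.both (.play 584 (.ref 386 391)) (.both (.ref 958 451) (.both (.play 646 (.both (.ref 956 451) (.both (.ref 957 453) (.both (.ref 535 579) (.play 645 (.ref 955 579)))))) (.both (.play 711 (.both (.play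 582 (.both (.ref 952 451) (.both (.ref 928 453) (.ref 951 453)))) (.play 584 (.ref 6 455)))) (.play 712 (.both (.play 646 (.both (.ref 954 452) (.both (.ref 957 453) (.ref 501 579)))) (.play 584 (.ref 7 455)))))))))))) (.play 647 (.both (.play 583 (.ref 144 327)) (.both (.play 583 (.both (.play 392 (.ref 5 391)) (.ref 907 449))) (.play 648 (.both (.play 646 (.both (.ref 956 451) (.both (.ref 953 453) (.both (.ref 535 579) (.play 645 (.ref 955 579)))))) (.both (.play 712 (.both (.play 646 (.both (.ref 954 452) (.both (.ref 953 453) (.ref 501 579)))) (.play 584 (.ref 7 455)))) (.both (.play 711 (.both (.play 582 (.both (.ref 952 451) (.both (.ref 880 453) (.ref 951 453)))) (.play 584 (.ref 6 455)))) (.play 584 (.ref 229 455)))))))))))))))) (.both (.play 583 (.both (.play 517 (.both (.play 580 (.both (.play 516 (.both (.play 515 (.both (.ref 490 322) (.play 582 (.ref 0 515)))) (.play 579 (.ref 1 515)))) (.play 581 (.ref 1 516)))) (.both (.ref 950 384) (.both (.play 516 (.ref 82 449)) (.ref 501 450))))) (.both (.play 392 (.ref 529 326)) (.play 647 (.ref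 583 327))))) (.both (.play 517 (.ref 930 450)) (.play 457 (.ref 745 452)))))))
 (.one (.play 129 (.both (.play 322 (.ref 60 1)) (.play 128 (.ref 3 128)))))))
 (.seq (.seq (.one (.play 69 (.both (.play 65 (.ref 16 0)) (.both (.play 70 (.ref 17 1)) (.play 70 (.ref 12 2))))))
 (.one (.play 129 (.both (.ref 480 0) (.play 1 (.ref 4 1))))))
 (.seq (.one (.play 4 (.both (.play 5 (.ref 745 0)) (.play 132 (.ref 6 3)))))
 (.seq (.one (.play 133 (.both (.ref 501 0) (.play 5 (.ref 6 4)))))
 (.one (.play 325 (.both (.play 326 (.both (.play 389 (.both (.play 262 (.ref 538 5)) (.play 261 (.ref 6 260)))) (.both (.ref 964 258) (.both (.ref 18 258) (.ref 402 258))))) (.both (.ref 45 256) (.both (.ref 967 256) (.both (.ref 964 257) (.ref 966 257)))))))))))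
 (.seq (.seq (.seq (.one (.play 1 (.both (.ref 235 0) (.play 130 (.ref 7 1)))))
 (.one (.play 457 (.both (.play 328 (.both (.play 455 (.both (.play 327 (.both (.play 326 (.both (.play 262 (.both (.play 261 (.both (.play 260 (.both (.play 259 (.both (.play 258 (.both (.ref 914 1) (.both (.play 257 (.ref 19 192)) (.both (.play 257 (.ref 17 192)) (.play 257 (.ref 13 192)))))) (.play 262 (.ref 0 259)))) (.play 325 (.ref 3 260)))) (.play 329 (.ref 3 261)))) (.play 391 (.ref 7 262)))) (.both (.ref 624 259) (.both (.ref 890 259) (.both (.play 329 (.ref 14 260)) (.ref 969 261)))))) (.both (.ref 968 4) (.both (.ref 892 70) (.both (.play 391 (.ref 429 198)) (.play 329 (.both (.ref 624 260) (.both (.ref 967 260) (.both (.ref 402 261) (.ref 965 262)))))))))) (.both (.play 518 (.both (.play 327 (.both (.ref 968 4) (.both (.play 391 (.ref 549 198)) (.play 582 (.both (.play 391 (.ref 6 326)) (.play 581 (.ref 567 513))))))) (.play 517 (.ref 2 453)))) (.both (.play 329 (.both (.play 327 (.both (.play 326 (.both (.play 391 (.both (.play 262 (.ref 541 5)) (.play 263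 (.ref 4 263)))) (.both (.ref 624 259) (.both (.ref 46 259) (.ref 45 259))))) (.both (.ref 46 260) (.both (.play 263 (.both (.play 262 (.ref 825 260)) (.play 391 (.ref 4 263)))) (.both (.ref 18 261) (.ref 965 262)))))) (.both (.play 454 (.own 520 (.both (.play 393 (.both (.play 265 (.ref 549 136)) (.play 394 (.ref 2 390)))) (.play 518 (.both (.play 390 (.both (.play 583 (.both (.play 582 (.both (.play 391 (.ref 583 262)) (.both (.play 646 (.ref 25 325)) (.ref 68 386)))) (.play 647 (.ref 7 390)))) (.play 389 (.ref 3 389)))) (.play 517 (.ref 1 453))))))) (.both (.play 265 (.both (.play 327 (.both (.play 391 (.both (.ref 558 134) (.play 264 (.ref 5 263)))) (.both (.play 266 (.ref 745 261)) (.both (.play 391 (.ref 508 262)) (.play 391 (.ref 874 262)))))) (.play 393 (.ref 6 264)))) (.both (.play 327 (.both (.ref 964 261) (.both (.play 391 (.ref 508 262)) (.both (.play 391 (.ref 874 262)) (.play 391 (.both (.ref 480 262) (.play 264 (.ref 5 263)))))))) (.both (.play 393 (.both (.play 454 (.both (.ref 963 261) (.play 394 (.ref 2 390)))) (.play 265 (.ref 6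 264)))) (.play 393 (.both (.play 394 (.both (.play 327 (.ref 768 262)) (.play 454 (.ref 2 390)))) (.play 265 (.ref 6 264)))))))))) (.both (.play 454 (.both (.play 518 (.ref 492 197)) (.ref 959 262))) (.both (.ref 929 261) (.both (.play 454 (.both (.ref 490 261) (.ref 959 262))) (.play 518 (.both (.ref 934 321) (.play 517 (.ref 2 453))))))))))) (.both (.play 392 (.both (.ref 563 66) (.play 583 (.ref 6 327)))) (.both (.play 392 (.both (.ref 78 135) (.both (.ref 197 199) (.both (.play 264 (.ref 36 199)) (.both (.ref 92 199) (.play 329 (.both (.play 327 (.both (.play 330 (.both (.play 394 (.ref 82 260)) (.both (.play 331 (.ref 12 263)) (.play 391 (.ref 117 326))))) (.play 263 (.ref 7 263)))) (.play 265 (.ref 5 264))))))))) (.both (.play 392 (.ref 911 135)) (.both (.play 392 (.both (.play 264 (.ref 765 135)) (.play 583 (.ref 6 327)))) (.play 392 (.ref 549 199)))))))) (.both (.play 458 (.both (.play 455 (.both (.play 522 (.both (.play 394 (.both (.ref 793 72) (.play 395 (.ref 2 391)))) (.play 523 (.ref 0 455)))) (.both (.play 454 (.ref 16 389)) (.play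 454 (.ref 17 389))))) (.play 459 (.ref 1 455)))) (.both (.ref 912 197) (.both (.ref 761 389) (.both (.play 458 (.ref 745 453)) (.play 518 (.ref 925 453))))))))))
 (.seq (.one (.play 257 (.both (.play 64 (.ref 7 0)) (.play 66 (.ref 76 0)))))
 (.seq (.one (.play 392 (.both (.play 584 (.both (.play 458 (.both (.play 522 (.both (.play 394 (.both (.play 391 (.both (.play 330 (.ref 961 7)) (.play 327 (.ref 7 327)))) (.both (.play 393 (.both (.play 459 (.both (.play 460 (.both (.play 461 (.both (.play 462 (.both (.ref 916 203) (.both (.play 463 (.ref 13 394)) (.play 463 (.ref 10 458))))) (.play 458 (.ref 3 393)))) (.play 395 (.ref 0 392)))) (.play 391 (.ref 0 391)))) (.play 329 (.ref 5 328)))) (.both (.play 330 (.ref 269 201)) (.both (.ref 37 201) (.both (.play 330 (.both (.play 266 (.ref 36 201)) (.both (.play 586 (.ref 35 265)) (.play 586 (.ref 26 266))))) (.play 393 (.both (.play 391 (.both (.play 327 (.ref 7 327)) (.play 395 (.ref 12 327)))) (.play 329 (.ref 5 328)))))))))) (.both (.play 521 (.both (.ref 948 386) (.play 459 (.ref 2 455)))) (.play 583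 (.both (.play 647 (.ref 6 391)) (.play 521 (.ref 95 517))))))) (.both (.ref 960 326) (.play 518 (.both (.play 583 (.both (.play 517 (.both (.ref 950 384) (.play 516 (.ref 0 516)))) (.play 647 (.ref 6 391)))) (.both (.play 521 (.both (.ref 948 386) (.play 457 (.ref 2 454)))) (.both (.play 517 (.both (.ref 81 450) (.play 457 (.ref 2 453)))) (.play 457 (.ref 98 453))))))))) (.both (.ref 913 197) (.both (.play 648 (.ref 25 327)) (.ref 918 389))))) (.both (.play 327 (.both (.play 263 (.both (.play 199 (.both (.play 135 (.both (.play 71 (.ref 64 6)) (.both (.play 71 (.ref 25 6)) (.play 134 (.both (.play 136 (.both (.play 133 (.both (.play 132 (.ref 19 67)) (.both (.play 197 (.ref 40 68)) (.play 200 (.ref 118 132))))) (.play 72 (.ref 5 71)))) (.play 70 (.ref 7 70))))))) (.play 391 (.ref 4 199)))) (.play 328 (.ref 7 263)))) (.both (.play 328 (.both (.play 329 (.both (.play 393 (.both (.ref 501 260) (.play 584 (.ref 5 328)))) (.play 265 (.ref 5 264)))) (.play 263 (.ref 7 263)))) (.ref 971 327)))) (.both (.play 328 (.ref 549 199)) (.play 583 (.ref 941 323)))))))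
 (.one (.both (.play 66 (.both (.ref 371 0) (.play 2 (.ref 7 2)))) (.play 4 (.ref 5 3)))))))
 (.seq (.seq (.one (.play 67 (.both (.ref 544 0) (.play 324 (.ref 4 67)))))
 (.one (.both (.play 452 (.both (.play 324 (.both (.ref 796 0) (.play 323 (.ref 3 323)))) (.play 451 (.ref 1 387)))) (.both (.play 387 (.ref 19 322)) (.both (.play 387 (.ref 17 322)) (.play 387 (.ref 13 322)))))))
 (.seq (.one (.play 520 (.both (.play 392 (.both (.play 391 (.both (.play 390 (.both (.play 326 (.both (.play 454 (.both (.play 262 (.both (.ref 563 0) (.both (.play 198 (.ref 64 133)) (.both (.play 198 (.ref 36 133)) (.play 198 (.ref 25 133)))))) (.play 518 (.ref 4 326)))) (.both (.play 454 (.both (.play 453 (.ref 607 133)) (.play 518 (.ref 4 326)))) (.play 393 (.ref 42 325))))) (.both (.play 389 (.ref 975 1)) (.both (.play 454 (.both (.play 518 (.ref 765 261)) (.ref 480 325))) (.both (.ref 624 323) (.both (.ref 46 323) (.ref 18 324))))))) (.both (.play 455 (.both (.ref 891 134) (.both (.ref 766 198) (.both (.ref 974 260) (.ref 888 325))))) (.both (.ref 892 134) (.both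 (.play 455 (.both (.ref 974 260) (.play 328 (.ref 5 327)))) (.play 455 (.ref 889 325))))))) (.both (.play 456 (.both (.play 391 (.both (.play 390 (.both (.play 393 (.both (.play 329 (.both (.ref 537 72) (.play 330 (.ref 2 326)))) (.both (.play 394 (.ref 13 325)) (.play 394 (.ref 19 325))))) (.both (.play 389 (.ref 82 322)) (.both (.play 389 (.both (.ref 81 322) (.both (.play 393 (.ref 19 324)) (.both (.play 325 (.both (.play 324 (.ref 3 324)) (.play 393 (.both (.play 326 (.ref 3 325)) (.play 394 (.ref 13 325)))))) (.ref 245 387))))) (.ref 501 323))))) (.both (.play 393 (.both (.play 329 (.ref 538 72)) (.both (.ref 562 130) (.play 329 (.ref 851 324))))) (.both (.play 393 (.both (.play 329 (.ref 538 72)) (.both (.play 329 (.ref 851 324)) (.play 390 (.ref 955 324))))) (.both (.play 327 (.ref 541 70)) (.play 584 (.ref 536 324))))))) (.play 328 (.ref 6 327)))) (.both (.play 456 (.both (.play 393 (.both (.play 391 (.both (.play 327 (.ref 541 70)) (.both (.ref 624 324) (.play 329 (.ref 851 324))))) (.both (.play 394 (.both (.play 391 (.both (.ref 872 70)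 (.both (.play 390 (.ref 16 325)) (.play 390 (.ref 10 389))))) (.both (.play 395 (.both (.play 331 (.ref 942 325)) (.both (.play 391 (.ref 12 327)) (.both (.ref 39 328) (.ref 342 392))))) (.both (.ref 480 327) (.play 455 (.ref 745 389)))))) (.both (.play 329 (.ref 538 72)) (.play 584 (.ref 973 325)))))) (.both (.play 647 (.ref 528 390)) (.play 647 (.ref 110 391))))) (.both (.play 456 (.ref 529 326)) (.play 456 (.ref 111 327))))))) (.both (.ref 912 260) (.both (.ref 947 260) (.both (.ref 761 452) (.play 521 (.ref 745 516))))))))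
 (.seq (.one (.play 520 (.both (.ref 976 1) (.both (.ref 972 64) (.both (.ref 970 64) (.both (.ref 962 64) (.both (.play 647 (.both (.play 521 (.both (.play 582 (.both (.play 519 (.both (.ref 943 130) (.both (.play 646 (.both (.play 455 (.ref 79 262)) (.play 645 (.ref 567 577)))) (.both (.play 457 (.both (.play 518 (.both (.play 454 (.ref 491 261)) (.play 458 (.ref 2 454)))) (.play 392 (.both (.ref 949 327) (.play 456 (.ref 6 391)))))) (.ref 948 449))))) (.play 581 (.ref 2 517)))) (.both (.ref 947 261) (.both (.ref 761 453) (.both (.play 522 (.ref 745 517)) (.both (.ref 879 517) (.play 582 (.ref 925 517)))))))) (.both (.play 711 (.ref 538 263)) (.both (.play 646 (.both (.play 711 (.both (.play 582 (.both (.play 710 (.both (.play 709 (.both (.ref 724 325) (.play 708 (.ref 67 642)))) (.both (.play 519 (.ref 583 390)) (.play 774 (.ref 76 517))))) (.both (.play 581 (.ref 484 514)) (.both (.ref 862 514) (.play 581 (.ref 942 514)))))) (.play 775 (.ref 5 519)))) (.both (.play 582 (.both (.play 581 (.ref 942 514)) (.both (.play 521 (.ref 745 516)) (.play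 585 (.ref 40 517))))) (.both (.play 645 (.ref 504 516)) (.both (.play 585 (.ref 567 578)) (.play 645 (.ref 745 579))))))) (.both (.play 456 (.ref 583 327)) (.ref 824 390)))))) (.both (.play 647 (.both (.play 456 (.both (.play 648 (.both (.play 455 (.both (.play 519 (.both (.play 454 (.both (.play 390 (.ref 541 133)) (.play 453 (.ref 82 386)))) (.both (.ref 756 386) (.ref 515 390)))) (.play 391 (.ref 7 391)))) (.both (.ref 905 388) (.both (.play 455 (.both (.play 391 (.ref 7 391)) (.play 712 (.both (.play 519 (.ref 4 455)) (.ref 739 516))))) (.play 712 (.ref 36 391)))))) (.play 392 (.ref 6 391)))) (.both (.ref 908 385) (.both (.play 456 (.ref 941 387)) (.both (.ref 824 390) (.both (.play 711 (.ref 583 391)) (.ref 526 391))))))) (.both (.play 456 (.both (.play 455 (.both (.play 519 (.both (.play 457 (.both (.play 393 (.ref 538 136)) (.play 458 (.ref 40 390)))) (.both (.ref 945 450) (.play 647 (.both (.ref 946 451) (.play 711 (.ref 5 455))))))) (.both (.play 519 (.both (.play 391 (.both (.play 390 (.both (.play 326 (.ref 7 326)) (.play 457 (.both (.ref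 837 386) (.play 458 (.ref 3 390)))))) (.play 327 (.ref 4 327)))) (.both (.play 647 (.both (.play 391 (.ref 64 326)) (.play 711 (.ref 5 455)))) (.ref 945 450)))) (.both (.ref 509 391) (.both (.play 648 (.ref 84 391)) (.play 648 (.both (.play 391 (.ref 7 391)) (.ref 940 391)))))))) (.both (.play 392 (.ref 549 263)) (.both (.play 647 (.ref 583 327)) (.ref 744 327))))) (.both (.play 521 (.both (.play 648 (.both (.ref 943 131) (.both (.ref 226 391) (.both (.play 712 (.ref 77 455)) (.play 712 (.ref 754 455)))))) (.both (.play 585 (.both (.play 582 (.both (.play 646 (.both (.play 586 (.both (.play 651 (.both (.play 587 (.both (.play 588 (.both (.ref 592 393) (.play 520 (.ref 3 520)))) (.play 652 (.ref 0 584)))) (.play 650 (.ref 0 583)))) (.play 647 (.ref 1 582)))) (.play 645 (.ref 1 581)))) (.play 581 (.ref 2 517)))) (.both (.play 522 (.ref 504 454)) (.both (.play 586 (.both (.play 522 (.both (.ref 498 455) (.play 523 (.ref 2 519)))) (.both (.play 587 (.ref 13 518)) (.play 587 (.ref 10 582))))) (.both (.play 582 (.ref 944 514)) (.ref 836 518)))))) (.both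 (.play 582 (.ref 504 453)) (.both (.ref 833 453) (.play 522 (.ref 745 517))))))) (.both (.play 521 (.both (.play 457 (.both (.play 648 (.both (.ref 943 131) (.play 712 (.ref 5 456)))) (.both (.play 648 (.ref 538 200)) (.both (.play 393 (.ref 583 264)) (.both (.play 393 (.both (.play 585 (.both (.ref 904 325) (.ref 514 391))) (.play 329 (.ref 6 328)))) (.ref 824 327)))))) (.both (.ref 912 261) (.both (.ref 761 453) (.both (.play 522 (.ref 745 517)) (.play 582 (.ref 925 517))))))) (.both (.play 647 (.both (.play 646 (.both (.play 519 (.both (.play 521 (.both (.play 582 (.both (.ref 935 198) (.play 581 (.ref 2 517)))) (.both (.ref 480 454) (.both (.ref 926 454) (.play 522 (.ref 745 517)))))) (.both (.play 455 (.ref 903 388)) (.play 710 (.ref 529 453))))) (.both (.play 582 (.both (.play 645 (.both (.play 709 (.both (.ref 842 453) (.both (.play 648 (.both (.ref 498 517) (.play 708 (.ref 1 644)))) (.play 708 (.ref 567 640))))) (.play 644 (.ref 2 580)))) (.both (.play 581 (.ref 484 514)) (.both (.ref 862 514) (.play 581 (.ref 942 514)))))) (.both (.play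 645 (.ref 504 516)) (.both (.play 585 (.ref 567 578)) (.play 645 (.ref 745 579))))))) (.both (.ref 908 385) (.both (.play 456 (.ref 941 387)) (.both (.ref 824 390) (.both (.play 711 (.ref 583 391)) (.play 456 (.both (.play 392 (.ref 6 391)) (.play 648 (.both (.ref 940 391) (.play 711 (.ref 6 455)))))))))))) (.both (.play 582 (.both (.play 519 (.both (.play 521 (.both (.play 518 (.both (.ref 597 197) (.ref 770 262))) (.play 522 (.ref 1 518)))) (.both (.play 455 (.both (.ref 70 262) (.both (.play 391 (.ref 549 262)) (.both (.play 391 (.ref 765 262)) (.play 647 (.both (.ref 917 386) (.both (.play 711 (.ref 64 390)) (.both (.play 711 (.ref 35 390)) (.play 711 (.ref 23 454)))))))))) (.both (.play 646 (.both (.play 710 (.ref 538 262)) (.ref 938 517))) (.both (.ref 915 325) (.play 585 (.both (.ref 587 389) (.both (.ref 235 518) (.ref 937 518))))))))) (.both (.ref 933 320) (.both (.play 521 (.both (.ref 833 453) (.play 581 (.ref 2 517)))) (.both (.play 581 (.ref 930 514)) (.play 521 (.ref 745 516))))))) (.both (.play 582 (.both (.play 519 (.both (.ref 936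 198) (.both (.play 521 (.both (.play 518 (.both (.ref 847 261) (.ref 585 262))) (.play 522 (.ref 1 518)))) (.both (.play 521 (.both (.play 647 (.both (.play 455 (.both (.play 391 (.ref 64 326)) (.both (.ref 775 386) (.play 391 (.ref 23 390))))) (.both (.play 711 (.both (.play 710 (.ref 911 326)) (.both (.play 455 (.ref 23 454)) (.both (.ref 75 518) (.play 775 (.ref 349 519)))))) (.both (.play 711 (.ref 77 454)) (.play 711 (.ref 76 454)))))) (.play 522 (.ref 1 518)))) (.ref 934 385))))) (.both (.ref 933 320) (.both (.play 581 (.ref 484 514)) (.both (.play 581 (.ref 930 514)) (.play 521 (.ref 925 517))))))) (.both (.play 647 (.both (.play 521 (.both (.play 519 (.both (.play 518 (.both (.ref 594 198) (.play 582 (.ref 492 261)))) (.both (.ref 927 322) (.both (.play 455 (.both (.play 391 (.ref 64 326)) (.both (.play 391 (.ref 35 326)) (.ref 69 451)))) (.both (.ref 929 325) (.ref 919 450)))))) (.both (.play 519 (.both (.ref 927 322) (.ref 926 454))) (.both (.ref 761 453) (.both (.play 522 (.ref 745 517)) (.both (.ref 879 517) (.play 582 (.ref 925 517))))))))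 (.both (.play 585 (.both (.play 582 (.both (.play 646 (.both (.play 710 (.both (.ref 864 325) (.both (.play 711 (.both (.play 518 (.ref 511 450)) (.both (.ref 510 518) (.play 775 (.both (.ref 716 578) (.play 839 (.ref 7 582))))))) (.both (.play 774 (.both (.ref 512 514) (.play 838 (.ref 5 582)))) (.both (.play 774 (.both (.play 775 (.both (.play 711 (.both (.play 518 (.ref 4 518)) (.play 776 (.both (.play 840 (.ref 489 583)) (.both (.play 777 (.ref 825 708)) (.play 709 (.ref 543 708))))))) (.play 839 (.ref 4 582)))) (.play 838 (.ref 5 582)))) (.both (.play 774 (.both (.ref 924 516) (.play 838 (.ref 5 582)))) (.both (.play 774 (.both (.play 518 (.ref 23 517)) (.play 838 (.ref 5 582)))) (.ref 923 578)))))))) (.play 645 (.ref 1 581)))) (.both (.ref 896 513) (.both (.ref 862 514) (.play 581 (.ref 13 516)))))) (.both (.play 586 (.both (.ref 499 454) (.both (.play 587 (.ref 12 519)) (.ref 921 519)))) (.both (.ref 480 518) (.play 586 (.ref 40 518)))))) (.both (.ref 824 390) (.both (.play 648 (.both (.play 521 (.both (.play 712 (.both (.play 457 (.ref 5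 456)) (.play 776 (.ref 84 519)))) (.both (.play 712 (.both (.play 457 (.ref 5 456)) (.ref 920 519))) (.play 582 (.ref 745 516))))) (.both (.play 711 (.ref 529 454)) (.play 711 (.ref 897 455))))) (.ref 857 454)))))) (.both (.play 456 (.both (.ref 885 199) (.both (.play 392 (.ref 549 263)) (.both (.play 647 (.ref 583 327)) (.play 648 (.both (.play 455 (.both (.play 519 (.both (.ref 515 390) (.play 647 (.both (.ref 919 450) (.play 711 (.ref 5 455)))))) (.play 391 (.ref 7 391)))) (.both (.play 457 (.both (.play 455 (.both (.play 458 (.both (.play 459 (.ref 12 391)) (.ref 918 453))) (.play 391 (.ref 7 391)))) (.play 393 (.ref 5 392)))) (.both (.ref 534 390) (.both (.play 455 (.ref 84 391)) (.ref 771 455)))))))))) (.both (.play 521 (.both (.play 456 (.both (.ref 767 198) (.both (.play 392 (.ref 549 263)) (.both (.play 647 (.ref 583 327)) (.play 648 (.both (.ref 917 387) (.both (.play 455 (.ref 84 391)) (.both (.ref 747 391) (.ref 717 451))))))))) (.both (.play 582 (.both (.play 522 (.both (.play 523 (.both (.play 524 (.both (.ref 916 265) (.both (.play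 525 (.both (.play 462 (.both (.play 526 (.both (.ref 561 266) (.play 463 (.ref 2 459)))) (.play 461 (.ref 2 458)))) (.both (.play 526 (.ref 12 458)) (.play 589 (.ref 8 521))))) (.both (.play 525 (.both (.play 526 (.both (.ref 626 266) (.both (.play 527 (.ref 19 458)) (.play 527 (.ref 12 459))))) (.both (.play 588 (.both (.play 459 (.both (.play 652 (.ref 60 331)) (.both (.play 526 (.ref 42 458)) (.ref 881 458)))) (.play 589 (.ref 0 521)))) (.both (.play 526 (.both (.play 527 (.ref 17 458)) (.play 590 (.ref 8 522)))) (.play 589 (.ref 8 521)))))) (.both (.play 525 (.both (.play 460 (.both (.ref 915 266) (.play 461 (.ref 2 457)))) (.both (.play 526 (.both (.ref 914 266) (.both (.play 527 (.ref 19 458)) (.play 527 (.ref 12 459))))) (.both (.ref 11 457) (.play 526 (.both (.ref 11 458) (.play 527 (.ref 10 522)))))))) (.both (.play 525 (.both (.play 590 (.both (.play 526 (.both (.ref 732 394) (.play 591 (.ref 0 523)))) (.play 589 (.ref 0 522)))) (.both (.ref 11 457) (.play 526 (.ref 12 458))))) (.play 525 (.ref 12 457)))))))) (.play 520 (.ref 1 519))))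 (.play 585 (.ref 2 518)))) (.play 581 (.ref 2 517)))) (.both (.play 582 (.ref 504 453)) (.both (.ref 833 453) (.play 522 (.ref 745 517))))))) (.both (.play 456 (.both (.play 392 (.both (.ref 759 199) (.both (.ref 910 199) (.both (.play 328 (.ref 36 263)) (.ref 523 324))))) (.both (.play 648 (.both (.play 457 (.both (.play 455 (.both (.play 458 (.both (.ref 554 198) (.both (.play 459 (.ref 13 390)) (.play 459 (.ref 10 454))))) (.play 391 (.ref 7 391)))) (.play 393 (.ref 5 392)))) (.both (.ref 913 261) (.both (.play 455 (.both (.play 391 (.ref 7 391)) (.play 712 (.both (.play 519 (.ref 7 455)) (.ref 781 517))))) (.play 712 (.ref 36 391)))))) (.both (.play 392 (.ref 911 199)) (.play 392 (.ref 549 263)))))) (.both (.play 456 (.both (.play 711 (.both (.play 648 (.both (.ref 556 198) (.both (.play 712 (.ref 36 391)) (.both (.play 712 (.ref 386 455)) (.ref 909 455))))) (.both (.play 648 (.both (.play 712 (.ref 36 391)) (.play 647 (.ref 6 455)))) (.both (.play 648 (.both (.play 457 (.ref 76 391)) (.play 647 (.ref 6 455)))) (.play 647 (.ref 528 454))))))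 (.both (.play 392 (.ref 549 263)) (.both (.play 647 (.ref 583 327)) (.ref 744 327))))) (.play 647 (.both (.play 711 (.ref 538 263)) (.both (.ref 908 385) (.both (.play 646 (.both (.play 456 (.both (.play 648 (.both (.ref 906 388) (.both (.ref 905 388) (.both (.ref 904 388) (.play 712 (.ref 36 391)))))) (.play 392 (.ref 6 391)))) (.both (.ref 902 514) (.play 645 (.ref 745 579))))) (.both (.ref 824 390) (.both (.play 711 (.ref 583 391)) (.ref 526 391))))))))))))))))))))))))))
 (.one (.both (.play 258 (.ref 28 1)) (.both (.play 193 (.ref 19 128)) (.both (.play 193 (.ref 17 128)) (.play 193 (.ref 13 128))))))))))))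
 (.seq (.seq (.seq (.seq (.seq (.one (.both (.play 68 (.ref 973 0)) (.both (.play 323 (.ref 64 2)) (.play 323 (.ref 25 2)))))
 (.one (.play 195 (.both (.play 131 (.ref 549 2)) (.both (.ref 744 66) (.both (.play 387 (.ref 979 128)) (.play 386 (.ref 111 130))))))))
 (.seq (.one (.both (.play 0 (.ref 308 0)) (.both (.play 64 (.ref 303 0)) (.both (.play 2 (.ref 217 0)) (.play 66 (.ref 411 0))))))
 (.one (.play 66 (.both (.ref 534 0) (.play 2 (.ref 6 1)))))))
 (.seq (.seq (.one (.play 390 (.both (.play 454 (.ref 538 6)) (.both (.ref 908 128) (.both (.play 391 (.both (.ref 982 133) (.play 388 (.ref 981 323)))) (.ref 824 133))))))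
 (.one (.play 259 (.both (.play 195 (.ref 6 3)) (.play 260 (.both (.play 324 (.both (.play 325 (.both (.play 261 (.both (.play 68 (.ref 4 68)) (.ref 501 192))) (.play 389 (.ref 4 132)))) (.play 133 (.ref 5 68)))) (.play 323 (.ref 6 67))))))))
 (.seq (.one (.play 452 (.both (.play 515 (.both (.play 516 (.both (.play 389 (.both (.play 196 (.ref 87 3)) (.play 580 (.ref 5 324)))) (.play 579 (.ref 6 323)))) (.play 451 (.ref 6 259)))) (.both (.play 453 (.ref 87 67)) (.both (.ref 984 256) (.play 516 (.ref 23 259)))))))
 (.seq (.one (.play 261 (.both (.play 132 (.ref 4 4)) (.ref 501 128))))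
 (.one (.play 197 (.both (.ref 986 0) (.both (.play 261 (.both (.play 262 (.both (.play 263 (.both (.play 264 (.both (.play 265 (.both (.play 201 (.ref 506 6)) (.both (.play 266 (.ref 13 197)) (.both (.play 266 (.ref 12 198)) (.play 266 (.ref 10 261)))))) (.play 261 (.ref 3 196)))) (.play 198 (.ref 0 195)))) (.play 194 (.ref 0 194)))) (.play 132 (.ref 4 4)))) (.both (.ref 235 130) (.play 198 (.ref 42 130)))))))))))
 (.seq (.seq (.seq (.one (.play 1 (.both (.play 65 (.both (.play 0 (.ref 3 0)) (.ref 735 0))) (.play 2 (.ref 3 1)))))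
 (.one (.play 196 (.both (.play 194 (.both (.play 258 (.ref 6 2)) (.ref 18 128))) (.play 260 (.ref 4 3))))))
 (.seq (.one (.play 259 (.both (.play 323 (.ref 64 2)) (.both (.play 323 (.ref 35 2)) (.both (.ref 989 64) (.play 323 (.ref 23 66)))))))
 (.seq (.one (.both (.play 4 (.ref 6 3)) (.play 323 (.both (.play 260 (.ref 6 67)) (.play 387 (.both (.play 195 (.ref 5 131)) (.ref 990 192)))))))
 (.one (.play 69 (.both (.play 5 (.ref 5 4)) (.play 133 (.ref 851 64))))))))
 (.seq (.seq (.one (.play 517 (.both (.play 580 (.both (.play 261 (.both (.play 197 (.both (.ref 86 4) (.both (.play 326 (.both (.play 133 (.ref 4 133)) (.ref 756 192))) (.ref 34 132)))) (.both (.play 196 (.both (.play 197 (.both (.play 133 (.both (.ref 992 65) (.play 326 (.ref 4 133)))) (.play 132 (.ref 7 132)))) (.play 260 (.ref 7 196)))) (.both (.play 197 (.ref 36 132)) (.ref 24 197))))) (.play 516 (.ref 6 324)))) (.both (.play 581 (.ref 26 261)) (.play 581 (.ref 23 324))))))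
 (.one (.play 64 (.both (.play 257 (.ref 85 0)) (.play 130 (.ref 3 64))))))
 (.seq (.one (.both (.ref 550 0) (.both (.play 385 (.ref 627 64)) (.both (.ref 994 128) (.play 258 (.ref 345 192))))))
 (.seq (.one (.play 193 (.both (.play 321 (.both (.ref 37 0) (.play 320 (.ref 1 256)))) (.play 192 (.ref 3 192)))))
 (.one (.play 260 (.both (.play 324 (.ref 25 3)) (.both (.play 324 (.ref 26 4)) (.both (.play 259 (.ref 671 64)) (.play 324 (.ref 23 67))))))))))))
 (.seq (.seq (.seq (.seq (.one (.play 129 (.both (.play 65 (.ref 64 0)) (.both (.play 65 (.ref 36 0)) (.play 385 (.ref 25 64))))))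
 (.one (.play 193 (.both (.play 386 (.ref 87 0)) (.play 384 (.ref 6 192))))))
 (.seq (.one (.play 448 (.both (.ref 999 0) (.play 512 (.ref 6 256)))))
 (.seq (.one (.play 449 (.both (.ref 1000 0) (.both (.play 513 (.ref 23 256)) (.both (.ref 75 256) (.play 513 (.ref 349 257)))))))
 (.one (.play 132 (.both (.play 68 (.ref 36 3)) (.both (.play 68 (.ref 35 3)) (.both (.play 68 (.ref 26 4)) (.play 131 (.ref 536 64))))))))))
 (.seq (.seq (.one (.play 258 (.both (.play 259 (.ref 794 0)) (.play 449 (.ref 77 192)))))
 (.one (.play 260 (.both (.play 196 (.both (.ref 1002 0) (.play 388 (.ref 6 195)))) (.play 323 (.ref 5 259))))))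
 (.seq (.one (.play 324 (.both (.ref 1004 0) (.play 579 (.ref 5 323)))))
 (.seq (.one (.play 388 (.both (.play 389 (.both (.ref 1005 1) (.both (.play 390 (.ref 794 131)) (.play 580 (.ref 754 323))))) (.both (.ref 1003 131) (.both (.play 324 (.both (.play 260 (.ref 64 195)) (.both (.play 260 (.ref 25 195)) (.play 323 (.ref 536 256))))) (.both (.ref 998 195) (.both (.play 580 (.ref 627 259)) (.ref 226 259))))))))
 (.one (.play 260 (.both (.play 67 (.both (.play 259 (.ref 979 0)) (.play 3 (.ref 4 3)))) (.both (.play 67 (.ref 66 2)) (.both (.play 324 (.both (.play 132 (.both (.play 68 (.ref 25 3)) (.both (.ref 515 66) (.ref 924 66)))) (.play 388 (.ref 7 131)))) (.play 67 (.ref 489 3)))))))))))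
 (.seq (.seq (.seq (.one (.play 259 (.both (.play 195 (.ref 87 2)) (.both (.ref 70 66) (.play 451 (.ref 979 192))))))
 (.one (.play 260 (.both (.play 452 (.both (.ref 556 2) (.both (.play 516 (.ref 64 195)) (.both (.play 516 (.ref 25 195)) (.play 516 (.ref 36 195)))))) (.both (.ref 1002 64) (.both (.ref 37 67) (.both (.play 452 (.ref 627 131)) (.both (.ref 27 131) (.play 452 (.ref 557 131))))))))))
 (.seq (.one (.play 261 (.both (.play 453 (.both (.play 262 (.both (.play 260 (.both (.play 259 (.both (.play 194 (.both (.ref 609 0) (.play 195 (.ref 3 194)))) (.both (.play 258 (.ref 19 193)) (.both (.ref 988 193) (.play 323 (.ref 40 194)))))) (.play 196 (.ref 7 196)))) (.play 198 (.ref 5 197)))) (.both (.play 517 (.ref 64 196)) (.play 517 (.ref 23 260))))) (.both (.ref 70 68) (.both (.ref 505 68) (.both (.ref 766 68) (.play 197 (.ref 765 68))))))))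
 (.seq (.one (.play 67 (.both (.play 68 (.both (.play 66 (.both (.play 65 (.ref 17 0)) (.play 134 (.ref 0 66)))) (.play 130 (.ref 1 66)))) (.both (.play 66 (.ref 308 66)) (.both (.play 130 (.ref 303 66)) (.play 132 (.ref 411 66)))))))
 (.one (.play 261 (.both (.play 197 (.ref 87 4)) (.play 260 (.both (.play 327 (.ref 616 192)) (.play 453 (.ref 84 196))))))))))
 (.seq (.seq (.one (.play 259 (.both (.play 195 (.ref 79 2)) (.play 260 (.both (.play 321 (.ref 504 192)) (.play 451 (.ref 76 194)))))))
 (.one (.play 256 (.both (.play 192 (.ref 6 0)) (.ref 841 64)))))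
 (.seq (.one (.play 259 (.both (.play 195 (.ref 87 2)) (.both (.ref 70 66) (.both (.play 195 (.both (.play 258 (.both (.ref 518 128) (.both (.play 451 (.ref 84 194)) (.play 257 (.ref 543 256))))) (.play 131 (.ref 4 131)))) (.play 451 (.both (.ref 544 192) (.both (.play 515 (.ref 64 194)) (.ref 1014 258)))))))))
 (.seq (.one (.play 196 (.both (.play 197 (.both (.play 198 (.both (.play 199 (.both (.play 263 (.both (.play 135 (.both (.ref 226 6) (.play 136 (.ref 2 132)))) (.play 264 (.ref 0 196)))) (.both (.play 200 (.ref 16 131)) (.both (.play 200 (.ref 17 131)) (.play 200 (.ref 12 132)))))) (.play 195 (.ref 1 194)))) (.play 260 (.ref 2 193)))) (.play 256 (.ref 2 192)))))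
 (.one (.play 257 (.both (.play 193 (.both (.play 2 (.ref 6 1)) (.ref 480 128))) (.play 321 (.ref 6 65))))))))))))
 (.seq (.seq (.seq (.seq (.seq (.seq (.one (.both (.play 65 (.ref 35 0)) (.play 384 (.ref 6 128))))
 (.one (.play 129 (.both (.play 65 (.ref 26 1)) (.play 384 (.ref 6 128))))))
 (.seq (.one (.play 261 (.both (.play 453 (.both (.play 260 (.both (.play 262 (.both (.play 263 (.both (.play 200 (.both (.play 264 (.both (.play 265 (.both (.play 329 (.both (.play 328 (.ref 602 5)) (.play 330 (.ref 0 262)))) (.play 326 (.ref 1 261)))) (.play 201 (.ref 2 197)))) (.play 199 (.ref 2 196)))) (.both (.play 200 (.both (.play 264 (.both (.ref 625 192) (.play 201 (.ref 2 197)))) (.play 199 (.ref 2 196)))) (.both (.play 327 (.ref 82 193)) (.play 264 (.ref 12 196)))))) (.play 198 (.ref 5 197)))) (.play 196 (.ref 7 196)))) (.both (.play 517 (.ref 25 196)) (.play 517 (.ref 23 260))))) (.both (.play 197 (.ref 549 68)) (.both (.ref 37 68) (.both (.ref 1019 68) (.play 197 (.ref 1018 68))))))))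
 (.one (.play 196 (.both (.ref 865 1) (.play 257 (.ref 2 192)))))))
 (.seq (.seq (.one (.play 258 (.both (.ref 924 0) (.play 322 (.ref 7 65)))))
 (.one (.play 261 (.both (.play 197 (.ref 79 4)) (.both (.play 197 (.ref 549 68)) (.both (.ref 741 129) (.play 262 (.both (.play 453 (.both (.play 198 (.ref 5 197)) (.ref 1022 259))) (.both (.play 453 (.ref 76 196)) (.play 263 (.ref 567 256)))))))))))
 (.seq (.one (.play 131 (.both (.play 67 (.ref 64 2)) (.both (.play 67 (.ref 36 2)) (.both (.play 67 (.ref 25 2)) (.play 132 (.ref 973 64)))))))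
 (.seq (.one (.play 262 (.both (.play 454 (.both (.ref 563 0) (.both (.play 518 (.ref 36 197)) (.both (.play 518 (.ref 35 197)) (.play 518 (.ref 26 198)))))) (.both (.ref 1024 67) (.both (.ref 505 69) (.both (.play 454 (.ref 627 133)) (.both (.ref 226 133) (.play 454 (.both (.play 198 (.ref 25 133)) (.both (.play 518 (.ref 26 198)) (.play 518 (.ref 23 261))))))))))))
 (.one (.both (.play 68 (.ref 973 0)) (.play 322 (.ref 6 66))))))))
 (.seq (.seq (.seq (.one (.play 389 (.both (.play 326 (.both (.ref 1004 2) (.both (.play 325 (.both (.play 324 (.both (.play 388 (.both (.ref 480 259) (.ref 488 324))) (.play 260 (.ref 7 260)))) (.play 262 (.ref 5 261)))) (.ref 883 324)))) (.both (.play 388 (.both (.play 324 (.ref 87 131)) (.both (.play 324 (.both (.ref 544 257) (.play 260 (.ref 4 260)))) (.play 581 (.ref 533 323))))) (.both (.play 324 (.both (.play 388 (.both (.play 325 (.ref 520 256)) (.play 581 (.ref 7 324)))) (.both (.play 325 (.ref 275 260)) (.play 388 (.ref 489 260))))) (.both (.ref 741 257) (.both (.play 325 (.both (.play 326 (.ref 973 258)) (.play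 261 (.ref 6 260)))) (.both (.ref 982 259) (.both (.play 325 (.both (.play 261 (.ref 6 260)) (.play 581 (.ref 36 260)))) (.play 326 (.both (.ref 135 260) (.ref 531 324))))))))))))
 (.one (.play 194 (.both (.play 193 (.both (.ref 559 0) (.play 130 (.ref 5 129)))) (.play 258 (.ref 5 193))))))
 (.seq (.one (.play 325 (.both (.play 327 (.both (.play 263 (.ref 538 6)) (.both (.play 263 (.ref 851 258)) (.both (.play 324 (.both (.play 323 (.ref 19 258)) (.both (.play 328 (.ref 12 260)) (.play 391 (.ref 118 323))))) (.play 261 (.ref 785 260)))))) (.both (.play 261 (.ref 541 4)) (.both (.play 324 (.both (.play 327 (.both (.play 263 (.both (.play 391 (.both (.play 199 (.ref 549 70)) (.play 392 (.ref 0 324)))) (.play 264 (.ref 2 260)))) (.both (.play 328 (.ref 13 259)) (.play 328 (.ref 10 323))))) (.both (.play 323 (.both (.ref 81 256) (.both (.play 322 (.ref 19 257)) (.both (.play 259 (.ref 613 258)) (.ref 245 321))))) (.both (.ref 501 257) (.play 391 (.ref 222 323)))))) (.play 518 (.ref 536 258)))))))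
 (.seq (.one (.play 193 (.both (.play 384 (.ref 79 0)) (.play 386 (.ref 4 193)))))
 (.one (.play 450 (.both (.ref 1030 0) (.play 514 (.ref 4 257))))))))
 (.seq (.seq (.one (.play 257 (.both (.ref 1031 0) (.both (.play 450 (.ref 87 64)) (.ref 34 192)))))
 (.one (.play 390 (.both (.play 326 (.both (.ref 1032 5) (.both (.ref 1000 69) (.play 582 (.ref 64 261))))) (.both (.ref 1029 64) (.both (.play 326 (.both (.ref 1000 69) (.both (.ref 73 133) (.both (.play 517 (.ref 79 133)) (.play 582 (.ref 25 261)))))) (.both (.play 326 (.both (.ref 1028 69) (.both (.ref 1000 69) (.both (.play 262 (.ref 25 197)) (.play 582 (.ref 25 261)))))) (.both (.ref 1024 195) (.both (.ref 505 197) (.play 326 (.ref 979 259)))))))))))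
 (.seq (.one (.play 66 (.both (.play 6 (.ref 2 2)) (.play 65 (.ref 10 64)))))
 (.seq (.one (.play 3 (.both (.play 68 (.both (.ref 1034 0) (.play 2 (.ref 3 2)))) (.both (.play 2 (.ref 308 2)) (.both (.play 66 (.ref 303 2)) (.play 4 (.ref 217 2)))))))
 (.one (.both (.play 257 (.both (.ref 27 0) (.play 256 (.ref 1 192)))) (.play 128 (.ref 3 128)))))))))
 (.seq (.seq (.seq (.seq (.one (.play 196 (.both (.play 260 (.ref 4 3)) (.play 130 (.ref 543 128)))))
 (.one (.play 193 (.both (.ref 86 0) (.both (.play 129 (.ref 36 64)) (.both (.ref 359 65) (.play 192 (.both (.play 128 (.ref 7 128)) (.ref 971 192)))))))))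
 (.seq (.one (.play 259 (.both (.play 195 (.both (.ref 1024 0) (.play 387 (.ref 4 195)))) (.play 324 (.ref 7 259)))))
 (.seq (.one (.play 68 (.both (.play 130 (.ref 504 0)) (.play 259 (.ref 77 2)))))
 (.one (.play 323 (.both (.ref 1039 0) (.play 580 (.ref 7 323))))))))
 (.seq (.seq (.one (.play 387 (.both (.ref 1041 0) (.play 455 (.ref 3 387)))))
 (.one (.play 453 (.both (.play 455 (.both (.play 454 (.both (.play 581 (.both (.play 389 (.both (.ref 1042 1) (.play 645 (.ref 23 388)))) (.both (.play 583 (.both (.play 582 (.both (.play 389 (.both (.ref 1042 1) (.play 646 (.ref 4 389)))) (.play 580 (.ref 2 516)))) (.both (.play 647 (.ref 85 390)) (.ref 723 390)))) (.both (.play 389 (.both (.ref 1042 1) (.both (.play 325 (.ref 36 260)) (.play 645 (.ref 25 324))))) (.play 645 (.ref 77 388)))))) (.play 452 (.ref 0 452)))) (.both (.play 454 (.both (.play 391 (.both (.play 328 (.both (.ref 1004 4) (.both (.play 392 (.ref 538 71)) (.both (.play 327 (.both (.play 263 (.both (.play 262 (.both (.play 198 (.ref 7 198)) (.play 326 (.ref 785 261)))) (.play 456 (.ref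 4 263)))) (.play 264 (.ref 5 263)))) (.play 583 (.both (.play 392 (.ref 5 327)) (.play 646 (.both (.play 582 (.ref 6 390)) (.play 647 (.both (.play 711 (.both (.play 456 (.ref 5 455)) (.ref 716 514))) (.play 710 (.ref 6 454)))))))))))) (.both (.play 327 (.ref 87 134)) (.both (.ref 70 198) (.play 392 (.both (.play 583 (.ref 77 326)) (.play 393 (.ref 104 389)))))))) (.play 452 (.ref 0 452)))) (.both (.play 391 (.both (.play 392 (.both (.ref 1005 4) (.both (.play 454 (.ref 504 324)) (.play 583 (.ref 508 326))))) (.both (.ref 70 198) (.both (.play 583 (.ref 557 262)) (.ref 1040 324))))) (.both (.play 454 (.both (.play 389 (.both (.ref 993 64) (.both (.play 388 (.ref 616 320)) (.play 388 (.ref 614 324))))) (.play 452 (.ref 0 452)))) (.both (.play 391 (.both (.play 327 (.both (.ref 564 70) (.both (.ref 691 70) (.both (.ref 86 134) (.both (.play 263 (.ref 36 198)) (.play 583 (.ref 36 262))))))) (.both (.play 583 (.both (.play 392 (.both (.play 584 (.both (.play 393 (.both (.play 329 (.both (.ref 1016 134) (.play 456 (.ref 5 328)))) (.both (.ref 890 324)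 (.both (.ref 480 326) (.play 394 (.ref 40 326)))))) (.play 648 (.ref 4 391)))) (.play 328 (.ref 5 327)))) (.both (.play 647 (.ref 36 326)) (.both (.play 647 (.ref 35 326)) (.play 647 (.ref 26 327)))))) (.both (.play 327 (.ref 87 134)) (.ref 70 198))))) (.both (.play 391 (.both (.ref 869 68) (.both (.play 327 (.ref 87 134)) (.ref 1040 324)))) (.both (.play 391 (.both (.play 327 (.ref 87 134)) (.both (.ref 1038 134) (.both (.ref 70 198) (.play 390 (.both (.play 389 (.both (.ref 501 322) (.both (.ref 964 323) (.both (.ref 480 324) (.play 392 (.both (.play 393 (.ref 17 324)) (.play 452 (.ref 1 388)))))))) (.both (.play 392 (.both (.ref 552 323) (.play 583 (.ref 77 326)))) (.play 583 (.ref 85 326))))))))) (.both (.ref 1009 131) (.both (.ref 1008 132) (.play 391 (.both (.play 583 (.ref 979 324)) (.both (.play 584 (.ref 66 326)) (.play 584 (.ref 489 327))))))))))))))) (.both (.play 581 (.both (.play 388 (.both (.ref 1039 65) (.both (.play 389 (.ref 85 324)) (.ref 83 388)))) (.both (.play 580 (.both (.play 644 (.ref 991 385)) (.play 518 (.ref 1 516)))) (.both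 (.ref 994 388) (.play 518 (.ref 345 452)))))) (.both (.play 518 (.both (.play 581 (.both (.ref 796 129) (.play 580 (.ref 1 516)))) (.play 452 (.ref 3 452)))) (.both (.play 452 (.both (.play 455 (.both (.play 391 (.both (.play 327 (.ref 87 134)) (.both (.ref 1038 134) (.both (.ref 70 198) (.play 583 (.both (.play 392 (.ref 424 324)) (.play 647 (.ref 23 390)))))))) (.play 454 (.ref 0 452)))) (.play 518 (.ref 3 452)))) (.both (.play 452 (.both (.play 581 (.both (.play 455 (.both (.play 583 (.both (.play 582 (.both (.ref 724 198) (.play 580 (.ref 2 516)))) (.both (.play 582 (.both (.play 391 (.ref 549 262)) (.play 580 (.ref 2 516)))) (.both (.ref 37 262) (.both (.ref 27 326) (.play 647 (.both (.play 711 (.ref 25 390)) (.both (.play 711 (.ref 26 391)) (.ref 1037 452))))))))) (.play 454 (.ref 0 452)))) (.both (.play 454 (.both (.play 390 (.ref 851 385)) (.play 455 (.ref 0 452)))) (.play 645 (.ref 85 388))))) (.play 518 (.ref 3 452)))) (.both (.play 581 (.both (.play 389 (.ref 627 260)) (.both (.ref 37 260) (.both (.ref 550 260) (.both (.ref 997 385) (.play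 580 (.both (.play 644 (.both (.play 389 (.ref 6 388)) (.play 645 (.ref 671 449)))) (.play 518 (.ref 1 516))))))))) (.both (.play 581 (.ref 995 260)) (.play 518 (.ref 1036 324))))))))))))
 (.seq (.one (.play 256 (.both (.play 192 (.ref 6 0)) (.ref 909 0))))
 (.seq (.one (.play 257 (.both (.play 66 (.ref 5 1)) (.ref 1044 64))))
 (.one (.play 260 (.both (.play 195 (.ref 4 3)) (.play 324 (.both (.play 132 (.ref 7 67)) (.ref 997 128))))))))))
 (.seq (.seq (.seq (.one (.play 258 (.both (.play 257 (.ref 794 0)) (.play 194 (.ref 7 194)))))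
 (.one (.play 259 (.both (.ref 1047 0) (.both (.play 195 (.ref 64 130)) (.play 195 (.ref 25 130)))))))
 (.seq (.one (.play 259 (.both (.ref 1047 0) (.both (.play 195 (.ref 36 130)) (.both (.play 195 (.ref 35 130)) (.play 195 (.ref 26 131)))))))
 (.seq (.one (.play 257 (.both (.ref 22 0) (.both (.play 192 (.both (.play 256 (.ref 6 0)) (.ref 531 64))) (.ref 75 64)))))
 (.one (.both (.ref 863 4) (.both (.play 196 (.both (.play 197 (.both (.play 133 (.both (.ref 568 64) (.play 390 (.ref 4 133)))) (.play 132 (.ref 7 132)))) (.play 260 (.ref 7 196)))) (.both (.play 452 (.ref 79 68)) (.both (.play 197 (.ref 64 132)) (.ref 1050 260)))))))))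
 (.seq (.seq (.one (.both (.ref 498 1) (.play 64 (.ref 3 64))))
 (.one (.both (.play 132 (.ref 1052 0)) (.play 128 (.ref 2 64)))))
 (.seq (.one (.play 194 (.both (.play 258 (.ref 4 1)) (.ref 235 128))))
 (.seq (.one (.play 324 (.both (.ref 1019 4) (.both (.play 388 (.ref 991 129)) (.play 262 (.ref 567 256))))))
 (.one (.play 324 (.both (.play 133 (.ref 549 4)) (.play 262 (.ref 567 256)))))))))))
 (.seq (.seq (.seq (.seq (.seq (.one (.play 391 (.both (.play 325 (.both (.ref 1056 0) (.both (.ref 1055 0) (.both (.play 133 (.ref 269 4)) (.both (.play 389 (.both (.play 133 (.ref 64 68)) (.both (.play 453 (.ref 23 196)) (.ref 1054 196)))) (.play 262 (.both (.play 196 (.ref 614 132)) (.both (.play 389 (.both (.play 453 (.ref 23 196)) (.both (.ref 1054 196) (.ref 1050 196)))) (.play 324 (.ref 567 256)))))))))) (.both (.play 327 (.both (.play 136 (.ref 5 135)) (.play 390 (.ref 671 195)))) (.both (.play 327 (.ref 77 134)) (.both (.play 327 (.ref 76 134)) (.both (.play 327 (.ref 829 134)) (.play 327 (.both (.play 136 (.ref 5 135)) (.ref 1045 198))))))))))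
 (.one (.play 262 (.both (.play 325 (.both (.play 133 (.both (.play 69 (.ref 36 4)) (.both (.play 69 (.ref 26 5)) (.play 68 (.both (.play 132 (.ref 7 68)) (.play 389 (.both (.ref 21 133) (.both (.play 453 (.both (.play 326 (.both (.ref 788 192) (.play 517 (.ref 5 261)))) (.both (.ref 22 196) (.ref 75 260)))) (.both (.ref 984 193) (.play 453 (.ref 23 196))))))))))) (.both (.play 324 (.ref 607 4)) (.play 324 (.ref 567 256))))) (.play 260 (.ref 2 196))))))
 (.seq (.one (.play 384 (.both (.play 257 (.both (.play 193 (.ref 79 0)) (.both (.play 193 (.both (.ref 78 0) (.both (.ref 197 64) (.both (.play 129 (.ref 36 64)) (.ref 884 128))))) (.both (.play 193 (.ref 549 64)) (.play 449 (.both (.ref 425 192) (.play 513 (.ref 23 256)))))))) (.play 386 (.ref 2 320)))))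
 (.one (.play 196 (.both (.play 260 (.ref 6 4)) (.play 134 (.ref 567 128)))))))
 (.seq (.seq (.one (.play 456 (.both (.play 265 (.ref 538 8)) (.both (.play 454 (.both (.play 518 (.both (.ref 1031 69) (.both (.ref 1060 321) (.both (.play 582 (.ref 23 325)) (.both (.ref 635 325) (.ref 1044 325)))))) (.both (.play 455 (.both (.ref 70 133) (.play 389 (.both (.play 388 (.both (.play 387 (.both (.play 386 (.ref 978 192)) (.play 390 (.ref 0 387)))) (.play 453 (.ref 3 388)))) (.play 457 (.ref 3 389)))))) (.both (.ref 505 133) (.both (.play 262 (.ref 627 133)) (.play 518 (.both (.play 582 (.ref 64 261)) (.both (.play 582 (.ref 35 261)) (.ref 1060 321))))))))) (.play 520 (.ref 77 263))))))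
 (.one (.play 66 (.both (.play 2 (.ref 7 2)) (.play 65 (.ref 217 64))))))
 (.seq (.one (.both (.ref 1041 0) (.play 389 (.ref 0 387))))
 (.seq (.one (.play 196 (.both (.ref 589 1) (.play 128 (.ref 3 128)))))
 (.one (.play 262 (.both (.play 325 (.both (.play 324 (.ref 607 4)) (.both (.play 133 (.both (.play 69 (.ref 36 4)) (.both (.play 326 (.ref 124 69)) (.play 389 (.ref 23 132))))) (.both (.play 196 (.ref 614 132)) (.play 324 (.ref 567 256)))))) (.play 260 (.ref 2 196)))))))))
 (.seq (.seq (.seq (.one (.play 388 (.both (.ref 1005 0) (.both (.play 389 (.ref 794 130)) (.play 579 (.ref 508 322))))))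
 (.one (.play 195 (.both (.play 259 (.ref 991 0)) (.play 135 (.ref 1 131))))))
 (.seq (.one (.play 260 (.both (.play 3 (.ref 4 3)) (.ref 1046 64))))
 (.seq (.one (.play 66 (.both (.play 257 (.ref 77 0)) (.play 64 (.ref 0 64)))))
 (.one (.play 649 (.both (.play 713 (.both (.play 522 (.both (.play 458 (.both (.play 394 (.both (.play 330 (.both (.ref 1032 9) (.both (.ref 1028 73) (.both (.ref 73 137) (.both (.ref 178 201) (.play 331 (.ref 973 263))))))) (.play 586 (.ref 6 393)))) (.play 521 (.ref 5 457)))) (.play 777 (.ref 5 521)))) (.both (.play 648 (.both (.play 647 (.both (.play 711 (.both (.ref 1042 195) (.both (.play 775 (.ref 1051 322)) (.both (.play 710 (.ref 607 390)) (.play 710 (.ref 567 642)))))) (.play 646 (.ref 2 582)))) (.both (.play 647 (.both (.play 714 (.both (.ref 727 328) (.both (.ref 1068 518) (.play 715 (.ref 242 647))))) (.play 646 (.ref 2 582)))) (.both (.play 777 (.both (.ref 932 328) (.both (.ref 75 584) (.ref 920 584)))) (.play 647 (.ref 1053 518)))))) (.both (.ref 1049 262) (.play 777 (.ref 76 520)))))) (.both (.play 647 (.both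 (.play 711 (.both (.play 650 (.both (.play 521 (.both (.play 518 (.both (.play 519 (.ref 1063 131)) (.ref 83 518))) (.both (.play 457 (.ref 87 264)) (.play 714 (.ref 489 457))))) (.both (.ref 550 390) (.play 648 (.ref 1052 518))))) (.both (.ref 1056 386) (.both (.ref 1055 386) (.both (.play 519 (.ref 627 390)) (.both (.play 519 (.ref 269 390)) (.play 648 (.both (.play 582 (.ref 614 518)) (.both (.play 775 (.both (.play 839 (.both (.play 710 (.both (.ref 716 578) (.both (.ref 786 580) (.ref 920 646)))) (.both (.ref 21 583) (.ref 75 646)))) (.both (.ref 989 580) (.both (.play 840 (.both (.play 776 (.ref 4 583)) (.play 839 (.both (.play 903 (.both (.ref 1017 645) (.play 712 (.ref 5 647)))) (.play 904 (.ref 4 647)))))) (.both (.play 839 (.ref 23 582)) (.ref 1050 582)))))) (.play 710 (.ref 567 642))))))))))) (.both (.ref 1059 262) (.both (.play 521 (.both (.play 519 (.both (.play 520 (.both (.play 455 (.both (.play 391 (.ref 64 326)) (.both (.play 391 (.ref 25 326)) (.play 456 (.ref 520 387))))) (.play 518 (.ref 0 518)))) (.both (.ref 998 326) (.both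 (.ref 505 326) (.both (.ref 226 390) (.both (.ref 1069 454) (.play 518 (.both (.play 711 (.ref 84 454)) (.play 520 (.ref 0 518)))))))))) (.both (.play 457 (.ref 269 328)) (.play 713 (.both (.play 650 (.both (.play 457 (.ref 124 393)) (.play 711 (.both (.ref 226 454) (.both (.play 775 (.ref 557 454)) (.both (.play 710 (.both (.play 774 (.ref 991 515)) (.play 712 (.ref 2 646)))) (.both (.play 712 (.both (.play 776 (.ref 6 520)) (.play 710 (.ref 67 644)))) (.play 712 (.both (.ref 1068 516) (.play 710 (.ref 2 646))))))))))) (.both (.play 777 (.both (.play 714 (.both (.play 650 (.both (.play 457 (.ref 4 457)) (.play 841 (.ref 76 584)))) (.play 778 (.ref 4 521)))) (.both (.ref 21 521) (.ref 75 584)))) (.both (.play 712 (.both (.play 711 (.both (.play 710 (.both (.play 774 (.both (.play 773 (.both (.play 772 (.both (.play 771 (.both (.play 770 (.both (.ref 996 513) (.both (.play 769 (.ref 16 704)) (.both (.play 769 (.ref 19 704)) (.play 769 (.ref 10 768)))))) (.play 774 (.ref 2 707)))) (.play 709 (.ref 1 708)))) (.play 713 (.ref 1 709)))) (.play 519 (.ref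 6 518)))) (.play 650 (.ref 2 646)))) (.both (.play 714 (.both (.play 778 (.ref 4 521)) (.play 710 (.ref 19 645)))) (.both (.ref 1064 518) (.play 710 (.ref 67 644)))))) (.play 776 (.ref 6 520)))) (.both (.ref 984 517) (.play 777 (.ref 23 520)))))))))) (.both (.ref 1058 386) (.play 648 (.ref 1053 518))))))) (.both (.play 647 (.both (.ref 1006 131) (.both (.play 519 (.both (.ref 1066 132) (.both (.ref 1003 262) (.both (.play 648 (.both (.ref 70 326) (.play 650 (.ref 1052 518)))) (.both (.play 711 (.ref 627 390)) (.play 711 (.ref 557 390))))))) (.both (.play 648 (.both (.play 519 (.both (.play 521 (.both (.ref 724 264) (.both (.play 457 (.ref 549 328)) (.play 520 (.both (.play 711 (.both (.play 456 (.ref 5 455)) (.ref 1067 515))) (.play 518 (.ref 0 518))))))) (.both (.ref 70 326) (.both (.play 711 (.both (.play 455 (.ref 36 390)) (.ref 1067 515))) (.play 711 (.both (.play 455 (.ref 35 390)) (.ref 1067 515))))))) (.play 646 (.ref 2 582)))) (.both (.ref 1065 386) (.play 648 (.ref 1053 518))))))) (.both (.play 647 (.both (.play 648 (.both (.play 519 (.both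 (.ref 1066 132) (.both (.ref 1003 262) (.both (.ref 70 326) (.ref 689 451))))) (.both (.play 711 (.both (.ref 985 323) (.both (.play 710 (.ref 607 390)) (.play 710 (.ref 567 642))))) (.ref 1064 454)))) (.both (.ref 1006 131) (.both (.ref 1058 386) (.both (.ref 1065 386) (.play 648 (.both (.ref 1064 454) (.play 646 (.ref 2 582))))))))) (.both (.play 713 (.both (.play 521 (.both (.play 712 (.both (.play 519 (.both (.play 647 (.both (.play 518 (.ref 1063 131)) (.both (.ref 558 326) (.ref 1037 518)))) (.both (.play 647 (.both (.ref 505 326) (.both (.ref 86 326) (.ref 1037 518)))) (.both (.play 647 (.both (.ref 998 326) (.both (.ref 86 326) (.ref 1037 518)))) (.play 520 (.ref 399 454)))))) (.play 776 (.ref 6 520)))) (.both (.play 457 (.ref 64 392)) (.both (.play 457 (.ref 35 392)) (.play 457 (.ref 23 456)))))) (.both (.play 777 (.ref 77 520)) (.play 777 (.ref 76 520))))) (.both (.play 522 (.both (.play 458 (.both (.ref 1029 132) (.play 394 (.ref 6 393)))) (.both (.play 713 (.ref 538 265)) (.both (.ref 527 392) (.play 713 (.both (.play 521 (.both (.ref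 1062 454) (.ref 787 454))) (.play 777 (.ref 5 521)))))))) (.both (.play 647 (.both (.ref 1061 257) (.both (.play 519 (.both (.play 646 (.both (.play 455 (.ref 79 262)) (.play 648 (.ref 2 582)))) (.both (.ref 505 326) (.both (.play 648 (.both (.ref 70 326) (.play 646 (.ref 2 582)))) (.both (.ref 226 390) (.both (.play 711 (.ref 557 390)) (.play 648 (.both (.ref 689 451) (.play 646 (.ref 2 582)))))))))) (.both (.play 648 (.both (.play 650 (.both (.play 714 (.both (.play 778 (.both (.play 777 (.both (.play 522 (.both (.play 459 (.both (.play 458 (.both (.play 394 (.both (.ref 544 327) (.play 649 (.ref 6 393)))) (.play 395 (.ref 5 394)))) (.play 523 (.ref 5 458)))) (.play 713 (.ref 6 521)))) (.play 841 (.ref 6 585)))) (.play 842 (.ref 7 585)))) (.play 715 (.ref 0 647)))) (.play 582 (.ref 3 582)))) (.play 646 (.ref 2 582)))) (.both (.ref 1058 386) (.both (.ref 1057 386) (.play 648 (.both (.play 650 (.both (.play 714 (.both (.ref 1022 520) (.play 715 (.ref 0 647)))) (.play 582 (.ref 3 582)))) (.play 646 (.ref 2 582)))))))))) (.both (.play 647 (.both (.ref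 1061 257) (.both (.ref 1059 262) (.both (.ref 1058 386) (.both (.ref 1057 386) (.play 648 (.ref 1053 518))))))) (.both (.play 713 (.both (.play 521 (.ref 1051 260)) (.both (.ref 1048 262) (.play 777 (.ref 76 520))))) (.both (.play 713 (.both (.ref 1049 262) (.both (.play 777 (.both (.ref 512 517) (.both (.ref 320 584) (.play 842 (.ref 250 585))))) (.both (.play 777 (.ref 77 520)) (.play 777 (.ref 76 520)))))) (.both (.play 713 (.both (.ref 1049 262) (.both (.ref 1001 328) (.both (.play 777 (.ref 77 520)) (.play 777 (.ref 76 520)))))) (.both (.play 713 (.both (.ref 1048 262) (.both (.play 778 (.both (.play 777 (.both (.play 776 (.both (.play 712 (.both (.ref 537 328) (.ref 235 711))) (.play 840 (.ref 6 584)))) (.play 842 (.ref 4 585)))) (.both (.ref 1030 328) (.ref 1046 582)))) (.both (.play 522 (.ref 144 393)) (.play 777 (.ref 77 520)))))) (.play 713 (.both (.play 521 (.both (.play 457 (.ref 25 392)) (.both (.play 457 (.ref 26 393)) (.both (.play 714 (.both (.play 522 (.both (.play 458 (.ref 5 457)) (.ref 987 518))) (.play 778 (.ref 4 521)))) (.play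 457 (.ref 23 456)))))) (.both (.play 777 (.ref 77 520)) (.both (.play 777 (.ref 76 520)) (.play 777 (.both (.play 521 (.ref 23 520)) (.both (.ref 75 584) (.both (.ref 828 584) (.ref 1045 584))))))))))))))))))))))))))
 (.seq (.seq (.one (.play 583 (.both (.ref 1070 0) (.both (.ref 1043 66) (.both (.play 521 (.both (.ref 1033 67) (.both (.play 522 (.both (.ref 1027 69) (.play 584 (.ref 484 516)))) (.both (.ref 1025 195) (.both (.ref 1010 196) (.both (.play 522 (.both (.ref 1023 197) (.both (.ref 1021 327) (.both (.play 584 (.ref 484 516)) (.ref 1035 516))))) (.both (.play 584 (.both (.ref 1020 196) (.both (.ref 1034 516) (.both (.ref 486 516) (.play 582 (.ref 17 517)))))) (.both (.play 522 (.both (.ref 1013 199) (.both (.play 584 (.ref 484 516)) (.ref 1035 516)))) (.both (.play 522 (.both (.ref 1015 198) (.both (.play 584 (.ref 484 516)) (.ref 1035 516)))) (.both (.play 522 (.both (.ref 1012 196) (.both (.play 584 (.ref 484 516)) (.both (.ref 1035 516) (.play 584 (.ref 577 516)))))) (.both (.ref 1009 197) (.both (.ref 1008 198) (.ref 1007 390)))))))))))))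 (.both (.play 521 (.both (.ref 1033 67) (.both (.play 522 (.both (.ref 1027 69) (.both (.play 523 (.both (.play 584 (.both (.play 393 (.both (.play 394 (.both (.play 395 (.both (.play 459 (.both (.play 396 (.both (.ref 770 137) (.both (.play 397 (.ref 16 328)) (.play 397 (.ref 17 328))))) (.play 331 (.ref 6 330)))) (.both (.play 331 (.both (.play 392 (.ref 484 325)) (.play 459 (.ref 6 330)))) (.both (.ref 45 326) (.both (.ref 967 326) (.both (.ref 964 327) (.ref 18 327))))))) (.both (.play 458 (.both (.ref 524 137) (.play 329 (.ref 7 329)))) (.both (.play 458 (.both (.play 330 (.both (.ref 992 262) (.play 521 (.ref 6 329)))) (.play 329 (.ref 7 329)))) (.both (.play 395 (.both (.play 392 (.ref 71 326)) (.both (.ref 890 326) (.both (.ref 969 328) (.play 458 (.ref 103 329)))))) (.play 458 (.both (.play 395 (.both (.play 459 (.both (.ref 501 326) (.play 650 (.ref 528 393)))) (.play 331 (.ref 5 330)))) (.play 330 (.ref 6 329))))))))) (.both (.play 457 (.ref 1018 264)) (.both (.play 457 (.ref 1026 326)) (.play 457 (.ref 489 329)))))) (.play 583 (.ref 2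 519)))) (.both (.play 524 (.ref 500 264)) (.ref 480 456)))) (.both (.ref 1011 452) (.play 584 (.ref 504 454)))))) (.both (.ref 1025 195) (.both (.play 522 (.both (.ref 1023 197) (.both (.ref 1021 327) (.both (.play 584 (.ref 487 515)) (.play 519 (.ref 981 518)))))) (.both (.play 584 (.both (.ref 1020 196) (.both (.play 649 (.both (.play 713 (.both (.play 778 (.both (.play 777 (.both (.play 648 (.both (.play 457 (.ref 79 264)) (.play 841 (.ref 7 584)))) (.play 842 (.ref 4 585)))) (.play 714 (.ref 4 521)))) (.both (.play 712 (.ref 79 328)) (.both (.play 778 (.both (.play 714 (.ref 4 521)) (.play 777 (.both (.play 841 (.both (.ref 1017 583) (.play 648 (.ref 7 584)))) (.play 842 (.ref 4 585)))))) (.play 777 (.ref 23 520)))))) (.both (.play 650 (.ref 602 326)) (.play 582 (.ref 82 515))))) (.both (.ref 1016 326) (.play 582 (.ref 17 517)))))) (.both (.play 522 (.both (.ref 1015 198) (.both (.play 584 (.ref 487 515)) (.play 519 (.ref 981 518))))) (.both (.play 522 (.both (.ref 1013 199) (.both (.play 584 (.ref 487 515)) (.play 519 (.ref 981 518))))) (.both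 (.play 522 (.both (.ref 1012 196) (.both (.ref 1011 452) (.both (.play 584 (.both (.ref 761 454) (.play 582 (.ref 2 518)))) (.play 584 (.ref 487 515)))))) (.both (.ref 1010 196) (.both (.ref 1009 197) (.both (.ref 1008 198) (.both (.play 457 (.both (.ref 70 264) (.both (.ref 744 328) (.both (.play 649 (.both (.play 456 (.ref 536 389)) (.both (.play 713 (.ref 35 392)) (.play 713 (.ref 26 393))))) (.play 650 (.ref 56 393)))))) (.ref 1007 390)))))))))))))) (.both (.play 647 (.both (.ref 1006 131) (.both (.play 519 (.both (.ref 1002 323) (.both (.play 518 (.both (.play 454 (.both (.play 455 (.ref 536 387)) (.play 711 (.ref 7 454)))) (.play 584 (.ref 3 518)))) (.both (.play 711 (.ref 627 390)) (.both (.ref 27 390) (.ref 994 454)))))) (.both (.play 584 (.ref 38 326)) (.both (.play 646 (.both (.play 649 (.both (.play 713 (.both (.ref 1001 328) (.both (.play 521 (.both (.play 457 (.ref 36 392)) (.play 714 (.ref 315 518)))) (.both (.play 777 (.ref 77 520)) (.play 777 (.ref 76 520)))))) (.play 648 (.ref 2 582)))) (.play 584 (.ref 1 582)))) (.play 584 (.ref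 546 517))))))) (.both (.play 647 (.both (.play 519 (.both (.play 455 (.both (.ref 563 193) (.both (.play 391 (.ref 36 326)) (.both (.play 391 (.ref 35 326)) (.play 391 (.ref 26 327)))))) (.both (.ref 27 390) (.both (.play 711 (.ref 557 390)) (.both (.ref 744 390) (.ref 994 454)))))) (.both (.play 519 (.both (.play 455 (.both (.play 648 (.ref 87 262)) (.both (.play 646 (.ref 79 262)) (.play 711 (.ref 23 454))))) (.both (.play 455 (.both (.play 391 (.ref 25 326)) (.both (.play 391 (.ref 26 327)) (.play 646 (.ref 671 451))))) (.both (.ref 998 326) (.both (.ref 37 326) (.ref 997 451)))))) (.both (.play 646 (.both (.play 648 (.both (.play 645 (.both (.play 644 (.both (.play 710 (.both (.ref 597 324) (.both (.ref 490 452) (.ref 605 576)))) (.both (.ref 29 577) (.play 580 (.ref 15 579))))) (.both (.play 580 (.both (.play 644 (.both (.play 643 (.both (.ref 608 386) (.play 582 (.ref 2 579)))) (.play 579 (.ref 3 579)))) (.play 581 (.ref 3 580)))) (.both (.ref 996 388) (.both (.play 644 (.both (.play 709 (.both (.ref 578 576) (.play 708 (.ref 1 644)))) (.both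 (.ref 29 577) (.ref 9 643)))) (.play 644 (.ref 19 579))))))) (.play 649 (.ref 2 582)))) (.play 584 (.ref 1 582)))) (.both (.play 519 (.ref 995 326)) (.both (.play 584 (.ref 38 326)) (.both (.play 711 (.both (.play 519 (.both (.play 455 (.ref 25 390)) (.both (.play 455 (.ref 26 391)) (.both (.play 455 (.ref 23 454)) (.ref 907 513))))) (.both (.ref 505 390) (.both (.play 519 (.ref 627 390)) (.both (.play 519 (.ref 269 390)) (.ref 990 516)))))) (.play 584 (.ref 28 390))))))))) (.both (.play 584 (.both (.play 519 (.both (.play 647 (.both (.ref 993 194) (.play 646 (.ref 1 582)))) (.play 518 (.ref 3 518)))) (.both (.play 582 (.ref 19 517)) (.both (.play 582 (.ref 17 517)) (.play 582 (.ref 13 517)))))) (.both (.play 584 (.ref 975 195)) (.both (.play 522 (.both (.play 649 (.both (.play 584 (.both (.play 582 (.both (.play 520 (.both (.ref 791 262) (.both (.ref 587 390) (.ref 601 514)))) (.both (.ref 81 515) (.ref 9 581)))) (.play 523 (.ref 2 519)))) (.both (.play 713 (.ref 538 265)) (.play 458 (.ref 991 390))))) (.both (.ref 983 259) (.both (.ref 980 263)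 (.both (.play 523 (.both (.play 524 (.both (.play 521 (.both (.play 457 (.ref 491 264)) (.both (.ref 590 328) (.play 520 (.ref 17 455))))) (.play 525 (.ref 1 521)))) (.play 584 (.ref 2 519)))) (.both (.play 584 (.ref 944 515)) (.play 584 (.ref 577 516)))))))) (.both (.play 522 (.both (.ref 983 259) (.both (.play 649 (.both (.play 713 (.ref 538 265)) (.both (.play 458 (.both (.play 650 (.both (.ref 906 390) (.both (.ref 905 390) (.both (.play 457 (.both (.play 459 (.both (.play 456 (.both (.play 455 (.ref 16 390)) (.both (.ref 988 390) (.play 524 (.both (.ref 784 392) (.play 523 (.ref 0 456))))))) (.play 395 (.ref 5 394)))) (.play 393 (.ref 7 393)))) (.play 714 (.ref 36 393)))))) (.play 394 (.ref 6 393)))) (.both (.play 713 (.both (.play 521 (.both (.play 457 (.ref 64 392)) (.both (.play 457 (.ref 35 392)) (.play 714 (.both (.ref 987 518) (.play 778 (.ref 4 521))))))) (.play 777 (.ref 5 521)))) (.both (.ref 824 392) (.both (.ref 527 392) (.ref 526 393))))))) (.both (.play 584 (.ref 487 515)) (.both (.play 584 (.ref 484 516)) (.play 584 (.ref 930 516)))))))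 (.both (.play 584 (.both (.play 519 (.both (.play 647 (.both (.ref 985 259) (.play 646 (.ref 1 582)))) (.play 518 (.ref 3 518)))) (.both (.play 582 (.ref 19 517)) (.both (.play 582 (.ref 17 517)) (.play 582 (.ref 13 517)))))) (.both (.play 522 (.both (.ref 983 259) (.both (.ref 980 263) (.both (.play 584 (.both (.play 647 (.ref 28 390)) (.play 523 (.ref 2 519)))) (.play 584 (.ref 577 516)))))) (.both (.play 522 (.both (.ref 983 259) (.both (.ref 980 263) (.play 584 (.ref 67 517))))) (.both (.play 584 (.ref 978 389)) (.play 584 (.both (.play 519 (.both (.ref 721 451) (.play 518 (.ref 3 518)))) (.both (.play 582 (.ref 19 517)) (.both (.play 582 (.ref 17 517)) (.play 582 (.ref 13 517))))))))))))))))))))))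
 (.one (.play 257 (.both (.play 321 (.ref 64 0)) (.play 66 (.ref 5 1))))))
 (.seq (.one (.play 66 (.both (.play 2 (.ref 5 1)) (.ref 1072 64))))
 (.seq (.one (.play 259 (.both (.play 194 (.ref 4 2)) (.play 323 (.both (.play 131 (.ref 7 66)) (.play 387 (.both (.ref 989 192) (.both (.play 451 (.ref 23 194)) (.both (.play 451 (.both (.ref 22 194) (.both (.play 515 (.ref 25 194)) (.ref 940 194)))) (.both (.ref 687 194) (.play 451 (.both (.ref 1073 194) (.ref 21 195)))))))))))))
 (.one (.both (.play 259 (.both (.play 2 (.ref 4 2)) (.ref 1074 64))) (.play 196 (.ref 242 128)))))))))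
 (.seq (.seq (.seq (.seq (.one (.play 134 (.both (.play 4 (.both (.play 65 (.ref 159 0)) (.play 70 (.ref 456 3)))) (.play 133 (.ref 0 66)))))
 (.one (.play 68 (.both (.ref 271 1) (.play 132 (.ref 8 64))))))
 (.seq (.one (.play 197 (.both (.play 261 (.ref 4 4)) (.play 198 (.both (.play 134 (.ref 484 128)) (.both (.play 194 (.both (.play 193 (.ref 19 128)) (.ref 1077 131))) (.both (.ref 1076 129) (.play 199 (.ref 12 131)))))))))
 (.seq (.one (.both (.ref 1078 0) (.play 259 (.ref 6 3))))
 (.one (.play 65 (.both (.play 193 (.both (.ref 75 0) (.play 192 (.ref 1 128)))) (.play 64 (.ref 3 64))))))))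
 (.seq (.seq (.one (.both (.ref 956 0) (.both (.play 131 (.both (.play 259 (.ref 5 3)) (.play 194 (.both (.ref 1080 65) (.both (.play 193 (.ref 16 128)) (.play 193 (.ref 10 192))))))) (.both (.play 131 (.both (.play 259 (.ref 5 3)) (.ref 235 130))) (.both (.play 194 (.ref 955 128)) (.ref 371 129))))))
 (.one (.play 67 (.both (.play 68 (.ref 118 0)) (.play 66 (.ref 117 1))))))
 (.seq (.one (.play 131 (.both (.play 65 (.both (.play 1 (.ref 15 0)) (.play 132 (.ref 118 64)))) (.play 130 (.ref 1 66)))))
 (.seq (.one (.play 67 (.both (.ref 486 0) (.both (.play 66 (.ref 19 1)) (.both (.ref 1083 1) (.ref 9 66))))))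
 (.one (.play 129 (.both (.play 3 (.both (.ref 803 0) (.play 70 (.ref 128 2)))) (.play 130 (.ref 1 65)))))))))
 (.seq (.seq (.seq (.one (.play 66 (.both (.ref 695 0) (.ref 9 65))))
 (.one (.play 67 (.both (.ref 1086 0) (.both (.play 66 (.ref 19 1)) (.both (.ref 1085 1) (.play 3 (.ref 42 2))))))))
 (.seq (.one (.both (.play 262 (.ref 4 5)) (.ref 1087 128)))
 (.seq (.one (.play 257 (.both (.ref 22 0) (.ref 420 64))))
 (.one (.play 257 (.both (.ref 21 1) (.play 321 (.ref 167 64))))))))
 (.seq (.seq (.one (.play 196 (.both (.play 260 (.ref 4 3)) (.play 197 (.ref 825 128)))))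
 (.one (.both (.play 71 (.both (.ref 1086 0) (.play 72 (.ref 12 4)))) (.both (.play 66 (.ref 19 1)) (.both (.ref 1085 1) (.play 3 (.ref 42 2)))))))
 (.seq (.one (.play 131 (.both (.play 134 (.both (.ref 1080 2) (.both (.play 135 (.ref 17 66)) (.play 135 (.both (.ref 11 67) (.both (.ref 750 67) (.both (.play 136 (.ref 12 68)) (.ref 1077 68)))))))) (.both (.play 130 (.ref 67 64)) (.both (.play 134 (.ref 1092 64)) (.play 70 (.ref 745 65)))))))
 (.seq (.one (.play 66 (.both (.play 1 (.both (.play 65 (.ref 410 0)) (.play 2 (.ref 3 1)))) (.ref 9 65))))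
 (.one (.play 130 (.both (.ref 1080 1) (.both (.play 129 (.ref 19 64)) (.both (.play 129 (.ref 17 64)) (.play 129 (.ref 13 64)))))))))))))))
 (.seq (.seq (.seq (.seq (.seq (.seq (.seq (.one (.play 65 (.both (.play 257 (.ref 127 1)) (.play 132 (.ref 128 64)))))
 (.one (.play 197 (.both (.play 196 (.both (.play 260 (.ref 28 3)) (.both (.play 195 (.both (.play 262 (.both (.play 194 (.both (.play 193 (.ref 13 128)) (.play 261 (.ref 0 194)))) (.play 263 (.ref 0 195)))) (.both (.play 194 (.ref 16 129)) (.play 131 (.ref 15 130))))) (.both (.play 195 (.both (.play 262 (.ref 581 128)) (.ref 9 194))) (.both (.ref 580 129) (.play 195 (.ref 19 130))))))) (.play 200 (.ref 2 133))))))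
 (.seq (.one (.play 66 (.both (.play 259 (.ref 85 2)) (.play 133 (.ref 239 64)))))
 (.one (.play 129 (.both (.play 65 (.ref 25 0)) (.both (.play 65 (.ref 26 1)) (.play 385 (.ref 23 128))))))))
 (.seq (.seq (.one (.play 322 (.both (.play 131 (.ref 549 2)) (.play 261 (.ref 95 256)))))
 (.one (.play 384 (.both (.play 258 (.both (.play 65 (.ref 124 1)) (.play 385 (.ref 233 192)))) (.play 320 (.ref 6 128))))))
 (.seq (.one (.play 65 (.both (.ref 34 0) (.play 258 (.ref 124 1)))))
 (.seq (.one (.play 321 (.both (.ref 1102 0) (.both (.ref 1101 0) (.play 385 (.ref 64 64))))))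
 (.one (.play 257 (.both (.ref 22 0) (.play 321 (.ref 349 65)))))))))
 (.seq (.seq (.seq (.one (.play 193 (.both (.play 0 (.ref 4 0)) (.play 384 (.ref 5 128)))))
 (.one (.play 1 (.both (.play 131 (.both (.ref 200 0) (.play 70 (.ref 117 66)))) (.play 2 (.ref 3 1))))))
 (.seq (.one (.play 66 (.both (.play 2 (.ref 15 1)) (.ref 245 64))))
 (.seq (.one (.play 70 (.both (.play 68 (.both (.play 67 (.both (.ref 1107 0) (.both (.play 66 (.ref 19 1)) (.both (.ref 1106 1) (.play 131 (.ref 40 2)))))) (.play 4 (.ref 7 4)))) (.play 6 (.ref 5 5)))))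
 (.one (.play 133 (.both (.play 69 (.ref 36 4)) (.both (.play 69 (.ref 35 4)) (.both (.play 69 (.ref 26 5)) (.ref 1108 64)))))))))
 (.seq (.seq (.one (.play 197 (.both (.ref 946 0) (.play 261 (.ref 4 4)))))
 (.one (.play 68 (.both (.play 0 (.ref 3 0)) (.ref 155 1)))))
 (.seq (.one (.play 69 (.both (.play 67 (.both (.ref 81 0) (.play 3 (.ref 7 3)))) (.play 5 (.ref 5 4)))))
 (.seq (.one (.play 132 (.both (.play 68 (.ref 64 3)) (.both (.play 68 (.ref 25 3)) (.ref 1112 64)))))
 (.one (.both (.play 197 (.both (.ref 1113 0) (.play 195 (.ref 0 195)))) (.both (.ref 998 3) (.both (.play 195 (.both (.play 131 (.ref 60 3)) (.play 197 (.ref 0 195)))) (.both (.ref 226 67) (.ref 1069 131)))))))))))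
 (.seq (.seq (.seq (.seq (.one (.play 66 (.both (.play 2 (.ref 15 1)) (.play 129 (.both (.play 65 (.ref 107 64)) (.play 130 (.ref 1 65)))))))
 (.one (.play 67 (.both (.ref 501 0) (.both (.play 132 (.both (.play 66 (.ref 118 65)) (.play 131 (.ref 1 67)))) (.ref 9 66))))))
 (.seq (.one (.play 385 (.both (.play 386 (.ref 87 0)) (.both (.ref 1101 64) (.both (.play 449 (.ref 23 192)) (.ref 1104 192))))))
 (.seq (.one (.play 193 (.both (.play 321 (.both (.ref 1117 0) (.play 320 (.ref 1 256)))) (.play 192 (.ref 3 192)))))
 (.one (.play 323 (.both (.play 259 (.both (.play 387 (.both (.play 195 (.both (.ref 437 2) (.both (.play 131 (.ref 36 66)) (.both (.play 132 (.both (.play 258 (.both (.ref 135 66) (.play 451 (.ref 134 194)))) (.play 196 (.ref 5 131)))) (.play 194 (.ref 84 130)))))) (.play 388 (.ref 0 320)))) (.play 260 (.ref 2 256)))) (.both (.ref 96 256) (.ref 342 320))))))))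
 (.seq (.seq (.one (.play 67 (.both (.ref 1086 0) (.both (.play 66 (.ref 19 1)) (.both (.play 66 (.both (.play 4 (.both (.play 65 (.ref 2 1)) (.play 3 (.ref 3 3)))) (.ref 9 65))) (.play 3 (.ref 15 2)))))))
 (.one (.play 192 (.both (.play 256 (.ref 6 0)) (.play 321 (.both (.play 128 (.ref 134 64)) (.ref 21 65)))))))
 (.seq (.one (.play 257 (.both (.ref 22 0) (.both (.ref 1121 0) (.both (.play 321 (.ref 23 64)) (.ref 635 64))))))
 (.seq (.one (.play 192 (.both (.play 256 (.ref 243 0)) (.play 128 (.ref 134 64)))))
 (.one (.play 193 (.both (.play 384 (.ref 79 0)) (.both (.ref 34 128) (.ref 1123 128)))))))))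
 (.seq (.seq (.seq (.one (.play 449 (.both (.ref 1124 0) (.both (.play 193 (.ref 64 128)) (.both (.play 256 (.ref 84 192)) (.ref 1122 256))))))
 (.one (.play 193 (.both (.ref 437 0) (.play 386 (.ref 4 193))))))
 (.seq (.one (.play 129 (.both (.ref 178 0) (.play 386 (.ref 4 129)))))
 (.seq (.one (.both (.play 65 (.ref 64 0)) (.both (.play 65 (.ref 35 0)) (.play 385 (.ref 23 128)))))
 (.one (.play 199 (.both (.play 197 (.both (.play 261 (.ref 6 5)) (.play 200 (.both (.play 196 (.both (.play 195 (.ref 484 128)) (.both (.play 195 (.ref 19 130)) (.play 132 (.ref 15 131))))) (.both (.play 201 (.ref 16 132)) (.ref 1077 133)))))) (.play 263 (.ref 4 6))))))))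
 (.seq (.seq (.one (.play 449 (.both (.play 450 (.both (.play 193 (.both (.ref 331 0) (.play 386 (.ref 4 193)))) (.play 514 (.ref 4 257)))) (.both (.ref 670 256) (.play 513 (.ref 23 256))))))
 (.one (.play 129 (.both (.play 66 (.ref 436 0)) (.play 384 (.ref 6 128))))))
 (.seq (.one (.play 257 (.both (.play 321 (.ref 35 0)) (.both (.play 64 (.both (.play 0 (.ref 7 0)) (.play 321 (.both (.play 128 (.ref 7 64)) (.play 385 (.ref 25 64)))))) (.ref 21 1)))))
 (.seq (.one (.play 196 (.both (.play 195 (.ref 671 0)) (.both (.play 260 (.ref 23 3)) (.both (.ref 1132 3) (.both (.ref 1044 3) (.play 260 (.both (.ref 22 3) (.play 67 (.both (.play 3 (.ref 7 3)) (.play 324 (.both (.play 131 (.ref 7 67)) (.play 388 (.ref 26 68))))))))))))))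
 (.one (.play 64 (.both (.play 194 (.both (.ref 214 0) (.play 385 (.ref 127 129)))) (.play 128 (.ref 7 64)))))))))))
 (.seq (.seq (.seq (.seq (.seq (.one (.play 129 (.both (.ref 359 1) (.ref 34 64))))
 (.one (.play 193 (.both (.ref 1135 0) (.both (.play 129 (.ref 36 64)) (.both (.ref 1134 64) (.play 194 (.ref 76 128))))))))
 (.seq (.one (.play 385 (.both (.play 257 (.both (.ref 1136 0) (.play 256 (.ref 3 256)))) (.play 384 (.ref 1 320)))))
 (.one (.play 327 (.both (.play 325 (.both (.play 324 (.both (.ref 1137 3) (.both (.play 323 (.both (.ref 29 256) (.both (.play 259 (.ref 15 258)) (.play 260 (.both (.play 261 (.both (.play 322 (.ref 2 258)) (.play 328 (.ref 3 260)))) (.play 259 (.ref 3 259))))))) (.both (.ref 1086 257) (.both (.play 323 (.ref 19 258)) (.ref 1085 258)))))) (.play 389 (.ref 6 133)))) (.play 391 (.ref 4 134)))))))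
 (.seq (.seq (.one (.play 386 (.both (.play 129 (.both (.play 65 (.ref 25 0)) (.play 322 (.ref 4 129)))) (.play 450 (.ref 4 193)))))
 (.one (.play 257 (.both (.ref 1031 0) (.both (.ref 1124 0) (.both (.play 193 (.ref 35 128)) (.play 513 (.ref 35 192))))))))
 (.seq (.one (.play 257 (.both (.play 0 (.ref 7 0)) (.ref 328 64))))
 (.seq (.one (.play 196 (.both (.play 5 (.ref 1079 1)) (.both (.play 260 (.ref 32 4)) (.ref 1093 64)))))
 (.one (.both (.play 67 (.ref 64 2)) (.both (.play 67 (.ref 35 2)) (.ref 989 128))))))))
 (.seq (.seq (.seq (.one (.play 193 (.both (.play 384 (.ref 79 0)) (.both (.play 129 (.both (.play 65 (.ref 36 0)) (.ref 1090 192))) (.both (.play 450 (.both (.play 320 (.both (.play 129 (.ref 243 64)) (.ref 659 256))) (.play 386 (.ref 4 193)))) (.play 449 (.ref 23 192)))))))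
 (.one (.play 69 (.both (.ref 485 0) (.play 70 (.ref 3 2))))))
 (.seq (.one (.play 70 (.both (.play 6 (.ref 484 0)) (.both (.ref 1076 1) (.both (.play 71 (.ref 12 3)) (.ref 1077 3))))))
 (.seq (.one (.both (.play 197 (.both (.play 261 (.ref 4 4)) (.ref 1146 128))) (.play 259 (.ref 6 3))))
 (.one (.play 193 (.both (.play 257 (.ref 124 0)) (.play 129 (.ref 127 64))))))))
 (.seq (.seq (.one (.play 198 (.both (.play 196 (.both (.play 260 (.ref 6 4)) (.ref 1087 128))) (.play 262 (.ref 4 5)))))
 (.one (.play 321 (.both (.ref 1123 0) (.both (.ref 22 64) (.play 128 (.ref 84 64)))))))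
 (.seq (.one (.play 261 (.both (.play 198 (.ref 6 5)) (.play 325 (.both (.play 133 (.ref 5 69)) (.play 389 (.both (.play 453 (.both (.ref 1121 196) (.both (.ref 1150 196) (.both (.ref 1149 256) (.both (.play 517 (.ref 23 260)) (.ref 635 260)))))) (.both (.play 453 (.both (.play 390 (.both (.play 454 (.ref 4 197)) (.play 517 (.both (.ref 22 260) (.play 326 (.ref 127 261)))))) (.both (.play 517 (.both (.ref 1148 197) (.both (.play 326 (.ref 76 260)) (.ref 21 261)))) (.both (.play 452 (.ref 1147 257)) (.both (.play 517 (.ref 23 260)) (.ref 387 260)))))) (.both (.play 453 (.both (.ref 22 196) (.both (.play 517 (.both (.play 324 (.ref 536 257)) (.both (.play 581 (.ref 35 260)) (.both (.ref 1073 260) (.play 581 (.ref 26 261)))))) (.both (.play 517 (.both (.play 324 (.ref 536 257)) (.both (.play 581 (.ref 25 260)) (.play 581 (.ref 35 260))))) (.ref 387 260))))) (.both (.play 453 (.both (.ref 21 197) (.both (.play 517 (.both (.play 324 (.ref 536 257)) (.both (.play 581 (.ref 64 260)) (.play 581 (.ref 25 260))))) (.ref 635 260)))) (.both (.ref 989 194) (.play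 453 (.ref 23 196)))))))))))))
 (.seq (.one (.play 67 (.both (.play 66 (.ref 67 0)) (.both (.play 4 (.both (.play 66 (.ref 159 1)) (.play 3 (.ref 3 3)))) (.play 3 (.ref 15 2))))))
 (.one (.play 193 (.both (.ref 331 0) (.play 384 (.ref 6 192))))))))))
 (.seq (.seq (.seq (.seq (.one (.play 66 (.both (.ref 648 0) (.play 2 (.ref 15 1)))))
 (.one (.play 68 (.both (.ref 605 0) (.play 4 (.ref 15 3))))))
 (.seq (.one (.play 133 (.both (.play 198 (.both (.play 262 (.ref 5 6)) (.play 132 (.both (.ref 605 64) (.both (.ref 29 65) (.ref 9 131)))))) (.both (.play 198 (.both (.play 262 (.ref 5 6)) (.ref 1155 64))) (.both (.play 69 (.both (.play 197 (.both (.play 262 (.both (.play 198 (.ref 103 5)) (.play 261 (.ref 232 69)))) (.play 196 (.ref 1 132)))) (.play 68 (.ref 0 68)))) (.both (.ref 1154 66) (.play 132 (.ref 19 67))))))))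
 (.seq (.one (.play 262 (.both (.play 261 (.both (.play 260 (.both (.ref 996 3) (.both (.play 259 (.both (.play 198 (.ref 942 192)) (.both (.play 258 (.ref 13 193)) (.ref 9 258)))) (.both (.play 259 (.both (.play 198 (.ref 577 192)) (.play 195 (.ref 15 194)))) (.both (.ref 686 193) (.play 259 (.ref 19 194))))))) (.play 264 (.ref 0 261)))) (.play 327 (.ref 3 262)))))
 (.one (.both (.ref 1157 0) (.play 331 (.ref 3 263)))))))
 (.seq (.seq (.one (.play 193 (.both (.play 129 (.ref 549 0)) (.ref 21 193))))
 (.one (.play 195 (.both (.play 196 (.both (.play 260 (.ref 4 3)) (.ref 18 128))) (.play 258 (.ref 6 2))))))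
 (.seq (.one (.play 260 (.both (.play 197 (.ref 6 4)) (.play 324 (.both (.play 132 (.ref 5 68)) (.ref 1133 192))))))
 (.seq (.one (.play 193 (.both (.ref 437 0) (.both (.play 129 (.ref 36 64)) (.both (.play 129 (.both (.ref 422 64) (.ref 24 65))) (.ref 34 128))))))
 (.one (.play 132 (.both (.ref 1078 0) (.play 260 (.ref 7 3)))))))))
 (.seq (.seq (.seq (.one (.play 67 (.both (.play 195 (.both (.ref 83 2) (.play 196 (.ref 0 128)))) (.play 68 (.ref 2 64)))))
 (.one (.play 135 (.both (.play 67 (.both (.ref 1094 0) (.play 134 (.ref 0 67)))) (.play 71 (.ref 456 4))))))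
 (.seq (.one (.play 198 (.both (.play 262 (.both (.play 69 (.ref 56 5)) (.play 195 (.both (.ref 1154 128) (.play 263 (.ref 0 195)))))) (.both (.ref 1165 128) (.play 199 (.ref 128 131))))))
 (.seq (.one (.play 196 (.both (.play 260 (.ref 150 3)) (.play 129 (.ref 118 128)))))
 (.one (.play 259 (.both (.play 66 (.both (.play 2 (.ref 6 1)) (.play 323 (.ref 4 66)))) (.play 260 (.ref 128 192))))))))
 (.seq (.seq (.one (.play 196 (.both (.play 197 (.both (.play 195 (.both (.play 259 (.ref 6 3)) (.ref 1146 128))) (.play 261 (.ref 4 4)))) (.both (.play 260 (.ref 167 3)) (.ref 414 3)))))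
 (.one (.play 197 (.both (.ref 1149 0) (.both (.play 260 (.ref 354 4)) (.ref 420 4))))))
 (.seq (.one (.play 197 (.both (.play 195 (.ref 1081 0)) (.both (.play 133 (.ref 1079 1)) (.both (.ref 1163 1) (.play 133 (.ref 229 4)))))))
 (.seq (.one (.play 193 (.both (.play 321 (.both (.play 129 (.both (.play 65 (.ref 35 0)) (.both (.ref 1134 0) (.ref 687 128)))) (.play 320 (.ref 1 256)))) (.play 192 (.ref 3 192)))))
 (.one (.play 193 (.both (.play 257 (.ref 127 1)) (.ref 707 64)))))))))))
 (.seq (.seq (.seq (.seq (.seq (.seq (.one (.play 257 (.both (.play 385 (.both (.play 193 (.both (.ref 1135 0) (.both (.play 129 (.ref 35 64)) (.play 449 (.both (.ref 21 193) (.both (.play 513 (.ref 23 256)) (.play 513 (.ref 76 256)))))))) (.play 384 (.ref 1 320)))) (.play 256 (.ref 3 256)))))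
 (.one (.play 257 (.both (.play 385 (.both (.ref 1136 0) (.play 384 (.ref 1 320)))) (.play 256 (.ref 3 256))))))
 (.seq (.one (.play 390 (.both (.play 392 (.both (.play 263 (.both (.ref 727 6) (.ref 1156 256))) (.both (.ref 1173 261) (.play 325 (.ref 194 324))))) (.both (.play 325 (.both (.play 324 (.both (.ref 1175 3) (.both (.play 323 (.ref 241 258)) (.ref 245 322)))) (.both (.play 263 (.both (.ref 1168 133) (.both (.play 454 (.ref 246 198)) (.play 393 (.both (.play 455 (.both (.play 518 (.both (.play 454 (.ref 103 261)) (.play 519 (.ref 229 326)))) (.both (.ref 660 262) (.play 454 (.both (.play 518 (.ref 5 262)) (.play 456 (.both (.play 520 (.ref 4 263)) (.play 457 (.ref 52 390))))))))) (.play 392 (.ref 3 325))))))) (.play 324 (.ref 118 323))))) (.both (.play 392 (.both (.play 389 (.both (.ref 1174 68) (.both (.play 388 (.both (.ref 576 321) (.play 324 (.ref 15 323)))) (.both (.play 388 (.both (.ref 29 321) (.both (.ref 931 321) (.ref 9 387)))) (.both (.ref 1154 322) (.play 388 (.ref 19 323))))))) (.both (.ref 1173 261) (.play 325 (.ref 194 324)))))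 (.both (.play 518 (.both (.play 389 (.both (.play 388 (.both (.ref 1172 131) (.play 387 (.ref 2 323)))) (.both (.ref 1171 322) (.play 455 (.both (.play 388 (.ref 476 323)) (.play 519 (.ref 229 326))))))) (.both (.play 454 (.both (.play 263 (.ref 5 262)) (.ref 1129 320))) (.play 454 (.ref 127 262))))) (.both (.play 455 (.both (.play 519 (.both (.play 263 (.both (.play 199 (.ref 243 134)) (.ref 21 263))) (.play 583 (.ref 7 326)))) (.both (.play 518 (.both (.play 454 (.both (.play 263 (.ref 6 262)) (.ref 1110 322))) (.both (.play 454 (.ref 246 262)) (.play 519 (.ref 229 326))))) (.both (.ref 1142 258) (.both (.ref 1170 322) (.ref 1169 323)))))) (.both (.play 263 (.both (.ref 1168 133) (.both (.play 199 (.ref 243 134)) (.play 455 (.both (.play 454 (.both (.ref 1091 260) (.play 518 (.ref 6 262)))) (.both (.play 392 (.both (.ref 1167 260) (.play 325 (.ref 194 324)))) (.both (.play 519 (.ref 23 262)) (.play 519 (.both (.ref 22 262) (.both (.play 454 (.both (.play 518 (.ref 6 262)) (.play 583 (.ref 134 326)))) (.play 583 (.ref 85 326)))))))))))) (.both (.ref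 1166 194) (.play 392 (.both (.play 518 (.both (.play 454 (.both (.ref 666 260) (.play 519 (.both (.play 517 (.both (.play 581 (.ref 6 325)) (.play 520 (.both (.ref 686 450) (.both (.ref 1076 451) (.play 521 (.ref 16 452))))))) (.play 583 (.ref 4 326)))))) (.both (.play 325 (.both (.play 454 (.ref 228 261)) (.play 324 (.ref 118 323)))) (.both (.play 519 (.both (.play 520 (.both (.play 456 (.both (.play 584 (.ref 7 327)) (.play 517 (.ref 67 451)))) (.both (.play 584 (.both (.play 456 (.ref 7 327)) (.play 585 (.ref 825 516)))) (.both (.play 456 (.both (.play 584 (.ref 7 327)) (.play 521 (.both (.ref 1164 390) (.both (.play 522 (.ref 13 453)) (.play 522 (.ref 10 517))))))) (.both (.ref 535 451) (.play 521 (.ref 14 452))))))) (.both (.play 455 (.ref 1079 323)) (.both (.ref 1163 323) (.play 455 (.ref 229 326)))))) (.play 519 (.both (.play 582 (.ref 447 326)) (.both (.play 455 (.ref 229 326)) (.both (.play 583 (.ref 435 326)) (.play 454 (.ref 232 326)))))))))) (.both (.play 393 (.both (.play 394 (.ref 3 326)) (.play 389 (.ref 10 388)))) (.play 393 (.ref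 128 325))))))))))))))
 (.one (.play 197 (.both (.play 260 (.both (.play 5 (.ref 6 4)) (.ref 1161 64))) (.play 198 (.ref 3 130)))))))
 (.seq (.seq (.one (.play 196 (.both (.play 195 (.ref 671 0)) (.both (.play 260 (.ref 167 3)) (.ref 420 3)))))
 (.one (.both (.play 192 (.ref 4 0)) (.play 65 (.ref 7 0)))))
 (.seq (.one (.play 260 (.both (.play 259 (.both (.play 258 (.both (.ref 996 1) (.both (.ref 695 192) (.ref 648 192)))) (.both (.play 198 (.ref 98 194)) (.play 198 (.ref 163 195))))) (.both (.play 262 (.both (.ref 1120 192) (.play 200 (.ref 2 196)))) (.both (.play 198 (.ref 95 194)) (.play 200 (.ref 303 196)))))))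
 (.seq (.one (.play 132 (.both (.play 68 (.ref 36 3)) (.both (.play 68 (.ref 35 3)) (.both (.play 68 (.ref 26 4)) (.ref 1112 64))))))
 (.one (.play 197 (.both (.ref 30 0) (.play 261 (.ref 4 4)))))))))
 (.seq (.seq (.seq (.one (.play 257 (.both (.ref 22 0) (.play 322 (.both (.play 258 (.ref 4 65)) (.play 321 (.ref 329 65)))))))
 (.one (.play 258 (.both (.play 197 (.ref 506 2)) (.both (.play 257 (.ref 16 192)) (.play 257 (.ref 13 192)))))))
 (.seq (.one (.play 260 (.both (.play 259 (.both (.play 198 (.ref 506 3)) (.both (.play 198 (.ref 577 192)) (.both (.play 258 (.ref 16 193)) (.play 258 (.ref 17 193)))))) (.both (.ref 1184 1) (.both (.ref 630 193) (.ref 9 259))))))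
 (.seq (.one (.play 260 (.both (.play 259 (.both (.play 198 (.ref 506 3)) (.both (.play 326 (.ref 581 192)) (.both (.play 258 (.ref 13 193)) (.play 258 (.ref 10 257)))))) (.both (.ref 1184 1) (.both (.ref 486 193) (.play 196 (.ref 15 195)))))))
 (.one (.play 3 (.both (.play 65 (.both (.play 4 (.ref 159 0)) (.ref 9 64))) (.play 2 (.ref 3 2))))))))
 (.seq (.seq (.one (.play 326 (.both (.play 325 (.both (.play 324 (.both (.ref 1137 3) (.both (.play 323 (.both (.play 262 (.ref 484 256)) (.both (.play 259 (.ref 15 258)) (.ref 407 258)))) (.both (.ref 630 257) (.both (.play 323 (.ref 19 258)) (.ref 1187 258)))))) (.both (.play 324 (.both (.ref 1118 67) (.both (.play 323 (.both (.play 390 (.ref 82 256)) (.both (.ref 9 322) (.ref 1082 322)))) (.both (.ref 486 257) (.both (.play 323 (.ref 19 258)) (.ref 1083 258)))))) (.both (.ref 1186 64) (.both (.ref 1185 64) (.both (.play 389 (.ref 28 132)) (.play 324 (.ref 19 259)))))))) (.play 329 (.ref 0 326)))))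
 (.one (.play 394 (.both (.play 327 (.both (.ref 1188 0) (.both (.play 392 (.both (.play 264 (.both (.play 200 (.ref 87 7)) (.both (.play 200 (.both (.ref 86 7) (.both (.play 136 (.ref 36 71)) (.both (.ref 359 72) (.play 199 (.both (.play 135 (.ref 7 135)) (.play 456 (.both (.play 263 (.ref 7 199)) (.ref 1183 263))))))))) (.both (.ref 70 71) (.play 456 (.both (.play 520 (.ref 64 199)) (.both (.play 520 (.ref 35 199)) (.ref 1182 260)))))))) (.play 395 (.ref 3 327)))) (.both (.play 392 (.both (.play 391 (.ref 1036 198)) (.play 395 (.ref 3 327)))) (.play 326 (.ref 551 259)))))) (.both (.play 327 (.both (.play 457 (.both (.play 455 (.both (.play 391 (.both (.ref 1130 70) (.both (.ref 1181 131) (.both (.play 264 (.ref 583 135)) (.play 519 (.ref 77 262)))))) (.both (.play 391 (.both (.play 519 (.both (.play 518 (.both (.ref 1153 70) (.play 582 (.ref 6 326)))) (.both (.play 583 (.ref 23 326)) (.both (.ref 75 326) (.play 583 (.ref 349 327)))))) (.both (.ref 1113 131) (.both (.play 519 (.ref 77 262)) (.play 519 (.ref 76 262)))))) (.both (.play 456 (.both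 (.play 392 (.both (.ref 724 71) (.ref 723 263))) (.play 454 (.ref 2 390)))) (.both (.play 391 (.both (.ref 1181 131) (.both (.play 454 (.both (.play 263 (.ref 549 134)) (.both (.play 456 (.both (.ref 70 134) (.play 394 (.ref 2 390)))) (.play 456 (.ref 67 388))))) (.both (.ref 550 134) (.ref 1180 194))))) (.both (.play 391 (.both (.play 263 (.both (.play 199 (.ref 64 134)) (.both (.play 199 (.ref 36 134)) (.both (.play 199 (.ref 25 134)) (.play 518 (.both (.ref 1112 195) (.play 454 (.ref 6 262)))))))) (.both (.play 264 (.ref 583 135)) (.ref 1180 194)))) (.both (.play 454 (.both (.play 391 (.both (.play 263 (.ref 549 134)) (.both (.play 264 (.both (.play 200 (.both (.play 136 (.ref 4 136)) (.play 263 (.ref 5 199)))) (.play 519 (.ref 5 263)))) (.both (.play 518 (.ref 111 262)) (.play 519 (.ref 77 262)))))) (.play 456 (.ref 2 390)))) (.both (.play 456 (.both (.play 520 (.both (.play 263 (.ref 435 263)) (.both (.play 391 (.ref 56 263)) (.both (.play 392 (.both (.play 263 (.ref 7 263)) (.play 584 (.both (.ref 22 327) (.both (.ref 782 327) (.both (.play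 648 (.ref 23 391)) (.ref 1090 391))))))) (.play 584 (.both (.play 391 (.ref 1179 327)) (.both (.play 391 (.ref 236 327)) (.ref 1178 452)))))))) (.play 454 (.ref 2 390)))) (.play 391 (.both (.play 519 (.ref 77 262)) (.play 454 (.ref 303 390)))))))))))) (.both (.ref 850 135) (.both (.ref 1141 264) (.ref 1178 325))))) (.play 326 (.ref 0 326)))) (.both (.ref 1177 198) (.ref 1145 326)))))))
 (.seq (.one (.play 448 (.both (.play 193 (.both (.ref 437 0) (.play 384 (.ref 6 192)))) (.play 512 (.ref 6 256)))))
 (.seq (.one (.play 257 (.both (.play 193 (.both (.play 449 (.both (.ref 1135 0) (.play 513 (.ref 23 256)))) (.both (.play 129 (.ref 36 64)) (.both (.ref 1134 64) (.play 194 (.ref 76 128)))))) (.play 256 (.ref 3 256)))))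
 (.one (.play 322 (.both (.ref 1191 0) (.play 320 (.ref 0 320))))))))))
 (.seq (.seq (.seq (.seq (.one (.play 322 (.both (.ref 1191 0) (.play 384 (.ref 1 320)))))
 (.one (.play 388 (.both (.play 324 (.both (.ref 1193 3) (.both (.ref 1192 3) (.both (.play 452 (.both (.ref 1125 67) (.both (.play 260 (.both (.play 196 (.ref 36 131)) (.play 451 (.both (.play 453 (.both (.ref 986 256) (.play 454 (.ref 2 387)))) (.play 515 (.ref 6 259)))))) (.both (.play 516 (.ref 557 195)) (.both (.play 516 (.both (.play 580 (.ref 64 259)) (.both (.play 580 (.ref 35 259)) (.play 515 (.ref 671 320))))) (.play 453 (.both (.play 517 (.ref 56 260)) (.play 454 (.ref 411 387))))))))) (.play 325 (.ref 217 323)))))) (.both (.play 389 (.both (.play 324 (.both (.play 452 (.both (.ref 1181 128) (.play 451 (.ref 1 387)))) (.play 323 (.ref 3 323)))) (.play 456 (.ref 0 388)))) (.play 389 (.ref 476 323)))))))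
 (.seq (.one (.play 324 (.both (.ref 1193 3) (.both (.ref 1192 3) (.both (.play 260 (.ref 1114 64)) (.play 325 (.ref 217 323)))))))
 (.seq (.one (.play 257 (.both (.ref 824 0) (.play 2 (.ref 6 1)))))
 (.one (.play 196 (.both (.play 260 (.ref 134 3)) (.play 130 (.ref 476 64))))))))
 (.seq (.seq (.one (.play 69 (.both (.ref 890 0) (.play 70 (.ref 0 67)))))
 (.one (.play 195 (.both (.play 131 (.both (.ref 395 2) (.both (.ref 359 3) (.play 132 (.ref 973 64))))) (.both (.play 388 (.ref 53 131)) (.play 388 (.ref 1179 195)))))))
 (.seq (.one (.play 322 (.both (.ref 1175 1) (.both (.play 321 (.ref 19 256)) (.both (.play 321 (.ref 17 256)) (.play 321 (.ref 13 256)))))))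
 (.seq (.one (.play 324 (.both (.play 325 (.both (.ref 1200 0) (.play 326 (.ref 0 323)))) (.both (.ref 1198 256) (.play 388 (.ref 85 259))))))
 (.one (.both (.play 133 (.ref 549 4)) (.play 322 (.ref 67 256))))))))
 (.seq (.seq (.seq (.one (.play 325 (.both (.play 388 (.both (.play 323 (.both (.play 261 (.both (.play 197 (.ref 1202 0)) (.play 516 (.ref 5 260)))) (.both (.play 326 (.both (.play 322 (.ref 17 257)) (.play 327 (.ref 0 324)))) (.both (.play 259 (.both (.play 326 (.both (.play 258 (.ref 3 258)) (.ref 175 259))) (.play 516 (.ref 7 259)))) (.play 516 (.ref 103 259)))))) (.play 260 (.ref 4 260)))) (.both (.play 326 (.both (.play 262 (.both (.play 323 (.ref 484 256)) (.play 389 (.ref 5 261)))) (.play 327 (.ref 0 324)))) (.play 260 (.ref 435 260))))))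
 (.one (.both (.play 324 (.both (.play 260 (.both (.play 196 (.both (.play 387 (.ref 911 3)) (.both (.play 132 (.ref 25 67)) (.ref 24 132)))) (.both (.play 196 (.both (.play 387 (.ref 760 3)) (.ref 34 131))) (.both (.ref 690 67) (.both (.play 196 (.ref 36 131)) (.play 259 (.ref 536 192))))))) (.play 516 (.ref 4 324)))) (.play 453 (.ref 7 388)))))
 (.seq (.one (.play 321 (.both (.ref 34 0) (.play 385 (.ref 127 129)))))
 (.seq (.one (.play 322 (.both (.ref 1137 1) (.both (.play 257 (.ref 473 256)) (.ref 648 256)))))
 (.one (.play 323 (.both (.ref 1206 0) (.play 387 (.ref 6 131))))))))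
 (.seq (.seq (.one (.both (.play 388 (.ref 1204 0)) (.play 709 (.ref 7 452))))
 (.one (.play 134 (.both (.play 131 (.both (.play 67 (.both (.ref 822 2) (.play 66 (.ref 0 66)))) (.both (.ref 804 65) (.play 66 (.both (.play 130 (.ref 411 65)) (.play 67 (.ref 0 66))))))) (.both (.ref 1165 64) (.play 135 (.ref 128 67)))))))
 (.seq (.one (.play 257 (.both (.ref 21 1) (.both (.play 194 (.both (.play 258 (.ref 4 1)) (.play 321 (.ref 127 65)))) (.play 321 (.ref 77 64))))))
 (.seq (.one (.play 258 (.both (.ref 1172 0) (.play 324 (.both (.play 388 (.ref 7 131)) (.play 325 (.ref 0 257)))))))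
 (.one (.play 66 (.both (.play 259 (.ref 228 2)) (.play 65 (.ref 217 64)))))))))))
 (.seq (.seq (.seq (.seq (.seq (.one (.play 449 (.both (.play 321 (.both (.play 513 (.both (.play 257 (.both (.play 193 (.ref 87 0)) (.both (.play 193 (.ref 36 128)) (.ref 24 193)))) (.both (.play 577 (.ref 25 256)) (.ref 1104 320)))) (.play 320 (.ref 3 320)))) (.play 448 (.ref 1 384)))))
 (.one (.play 67 (.both (.play 69 (.both (.play 70 (.both (.play 134 (.ref 82 0)) (.both (.play 7 (.both (.play 133 (.both (.play 71 (.ref 119 4)) (.play 66 (.ref 118 65)))) (.play 6 (.ref 2 3)))) (.both (.play 71 (.ref 12 3)) (.ref 462 3))))) (.play 5 (.ref 5 4)))) (.play 3 (.ref 7 3))))))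
 (.seq (.one (.play 194 (.both (.ref 1102 0) (.play 130 (.ref 5 129)))))
 (.one (.play 193 (.both (.play 386 (.ref 87 0)) (.both (.ref 24 129) (.ref 1148 129)))))))
 (.seq (.seq (.one (.play 192 (.both (.play 65 (.both (.play 256 (.ref 243 0)) (.ref 24 1))) (.play 128 (.ref 7 128)))))
 (.one (.play 389 (.both (.play 325 (.both (.play 261 (.both (.ref 1124 4) (.both (.ref 430 68) (.both (.play 197 (.ref 36 132)) (.both (.ref 1217 132) (.ref 1108 192)))))) (.both (.play 261 (.both (.ref 1216 4) (.both (.ref 641 68) (.both (.play 197 (.ref 36 132)) (.both (.ref 1215 132) (.ref 1214 193)))))) (.both (.play 261 (.both (.play 197 (.both (.ref 559 4) (.both (.play 133 (.ref 25 68)) (.both (.play 133 (.ref 26 69)) (.play 388 (.ref 671 193)))))) (.both (.play 197 (.both (.play 133 (.ref 25 68)) (.both (.play 133 (.ref 35 68)) (.play 388 (.ref 671 193))))) (.both (.ref 641 68) (.ref 34 196))))) (.both (.play 261 (.both (.play 197 (.both (.play 133 (.ref 64 68)) (.both (.play 133 (.ref 35 68)) (.play 388 (.ref 671 193))))) (.both (.ref 430 68) (.ref 24 197))))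 (.both (.play 261 (.ref 36 196)) (.play 326 (.ref 973 258)))))))) (.play 581 (.ref 4 389))))))
 (.seq (.one (.both (.ref 1218 0) (.both (.play 518 (.ref 1208 1)) (.ref 488 453))))
 (.seq (.one (.play 584 (.both (.play 649 (.both (.play 456 (.both (.play 520 (.ref 1219 3)) (.both (.play 457 (.both (.play 458 (.both (.play 455 (.both (.play 519 (.both (.play 391 (.both (.play 327 (.both (.play 263 (.both (.ref 86 70) (.both (.ref 24 199) (.play 328 (.both (.ref 1105 199) (.play 264 (.ref 5 263))))))) (.both (.ref 1135 134) (.both (.play 263 (.ref 36 198)) (.both (.ref 1134 198) (.ref 1214 259)))))) (.play 390 (.ref 3 390)))) (.play 518 (.ref 1 454)))) (.both (.play 454 (.ref 19 389)) (.both (.play 454 (.ref 17 389)) (.play 454 (.ref 13 389)))))) (.play 459 (.ref 0 456)))) (.both (.play 521 (.both (.play 648 (.both (.play 393 (.ref 6 392)) (.ref 1166 452))) (.play 392 (.ref 7 392)))) (.ref 1198 389)))) (.both (.ref 1203 132) (.both (.play 520 (.ref 56 392)) (.play 713 (.both (.play 520 (.ref 1179 456)) (.both (.ref 1141 520) (.ref 1169 581)))))))))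 (.both (.play 520 (.both (.play 713 (.ref 1208 68)) (.both (.play 456 (.both (.ref 891 199) (.both (.ref 1127 263) (.play 648 (.both (.play 457 (.both (.play 455 (.both (.play 454 (.both (.ref 1107 387) (.both (.play 453 (.ref 19 388)) (.both (.ref 1106 388) (.play 458 (.both (.ref 154 391) (.ref 9 453))))))) (.play 391 (.ref 7 391)))) (.play 393 (.ref 5 392)))) (.both (.play 712 (.ref 64 391)) (.play 712 (.ref 25 391)))))))) (.both (.play 456 (.ref 60 328)) (.both (.play 648 (.both (.play 712 (.both (.play 713 (.both (.ref 1207 388) (.play 777 (.ref 4 520)))) (.both (.play 776 (.ref 64 455)) (.both (.play 776 (.ref 35 455)) (.play 776 (.ref 23 519)))))) (.both (.play 712 (.both (.play 776 (.ref 64 455)) (.both (.play 776 (.ref 35 455)) (.both (.play 711 (.ref 1147 516)) (.play 776 (.ref 23 519)))))) (.both (.play 712 (.both (.play 711 (.both (.play 713 (.both (.play 773 (.both (.play 521 (.both (.play 457 (.ref 5 456)) (.play 714 (.both (.play 778 (.both (.play 585 (.ref 4 521)) (.play 779 (.ref 0 711)))) (.play 715 (.ref 128 647)))))) (.play 710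 (.both (.play 709 (.ref 2 645)) (.play 774 (.ref 1 709)))))) (.play 777 (.ref 4 520)))) (.play 775 (.ref 6 519)))) (.both (.play 776 (.ref 25 455)) (.both (.play 776 (.ref 26 456)) (.play 776 (.ref 23 519)))))) (.both (.ref 1209 516) (.play 650 (.both (.play 713 (.both (.ref 1167 518) (.play 777 (.ref 7 520)))) (.play 651 (.ref 128 583))))))))) (.play 456 (.ref 66 391))))))) (.both (.play 520 (.both (.play 713 (.ref 1208 68)) (.both (.play 648 (.both (.play 521 (.both (.play 582 (.both (.play 583 (.both (.ref 1213 197) (.play 650 (.ref 0 582)))) (.both (.ref 1212 453) (.both (.play 518 (.ref 981 517)) (.play 646 (.ref 981 581)))))) (.both (.ref 1168 391) (.play 457 (.ref 243 392))))) (.both (.play 521 (.both (.ref 1168 391) (.both (.play 457 (.ref 243 392)) (.play 650 (.both (.play 582 (.both (.ref 1212 453) (.play 583 (.ref 0 582)))) (.both (.ref 1173 519) (.ref 1165 580))))))) (.both (.play 646 (.both (.ref 1211 389) (.both (.play 712 (.both (.play 713 (.both (.play 711 (.both (.play 775 (.ref 6 519)) (.play 710 (.ref 411 645)))) (.play 777 (.ref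 7 520)))) (.both (.ref 234 519) (.ref 1210 519)))) (.play 582 (.ref 981 581))))) (.both (.play 521 (.both (.ref 1168 391) (.both (.play 457 (.ref 243 392)) (.play 650 (.both (.play 582 (.both (.play 519 (.both (.ref 723 455) (.play 518 (.ref 217 517)))) (.play 583 (.ref 0 582)))) (.both (.ref 1173 519) (.play 583 (.ref 194 582)))))))) (.both (.play 650 (.both (.play 712 (.both (.play 776 (.both (.ref 34 455) (.play 840 (.ref 5 584)))) (.play 711 (.both (.play 775 (.ref 6 519)) (.play 710 (.ref 98 645)))))) (.both (.ref 1173 519) (.play 651 (.ref 128 583))))) (.both (.play 712 (.both (.ref 946 516) (.both (.play 776 (.ref 23 519)) (.both (.ref 1183 519) (.ref 1210 519))))) (.ref 1209 516)))))))) (.both (.play 456 (.ref 60 328)) (.both (.play 456 (.both (.play 648 (.both (.play 712 (.ref 64 391)) (.both (.ref 1205 391) (.ref 1209 516)))) (.play 392 (.ref 4 392)))) (.play 456 (.ref 66 391))))))) (.both (.play 520 (.both (.play 713 (.ref 1208 68)) (.both (.play 456 (.both (.play 648 (.both (.ref 1207 324) (.both (.play 712 (.ref 64 391)) (.both (.play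 712 (.ref 25 391)) (.ref 1205 391))))) (.play 392 (.ref 4 392)))) (.both (.play 456 (.ref 60 328)) (.both (.play 456 (.ref 66 391)) (.play 713 (.both (.play 714 (.both (.play 712 (.both (.play 711 (.ref 978 517)) (.both (.play 776 (.both (.play 840 (.ref 31 584)) (.ref 480 647))) (.both (.play 776 (.both (.play 840 (.ref 31 584)) (.play 715 (.both (.ref 1077 648) (.play 775 (.ref 1 711)))))) (.both (.play 711 (.both (.ref 1154 644) (.both (.play 650 (.ref 159 646)) (.play 715 (.ref 17 646))))) (.ref 1146 645)))))) (.both (.play 712 (.both (.play 778 (.both (.play 521 (.ref 4 521)) (.play 842 (.both (.ref 501 645) (.play 906 (.ref 85 649)))))) (.both (.play 776 (.both (.play 521 (.ref 6 520)) (.ref 880 647))) (.both (.play 521 (.ref 327 520)) (.play 715 (.ref 955 646)))))) (.play 778 (.ref 237 521))))) (.play 777 (.ref 7 520))))))))) (.both (.play 713 (.both (.play 456 (.both (.play 520 (.ref 1204 68)) (.both (.ref 1201 133) (.both (.play 520 (.ref 53 392)) (.play 520 (.ref 1179 456)))))) (.both (.ref 1144 328) (.both (.play 520 (.ref 60 392)) (.ref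 1141 520))))) (.both (.play 456 (.both (.ref 1203 132) (.both (.ref 1201 133) (.both (.play 457 (.both (.play 392 (.both (.ref 1199 133) (.both (.play 520 (.both (.play 328 (.both (.ref 1135 135) (.both (.play 264 (.ref 36 199)) (.both (.play 264 (.both (.ref 34 199) (.play 393 (.both (.play 200 (.ref 4 200)) (.play 329 (.ref 5 328)))))) (.ref 24 264))))) (.play 649 (.ref 4 392)))) (.both (.play 521 (.ref 58 264)) (.play 649 (.ref 435 392)))))) (.both (.play 458 (.both (.play 455 (.both (.play 519 (.both (.play 391 (.both (.ref 86 198) (.play 390 (.ref 3 390)))) (.play 518 (.ref 1 454)))) (.both (.play 454 (.ref 19 389)) (.both (.play 454 (.ref 17 389)) (.play 454 (.ref 13 389)))))) (.play 459 (.ref 0 456)))) (.ref 1198 389)))) (.both (.play 520 (.ref 66 391)) (.play 713 (.both (.play 521 (.both (.play 520 (.ref 7 456)) (.play 712 (.ref 1147 517)))) (.both (.play 648 (.both (.play 520 (.ref 4 456)) (.play 650 (.both (.play 714 (.both (.play 778 (.both (.play 712 (.both (.ref 1173 583) (.play 711 (.ref 476 646)))) (.play 842 (.ref 7 585)))) (.both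 (.play 711 (.both (.ref 1197 582) (.both (.play 778 (.both (.play 775 (.both (.play 647 (.ref 219 582)) (.play 712 (.ref 107 710)))) (.play 842 (.ref 7 585)))) (.play 647 (.ref 217 646))))) (.play 647 (.ref 118 646))))) (.play 651 (.ref 128 583)))))) (.both (.play 520 (.ref 1179 456)) (.play 712 (.both (.play 714 (.both (.play 778 (.both (.play 521 (.ref 4 521)) (.play 650 (.both (.play 842 (.ref 134 585)) (.play 711 (.ref 159 646)))))) (.both (.play 776 (.both (.play 521 (.ref 6 520)) (.ref 153 647))) (.both (.play 521 (.ref 327 520)) (.play 711 (.ref 14 645)))))) (.both (.ref 1196 519) (.play 711 (.both (.play 714 (.both (.ref 1164 583) (.both (.play 715 (.ref 16 646)) (.play 715 (.ref 17 646))))) (.both (.play 710 (.ref 67 644)) (.both (.play 710 (.both (.play 709 (.ref 19 644)) (.both (.ref 648 644) (.play 646 (.both (.play 645 (.ref 3 645)) (.play 714 (.both (.play 647 (.ref 3 646)) (.play 715 (.both (.play 652 (.both (.play 651 (.ref 2 648)) (.play 716 (.ref 410 648)))) (.play 779 (.ref 8 711))))))))))) (.play 650 (.ref 745 645))))))))))))))))))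 (.both (.play 650 (.both (.play 520 (.both (.play 521 (.both (.ref 1194 194) (.play 457 (.both (.ref 136 328) (.play 714 (.ref 4 457)))))) (.both (.play 456 (.both (.play 521 (.both (.play 582 (.both (.ref 1195 194) (.both (.play 583 (.both (.play 646 (.ref 28 389)) (.play 650 (.ref 0 582)))) (.play 583 (.ref 476 517))))) (.play 457 (.both (.play 393 (.both (.play 329 (.ref 243 264)) (.ref 24 329))) (.play 714 (.ref 4 457)))))) (.play 392 (.ref 4 392)))) (.both (.play 456 (.ref 60 328)) (.play 456 (.ref 66 391)))))) (.both (.play 651 (.ref 1158 321)) (.both (.ref 1177 454) (.ref 1145 582))))) (.both (.play 713 (.both (.play 521 (.both (.play 520 (.both (.ref 1194 194) (.play 456 (.ref 7 456)))) (.both (.ref 1162 264) (.both (.ref 1190 264) (.both (.play 712 (.ref 79 328)) (.play 457 (.ref 64 392))))))) (.both (.play 520 (.ref 60 392)) (.both (.ref 1141 520) (.ref 1170 580))))) (.both (.ref 1189 256) (.both (.ref 1176 258) (.both (.play 713 (.both (.play 521 (.both (.ref 1162 264) (.both (.play 457 (.ref 64 392)) (.ref 1149 516)))) (.both (.ref 1144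 328) (.both (.play 520 (.ref 60 392)) (.play 777 (.ref 85 520)))))) (.both (.play 713 (.both (.play 521 (.both (.ref 1162 264) (.both (.play 457 (.ref 35 392)) (.play 712 (.ref 1147 517))))) (.both (.play 776 (.both (.ref 999 328) (.both (.ref 1161 580) (.both (.play 777 (.ref 1079 581)) (.ref 1160 582))))) (.both (.play 520 (.ref 58 392)) (.play 777 (.ref 85 520)))))) (.both (.play 713 (.both (.play 521 (.both (.ref 1159 264) (.both (.play 457 (.ref 64 392)) (.both (.play 457 (.ref 35 392)) (.play 712 (.both (.play 714 (.both (.play 778 (.ref 4 521)) (.play 711 (.both (.ref 1086 644) (.both (.play 710 (.ref 13 645)) (.play 715 (.both (.ref 11 647) (.both (.play 716 (.ref 12 648)) (.play 716 (.ref 42 648)))))))))) (.play 776 (.ref 6 520)))))))) (.both (.ref 1144 328) (.both (.play 520 (.ref 60 392)) (.ref 1141 520))))) (.both (.play 713 (.both (.play 521 (.both (.ref 1159 264) (.both (.play 457 (.ref 64 392)) (.both (.play 457 (.ref 35 392)) (.play 712 (.both (.play 714 (.both (.play 778 (.ref 4 521)) (.play 711 (.both (.play 710 (.ref 13 645)) (.both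 (.ref 1085 645) (.ref 47 647)))))) (.play 776 (.ref 6 520)))))))) (.both (.ref 1144 328) (.both (.play 520 (.ref 60 392)) (.ref 1141 520))))) (.both (.play 650 (.both (.play 651 (.ref 1158 321)) (.both (.play 648 (.both (.play 521 (.both (.ref 1131 328) (.both (.ref 1127 328) (.ref 1156 514)))) (.both (.play 712 (.both (.play 775 (.both (.ref 1153 327) (.play 776 (.ref 233 583)))) (.both (.play 711 (.both (.play 520 (.ref 549 391)) (.play 710 (.ref 94 645)))) (.play 776 (.ref 127 520))))) (.both (.play 647 (.both (.ref 584 390) (.both (.ref 1152 579) (.both (.ref 1094 580) (.play 646 (.ref 19 581)))))) (.both (.play 712 (.both (.play 582 (.both (.play 520 (.both (.ref 215 391) (.both (.play 457 (.both (.play 456 (.ref 280 392)) (.play 521 (.ref 327 456)))) (.play 521 (.both (.ref 1062 453) (.play 457 (.ref 6 456))))))) (.play 583 (.ref 0 582)))) (.both (.play 521 (.ref 246 456)) (.play 583 (.both (.play 776 (.ref 228 519)) (.play 582 (.ref 118 581))))))) (.play 647 (.both (.play 583 (.both (.play 711 (.both (.play 775 (.both (.play 520 (.ref 5 519))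 (.ref 653 582))) (.play 710 (.ref 1 646)))) (.play 582 (.ref 0 582)))) (.both (.play 710 (.both (.ref 901 578) (.play 711 (.ref 1 646)))) (.both (.ref 1152 579) (.both (.ref 1086 580) (.play 646 (.ref 19 581)))))))))))) (.both (.play 651 (.both (.play 714 (.both (.play 459 (.ref 6 458)) (.ref 1151 517))) (.play 652 (.ref 3 584)))) (.ref 1145 582))))) (.both (.play 713 (.both (.ref 1144 328) (.both (.play 521 (.ref 1143 390)) (.both (.play 520 (.ref 60 392)) (.play 777 (.ref 85 520)))))) (.play 713 (.both (.ref 1142 516) (.both (.play 777 (.both (.play 520 (.ref 7 520)) (.play 776 (.ref 671 581)))) (.both (.ref 1141 520) (.both (.play 777 (.ref 84 520)) (.play 777 (.both (.play 520 (.ref 7 520)) (.ref 1132 584))))))))))))))))))))))))) (.play 586 (.ref 2 520)))))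
 (.one (.play 68 (.both (.play 1 (.ref 42 0)) (.play 129 (.ref 1 64)))))))))
 (.seq (.seq (.seq (.one (.play 131 (.both (.play 67 (.ref 124 3)) (.play 130 (.both (.play 66 (.ref 7 66)) (.play 129 (.ref 238 128)))))))
 (.one (.play 322 (.both (.ref 1174 1) (.both (.play 321 (.ref 19 256)) (.both (.play 321 (.ref 17 256)) (.play 321 (.ref 13 256))))))))
 (.seq (.one (.play 323 (.both (.play 259 (.both (.ref 1199 0) (.play 516 (.ref 7 259)))) (.play 389 (.ref 3 323)))))
 (.seq (.one (.play 129 (.both (.ref 810 0) (.ref 24 65))))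
 (.one (.play 388 (.both (.play 325 (.both (.play 261 (.both (.play 197 (.ref 79 4)) (.both (.play 387 (.ref 1202 64)) (.ref 34 196)))) (.both (.play 261 (.both (.play 197 (.ref 79 4)) (.both (.play 197 (.ref 36 132)) (.ref 34 196)))) (.both (.ref 1225 132) (.both (.play 261 (.ref 36 196)) (.ref 859 257)))))) (.play 454 (.ref 3 388))))))))
 (.seq (.seq (.one (.play 262 (.both (.play 263 (.both (.play 261 (.both (.play 260 (.both (.ref 1118 3) (.both (.play 259 (.both (.ref 81 192) (.both (.ref 9 258) (.play 324 (.both (.play 325 (.both (.play 258 (.ref 0 258)) (.play 264 (.ref 1 260)))) (.play 323 (.ref 1 259))))))) (.both (.ref 1107 193) (.both (.play 259 (.ref 19 194)) (.ref 1106 194)))))) (.play 197 (.ref 7 197)))) (.play 199 (.ref 5 198)))) (.both (.play 198 (.ref 64 133)) (.both (.play 198 (.ref 36 133)) (.play 198 (.ref 25 133)))))))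
 (.one (.play 387 (.both (.play 323 (.both (.play 259 (.both (.play 195 (.both (.ref 1139 2) (.both (.play 131 (.ref 35 66)) (.ref 34 130)))) (.both (.ref 560 2) (.both (.ref 73 66) (.both (.play 195 (.ref 36 130)) (.play 260 (.ref 973 192))))))) (.play 515 (.ref 6 322)))) (.play 450 (.ref 5 386))))))
 (.seq (.one (.play 129 (.both (.ref 1096 0) (.play 192 (.ref 1 128)))))
 (.seq (.one (.play 261 (.both (.play 196 (.both (.play 195 (.both (.play 194 (.both (.play 258 (.ref 28 1)) (.both (.ref 816 128) (.ref 245 192)))) (.both (.play 262 (.ref 61 194)) (.play 262 (.ref 221 195))))) (.play 264 (.ref 3 196)))) (.both (.play 133 (.ref 57 69)) (.ref 1229 131)))))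
 (.one (.play 193 (.both (.ref 430 0) (.both (.play 129 (.ref 36 64)) (.both (.ref 1217 64) (.ref 34 128)))))))))))
 (.seq (.seq (.seq (.seq (.one (.both (.ref 1228 0) (.play 706 (.ref 5 450))))
 (.one (.play 451 (.both (.play 578 (.ref 1232 0)) (.play 516 (.ref 7 451))))))
 (.seq (.one (.play 519 (.both (.ref 1233 5) (.both (.ref 1188 192) (.both (.play 583 (.both (.play 455 (.both (.play 456 (.both (.play 454 (.both (.play 453 (.both (.ref 1118 196) (.both (.ref 816 387) (.play 516 (.ref 262 451))))) (.play 390 (.ref 7 390)))) (.play 392 (.ref 5 391)))) (.both (.play 391 (.ref 64 326)) (.both (.play 391 (.ref 36 326)) (.play 391 (.ref 25 326)))))) (.both (.play 455 (.both (.ref 1231 198) (.both (.play 646 (.ref 79 262)) (.both (.play 711 (.ref 64 390)) (.ref 1150 390))))) (.both (.play 456 (.ref 144 327)) (.play 711 (.both (.play 518 (.ref 84 454)) (.play 456 (.ref 5 455)))))))) (.play 521 (.ref 399 454)))))))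
 (.seq (.one (.play 327 (.both (.ref 1188 0) (.both (.play 392 (.ref 1158 64)) (.ref 542 327)))))
 (.one (.play 453 (.both (.ref 1218 0) (.play 518 (.ref 7 453))))))))
 (.seq (.seq (.one (.play 66 (.both (.ref 816 0) (.ref 9 65))))
 (.one (.play 321 (.both (.play 129 (.ref 429 0)) (.both (.ref 699 1) (.ref 75 128))))))
 (.seq (.one (.play 260 (.both (.play 3 (.both (.play 67 (.ref 7 3)) (.ref 1182 64))) (.both (.play 324 (.ref 64 3)) (.both (.play 324 (.ref 35 3)) (.play 324 (.ref 23 67)))))))
 (.seq (.one (.play 328 (.both (.play 263 (.both (.play 329 (.ref 1158 0)) (.play 201 (.ref 1 199)))) (.both (.ref 1239 132) (.ref 75 135)))))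
 (.one (.play 649 (.both (.play 715 (.both (.play 522 (.both (.play 585 (.both (.play 520 (.both (.play 521 (.both (.play 456 (.ref 1208 4)) (.play 586 (.ref 3 520)))) (.both (.play 648 (.both (.play 584 (.both (.play 647 (.both (.ref 724 263) (.both (.ref 1206 324) (.both (.ref 1131 327) (.play 646 (.both (.play 711 (.both (.play 582 (.both (.play 775 (.both (.play 518 (.ref 53 454)) (.play 839 (.ref 5 583)))) (.play 581 (.ref 3 581)))) (.both (.play 775 (.ref 31 519)) (.ref 1155 577)))) (.both (.play 645 (.both (.play 583 (.both (.ref 839 453) (.play 644 (.ref 2 580)))) (.both (.ref 29 578) (.ref 9 644)))) (.both (.play 710 (.ref 28 453)) (.both (.ref 1086 579) (.both (.ref 1154 579) (.play 645 (.ref 19 580)))))))))))) (.both (.play 646 (.both (.ref 1195 258) (.both (.ref 1211 389) (.both (.ref 1197 517) (.play 582 (.ref 981 581)))))) (.both (.ref 1127 327) (.play 456 (.ref 124 392)))))) (.play 586 (.ref 1 584)))) (.both (.play 456 (.ref 60 328)) (.play 586 (.ref 141 520)))))) (.both (.play 521 (.both (.ref 1226 132) (.both (.ref 1227 195) (.both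 (.ref 550 328) (.play 586 (.ref 345 520)))))) (.both (.play 521 (.both (.play 586 (.both (.ref 1136 264) (.play 589 (.ref 3 521)))) (.both (.play 713 (.ref 754 456)) (.play 586 (.ref 128 520))))) (.both (.play 713 (.both (.play 777 (.both (.ref 1031 328) (.both (.ref 1150 520) (.both (.play 841 (.ref 23 584)) (.ref 635 584))))) (.both (.play 521 (.ref 429 392)) (.both (.play 521 (.ref 754 456)) (.ref 1239 517))))) (.both (.play 648 (.both (.play 713 (.both (.play 777 (.both (.play 778 (.both (.ref 1126 328) (.play 842 (.ref 4 585)))) (.both (.play 841 (.ref 23 584)) (.both (.play 841 (.ref 85 584)) (.ref 123 584))))) (.both (.play 521 (.both (.play 457 (.ref 549 328)) (.play 714 (.both (.play 778 (.ref 4 521)) (.play 716 (.ref 3 648)))))) (.both (.play 777 (.both (.ref 1190 328) (.both (.play 841 (.ref 85 584)) (.both (.ref 1089 584) (.play 841 (.ref 84 584)))))) (.play 714 (.both (.play 777 (.both (.ref 1182 581) (.both (.play 841 (.ref 23 584)) (.both (.ref 1089 584) (.both (.play 841 (.both (.ref 22 584) (.ref 746 648))) (.play 841 (.both (.ref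 21 585) (.both (.ref 83 648) (.ref 746 648))))))))) (.play 716 (.ref 3 648)))))))) (.play 586 (.ref 1 584)))) (.both (.ref 1240 385) (.ref 1238 392)))))))) (.both (.play 458 (.both (.play 585 (.both (.play 394 (.both (.play 330 (.both (.play 266 (.both (.ref 1216 9) (.both (.ref 1109 69) (.both (.play 202 (.ref 36 137)) (.both (.ref 1215 137) (.ref 1214 198)))))) (.play 521 (.ref 6 329)))) (.both (.play 330 (.both (.ref 1231 73) (.play 521 (.ref 6 329)))) (.both (.ref 78 201) (.play 586 (.ref 1026 327)))))) (.both (.play 521 (.both (.play 713 (.both (.ref 1231 264) (.play 522 (.ref 5 457)))) (.both (.play 457 (.ref 429 328)) (.both (.play 713 (.both (.play 457 (.ref 64 392)) (.play 522 (.ref 5 457)))) (.both (.ref 1072 456) (.play 713 (.both (.ref 1150 456) (.play 522 (.ref 5 457))))))))) (.both (.ref 1240 385) (.ref 1238 392))))) (.play 523 (.ref 7 458)))) (.both (.ref 1234 2) (.both (.ref 1236 5) (.both (.ref 1235 194) (.both (.play 458 (.both (.play 394 (.both (.play 330 (.both (.play 266 (.ref 64 201)) (.both (.play 266 (.ref 25 201)) (.play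 329 (.both (.play 331 (.both (.play 328 (.both (.ref 1107 261) (.both (.play 327 (.ref 16 262)) (.play 332 (.both (.play 333 (.ref 12 265)) (.both (.play 333 (.ref 40 265)) (.play 396 (.ref 8 328)))))))) (.play 267 (.ref 5 266)))) (.play 265 (.ref 7 265))))))) (.play 586 (.ref 4 394)))) (.play 523 (.ref 7 458)))) (.both (.play 586 (.both (.play 521 (.ref 1158 258)) (.play 458 (.ref 57 394)))) (.ref 1230 325))))))))) (.both (.play 522 (.both (.play 780 (.both (.play 521 (.both (.play 520 (.both (.play 585 (.both (.play 458 (.ref 1232 7)) (.both (.play 457 (.both (.play 393 (.ref 64 328)) (.both (.play 393 (.ref 36 328)) (.both (.play 393 (.ref 25 328)) (.play 458 (.both (.play 456 (.both (.play 396 (.both (.play 648 (.both (.play 455 (.both (.play 391 (.both (.play 390 (.ref 3 390)) (.play 584 (.ref 7 391)))) (.play 454 (.ref 118 453)))) (.play 712 (.ref 6 456)))) (.play 459 (.both (.play 395 (.ref 2 392)) (.play 460 (.ref 1 456)))))) (.play 392 (.ref 7 392)))) (.play 394 (.ref 5 393)))))))) (.both (.play 456 (.ref 60 328)) (.play 713 (.ref 103 456))))))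 (.both (.play 585 (.both (.play 458 (.ref 1232 7)) (.both (.play 457 (.both (.play 393 (.both (.play 329 (.ref 549 200)) (.both (.play 456 (.both (.play 329 (.ref 243 264)) (.play 392 (.ref 7 392)))) (.ref 34 328)))) (.both (.ref 1225 264) (.both (.play 393 (.ref 36 328)) (.ref 859 389))))) (.both (.play 456 (.ref 60 328)) (.play 713 (.ref 103 456)))))) (.both (.play 585 (.both (.play 458 (.ref 1232 7)) (.both (.play 392 (.both (.play 394 (.both (.play 393 (.both (.play 458 (.both (.play 395 (.both (.play 459 (.both (.play 331 (.both (.ref 78 138) (.play 332 (.ref 2 328)))) (.play 460 (.ref 0 392)))) (.both (.play 396 (.ref 16 327)) (.play 396 (.ref 17 327))))) (.play 330 (.ref 6 329)))) (.both (.ref 45 325) (.both (.ref 967 325) (.both (.ref 964 326) (.ref 966 326)))))) (.both (.play 393 (.both (.ref 45 325) (.both (.ref 890 325) (.both (.ref 969 327) (.play 457 (.ref 103 328)))))) (.both (.play 393 (.both (.play 458 (.both (.ref 501 325) (.play 457 (.ref 5 393)))) (.both (.ref 964 326) (.both (.ref 969 327) (.play 457 (.both (.play 328 (.ref 7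 328)) (.play 458 (.ref 5 393)))))))) (.play 458 (.ref 143 329)))))) (.both (.play 456 (.ref 53 328)) (.play 456 (.ref 1179 392))))) (.both (.play 456 (.ref 60 328)) (.play 713 (.ref 103 456)))))) (.both (.play 519 (.both (.ref 1213 134) (.both (.play 518 (.ref 19 453)) (.both (.play 518 (.ref 17 453)) (.play 518 (.ref 13 453)))))) (.both (.ref 1200 197) (.both (.ref 1223 197) (.both (.play 519 (.both (.ref 1186 258) (.both (.ref 1185 258) (.both (.play 583 (.ref 28 326)) (.both (.play 518 (.both (.ref 630 451) (.both (.play 517 (.ref 19 452)) (.both (.ref 1187 452) (.play 454 (.ref 15 453)))))) (.both (.ref 1084 451) (.play 518 (.ref 19 453)))))))) (.both (.play 585 (.both (.play 519 (.both (.play 518 (.both (.play 584 (.both (.ref 847 262) (.play 517 (.ref 0 517)))) (.both (.ref 81 451) (.play 454 (.ref 15 453))))) (.both (.ref 996 262) (.both (.play 456 (.both (.play 583 (.both (.play 392 (.both (.play 328 (.ref 4 328)) (.play 647 (.ref 31 391)))) (.play 582 (.ref 1 518)))) (.both (.play 392 (.ref 53 328)) (.play 518 (.both (.ref 601 450) (.ref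 9 517)))))) (.both (.ref 1107 452) (.both (.ref 1237 452) (.play 518 (.ref 19 453)))))))) (.both (.play 458 (.both (.play 519 (.both (.ref 346 453) (.play 459 (.ref 2 455)))) (.play 713 (.ref 5 457)))) (.play 713 (.ref 103 456))))) (.both (.play 519 (.both (.ref 1118 262) (.both (.play 518 (.ref 19 453)) (.both (.play 518 (.ref 17 453)) (.play 518 (.ref 13 453)))))) (.both (.play 519 (.both (.play 458 (.both (.play 583 (.both (.play 455 (.both (.play 647 (.both (.ref 73 262) (.both (.ref 1101 326) (.play 711 (.ref 25 390))))) (.play 454 (.ref 3 454)))) (.play 582 (.ref 1 518)))) (.play 459 (.ref 2 455)))) (.both (.play 518 (.ref 19 453)) (.both (.play 518 (.ref 17 453)) (.play 518 (.ref 13 453)))))) (.both (.play 519 (.both (.ref 1172 262) (.both (.play 518 (.ref 19 453)) (.both (.play 518 (.ref 17 453)) (.play 518 (.ref 13 453)))))) (.play 585 (.both (.play 458 (.both (.play 649 (.ref 144 329)) (.play 519 (.both (.ref 1237 452) (.play 459 (.ref 2 455)))))) (.both (.play 457 (.both (.play 458 (.both (.play 394 (.ref 246 329)) (.play 519 (.ref 159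 454)))) (.play 393 (.ref 64 328)))) (.both (.play 456 (.ref 60 328)) (.play 713 (.ref 103 456)))))))))))))))))) (.both (.ref 1233 7) (.both (.ref 1188 194) (.play 523 (.ref 399 456)))))) (.ref 1074 585))) (.both (.ref 1236 5) (.both (.ref 1235 194) (.play 586 (.both (.ref 1229 456) (.play 779 (.ref 7 522)))))))) (.both (.play 522 (.both (.ref 1234 2) (.both (.ref 1230 325) (.ref 83 522)))) (.both (.play 585 (.both (.play 521 (.both (.play 458 (.both (.ref 1228 7) (.both (.play 457 (.both (.ref 1124 200) (.play 394 (.ref 5 393)))) (.ref 939 456)))) (.both (.ref 1227 195) (.both (.ref 998 328) (.both (.play 713 (.both (.ref 1138 387) (.both (.play 777 (.ref 64 456)) (.both (.play 777 (.ref 35 456)) (.play 777 (.ref 23 520)))))) (.both (.play 713 (.ref 627 392)) (.play 713 (.both (.play 457 (.ref 25 392)) (.both (.play 777 (.both (.ref 1217 392) (.ref 21 521))) (.both (.play 777 (.ref 23 520)) (.ref 635 520))))))))))) (.both (.play 778 (.both (.play 521 (.both (.ref 1226 132) (.both (.ref 1224 197) (.both (.play 713 (.both (.play 777 (.ref 25 456))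 (.play 714 (.ref 4 521)))) (.play 713 (.both (.play 777 (.ref 64 456)) (.play 714 (.ref 4 521)))))))) (.both (.ref 1151 581) (.both (.play 779 (.ref 1079 583)) (.ref 1160 584))))) (.both (.play 521 (.both (.ref 1224 197) (.both (.ref 505 328) (.both (.ref 550 328) (.play 586 (.ref 345 520)))))) (.play 586 (.both (.play 779 (.ref 85 522)) (.play 648 (.ref 1 584)))))))) (.both (.play 779 (.ref 1143 456)) (.both (.play 779 (.ref 1128 458)) (.play 778 (.both (.play 780 (.both (.ref 811 522) (.both (.play 779 (.ref 1088 582)) (.ref 1074 585)))) (.both (.play 714 (.both (.play 713 (.both (.play 842 (.ref 54 521)) (.play 648 (.ref 239 646)))) (.play 523 (.ref 6 522)))) (.both (.play 714 (.ref 111 522)) (.play 779 (.ref 1147 583))))))))))))) (.both (.play 586 (.both (.play 522 (.both (.play 458 (.ref 1219 5)) (.both (.play 521 (.both (.play 520 (.both (.play 519 (.both (.ref 1223 196) (.play 522 (.ref 0 519)))) (.play 585 (.ref 3 520)))) (.play 589 (.ref 3 521)))) (.play 589 (.ref 42 521))))) (.both (.play 521 (.both (.ref 1157 258) (.both (.play 585 (.both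 (.ref 1117 328) (.play 520 (.ref 3 520)))) (.ref 697 521)))) (.both (.play 715 (.both (.play 714 (.both (.play 523 (.both (.ref 1162 266) (.play 778 (.ref 6 522)))) (.both (.play 523 (.ref 79 330)) (.both (.play 650 (.both (.ref 1222 391) (.play 716 (.both (.play 778 (.both (.play 777 (.both (.play 841 (.ref 6 585)) (.play 776 (.ref 94 711)))) (.play 842 (.ref 127 586)))) (.play 717 (.ref 3 649)))))) (.both (.play 650 (.both (.ref 1222 391) (.ref 1168 457))) (.play 778 (.both (.play 585 (.ref 60 457)) (.play 523 (.ref 6 522))))))))) (.both (.ref 1144 330) (.both (.play 522 (.both (.play 713 (.ref 583 393)) (.play 779 (.ref 7 522)))) (.ref 1141 522))))) (.both (.play 650 (.both (.play 778 (.both (.play 714 (.both (.play 523 (.ref 5 522)) (.play 777 (.both (.play 779 (.both (.play 843 (.ref 4 586)) (.ref 1095 646))) (.play 841 (.ref 6 585)))))) (.both (.play 714 (.ref 127 522)) (.ref 1171 582)))) (.play 589 (.ref 1 585)))) (.ref 1221 521)))))) (.both (.ref 1220 64) (.play 650 (.ref 184 584)))))))))))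
 (.seq (.seq (.seq (.one (.play 651 (.both (.ref 1241 0) (.both (.play 523 (.both (.ref 1140 202) (.both (.ref 1100 328) (.both (.ref 1099 330) (.both (.play 459 (.both (.play 395 (.ref 35 330)) (.both (.play 395 (.ref 26 331)) (.play 715 (.ref 64 394))))) (.both (.ref 1103 394) (.play 715 (.both (.play 779 (.ref 64 458)) (.both (.play 779 (.ref 35 458)) (.ref 1129 517)))))))))) (.both (.play 715 (.both (.ref 1140 266) (.both (.play 523 (.both (.ref 1139 330) (.both (.ref 1138 389) (.both (.play 459 (.ref 64 394)) (.play 459 (.ref 35 394)))))) (.both (.ref 1125 330) (.both (.play 523 (.ref 1128 394)) (.both (.play 523 (.ref 557 394)) (.both (.play 779 (.ref 557 458)) (.ref 1133 583)))))))) (.both (.play 589 (.both (.play 715 (.both (.play 779 (.both (.play 523 (.both (.play 459 (.both (.ref 70 266) (.both (.play 395 (.ref 36 330)) (.both (.play 395 (.both (.ref 34 330) (.play 652 (.ref 4 395)))) (.both (.ref 813 331) (.ref 1108 390)))))) (.ref 22 522))) (.both (.ref 75 586) (.both (.ref 828 586) (.ref 1122 586))))) (.both (.play 650 (.both (.play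 523 (.both (.ref 1131 330) (.both (.play 459 (.ref 35 394)) (.play 779 (.both (.ref 21 523) (.ref 920 586)))))) (.both (.play 649 (.both (.play 716 (.ref 1075 521)) (.play 648 (.ref 67 582)))) (.play 649 (.ref 98 584))))) (.both (.ref 1130 330) (.both (.play 523 (.both (.play 459 (.ref 64 394)) (.both (.play 459 (.ref 35 394)) (.ref 1129 517)))) (.both (.play 780 (.both (.ref 558 394) (.both (.play 779 (.both (.play 778 (.both (.play 842 (.ref 6 586)) (.play 777 (.ref 1092 710)))) (.play 844 (.ref 4 587)))) (.ref 1074 585)))) (.both (.play 523 (.ref 1128 394)) (.play 779 (.both (.ref 989 584) (.both (.ref 670 586) (.play 843 (.ref 349 587)))))))))))) (.both (.ref 1119 267) (.both (.play 590 (.both (.play 523 (.both (.play 652 (.both (.ref 1127 330) (.play 591 (.ref 1 587)))) (.play 522 (.ref 3 522)))) (.play 650 (.ref 1 586)))) (.ref 153 522))))) (.both (.play 523 (.both (.play 715 (.both (.play 716 (.both (.play 589 (.both (.play 586 (.both (.ref 1126 266) (.both (.play 652 (.both (.play 648 (.both (.play 712 (.both (.play 584 (.both (.ref 1125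 327) (.play 585 (.ref 0 584)))) (.ref 225 520))) (.both (.play 714 (.both (.play 778 (.ref 6 522)) (.play 713 (.ref 446 647)))) (.ref 224 584)))) (.play 459 (.ref 4 459)))) (.both (.play 652 (.both (.play 459 (.ref 4 459)) (.ref 201 520))) (.ref 1120 518))))) (.both (.ref 1119 267) (.ref 1111 522)))) (.play 780 (.ref 4 523)))) (.both (.ref 1101 394) (.both (.play 779 (.both (.ref 125 395) (.both (.ref 21 523) (.play 843 (.ref 349 587))))) (.both (.play 779 (.ref 23 522)) (.ref 1104 522)))))) (.both (.play 459 (.both (.ref 70 266) (.both (.play 395 (.ref 36 330)) (.both (.ref 330 331) (.play 458 (.both (.play 394 (.ref 7 394)) (.play 715 (.both (.play 522 (.ref 7 458)) (.ref 1104 522))))))))) (.both (.ref 1109 326) (.both (.ref 1117 330) (.both (.ref 1103 394) (.ref 1098 456))))))) (.both (.play 589 (.both (.ref 1119 267) (.both (.play 586 (.both (.ref 963 393) (.both (.ref 1116 518) (.both (.ref 1115 519) (.play 585 (.ref 19 520)))))) (.ref 153 522)))) (.both (.play 589 (.both (.ref 1119 267) (.both (.play 586 (.both (.ref 847 329) (.both (.ref 1116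 518) (.both (.ref 1115 519) (.play 585 (.ref 19 520)))))) (.ref 153 522)))) (.both (.play 589 (.both (.play 586 (.both (.ref 1118 329) (.both (.ref 838 517) (.both (.ref 1116 518) (.both (.ref 1115 519) (.play 585 (.ref 19 520))))))) (.both (.play 590 (.both (.play 526 (.both (.play 586 (.both (.ref 1115 519) (.play 525 (.ref 2 522)))) (.play 527 (.ref 2 523)))) (.both (.play 591 (.ref 12 523)) (.both (.ref 39 523) (.ref 342 587))))) (.ref 153 522)))) (.both (.play 523 (.both (.play 589 (.both (.play 649 (.both (.play 521 (.both (.play 585 (.ref 1114 325)) (.both (.play 585 (.both (.ref 550 328) (.both (.ref 226 392) (.both (.ref 994 456) (.play 586 (.ref 345 520)))))) (.both (.play 585 (.both (.ref 998 328) (.both (.ref 550 328) (.both (.play 522 (.both (.play 713 (.ref 77 456)) (.play 586 (.ref 3 521)))) (.play 586 (.both (.play 522 (.ref 3 521)) (.play 648 (.ref 1 584)))))))) (.play 522 (.ref 238 520)))))) (.both (.play 650 (.ref 98 584)) (.play 650 (.ref 163 585))))) (.both (.ref 1111 522) (.ref 153 522)))) (.both (.ref 1109 326) (.both (.play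 459 (.both (.play 395 (.ref 25 330)) (.both (.play 395 (.ref 26 331)) (.ref 1110 455)))) (.ref 1100 328))))) (.both (.play 523 (.both (.ref 1109 326) (.both (.play 459 (.both (.play 395 (.ref 64 330)) (.both (.play 395 (.ref 25 330)) (.play 458 (.both (.play 460 (.both (.play 522 (.both (.ref 153 393) (.play 715 (.ref 7 458)))) (.play 396 (.ref 5 395)))) (.play 394 (.ref 7 394))))))) (.both (.play 715 (.both (.play 714 (.ref 760 330)) (.both (.play 779 (.both (.play 716 (.both (.ref 1105 459) (.play 780 (.ref 4 523)))) (.both (.ref 21 523) (.ref 75 586)))) (.both (.play 779 (.ref 23 522)) (.ref 1104 522))))) (.both (.ref 1103 394) (.play 522 (.both (.play 715 (.both (.play 458 (.ref 7 458)) (.play 779 (.both (.ref 21 523) (.ref 670 586))))) (.play 589 (.ref 239 520))))))))) (.both (.play 523 (.both (.ref 1100 328) (.both (.ref 1099 330) (.both (.play 459 (.ref 269 330)) (.ref 1098 456))))) (.play 650 (.both (.play 649 (.both (.play 586 (.both (.play 648 (.both (.ref 1097 450) (.play 585 (.ref 1 584)))) (.play 589 (.ref 1 585)))) (.both (.ref 1097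 451) (.ref 503 521)))) (.both (.play 778 (.both (.play 714 (.both (.play 523 (.ref 101 458)) (.both (.play 523 (.ref 143 458)) (.play 779 (.both (.play 777 (.both (.play 843 (.both (.play 586 (.ref 4 586)) (.ref 471 710))) (.both (.play 841 (.both (.play 586 (.ref 6 585)) (.ref 1096 648))) (.both (.play 586 (.ref 327 585)) (.play 780 (.ref 955 711)))))) (.both (.play 843 (.both (.play 586 (.ref 4 586)) (.ref 482 586))) (.play 780 (.both (.ref 1095 647) (.both (.play 781 (.both (.play 717 (.both (.play 777 (.both (.ref 1094 710) (.play 716 (.ref 2 713)))) (.play 718 (.ref 2 714)))) (.both (.play 782 (.ref 12 714)) (.ref 405 714)))) (.both (.play 713 (.ref 825 711)) (.ref 235 713))))))))))) (.both (.play 714 (.ref 144 458)) (.both (.play 779 (.both (.play 780 (.both (.play 716 (.both (.play 844 (.both (.play 652 (.ref 7 587)) (.play 908 (.both (.play 907 (.both (.play 971 (.ref 6 715)) (.ref 1093 775))) (.both (.play 907 (.ref 671 712)) (.both (.play 972 (.both (.play 843 (.both (.ref 1091 713) (.play 1036 (.ref 7 779)))) (.both (.ref 21 716) (.ref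 83 779)))) (.both (.play 972 (.ref 23 715)) (.both (.ref 1090 715) (.ref 1089 715))))))))) (.both (.play 777 (.ref 67 711)) (.play 777 (.both (.play 776 (.ref 16 711)) (.play 717 (.ref 2 713))))))) (.both (.play 716 (.both (.play 652 (.ref 229 587)) (.play 717 (.ref 105 713)))) (.both (.play 781 (.both (.play 717 (.both (.play 845 (.both (.play 909 (.both (.play 973 (.ref 64 652)) (.both (.play 973 (.ref 35 652)) (.play 908 (.both (.play 910 (.ref 1088 712)) (.play 972 (.ref 6 716))))))) (.play 846 (.ref 0 778)))) (.play 718 (.ref 2 714)))) (.both (.play 782 (.ref 13 713)) (.both (.play 782 (.ref 12 714)) (.play 782 (.ref 10 777)))))) (.both (.play 777 (.both (.ref 1084 709) (.both (.play 844 (.ref 82 710)) (.both (.play 781 (.both (.play 842 (.ref 40 713)) (.both (.ref 1082 776) (.play 845 (.ref 8 777))))) (.play 781 (.ref 10 776)))))) (.both (.play 777 (.ref 71 711)) (.play 781 (.ref 14 712)))))))) (.both (.play 780 (.both (.ref 986 583) (.both (.play 842 (.both (.play 715 (.ref 6 586)) (.ref 480 713))) (.both (.play 715 (.ref 327 586)) (.ref 371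 712))))) (.both (.play 715 (.ref 1079 583)) (.both (.play 715 (.both (.ref 1078 583) (.play 843 (.ref 182 586)))) (.play 715 (.both (.play 842 (.ref 6 586)) (.ref 898 586)))))))) (.play 779 (.both (.play 780 (.ref 1081 583)) (.both (.play 715 (.ref 1079 583)) (.both (.play 715 (.both (.ref 1078 583) (.ref 920 586))) (.play 842 (.ref 447 586)))))))))) (.both (.play 649 (.both (.play 716 (.both (.play 780 (.ref 60 459)) (.both (.play 652 (.both (.play 780 (.ref 134 523)) (.play 717 (.ref 0 649)))) (.both (.play 715 (.ref 1075 521)) (.play 717 (.both (.play 652 (.ref 0 649)) (.play 715 (.ref 242 649)))))))) (.play 648 (.ref 2 584)))) (.play 589 (.both (.play 649 (.ref 163 585)) (.play 590 (.ref 1 586)))))))))))))))))))))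
 (.one (.play 259 (.both (.play 67 (.both (.play 68 (.both (.play 4 (.ref 5 3)) (.play 69 (.ref 745 64)))) (.ref 924 1))) (.play 323 (.ref 7 66))))))
 (.seq (.one (.play 260 (.both (.play 259 (.both (.ref 585 1) (.play 320 (.ref 2 256)))) (.play 261 (.ref 2 257)))))
 (.seq (.one (.play 324 (.both (.play 321 (.both (.ref 1244 0) (.ref 731 192))) (.play 325 (.ref 3 257)))))
 (.one (.play 257 (.both (.play 260 (.both (.ref 585 1) (.play 261 (.ref 19 192)))) (.play 256 (.ref 0 256))))))))
 (.seq (.seq (.one (.play 193 (.both (.play 257 (.ref 6 1)) (.play 132 (.ref 504 64)))))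
 (.one (.play 386 (.both (.play 194 (.both (.ref 430 1) (.both (.play 130 (.ref 26 66)) (.play 450 (.ref 23 193))))) (.both (.play 194 (.both (.play 130 (.ref 36 65)) (.play 387 (.both (.ref 1247 192) (.play 451 (.ref 4 194)))))) (.both (.play 193 (.ref 60 65)) (.play 450 (.ref 85 193))))))))
 (.seq (.one (.both (.play 70 (.both (.play 67 (.both (.ref 501 0) (.both (.play 66 (.ref 19 1)) (.both (.play 134 (.ref 825 65)) (.play 71 (.ref 10 66)))))) (.play 6 (.ref 5 5)))) (.play 4 (.ref 7 4))))
 (.seq (.one (.play 646 (.both (.play 645 (.both (.play 582 (.both (.play 519 (.both (.play 455 (.both (.play 391 (.both (.play 327 (.both (.ref 566 6) (.both (.play 263 (.ref 36 198)) (.both (.play 263 (.ref 26 199)) (.play 326 (.ref 1249 258)))))) (.play 583 (.ref 6 390)))) (.play 518 (.ref 5 454)))) (.both (.play 518 (.ref 889 452)) (.ref 883 517)))) (.both (.ref 70 389) (.both (.ref 719 515) (.play 775 (.ref 66 517)))))) (.both (.ref 1248 388) (.play 644 (.ref 543 643))))) (.both (.play 582 (.both (.play 581 (.both (.play 580 (.both (.play 583 (.both (.ref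 792 257) (.both (.play 579 (.ref 19 514)) (.ref 50 516)))) (.both (.play 583 (.both (.ref 770 324) (.both (.play 584 (.ref 12 516)) (.both (.ref 50 516) (.both (.ref 867 516) (.play 584 (.ref 10 579))))))) (.both (.ref 501 513) (.play 647 (.ref 825 578)))))) (.both (.play 583 (.both (.play 519 (.ref 538 262)) (.both (.play 519 (.both (.play 455 (.ref 101 390)) (.play 580 (.ref 67 514)))) (.both (.play 519 (.ref 851 514)) (.play 517 (.ref 785 516)))))) (.both (.play 517 (.ref 541 260)) (.play 774 (.ref 1249 513)))))) (.both (.ref 70 389) (.both (.ref 740 453) (.play 775 (.ref 60 454)))))) (.both (.play 774 (.both (.play 582 (.both (.play 518 (.both (.play 709 (.ref 849 261)) (.both (.play 709 (.ref 79 325)) (.ref 24 454)))) (.both (.play 518 (.ref 64 453)) (.ref 899 515)))) (.both (.play 582 (.both (.ref 430 389) (.both (.play 773 (.ref 79 389)) (.both (.play 583 (.ref 76 517)) (.ref 387 581))))) (.both (.play 838 (.both (.ref 430 453) (.both (.play 902 (.ref 26 582)) (.play 902 (.ref 23 645))))) (.both (.play 838 (.ref 627 517)) (.both (.play 838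 (.both (.play 582 (.ref 36 517)) (.both (.play 902 (.ref 26 582)) (.ref 635 645)))) (.play 838 (.both (.ref 544 579) (.play 902 (.ref 23 645)))))))))) (.both (.play 775 (.both (.play 774 (.both (.play 773 (.both (.ref 875 325) (.both (.ref 1196 580) (.ref 761 643)))) (.both (.play 582 (.ref 874 517)) (.both (.play 582 (.both (.play 518 (.ref 4 518)) (.ref 1014 581))) (.play 838 (.both (.ref 756 577) (.both (.ref 747 581) (.play 902 (.ref 76 645))))))))) (.both (.play 582 (.ref 60 454)) (.both (.play 582 (.ref 66 517)) (.both (.play 582 (.ref 489 518)) (.ref 1243 580)))))) (.both (.play 645 (.both (.play 647 (.both (.play 644 (.both (.ref 893 323) (.play 643 (.ref 0 643)))) (.both (.play 648 (.both (.ref 592 453) (.play 649 (.ref 19 580)))) (.both (.ref 895 579) (.play 644 (.both (.ref 867 580) (.play 643 (.ref 0 643)))))))) (.both (.ref 1245 388) (.both (.play 644 (.ref 768 579)) (.both (.play 644 (.ref 825 642)) (.play 644 (.ref 543 643))))))) (.both (.play 645 (.both (.play 712 (.both (.play 709 (.both (.play 773 (.both (.play 837 (.both (.play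 838 (.both (.play 581 (.both (.play 516 (.both (.play 517 (.both (.play 453 (.both (.ref 568 384) (.play 646 (.ref 4 453)))) (.play 452 (.ref 7 452)))) (.play 580 (.ref 7 516)))) (.play 774 (.ref 4 581)))) (.play 902 (.ref 4 645)))) (.play 901 (.ref 5 645)))) (.play 772 (.ref 1 708)))) (.both (.ref 1244 388) (.play 773 (.both (.play 774 (.own 773 (.both (.play 838 (.ref 60 517)) (.play 648 (.both (.play 708 (.both (.play 707 (.ref 82 640)) (.play 647 (.ref 2 644)))) (.play 649 (.ref 2 645))))))) (.play 772 (.ref 1 708))))))) (.play 713 (.ref 3 645)))) (.both (.play 644 (.both (.play 647 (.both (.ref 553 388) (.play 648 (.ref 19 579)))) (.play 643 (.ref 0 643)))) (.both (.play 644 (.ref 768 579)) (.both (.play 644 (.ref 825 642)) (.play 644 (.ref 543 643))))))) (.both (.play 775 (.both (.play 839 (.ref 541 389)) (.both (.play 582 (.both (.play 774 (.both (.ref 523 514) (.ref 1247 580))) (.play 518 (.ref 4 518)))) (.both (.play 582 (.ref 489 518)) (.both (.ref 1243 580) (.play 839 (.both (.play 582 (.ref 1179 582)) (.play 903 (.ref 7 646))))))))) (.both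 (.play 645 (.both (.ref 1246 387) (.both (.ref 1248 388) (.both (.play 644 (.ref 768 579)) (.play 644 (.ref 825 642)))))) (.both (.play 645 (.both (.ref 1246 387) (.both (.ref 1245 388) (.both (.play 644 (.ref 768 579)) (.both (.play 644 (.ref 825 642)) (.play 644 (.ref 543 643))))))) (.both (.play 582 (.both (.ref 70 389) (.both (.play 774 (.both (.play 518 (.ref 64 453)) (.both (.play 838 (.ref 36 517)) (.ref 387 581)))) (.both (.play 774 (.both (.play 838 (.ref 36 517)) (.both (.play 773 (.both (.play 837 (.ref 6 581)) (.ref 761 643))) (.play 838 (.ref 23 581))))) (.play 775 (.ref 237 518)))))) (.both (.play 712 (.both (.play 709 (.both (.ref 791 388) (.play 708 (.ref 17 643)))) (.both (.play 713 (.both (.ref 499 581) (.both (.play 774 (.both (.ref 1221 646) (.play 773 (.ref 1 709)))) (.play 714 (.ref 12 646))))) (.both (.ref 235 645) (.ref 861 645))))) (.play 775 (.both (.play 582 (.ref 60 454)) (.both (.play 712 (.both (.play 774 (.both (.play 582 (.both (.play 583 (.both (.play 519 (.ref 5 518)) (.play 838 (.both (.play 647 (.ref 5 582)) (.ref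 717 641))))) (.play 518 (.ref 4 518)))) (.play 713 (.ref 40 645)))) (.both (.play 582 (.both (.play 774 (.both (.play 838 (.ref 36 517)) (.play 773 (.both (.play 837 (.ref 6 581)) (.play 772 (.ref 2 708)))))) (.play 518 (.ref 4 518)))) (.ref 235 645)))) (.both (.play 582 (.ref 66 517)) (.both (.play 582 (.ref 489 518)) (.ref 1243 580)))))))))))))))))))
 (.one (.play 715 (.both (.ref 1250 5) (.both (.ref 1242 128) (.both (.ref 1071 130) (.both (.ref 977 132) (.both (.ref 900 196) (.both (.ref 823 196) (.both (.ref 797 197) (.both (.ref 742 261) (.both (.ref 728 261) (.both (.ref 715 261) (.both (.play 714 (.both (.play 650 (.both (.play 586 (.both (.play 522 (.both (.ref 564 265) (.both (.ref 691 265) (.both (.ref 86 329) (.both (.play 458 (.ref 36 393)) (.ref 534 456)))))) (.both (.play 522 (.ref 87 329)) (.both (.ref 70 393) (.ref 689 518))))) (.both (.play 778 (.both (.ref 688 582) (.both (.play 717 (.ref 40 649)) (.play 717 (.both (.ref 41 650) (.play 777 (.ref 1 713))))))) (.both (.ref 51 649) (.play 717 (.ref 42 649)))))) (.both (.play 713 (.both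 (.play 777 (.both (.play 649 (.both (.play 585 (.both (.ref 73 392) (.both (.play 778 (.ref 87 392)) (.both (.play 521 (.ref 26 457)) (.both (.play 586 (.ref 76 520)) (.ref 687 584)))))) (.play 648 (.ref 3 648)))) (.play 776 (.ref 1 712)))) (.both (.play 712 (.ref 19 647)) (.both (.play 712 (.ref 17 647)) (.play 712 (.ref 13 647)))))) (.both (.ref 46 647) (.both (.play 717 (.both (.play 653 (.ref 484 647)) (.both (.ref 686 647) (.both (.play 718 (.ref 17 649)) (.both (.play 650 (.ref 42 649)) (.ref 47 650)))))) (.both (.ref 44 647) (.both (.ref 573 648) (.both (.ref 43 648) (.play 717 (.both (.play 713 (.ref 13 648)) (.both (.play 778 (.ref 40 649)) (.both (.ref 628 649) (.ref 47 650))))))))))))) (.both (.ref 685 262) (.both (.ref 643 324) (.both (.play 714 (.both (.play 778 (.both (.play 650 (.both (.ref 621 329) (.both (.ref 620 453) (.both (.play 586 (.ref 627 457)) (.both (.ref 619 581) (.ref 618 585)))))) (.both (.play 650 (.both (.play 777 (.ref 607 457)) (.both (.play 842 (.ref 627 521)) (.play 649 (.ref 616 581))))) (.both (.play 650 (.both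 (.ref 615 457) (.both (.play 649 (.ref 616 581)) (.play 649 (.ref 614 585))))) (.play 777 (.ref 99 711)))))) (.both (.play 713 (.both (.ref 626 456) (.both (.ref 586 645) (.play 712 (.ref 19 647))))) (.both (.play 717 (.both (.ref 626 457) (.both (.play 713 (.ref 19 648)) (.both (.play 713 (.ref 17 648)) (.play 713 (.ref 13 648)))))) (.both (.play 713 (.both (.ref 612 644) (.both (.ref 586 645) (.play 717 (.ref 17 648))))) (.both (.play 713 (.both (.play 712 (.both (.play 777 (.both (.ref 625 644) (.play 776 (.ref 1 712)))) (.both (.play 779 (.ref 82 645)) (.ref 9 711)))) (.both (.ref 586 645) (.both (.play 652 (.ref 484 646)) (.play 717 (.ref 13 648)))))) (.both (.play 713 (.both (.ref 622 644) (.both (.ref 586 645) (.both (.play 712 (.ref 13 647)) (.play 717 (.ref 13 648)))))) (.both (.ref 624 647) (.ref 45 647))))))))) (.both (.play 714 (.both (.play 713 (.both (.play 649 (.both (.play 777 (.both (.ref 623 328) (.play 776 (.ref 1 712)))) (.play 648 (.ref 3 648)))) (.both (.ref 612 644) (.both (.ref 622 644) (.both (.ref 313 646) (.play 712 (.ref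 19 647))))))) (.both (.play 778 (.both (.play 650 (.both (.ref 621 329) (.both (.ref 620 453) (.both (.ref 617 521) (.both (.ref 619 581) (.ref 618 585)))))) (.both (.play 650 (.both (.play 777 (.ref 607 457)) (.both (.ref 617 521) (.play 649 (.ref 616 581))))) (.both (.play 650 (.both (.ref 615 457) (.both (.play 649 (.ref 614 585)) (.play 717 (.ref 613 649))))) (.play 777 (.ref 567 709)))))) (.both (.play 713 (.both (.ref 610 390) (.both (.ref 593 520) (.both (.ref 612 644) (.both (.ref 586 645) (.play 652 (.ref 484 646))))))) (.both (.play 713 (.both (.ref 600 388) (.both (.ref 586 645) (.both (.ref 313 646) (.play 652 (.ref 484 646)))))) (.both (.play 713 (.both (.ref 610 390) (.both (.ref 603 452) (.both (.ref 604 516) (.both (.ref 313 646) (.both (.play 712 (.ref 19 647)) (.play 717 (.ref 19 648)))))))) (.both (.play 713 (.both (.ref 606 388) (.both (.play 652 (.ref 484 646)) (.both (.play 712 (.ref 19 647)) (.both (.play 712 (.ref 13 647)) (.play 717 (.ref 19 648))))))) (.both (.play 713 (.both (.ref 606 388) (.both (.ref 604 516) (.both (.ref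 591 519) (.both (.ref 593 520) (.ref 586 645)))))) (.both (.play 713 (.both (.ref 600 388) (.both (.ref 603 452) (.both (.ref 586 645) (.play 712 (.ref 13 647)))))) (.both (.play 713 (.both (.ref 600 388) (.both (.ref 599 392) (.both (.ref 591 519) (.play 717 (.ref 19 648)))))) (.both (.play 713 (.both (.ref 600 388) (.both (.ref 593 520) (.play 712 (.ref 19 647))))) (.both (.play 713 (.both (.ref 599 392) (.both (.ref 586 645) (.play 712 (.ref 19 647))))) (.both (.play 713 (.both (.play 776 (.both (.play 712 (.both (.ref 596 391) (.play 775 (.ref 1 711)))) (.play 777 (.ref 1 712)))) (.both (.ref 588 520) (.both (.ref 593 520) (.play 717 (.ref 19 648)))))) (.both (.play 713 (.both (.ref 591 519) (.both (.ref 588 520) (.both (.play 712 (.ref 19 647)) (.play 712 (.ref 13 647)))))) (.play 713 (.both (.ref 586 645) (.both (.play 712 (.ref 19 647)) (.play 717 (.ref 19 648))))))))))))))))))) (.both (.play 714 (.both (.play 717 (.both (.play 650 (.both (.play 651 (.both (.play 653 (.both (.play 652 (.both (.play 586 (.both (.play 522 (.ref 87 329)) (.play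 585 (.ref 3 585)))) (.ref 585 394))) (.play 654 (.ref 2 650)))) (.both (.ref 584 457) (.play 778 (.both (.play 842 (.ref 76 585)) (.play 777 (.ref 1 713))))))) (.play 649 (.ref 3 649)))) (.both (.play 718 (.ref 13 649)) (.both (.play 718 (.ref 19 649)) (.play 718 (.ref 17 649)))))) (.both (.play 713 (.both (.play 777 (.ref 28 520)) (.both (.play 712 (.both (.play 649 (.both (.play 779 (.both (.play 711 (.both (.play 710 (.ref 67 644)) (.play 778 (.ref 0 711)))) (.play 780 (.ref 0 712)))) (.play 648 (.ref 3 648)))) (.both (.play 779 (.ref 581 645)) (.both (.play 711 (.ref 16 646)) (.play 648 (.ref 15 647)))))) (.both (.play 776 (.both (.play 712 (.both (.play 779 (.ref 581 645)) (.play 775 (.ref 1 711)))) (.play 777 (.ref 1 712)))) (.both (.ref 580 646) (.play 712 (.ref 19 647))))))) (.both (.play 717 (.both (.play 713 (.both (.play 778 (.both (.ref 579 645) (.play 777 (.ref 1 713)))) (.both (.play 652 (.ref 577 646)) (.both (.play 712 (.ref 13 647)) (.ref 9 712))))) (.both (.play 713 (.ref 13 648)) (.both (.play 718 (.ref 13 649)) (.both (.ref 575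 649) (.ref 47 650)))))) (.both (.ref 45 647) (.both (.play 713 (.ref 570 647)) (.both (.ref 573 648) (.play 717 (.ref 570 648))))))))) (.both (.ref 569 325) (.both (.ref 478 326) (.both (.play 717 (.both (.play 714 (.both (.play 650 (.both (.play 713 (.both (.play 712 (.both (.play 651 (.both (.play 779 (.both (.play 780 (.both (.play 587 (.ref 87 394)) (.play 712 (.ref 0 712)))) (.both (.play 843 (.ref 85 586)) (.play 843 (.ref 84 586))))) (.play 711 (.ref 2 647)))) (.ref 9 711))) (.ref 11 649))) (.play 649 (.ref 3 649)))) (.both (.play 653 (.both (.play 650 (.both (.play 713 (.both (.play 779 (.both (.play 586 (.ref 60 458)) (.both (.play 712 (.ref 82 645)) (.ref 80 645)))) (.play 652 (.ref 2 649)))) (.play 649 (.ref 3 649)))) (.play 654 (.ref 2 650)))) (.both (.ref 74 457) (.play 713 (.ref 13 648)))))) (.both (.play 718 (.both (.play 714 (.both (.play 653 (.both (.play 719 (.both (.play 652 (.both (.play 780 (.both (.play 779 (.both (.play 588 (.ref 79 395)) (.play 719 (.ref 1 715)))) (.both (.play 844 (.ref 77 587)) (.play 844 (.ref 76 587)))))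 (.play 720 (.ref 3 652)))) (.play 783 (.ref 8 715)))) (.play 654 (.ref 2 650)))) (.both (.play 713 (.ref 13 648)) (.ref 9 713)))) (.both (.play 714 (.ref 13 649)) (.both (.play 779 (.ref 40 650)) (.play 719 (.ref 12 651)))))) (.both (.play 718 (.both (.ref 74 458) (.both (.play 719 (.ref 19 650)) (.both (.play 651 (.ref 42 650)) (.play 779 (.ref 40 650)))))) (.both (.ref 18 649) (.play 718 (.ref 71 649))))))) (.both (.play 714 (.both (.play 650 (.both (.play 586 (.both (.ref 70 393) (.both (.play 778 (.both (.play 522 (.ref 36 457)) (.both (.play 842 (.ref 64 521)) (.both (.play 842 (.ref 25 521)) (.play 842 (.ref 36 521)))))) (.both (.play 778 (.both (.play 842 (.ref 64 521)) (.both (.play 842 (.ref 36 521)) (.ref 69 582)))) (.both (.play 779 (.ref 66 521)) (.play 779 (.both (.ref 63 521) (.play 522 (.ref 4 522))))))))) (.both (.play 651 (.both (.play 587 (.both (.play 586 (.both (.play 779 (.ref 54 458)) (.play 778 (.both (.play 585 (.both (.play 521 (.ref 7 521)) (.play 652 (.ref 62 583)))) (.play 842 (.ref 5 586)))))) (.both (.play 523 (.ref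 32 458)) (.play 780 (.ref 60 459))))) (.both (.play 653 (.both (.play 652 (.both (.play 586 (.both (.play 779 (.ref 54 458)) (.play 585 (.ref 3 585)))) (.ref 33 458))) (.play 717 (.ref 52 650)))) (.play 717 (.both (.play 778 (.both (.play 587 (.ref 32 522)) (.play 777 (.ref 1 713)))) (.play 718 (.ref 3 650))))))) (.both (.ref 51 649) (.play 717 (.ref 42 649)))))) (.both (.play 713 (.both (.play 777 (.ref 38 456)) (.both (.play 712 (.ref 19 647)) (.both (.play 712 (.ref 17 647)) (.play 712 (.ref 13 647)))))) (.both (.play 717 (.both (.ref 48 458) (.both (.play 713 (.ref 17 648)) (.ref 50 650)))) (.both (.play 717 (.both (.ref 48 458) (.both (.play 713 (.ref 13 648)) (.both (.play 778 (.ref 40 649)) (.ref 47 650))))) (.both (.ref 46 647) (.both (.ref 45 647) (.both (.ref 44 647) (.ref 43 648))))))))) (.both (.play 717 (.both (.play 714 (.both (.play 654 (.both (.play 778 (.ref 38 457)) (.play 653 (.ref 2 650)))) (.both (.play 713 (.ref 19 648)) (.both (.play 713 (.ref 17 648)) (.play 713 (.ref 13 648)))))) (.both (.play 718 (.both (.play 779 (.ref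 38 458)) (.both (.play 719 (.ref 19 650)) (.play 719 (.ref 12 651))))) (.both (.ref 20 649) (.both (.ref 18 649) (.play 718 (.ref 14 649))))))) (.play 717 (.both (.play 714 (.both (.play 778 (.both (.play 650 (.both (.play 842 (.both (.play 843 (.both (.play 780 (.both (.ref 33 522) (.ref 30 646))) (.play 907 (.ref 4 650)))) (.both (.play 906 (.ref 25 585)) (.play 906 (.ref 26 586))))) (.play 649 (.ref 3 649)))) (.play 777 (.ref 1 713)))) (.both (.play 713 (.ref 19 648)) (.both (.play 713 (.ref 17 648)) (.play 713 (.ref 13 648)))))) (.both (.play 718 (.both (.play 779 (.ref 28 522)) (.both (.play 719 (.ref 13 650)) (.play 719 (.ref 17 650))))) (.both (.ref 20 649) (.both (.ref 18 649) (.play 718 (.ref 14 649)))))))))))))))))))))))))))))))))))))))))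
    (by decide +kernel)

theorem Cert_L46 : PW ⟨20, nat_lit 344728266443874206170545512964432112225507069317819522056079337263512430464013488758041250121488036739611555846958495676040441511948045769973944468809441663382665538511073745187088876036706973599091474545756168257536, nat_lit 113823786181360754541933434466534467447753139249144626021495991353426486800173049943885108809969987900981346363696549761121491386174261073589523396775167186566005251118165671407977467723825083599403159472010486062621465394868457738482967931205791881536113229811303217380556813873399836027555119694286519470961502482345885300947166505523059458559558694968579085883666973487699317971339441546196793838643250436738619802281557229305600396514668407373232549551406414412783529809078145538048, 26, nat_lit 368167554019802298060134127449451450630076948235318171663665752299931753528449817116140308925799397593853763936347698791035288051425219178422043161967061964223889605634081048199403473122274966224959471189211636387986375879153712756065100556188508371829625626675115679658519585373777333635468257097888023778951168⟩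 :=
  sound (⟨10, nat_lit 7410693711188236507108543040556026102609279018600996098525285376506440296955904, nat_lit 45508793871051234273943630296025922293417007005653716677668879083109602343703143792209435868718528303908378110755310175150100779291922835607851939960667697640065492080090153724, 13, nat_lit 45508793871051234273943630296025922293417007005653716677668879083109602343703143792209435868718528303908378110755310175150100779291922835607851939960667697640065492080090153724⟩ :: ⟨10, nat_lit 136703170298938245273281389194851335334573089430825777276610662900622062449960995201469573563940864, nat_lit 145998099763910247248794500884975947165728258696656605280837967301123562268285742242606200545631091679060482825158693724520372280052750877216369601917669588993070982936313368144041338245132321008, 11, nat_lit 145998099763910247248794500884975947165728258696656605280837967301123562268285742242606200545631091679060482825158693724520372280052750877216369601917669588993070982936313368144041338245132321008⟩ :: ⟨11, nat_lit 136703170298938245273281389194851335334573089430825777276610662900622062449960995201469573563940864,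 nat_lit 49680578953622685988730596193628303620924478953531295253568362920608611731352838108017043796490938100006702247955711336117582008995259018460533276365449627250052851908658372651132791086830706312734268608949453126415886340968295694568, 12, nat_lit 49680578953622685988730596193628303620924478953531295253568362920608611731352838108017043796490938100006702247955711336117582008995259018460533276365449627250052851908658372651132791086830706312734268608949453126415886340968295694568⟩ :: ⟨10, nat_lit 93035356709837681990313447409664580397266094167976711716030745495121828878514934185752454491361736391777602765602070775492429008462675968, nat_lit 135243399970730303079029213894105033889100058772884154911590441206702258616438135398792419388014662616234969102741243740561254085751177835033466427658814670128965470548935653735579932343120628915447002691950467578444601315966797858882945223157359783251048844723616374325376, 14, nat_lit 135243399970730303079029213894105033889100058772884154911590441206702258616438135398792419388014662616234969102741243740561254085751177835033466427658814670128965470548935653735579932343120628915447002691950467578444601315966797858882945223157359783251048844723616374325376⟩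 :: ⟨12, nat_lit 186070713419675363980626894819329160794532188335953423432061490990243657757029868371504908982723472783555205531204141550984858016925351936, nat_lit 84527124981706439437452598870640228491032735378003239276446102337786767965948611053791858756010121705194830392585514131225313888519281434248344153359977044037573001948816759122615035844654228647891036754790823143578528832172053860132545337491372194008639809644398087504384, 15, nat_lit 84527124981706439437452598870640228491032735378003239276446102337786767965948611053791858756010121705194830392585514131225313888519281434248344153359977044037573001948816759122615035844654228647891036754790823143578528832172053860132545337491372194008639809644398087504384⟩ :: ⟨15, nat_lit 1716199415032652428745475199770348304317358825035826352348615864796385795849414013030639910165363638744324077847870214509280496999929160953143507072778764288, nat_lit 18711002901887998235326630534493521405703133730156428920714234665148509561533508841165310783128666447056748159408099832432186417754874357785287010598814853869186593233237910307420557675446040941273788272101511593824542016038527110336805391477966202024672878098202519246831143841371561775857920,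 15, nat_lit 18711002901887998235326630534493521405703133730156428920714234665148509561533508841165310783128666447056748159408099832432186417754874357785287010598814853869186593233237910307420557675446040941273788272101511593824542016038527110336805391477966202024672878098202519246831143841371561775857920⟩ :: ⟨20, nat_lit 1167984798111281975972139931059274579172666497855631342228273284582214442805421410945513679697247078343332431250840168271536308408672112127552681297848886832192510636636227827221215793215130566656, nat_lit 27976521739257904734453851654947595888090427529140706052342747257575427077370767717422038782244839348893667443148919126687298155568624908801512484014985926525129690890730730647199641347577709858123662828086723978844765726220507550336991408170951405969989049598252462791411923931510652884812722076325657864361388612379465276113558686587722956834167040933199123663680725542512935028643594496, 16, nat_lit 27976521739257904734453851654947595888090427529140706052342747257575427077370767717422038782244839348893667443148919126687298155568624908801512484014985926525129690890730730647199641347577709858123662828086723978844765726220507550336991408170951405969989049598252462791411923931510652884812722076325657864361388612379465276113558686587722956834167040933199123663680725542512935028643594496⟩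 :: ⟨20, nat_lit 4671939192445127903888559724237098316690665991422525368913093138328857771221685643782054718788988313373329725003360673086145233634688448510210725191395547328770042546544911308884863172860522266624, nat_lit 216484989649019500922497090578550225233777099128225356637087417881578700614195834235556545793967891391124221302293661518650471865427893397803939219185277873610170753425036115621495736087393867985389736331851508533177882040399783105177518845946595536510861551311107871688585739585329895724348129641465786486981094724181287684642989972307077686013961094061342976654811993597658009194853302592, 21, nat_lit 216484989649019500922497090578550225233777099128225356637087417881578700614195834235556545793967891391124221302293661518650471865427893397803939219185277873610170753425036115621495736087393867985389736331851508533177882040399783105177518845946595536510861551311107871688585739585329895724348129641465786486981094724181287684642989972307077686013961094061342976654811993597658009194853302592⟩ :: ⟨10, nat_lit 17087896287367280659160173649356416916871852992736315605687019177963419137573943243739408971595776,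 nat_lit 268156158598851942174643858486609858978025025573509207932599217328431494751059749353709719727999538561944633006427368143317739356233887796700647611021918224, 9, nat_lit 268156158598851942174643858486609858978025025573509207932599217328431494751059749353709719727999538561944633006427368143317739356233887796700647611021918224⟩ :: ⟨11, nat_lit 17087896287367280659160173649356416916871852992736315605687019177963419137573943243739408971595776, nat_lit 1683243488495479522444865099815062639105481453907216928158677597053441661045509031836506611022127080228982234654837380178883523038147987421776580184586124146131321395985747400905284890991713770271918516638647844868, 8, nat_lit 1683243488495479522444865099815062639105481453907216928158677597053441661045509031836506611022127080228982234654837380178883523038147987421776580184586124146131321395985747400905284890991713770271918516638647844868⟩ :: ⟨13, nat_lit 68351585149469122636640694597425667667487411970945262422748076711853676550295772974957635886383104, nat_lit 91248812352443904379748683355252753452792159063076038865819920111915619173714637865581651489129908157503270176616405251930707438356233413833798659539456364093438697006230712257596968505788334160,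 9, nat_lit 91248812352443904379748683355252753452792159063076038865819920111915619173714637865581651489129908157503270176616405251930707438356233413833798659539456364093438697006230712257596968505788334160⟩ :: ⟨15, nat_lit 68351585149469122636640694597425667667487411970945262422748076711853676550295772974957635886383104, nat_lit 364995249409775617740602773140912676337959892161071299881083920519281117020332935178208286016918494773646299941316200506715115780117290830278431438917895453094620552642277414192365191471692776792, 13, nat_lit 364995249409775617740602773140912676337959892161071299881083920519281117020332935178208286016918494773646299941316200506715115780117290830278431438917895453094620552642277414192365191471692776792⟩ :: ⟨18, nat_lit 136703170298938245273281389194851335334974823941890524845496153423707353100591545949915271772766208, nat_lit 2919961995278204940151957867368088110669120978743103585626280623840565675328649574130863498791093801539521079441459790036502215835374422337120123130529071456965330980403876770864664263964032503712, 15,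 nat_lit 2919961995278204940151957867368088110669120978743103585626280623840565675328649574130863498791093801539521079441459790036502215835374422337120123130529071456965330980403876770864664263964032503712⟩ :: ⟨10, nat_lit 136703170298938245273281389194851335334974823941890524845496153423707353100591545949915271772766208, nat_lit 364995249409775617518994733421011013809452436837271503035633185399027086009173089011896141061610529733691260542052764128662746032842931412364888575698610828931108806546804340778087149592270340256, 12, nat_lit 364995249409775617518994733421011013809452436837271503035633185399027086009173089011896141061610529733691260542052764128662746032842931412364888575698610828931108806546804340778087149592270340256⟩ :: ⟨17, nat_lit 273406340597876490546562778389702670669949647883781049690992306847414706201183091899830543545532416, nat_lit 84527124981706439474110395886288178832688778813107032544570601775560601395409826070939266733268845370740080587409883189503042348816400277088618805876248528881322051200583246451423818197499762213122766536660710242070208730305627993818729203460036532972136736883319561519424,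 11, nat_lit 84527124981706439474110395886288178832688778813107032544570601775560601395409826070939266733268845370740080587409883189503042348816400277088618805876248528881322051200583246451423818197499762213122766536660710242070208730305627993818729203460036532972136736883319561519424⟩ :: ⟨14, nat_lit 273406340597876490546562778389702670669949647883781049690992306847414706201183091899830543545532416, nat_lit 158291456942786901825322704385580314270992801596753322665273220858140618349580166783314885416254802121232884492386334314485578017117286190633288475079996249307873358930761483584, 12, nat_lit 158291456942786901825322704385580314270992801596753322665273220858140618349580166783314885416254802121232884492386334314485578017117286190633288475079996249307873358930761483584⟩ :: ⟨16, nat_lit 273406340597876490546562778389702670669949647883781049690992306847414706201183091899830543545532416, nat_lit 13465947907963836179558920798520501112909146857246635022285581127482336591700987194016227707611059816489616766804119241765185199399376988946985088009942220732430241126896282644146467128758088464701600412405577286000,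 13, nat_lit 13465947907963836179558920798520501112909146857246635022285581127482336591700987194016227707611059816489616766804119241765185199399376988946985088009942220732430241126896282644146467128758088464701600412405577286000⟩ :: ⟨18, nat_lit 1093625362391505962186251113558810682679798591535124198763969227389658824804732367599322174182129664, nat_lit 117304950450073441104427788677943620105822812397071588420146476458036565286869111272715094943199908511175354633517764018293891512478115582795994930291933896784887981074931720241130615136831142341311180023920828478827215642782627332583505960869878533457408, 18, nat_lit 117304950450073441104427788677943620105822812397071588420146476458036565286869111272715094943199908511175354633517764018293891512478115582795994930291933896784887981074931720241130615136831142341311180023920828478827215642782627332583505960869878533457408⟩ :: ⟨13, nat_lit 2521728396569246669585858566409191283532514007020976823255799320912282219478430758149114036411159886388130631676592128, nat_lit 182497624704887808791155658099062887290213532334640378273506435961888317181705178815485336105965427600398488841146704459380438425032577084721712752512304730074964804145851133856337921794944008352,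 11, nat_lit 182497624704887808791155658099062887290213532334640378273506435961888317181705178815485336105965427600398488841146704459380438425032577084721712752512304730074964804145851133856337921794944008352⟩ :: ⟨13, nat_lit 2521728396569246669585858566409191283532514007020976823255799320912282219478430758149114036411159886388130631676592128, nat_lit 286389039184749615046757829846319465648113367745699336978636561006917221036816446934895063366541568040996115819526369791902130736492783549557336991786063917460047906148634321453949536915948438848440478245565435436878599113002360595180487805452165316640, 13, nat_lit 286389039184749615046757829846319465648113367745699336978636561006917221036816446934895063366541568040996115819526369791902130736492783549557336991786063917460047906148634321453949536915948438848440478245565435436878599113002360595180487805452165316640⟩ :: ⟨19, nat_lit 10086913586276986678343434265636765134130056028083907293023197283649128877913723032596456145644639545552522526706368512, nat_lit 12474001934591998823799033256275353160319737096191030127035647652196099582506190331826795090673252796169452823411810053296453193559715254249671006908153482310131301581816432515086697296628475595693922730687790016411238847781355100366509721286229375791667036165125309213241549329004275402046080,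 19, nat_lit 12474001934591998823799033256275353160319737096191030127035647652196099582506190331826795090673252796169452823411810053296453193559715254249671006908153482310131301581816432515086697296628475595693922730687790016411238847781355100366509721286229375791667036165125309213241549329004275402046080⟩ :: ⟨19, nat_lit 10086913586276986678343434265636765134130056028083907293023197283649128877913723032596456145644639545552522526706368512, nat_lit 16978731613117323117301500237812618062519248072283049226800485759481174752516196479326236800627080547916993761573347724308877957124036598082109758793967734758750286418061560212900210200200659563430988085365751997225130777488918672655719507050916860627964038834061602343572532723799811517442371364871407823977689738996128020758003792, 16, nat_lit 16978731613117323117301500237812618062519248072283049226800485759481174752516196479326236800627080547916993761573347724308877957124036598082109758793967734758750286418061560212900210200200659563430988085365751997225130777488918672655719507050916860627964038834061602343572532723799811517442371364871407823977689738996128020758003792⟩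 :: ⟨17, nat_lit 20173827172553973356686868531273530268260112056167814586046394567298257755827446065192912291289279091105045053412737024, nat_lit 236675949948778030393341571404335402479815511114588516079057176368958840366213472105029175144518630887563914443568075309324485504758738616956277975353558746680166748129791899112914984481092868893815937821585147709001081881812220205215424957427085479568362023006161210443136, 16, nat_lit 236675949948778030393341571404335402479815511114588516079057176368958840366213472105029175144518630887563914443568075309324485504758738616956277975353558746680166748129791899112914984481092868893815937821585147709001081881812220205215424957427085479568362023006161210443136⟩ :: ⟨13, nat_lit 23258839177459420497578361852416145099384875127143647051644327068377882887296020091153526511478739429394711722625498191473842038897639424, nat_lit 2291112313477996896527384741031666480003851000017027173869501058271368062185714941408053789428626477072429933929237510115497897528419966240021530624863863291461721370674239923418585188789669689886678977848716297558649884371653205418799023040242951127120,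 11, nat_lit 2291112313477996896527384741031666480003851000017027173869501058271368062185714941408053789428626477072429933929237510115497897528419966240021530624863863291461721370674239923418585188789669689886678977848716297558649884371653205418799023040242951127120⟩ :: ⟨15, nat_lit 46517678354918840995156723704832290198769750254287294103288654136755765774592040182307053022957478858789423445250996382947684077795278848, nat_lit 1145556156738998448760498160052060099287303590458813145918901443490206452389906763210375588999396288944430484664132535331394373439438195874414989339056055825956586062992154910957500665658480085155732937804452288841865636778655254986329725256666978451496, 12, nat_lit 1145556156738998448760498160052060099287303590458813145918901443490206452389906763210375588999396288944430484664132535331394373439438195874414989339056055825956586062992154910957500665658480085155732937804452288841865636778655254986329725256666978451496⟩ :: ⟨19, nat_lit 372141426839350727961253789638658321590158002034298352826309233094046126196736321458456424183659830870315387562007971063581472622362230784,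 nat_lit 57526180315594109056693267556192790593438578593400571030554591054455973139885052619536194419873600023701200972032150170502400108085374254913086400274461641685305644672314613095012149514935853914630143275712233715028469268106938812823347490201642522548565447851844036481712271627794085090952881005818808469815376, 17, nat_lit 57526180315594109056693267556192790593438578593400571030554591054455973139885052619536194419873600023701200972032150170502400108085374254913086400274461641685305644672314613095012149514935853914630143275712233715028469268106938812823347490201642522548565447851844036481712271627794085090952881005818808469815376⟩ :: ⟨19, nat_lit 1716199415032652428745475199770348304322402281828964845687787581929204178416464219657259487338861020300067530234621857467541523080554430155166755455538036736, nat_lit 24948003869183997663003135040466704902873145363318584997369399872593542148762289833754061628006353837011891681079667998931171011899939246868896038263971436776791899988919134385438839653121534028590668430947432564710324210559152762013798976433903910029787549564697717231745571922043658383130664,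 16, nat_lit 24948003869183997663003135040466704902873145363318584997369399872593542148762289833754061628006353837011891681079667998931171011899939246868896038263971436776791899988919134385438839653121534028590668430947432564710324210559152762013798976433903910029787549564697717231745571922043658383130664⟩ :: ⟨18, nat_lit 6864797660130609714981900799081393217289609127315859382751150327716816713665856878629037949355444081200270120938487429870166092322217720620667021822152146944, nat_lit 2704867999414606061529263362060193547300900602227134917244080233292474484530360537796301221126692096581402269228622486037963593669076516959658816538723845751985977663231703155530453985866380501126334227840231383888678576030713774038223230696016226652544606451731680018300968, 16, nat_lit 2704867999414606061529263362060193547300900602227134917244080233292474484530360537796301221126692096581402269228622486037963593669076516959658816538723845751985977663231703155530453985866380501126334227840231383888678576030713774038223230696016226652544606451731680018300968⟩ :: ⟨19,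 nat_lit 31658291388557380359744322690514840324589848041664953190990384627300509394033345091968476047555140504163623771408580769622727178882625891267623510618644396268818095843496165376, nat_lit 173882026337679400746785163638773163340759449100454249333105244627977961009715505261322739305592371180430979608110798697295007925758938671786332840280998440861767216232097522153058906527833747146991105421655467901758514224057492177792, 13, nat_lit 173882026337679400746785163638773163340759449100454249333105244627977961009715505261322739305592371180430979608110798697295007925758938671786332840280998440861767216232097522153058906527833747146991105421655467901758514224057492177792⟩ :: ⟨19, nat_lit 126633165554229521438977290762059361298359392166659812763961538509202037576133380367873904190220562016654495085634323078490908715530503565070494042474577585075272383373984661504, nat_lit 122875175380157664711119823652277218566301776686083283142929052481090890100816241690420619829090703494413847312951140137694001648787591005760902373072074243138030357878186445678832869434921146265118688005222524862004374870086679468895391897056424965849870263014607298545193899908822425256020610302217566855785737171426480390481475496080126936113693032551879923638409361389048536471165218529649803563381032288,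 18, nat_lit 122875175380157664711119823652277218566301776686083283142929052481090890100816241690420619829090703494413847312951140137694001648787591005760902373072074243138030357878186445678832869434921146265118688005222524862004374870086679468895391897056424965849870263014607298545193899908822425256020610302217566855785737171426480390481475496080126936113693032551879923638409361389048536471165218529649803563381032288⟩ :: ⟨19, nat_lit 1167984798111281975972139931059274579176098896685696647085764234981755139414056128595585332401944310072925202842538996297597588229002839405041329453544627261211071630636086149127502807360688095232, nat_lit 501123706821403193322056424295910151864219553548231829639615211770910836152020701710235191406085723324905319743263838724620594392354418199357367285059954161446291128057340688785159941541499714824469469978333813877329722703596489313652840136249576775918110529566441164711624248032300087347739008823380716437832501629041672464167791933565695577991151624, 17, nat_lit 501123706821403193322056424295910151864219553548231829639615211770910836152020701710235191406085723324905319743263838724620594392354418199357367285059954161446291128057340688785159941541499714824469469978333813877329722703596489313652840136249576775918110529566441164711624248032300087347739008823380716437832501629041672464167791933565695577991151624⟩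 :: ⟨10, nat_lit 150650441649280338332058946156983993986456530667136828309504, nat_lit 23258839177459420507034843339550820110776130054649663662120084315462631395365550714018487149923600947344325180827059291337601407193710624, 10, nat_lit 23258839177459420507034843339550820110776130054649663662120084315462631395365550714018487149923600947344325180827059291337601407193710624⟩ :: ⟨11, nat_lit 602601766597121353328235784627935975946416418478906018889728, nat_lit 9893216058924181363170938084862673039022102332508554965574492983282574956090877326972697167498866528291278126539367256981280600863430641129907711930085683348118137166335311928, 10, nat_lit 9893216058924181363170938084862673039022102332508554965574492983282574956090877326972697167498866528291278126539367256981280600863430641129907711930085683348118137166335311928⟩ :: ⟨13, nat_lit 11116040566782354760662814560834039153924807563642964178618756052197477028200448, nat_lit 182497624704887808759497366710505506906496049065388174334410873923709235884118125238148532490261229953114593393465985834649471836983541167727846647898624963386971906395436350743895862051745038344,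 10, nat_lit 182497624704887808759497366710505506906496049065388174334410873923709235884118125238148532490261229953114593393465985834649471836983541167727846647898624963386971906395436350743895862051745038344⟩ :: ⟨11, nat_lit 25631844431050920988740260474034625375257562675221379962419842451559467375032096022053401181290496, nat_lit 14839824088386272045292719444491713442547368563835777389791297103267978413327771281614107727203139780467835796329529237006235276469172409675510740068450342915477252821705818120, 10, nat_lit 14839824088386272045292719444491713442547368563835777389791297103267978413327771281614107727203139780467835796329529237006235276469172409675510740068450342915477252821705818120⟩ :: ⟨10, nat_lit 51263688862101841977480520948069250750515125350442759924839684903118934750064192044106802362580992, nat_lit 15829145694278690183090035248443643466326428345672271333991505737564144310790055774794959389340627212874413360379363338699112677956053838780706118223167883917221957978069925914, 10, nat_lit 15829145694278690183090035248443643466326428345672271333991505737564144310790055774794959389340627212874413360379363338699112677956053838780706118223167883917221957978069925914⟩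 :: ⟨10, nat_lit 102527377724203683954961041896138501501030250700885519849679369806237869500128384088213604725161984, nat_lit 31658291388557380362935380977841178434380047670499191037549736003975468181459409289235196414814862269255608037210565263517052406781584277000198202335377020079064022782939496480, 8, nat_lit 31658291388557380362935380977841178434380047670499191037549736003975468181459409289235196414814862269255608037210565263517052406781584277000198202335377020079064022782939496480⟩ :: ⟨9, nat_lit 102527377724203683954961041896138501501030250700885519849679369806237869500128384088213604725161984, nat_lit 375418622038392718808424184230040684524937734763808720416110457136602127222685799597660335749346571678990578117288379670908106773762712426897080164106108948, 9, nat_lit 375418622038392718808424184230040684524937734763808720416110457136602127222685799597660335749346571678990578117288379670908106773762712426897080164106108948⟩ :: ⟨10, nat_lit 205054755448407367909922083792277003002060501401771039699358739612475739000256768176427209450323968, nat_lit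 9893216058924181363224569316582443427423305787398560777805594836798948271364356834994370761973789338782830099922559113204644523451087643310979568772712123465833083654866206760, 12, nat_lit 9893216058924181363224569316582443427423305787398560777805594836798948271364356834994370761973789338782830099922559113204644523451087643310979568772712123465833083654866206760⟩ :: ⟨18, nat_lit 3782592594853870004378787849613786925287654969964682880123036166807589290063732218695769560468951901517436287069454336, nat_lit 1061170725819832694838534537402737892573375393209795472310185221357994284171538931934016144598701936044639948012224919748908274852665830079223451587235682181976743356204279826024561386726009228058580094144751519388820803785705421616893656576121404803329395508938624805772770529998116763565519410341172682731445893481465951205465984, 18, nat_lit 1061170725819832694838534537402737892573375393209795472310185221357994284171538931934016144598701936044639948012224919748908274852665830079223451587235682181976743356204279826024561386726009228058580094144751519388820803785705421616893656576121404803329395508938624805772770529998116763565519410341172682731445893481465951205465984⟩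 :: ⟨17, nat_lit 558212140259026091941880684457987482384143377689056023277277598527510378612427897472238030057276861002268104843412268633760452345031819264, nat_lit 126557596694307039983820772788753733762295030935188337276057103359475252722989244504498385554880195425161294832107921188726522712342198418118890735110987986762308279557021232494803907091903213813786285346672021212629080053793183641671814775181564767464807447123995697791114132879227301623505814946481845299052800, 19, nat_lit 126557596694307039983820772788753733762295030935188337276057103359475252722989244504498385554880195425161294832107921188726522712342198418118890735110987986762308279557021232494803907091903213813786285346672021212629080053793183641671814775181564767464807447123995697791114132879227301623505814946481845299052800⟩ :: ⟨18, nat_lit 82377571921567316579782809588976718607313918910409880806160308984351612321844675931496628922713412764619450974885796583777640273286604032983260313617529044992, nat_lit 19575144797711062249514736619410921471949714407365906631953756889196660843999680684454198981782141963846038763207508655416807829072653219402523971662487669553552285265975102645364788697324319987105450087181383018169543225396296055970404682244149522607176250767616291816196932696299047268697429220749066032020412974650120477110463900607570198656976000,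 18, nat_lit 19575144797711062249514736619410921471949714407365906631953756889196660843999680684454198981782141963846038763207508655416807829072653219402523971662487669553552285265975102645364788697324319987105450087181383018169543225396296055970404682244149522607176250767616291816196932696299047268697429220749066032020412974650120477110463900607570198656976000⟩ :: ⟨18, nat_lit 189949748331344282158465936143089041947166946823150368417981053974164398042611006175138949438466720043001255312937424880993353255330308402038630652649458094510938859027126288384, nat_lit 59949689441266938725683315901863919364259196564260080029982193953956735845966898583220705575418771666945370874387023365502371043277374943474984078180075642268860862671562952334076332954086357277895005283846267161871142217795770605092344803265170667170460535676035902544793602179231639176763662066952692811198819174874589848435444522372481877552188904839126227040376381703623374231392224256, 22, nat_lit 59949689441266938725683315901863919364259196564260080029982193953956735845966898583220705575418771666945370874387023365502371043277374943474984078180075642268860862671562952334076332954086357277895005283846267161871142217795770605092344803265170667170460535676035902544793602179231639176763662066952692811198819174874589848435444522372481877552188904839126227040376381703623374231392224256⟩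 :: ⟨18, nat_lit 1519597986650754257267727489144712335577335574585202947343848431793315184340888049401111595507733760344010042503499399047946826042642467216309045221195664756087510872217010307072, nat_lit 31320231676337699579443356261775792918683329899950404858948716390201263591776039239831929059491275979086170381533367210285292182574029808701194187632341010240114055145946114666670029331184357754962996735440718256349537163070270671760915910395780965003747070269632724225483636011944617880533129226959353996642428704635469927875686096423626093535169408, 16, nat_lit 31320231676337699579443356261775792918683329899950404858948716390201263591776039239831929059491275979086170381533367210285292182574029808701194187632341010240114055145946114666670029331184357754962996735440718256349537163070270671760915910395780965003747070269632724225483636011944617880533129226959353996642428704635469927875686096423626093535169408⟩ :: ⟨18, nat_lit 175957425675110161639949008488498207687166729607038426243973539727481393305000996689676336290254556407269741039873541024516114937552202844817340017922852025026451320504198302041314199184931566432940858579831379673085661759378149200532310125255056154427392,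 nat_lit 72532701223998246501591472283001081468099888490712265123547354666945227520970663030550671799743123676134424538452335021964595882034350914170724539403305457432086008854351633037826744102500788094151170282351667407971097890407068086396018071880118538105384026934849495834430718889743442038536905949585983607844891460308584643737409299211490226372145575463477348510157223807472354225769669273761798924797904937116477167029016602624, 21, nat_lit 72532701223998246501591472283001081468099888490712265123547354666945227520970663030550671799743123676134424538452335021964595882034350914170724539403305457432086008854351633037826744102500788094151170282351667407971097890407068086396018071880118538105384026934849495834430718889743442038536905949585983607844891460308584643737409299211490226372145575463477348510157223807472354225769669273761798924797904937116477167029016602624⟩ :: ⟨20, nat_lit 344728266443874206170545512964432112225507069317819522056079337263512430464013488758041250121488036739611555846958495676040441511948045769973944468809441663382665538511073745187088876036706973599091474545756168257536,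 nat_lit 19039834071299539704834463857615831525499735806492970419397972907450433383746975726698431437484158949703215072022779918261637719809229994216122997678711612958818323769959690188670480817524107984842699507171161651288959123713711434874937022153129129835657891866270849419716958886792991318032503360725233838316065000590728614714622859879553323777634832374736486535944425739621359848499557187933044918710892440765099364636321384448, 22, nat_lit 19039834071299539704834463857615831525499735806492970419397972907450433383746975726698431437484158949703215072022779918261637719809229994216122997678711612958818323769959690188670480817524107984842699507171161651288959123713711434874937022153129129835657891866270849419716958886792991318032503360725233838316065000590728614714622859879553323777634832374736486535944425739621359848499557187933044918710892440765099364636321384448⟩ :: []) (.cons Cert_L0 (.cons Cert_L1 (.cons Cert_L2 (.cons Cert_L3 (.cons Cert_L4 (.cons Cert_L5 (.cons Cert_L6 (.cons Cert_L7 (.cons Cert_L8 (.cons Cert_L9 (.cons Cert_L10 (.cons Cert_L11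 (.cons Cert_L12 (.cons Cert_L13 (.cons Cert_L14 (.cons Cert_L15 (.cons Cert_L16 (.cons Cert_L17 (.cons Cert_L18 (.cons Cert_L19 (.cons Cert_L20 (.cons Cert_L21 (.cons Cert_L22 (.cons Cert_L23 (.cons Cert_L24 (.cons Cert_L25 (.cons Cert_L26 (.cons Cert_L27 (.cons Cert_L28 (.cons Cert_L29 (.cons Cert_L30 (.cons Cert_L31 (.cons Cert_L32 (.cons Cert_L33 (.cons Cert_L34 (.cons Cert_L35 (.cons Cert_L36 (.cons Cert_L37 (.cons Cert_L38 (.cons Cert_L39 (.cons Cert_L40 (.cons Cert_L41 (.cons Cert_L42 (.cons Cert_L43 (.cons Cert_L44 (.cons Cert_L45 .nil))))))))))))))))))))))))))))))))))))))))))))))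
    (.both (.ref 45 0) (.both (.play 844 (.both (.play 845 (.both (.ref 44 1) (.both (.ref 43 257) (.both (.ref 42 260) (.both (.ref 41 321) (.both (.ref 40 388) (.both (.ref 39 455) (.both (.ref 38 519) (.both (.ref 37 520) (.both (.ref 36 520) (.both (.ref 35 521) (.both (.ref 34 522) (.both (.ref 33 583) (.both (.ref 32 647) (.ref 31 649))))))))))))))) (.both (.ref 30 196) (.both (.ref 29 259) (.both (.ref 28 261) (.both (.ref 27 323) (.both (.ref 26 325) (.both (.ref 25 387) (.both (.ref 24 390) (.both (.ref 23 391) (.both (.ref 22 451) (.both (.ref 21 452) (.both (.ref 20 452) (.both (.ref 19 454) (.both (.ref 18 454) (.both (.ref 17 515) (.both (.ref 16 517) (.both (.ref 15 517) (.both (.ref 14 517) (.both (.ref 13 518) (.both (.ref 12 518) (.both (.ref 11 519) (.both (.ref 10 519) (.both (.ref 9 521) (.ref 8 521))))))))))))))))))))))))) (.both (.ref 7 66) (.both (.ref 6 68) (.both (.ref 5 197) (.both (.ref 4 260) (.both (.ref 3 261) (.both (.ref 2 390) (.both (.ref 1 390) (.ref 0 454))))))))))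
    (by decide +kernel)

end Crest.Agent.Snaky
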