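import Mathlib
import Crest.Agent.Lib_Snaky.Game

/-!
Bitmask certificate checker for the Snaky game (S0047) and its soundness.

Cells of the strip `[0,64) × ℕ` are coded by bit indices `i = x + 64 * y`; sets of cells are natural
numbers (bit masks).  A certificate node evaluates bottom-up to `(U, Zu, Zi, k)`, meaning `Cov`:
for every position `(M, B)` with `U ⊆ M`, `B` disjoint from `M` and from `Zu`, and every further
Breaker cell `y ∉ M`, `y ∉ Zi`, Maker (to move) wins within `k` more moves from `(M, B ∪ {y})`.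
-/

set_option autoImplicit false

namespace Crest.Agent.Snaky.Chk

open Crest.CombinatoricsR.PolyominoGame Crest.Agent.Snaky

/-! ### Abstract rules -/

theorem win_mono_k {k k' : ℕ} {M B : Finset Cell} (h : Win k M B) (hk : k ≤ k') : Win k' M B := by
  induction h generalizing k' with
  | done h => exact Win.done h
  | step x hM hB _ ih =>
    obtain ⟨k'', rfl⟩ : ∃ k'', k' = k'' + 1 := ⟨k' - 1, by omega⟩
    exact Win.step x hM hB (fun y h1 h2 => ih y h1 h2 (by omega))

theorem win_translate (t : Cell) {k : ℕ} {M B : Finset Cell} (h : Win k M B) :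
    Win k (M.image (· + t)) (B.image (· + t)) := by
  induction h with
  | done h =>
    refine Win.done ?_
    obtain ⟨t0, e1, e2, h1, h2, h3⟩ := h
    refine ⟨t0 + t, e1, e2, h1, h2, ?_⟩
    rcases h3 with h3 | h3
    · refine Or.inl fun p hp => ?_
      have := h3 p hp
      rw [Finset.mem_coe] at this ⊢
      rw [Finset.mem_image]
      refine ⟨_, this, ?_⟩
      ext <;> simp <;> ring
    · refine Or.inr fun p hp => ?_
      have := h3 p hp
      rw [Finset.mem_coe] at this ⊢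
      rw [Finset.mem_image]
      refine ⟨_, this, ?_⟩
      ext <;> simp <;> ring
  | @step k M B x hM hB _ ih =>
    refine Win.step (x + t) ?_ ?_ ?_
    · rw [Finset.mem_image]
      rintro ⟨c, hc, h⟩
      exact hM ((add_right_cancel h) ▸ hc)
    · rw [Finset.mem_image]
      rintro ⟨c, hc, h⟩
      exact hB ((add_right_cancel h) ▸ hc)
    · intro y h1 h2
      have e : y = (y - t) + t := by abel
      have h1' : y - t ∉ insert x M := by
        intro hh
        apply h1
        rw [← Finset.image_insert (f := (· + t)), Finset.mem_image]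
        exact ⟨_, hh, e.symm⟩
      have h2' : y - t ∉ B := by
        intro hh
        apply h2
        rw [Finset.mem_image]
        exact ⟨_, hh, e.symm⟩
      have := ih (y - t) h1' h2'
      rw [Finset.image_insert, Finset.image_insert] at this
      simpa using this

/-- Maker to move wins within `k` moves whenever he owns `U` and Breaker owns nothing in `Z`. -/
def PWin (k : ℕ) (U Z : Set Cell) : Prop :=
  ∀ M B : Finset Cell, U ⊆ ↑M → Disjoint M B → (∀ c ∈ B, c ∉ Z) → Win k M B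

/-- Covering claim, see the header. -/
def Cov (k : ℕ) (U Zu Zi : Set Cell) : Prop :=
  ∀ (M B : Finset Cell) (y : Cell), U ⊆ ↑M → Disjoint M B → y ∉ M → (∀ c ∈ B, c ∉ Zu) → y ∉ Zi →
    Win k M (insert y B)

theorem cov_of_pwin {k : ℕ} {U Z : Set Cell} (h : PWin k U Z) : Cov k U Z Z := by
  intro M B y hU hd hy hZ hyZ
  refine h M (insert y B) hU ?_ ?_
  · rw [Finset.disjoint_insert_right]
    exact ⟨hy, hd⟩
  · intro c hc
    rcases Finset.mem_insert.1 hc with rfl | hc
    · exact hyZ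
    · exact hZ c hc

theorem pwin_play {k : ℕ} {U U' Zu Zi : Set Cell} {x : Cell} (h : Cov k U Zu Zi) (hi : Zi ⊆ U)
    (hU' : U ⊆ insert x U') : PWin (k + 1) U' (insert x Zu) := by
  intro M B hU hd hZ
  have hxB : x ∉ B := fun hx => hZ x hx (Set.mem_insert _ _)
  obtain ⟨z, hzM, hzB, hUz⟩ : ∃ z : Cell, z ∉ M ∧ z ∉ B ∧ U ⊆ ↑(insert z M) := by
    by_cases hx : x ∈ M
    · obtain ⟨z, hz⟩ := exists_free (M ∪ B)
      rw [Finset.mem_union, not_or] at hz
      refine ⟨z, hz.1, hz.2, fun c hc => ?_⟩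
      rw [Finset.mem_coe, Finset.mem_insert]
      right
      rcases hU' hc with rfl | hc
      · exact hx
      · exact hU hc
    · refine ⟨x, hx, hxB, fun c hc => ?_⟩
      rw [Finset.mem_coe, Finset.mem_insert]
      rcases hU' hc with rfl | hc
      · exact Or.inl rfl
      · exact Or.inr (hU hc)
  refine Win.step z hzM hzB fun y h1 _ => ?_
  refine h (insert z M) B y hUz ?_ h1 (fun c hc hcZ => hZ c hc (Set.mem_insert_of_mem _ hcZ)) ?_
  · rw [Finset.disjoint_insert_left]
    exact ⟨hzB, hd⟩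
  · exact fun hy => h1 (hUz (hi hy))

theorem cov_both {ka kb : ℕ} {Ua Ub Zua Zub Zia Zib : Set Cell} (ha : Cov ka Ua Zua Zia)
    (hb : Cov kb Ub Zub Zib) : Cov (max ka kb) (Ua ∪ Ub) (Zua ∪ Zub) (Zia ∩ Zib) := by
  intro M B y hU hd hy hZ hyZ
  by_cases h : y ∈ Zia
  · have h' : y ∉ Zib := fun h' => hyZ ⟨h, h'⟩
    exact win_mono_k (hb M B y (fun c hc => hU (Or.inr hc)) hd hy
      (fun c hc hcZ => hZ c hc (Or.inr hcZ)) h') (le_max_right _ _)
  · exact win_mono_k (ha M B y (fun c hc => hU (Or.inl hc)) hd hy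
      (fun c hc hcZ => hZ c hc (Or.inl hcZ)) h) (le_max_left _ _)

theorem cov_mono {k k' : ℕ} {U U' Zu Zu' Zi Zi' : Set Cell} (h : Cov k U Zu Zi) (hk : k ≤ k')
    (hU : U ⊆ U') (hZu : Zu ⊆ Zu') (hZi : Zi ⊆ Zi') : Cov k' U' Zu' Zi' := by
  intro M B y h1 h2 h3 h4 h5
  exact win_mono_k (h M B y (hU.trans h1) h2 h3 (fun c hc hcZ => h4 c hc (hZu hcZ))
    (fun hy => h5 (hZi hy))) hk

theorem cov_translate (t : Cell) {k : ℕ} {U Zu Zi : Set Cell} (h : Cov k U Zu Zi) :
    Cov k ((· + t) '' U) ((· + t) '' Zu) ((· + t) '' Zi) := by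
  intro M B y hU hd hy hZ hyZ
  have key := h (M.image (· - t)) (B.image (· - t)) (y - t) ?_ ?_ ?_ ?_ ?_
  · have := win_translate t key
    rw [Finset.image_insert, Finset.image_image, Finset.image_image] at this
    simpa [Function.comp_def] using this
  · intro c hc
    rw [Finset.mem_coe, Finset.mem_image]
    exact ⟨c + t, hU ⟨c, hc, rfl⟩, by simp⟩
  · rw [Finset.disjoint_left]
    intro c h1 h2
    obtain ⟨a, ha, rfl⟩ := Finset.mem_image.1 h1
    obtain ⟨b, hb, hab⟩ := Finset.mem_image.1 h2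
    have : b = a := sub_left_injective hab
    exact Finset.disjoint_left.1 hd ha (this ▸ hb)
  · intro h1
    obtain ⟨a, ha, hab⟩ := Finset.mem_image.1 h1
    have : a = y := sub_left_injective hab
    exact hy (this ▸ ha)
  · intro c hc hcZ
    obtain ⟨b, hb, rfl⟩ := Finset.mem_image.1 hc
    exact hZ b hb ⟨b - t, hcZ, by simp⟩
  · intro h1
    exact hyZ ⟨y - t, h1, by simp⟩


/-! ### Bit masks -/

/-- Number of columns of the strip. -/
def W : ℕ := 64

/-- The cell coded by a bit index. -/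
def cellOf (i : ℕ) : Cell := (((i % W : ℕ) : ℤ), ((i / W : ℕ) : ℤ))

theorem cellOf_injective : Function.Injective cellOf := by
  intro i j h
  simp only [cellOf, Prod.mk.injEq, Nat.cast_inj] at h
  rw [← Nat.div_add_mod i W, ← Nat.div_add_mod j W, h.1, h.2]

/-- The set of cells coded by a mask. -/
def cs (m : ℕ) : Set Cell := {c | ∃ i, m.testBit i = true ∧ cellOf i = c}

theorem mem_cs {m i : ℕ} : cellOf i ∈ cs m ↔ m.testBit i = true := by
  constructor
  · rintro ⟨j, hj, h⟩
    rwa [← cellOf_injective h]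
  · exact fun h => ⟨i, h, rfl⟩

theorem cs_zero : cs 0 = ∅ := by
  ext c
  simp [cs]

theorem cs_lor (a b : ℕ) : cs (a ||| b) = cs a ∪ cs b := by
  ext c
  constructor
  · rintro ⟨i, hi, rfl⟩
    rw [Nat.testBit_or, Bool.or_eq_true] at hi
    exact hi.imp (fun h => ⟨i, h, rfl⟩) (fun h => ⟨i, h, rfl⟩)
  · rintro (⟨i, hi, rfl⟩ | ⟨i, hi, rfl⟩)
    · exact ⟨i, by rw [Nat.testBit_or, hi, Bool.true_or], rfl⟩
    · exact ⟨i, by rw [Nat.testBit_or, hi, Bool.or_true], rfl⟩

theorem cs_land (a b : ℕ) : cs (a &&& b) = cs a ∩ cs b := by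
  ext c
  constructor
  · rintro ⟨i, hi, rfl⟩
    rw [Nat.testBit_and, Bool.and_eq_true] at hi
    exact ⟨⟨i, hi.1, rfl⟩, ⟨i, hi.2, rfl⟩⟩
  · rintro ⟨⟨i, hi, rfl⟩, hb⟩
    exact ⟨i, by rw [Nat.testBit_and, hi, mem_cs.1 hb, Bool.and_true], rfl⟩

theorem cs_subset {a b : ℕ} (h : a &&& b = a) : cs a ⊆ cs b := by
  rw [← h, cs_land]
  exact Set.inter_subset_right

theorem cs_bit (x : ℕ) : cs (1 <<< x) = {cellOf x} := by
  ext c
  constructor
  · rintro ⟨i, hi, rfl⟩
    rw [Nat.one_shiftLeft, Nat.testBit_two_pow, decide_eq_true_eq] at hi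
    rw [hi]; rfl
  · rintro rfl
    exact ⟨x, by rw [Nat.one_shiftLeft, Nat.testBit_two_pow_self], rfl⟩

/-- clear bit `x` -/
def clr (a x : ℕ) : ℕ := a ^^^ (a &&& (1 <<< x))

theorem cs_subset_insert_clr (a x : ℕ) : cs a ⊆ insert (cellOf x) (cs (clr a x)) := by
  rintro c ⟨i, hi, rfl⟩
  by_cases h : i = x
  · subst h; exact Set.mem_insert _ _
  · refine Set.mem_insert_of_mem _ ⟨i, ?_, rfl⟩
    have : (x = i) = False := by simp [Ne.symm h]
    rw [clr, Nat.testBit_xor, Nat.testBit_and, Nat.one_shiftLeft, Nat.testBit_two_pow, hi]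
    simp [this]

/-- all cells of the mask lie in columns `< w` -/
def ColsLt (w m : ℕ) : Prop := ∀ i, m.testBit i = true → i % W < w

/-- Boolean test for `ColsLt`, row by row, with fuel. -/
def colsLtB (w : ℕ) : ℕ → ℕ → Bool
  | 0, m => m == 0
  | f + 1, m => decide (m % 2 ^ W < 2 ^ w) && colsLtB w f (m / 2 ^ W)

theorem colsLt_of_colsLtB (w : ℕ) : ∀ (f m : ℕ), colsLtB w f m = true → ColsLt w m
  | 0, m, h => by
    have : m = 0 := by simpa [colsLtB] using h
    subst this
    intro i hi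
    simp at hi
  | f + 1, m, h => by
    rw [colsLtB, Bool.and_eq_true, decide_eq_true_eq] at h
    have ih := colsLt_of_colsLtB w f _ h.2
    intro i hi
    by_cases hiW : i < W
    · have h1 : (m % 2 ^ W).testBit i = true := by
        rw [Nat.testBit_mod_two_pow, hi]; simp [hiW]
      have h2 := Nat.ge_two_pow_of_testBit h1
      have h3 : 2 ^ i < 2 ^ w := lt_of_le_of_lt h2 h.1
      rw [Nat.mod_eq_of_lt hiW]
      exact (Nat.pow_lt_pow_iff_right (by norm_num)).1 h3
    · have hiW' : W ≤ i := not_lt.1 hiW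
      have h1 : (m / 2 ^ W).testBit (i - W) = true := by
        rw [Nat.testBit_div_two_pow, Nat.sub_add_cancel hiW', hi]
      have := ih _ h1
      rwa [← Nat.mod_eq_sub_mod hiW'] at this

theorem ColsLt.lor {w a b : ℕ} (ha : ColsLt w a) (hb : ColsLt w b) : ColsLt w (a ||| b) := by
  intro i hi
  rw [Nat.testBit_or, Bool.or_eq_true] at hi
  exact hi.elim (ha i) (hb i)

theorem ColsLt.of_lor_left {w a b : ℕ} (h : ColsLt w (a ||| b)) : ColsLt w a :=
  fun i hi => h i (by rw [Nat.testBit_or, hi, Bool.true_or])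

theorem ColsLt.of_lor_right {w a b : ℕ} (h : ColsLt w (a ||| b)) : ColsLt w b :=
  fun i hi => h i (by rw [Nat.testBit_or, hi, Bool.or_true])

theorem cellOf_add {i d w : ℕ} (hi : i % W < w) (hd : d % W + w ≤ W) :
    cellOf (i + d) = cellOf i + cellOf d := by
  have hW : 0 < W := by norm_num [W]
  have h1 : i % W + d % W < W := by omega
  have e1 : (i + d) % W = i % W + d % W := by
    rw [Nat.add_mod, Nat.mod_eq_of_lt h1]
  have e2 : (i + d) / W = i / W + d / W := by
    rw [Nat.add_div hW, if_neg (not_le.2 h1), add_zero]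
  simp only [cellOf, e1, e2, Prod.mk_add_mk, Nat.cast_add]

theorem cs_shiftLeft {m d w : ℕ} (hm : ColsLt w m) (hd : d % W + w ≤ W) :
    cs (m <<< d) = (· + cellOf d) '' cs m := by
  ext c
  constructor
  · rintro ⟨j, hj, rfl⟩
    rw [Nat.testBit_shiftLeft, Bool.and_eq_true, decide_eq_true_eq] at hj
    refine ⟨cellOf (j - d), ⟨j - d, hj.2, rfl⟩, ?_⟩
    show cellOf (j - d) + cellOf d = cellOf j
    rw [← cellOf_add (hm _ hj.2) hd, Nat.sub_add_cancel hj.1]
  · rintro ⟨_, ⟨i, hi, rfl⟩, rfl⟩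
    refine ⟨i + d, ?_, cellOf_add (hm _ hi) hd⟩
    rw [Nat.testBit_shiftLeft, Nat.add_sub_cancel, hi]
    simp

/-! ### Patterns, certificates, evaluation -/

/-- A pattern: masks `U`, `Zu`, `Zi`, number of moves `k` and a bound `w` for the columns used. -/
structure Pat where
  U : ℕ
  Zu : ℕ
  Zi : ℕ
  k : ℕ
  w : ℕ

/-- Validity of a pattern. -/
def Pat.Valid (p : Pat) : Prop :=
  Cov p.k (cs p.U) (cs p.Zu) (cs p.Zi) ∧ ColsLt p.w (p.U ||| p.Zu ||| p.Zi)

/-- All patterns of a table are valid. -/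
def AllValid : List Pat → Prop
  | [] => True
  | p :: l => p.Valid ∧ AllValid l

/-- Certificates. -/
inductive Cert
  | ref (i d : ℕ)
  | play (x : ℕ) (t : Cert)
  | both (a b : Cert)

/-- Result of the evaluation of a certificate. -/
structure Res where
  ok : Bool
  U : ℕ
  Zu : ℕ
  Zi : ℕ
  k : ℕ

/-- Table lookup. -/
def nth : List Pat → ℕ → Option Pat
  | [], _ => none
  | p :: _, 0 => some p
  | _ :: l, i + 1 => nth l i

theorem nth_valid : ∀ (l : List Pat) (i : ℕ) (p : Pat), AllValid l → nth l i = some p → p.Valid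
  | [], _, _, _, h => by simp [nth] at h
  | q :: _, 0, p, hv, h => by
    simp only [nth, Option.some.injEq] at h
    exact h ▸ hv.1
  | _ :: l, i + 1, p, hv, h => nth_valid l i p hv.2 h

/-- Bottom-up evaluation. -/
def eval (tbl : List Pat) : Cert → Res
  | .ref i d =>
    match nth tbl i with
    | none => ⟨false, 0, 0, 0, 0⟩
    | some p => ⟨decide (d % W + p.w ≤ W), p.U <<< d, p.Zu <<< d, p.Zi <<< d, p.k⟩
  | .play x t =>
    match eval tbl t with
    | ⟨ok, U, Zu, Zi, k⟩ =>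
      ⟨ok && (Zi &&& U == Zi), clr U x, Zu ||| 1 <<< x, Zu ||| 1 <<< x, k + 1⟩
  | .both a b =>
    match eval tbl a, eval tbl b with
    | ⟨oka, Ua, Zua, Zia, ka⟩, ⟨okb, Ub, Zub, Zib, kb⟩ =>
      ⟨oka && okb, Ua ||| Ub, Zua ||| Zub, Zia &&& Zib, max ka kb⟩

theorem eval_sound (tbl : List Pat) (hv : AllValid tbl) :
    ∀ c : Cert, (eval tbl c).ok = true →
      Cov (eval tbl c).k (cs (eval tbl c).U) (cs (eval tbl c).Zu) (cs (eval tbl c).Zi)
  | .ref i d => by
    intro h
    unfold eval at h ⊢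
    cases hn : nth tbl i with
    | none => simp [hn] at h
    | some p =>
      simp only [hn, decide_eq_true_eq] at h ⊢
      obtain ⟨h1, h2⟩ := nth_valid tbl i p hv hn
      rw [cs_shiftLeft h2.of_lor_left.of_lor_left h, cs_shiftLeft h2.of_lor_left.of_lor_right h,
        cs_shiftLeft h2.of_lor_right h]
      exact cov_translate _ h1
  | .play x t => by
    intro h
    have ih := eval_sound tbl hv t
    unfold eval at h ⊢
    revert ih h
    cases eval tbl t with
    | mk ok U Zu Zi k =>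
      intro ih h
      simp only [Bool.and_eq_true, beq_iff_eq] at h ih ⊢
      have h1 := pwin_play (x := cellOf x) (ih h.1) (cs_subset h.2) (cs_subset_insert_clr U x)
      have e : cs (Zu ||| 1 <<< x) = insert (cellOf x) (cs Zu) := by
        rw [cs_lor, cs_bit, Set.union_singleton]
      rw [e]
      exact cov_of_pwin h1
  | .both a b => by
    intro h
    have iha := eval_sound tbl hv a
    have ihb := eval_sound tbl hv b
    unfold eval at h ⊢
    revert iha ihb h
    cases eval tbl a with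
    | mk oka Ua Zua Zia ka =>
      cases eval tbl b with
      | mk okb Ub Zub Zib kb =>
        intro iha ihb h
        simp only [Bool.and_eq_true] at h iha ihb ⊢
        rw [cs_lor, cs_lor, cs_land]
        exact cov_both (iha h.1) (ihb h.2)


/-! ### Pattern lemmas and the root -/

/-- `a ⊆ b` for masks. -/
def sub (a b : ℕ) : Bool := a &&& b == a

theorem cs_subset_of_sub {a b : ℕ} (h : sub a b = true) : cs a ⊆ cs b :=
  cs_subset (by simpa [sub] using h)

/-- Check that the certificate `c` proves the pattern `p`. -/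
def checkPat (tbl : List Pat) (c : Cert) (p : Pat) : Bool :=
  match eval tbl c with
  | ⟨ok, U, Zu, Zi, k⟩ =>
    ok && sub U p.U && sub Zu p.Zu && sub Zi p.Zi && decide (k ≤ p.k) &&
      colsLtB p.w (Nat.log2 (p.U ||| p.Zu ||| p.Zi) / W + 1) (p.U ||| p.Zu ||| p.Zi)

theorem valid_of_checkPat {tbl : List Pat} (hv : AllValid tbl) {c : Cert} {p : Pat}
    (h : checkPat tbl c p = true) : p.Valid := by
  have hs := eval_sound tbl hv c
  unfold checkPat at h
  revert hs h
  cases eval tbl c with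
  | mk ok U Zu Zi k =>
    intro h hs
    simp only [Bool.and_eq_true, decide_eq_true_eq] at h hs
    obtain ⟨⟨⟨⟨⟨h1, h2⟩, h3⟩, h4⟩, h5⟩, h6⟩ := h
    exact ⟨cov_mono (hs h1) h5 (cs_subset_of_sub h2) (cs_subset_of_sub h3) (cs_subset_of_sub h4),
      colsLt_of_colsLtB _ _ _ h6⟩

/-- Check of the root certificate: Maker wins from the empty board within 21 moves. -/
def checkRoot (tbl : List Pat) : Cert → Bool
  | .play x t =>
    match eval tbl t with
    | ⟨ok, U, _, Zi, k⟩ => ok && sub Zi U && (clr U x == 0) && decide (k + 1 ≤ 21)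
  | _ => false

theorem win_of_checkRoot {tbl : List Pat} (hv : AllValid tbl) {c : Cert}
    (h : checkRoot tbl c = true) : Win 21 ∅ ∅ := by
  cases c with
  | ref i d => simp [checkRoot] at h
  | both a b => simp [checkRoot] at h
  | play x t =>
    have hs := eval_sound tbl hv t
    simp only [checkRoot, Bool.and_eq_true, decide_eq_true_eq, beq_iff_eq] at h
    obtain ⟨⟨⟨h1, h2⟩, h3⟩, h4⟩ := h
    have hp := pwin_play (x := cellOf x) (hs h1) (cs_subset_of_sub h2) (cs_subset_insert_clr _ x)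
    rw [h3, cs_zero] at hp
    exact win_mono_k (hp ∅ ∅ (Set.empty_subset _) (Finset.disjoint_empty_left _) (by simp)) h4

/-! ### The eight copies of Snaky as patterns -/

theorem mem_cs_int (m : ℕ) (c : Cell) (h0 : 0 ≤ c.1) (h1 : c.1 < 64) (h2 : 0 ≤ c.2)
    (h : m.testBit (c.1.toNat + 64 * c.2.toNat) = true) : c ∈ cs m := by
  refine ⟨_, h, ?_⟩
  obtain ⟨a, b⟩ := c
  simp only at h0 h1 h2
  obtain ⟨a, rfl⟩ := Int.eq_ofNat_of_zero_le h0
  obtain ⟨b, rfl⟩ := Int.eq_ofNat_of_zero_le h2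
  have ha : a < 64 := by exact_mod_cast h1
  simp only [cellOf, W, Int.toNat_natCast, Prod.mk.injEq, Nat.cast_inj]
  constructor
  · rw [Nat.add_mul_mod_self_left, Nat.mod_eq_of_lt ha]
  · rw [Nat.add_mul_div_left _ _ (by norm_num), Nat.div_eq_of_lt ha, zero_add]

theorem valid_of_copy {m w : ℕ} (h : ContainsCopy (cs m))
    (hw : colsLtB w (Nat.log2 m / W + 1) m = true) : Pat.Valid ⟨m, 0, 0, 0, w⟩ := by
  refine ⟨fun M B y hU _ _ _ _ => Win.done (containsCopy_mono hU h), ?_⟩
  have := colsLt_of_colsLtB _ _ _ hw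
  simpa using this

/-- mask of a list of cells -/
def maskOf : List (ℕ × ℕ) → ℕ
  | [] => 0
  | c :: l => (1 <<< (c.1 + 64 * c.2)) ||| maskOf l

def copy0 : Pat := ⟨maskOf [(0,0),(1,0),(2,0),(3,0),(3,1),(4,1)], 0, 0, 0, 5⟩
def copy1 : Pat := ⟨maskOf [(4,0),(3,0),(2,0),(1,0),(1,1),(0,1)], 0, 0, 0, 5⟩
def copy2 : Pat := ⟨maskOf [(0,1),(1,1),(2,1),(3,1),(3,0),(4,0)], 0, 0, 0, 5⟩
def copy3 : Pat := ⟨maskOf [(4,1),(3,1),(2,1),(1,1),(1,0),(0,0)], 0, 0, 0, 5⟩
def copy4 : Pat := ⟨maskOf [(0,0),(0,1),(0,2),(0,3),(1,3),(1,4)], 0, 0, 0, 2⟩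
def copy5 : Pat := ⟨maskOf [(1,0),(1,1),(1,2),(1,3),(0,3),(0,4)], 0, 0, 0, 2⟩
def copy6 : Pat := ⟨maskOf [(0,4),(0,3),(0,2),(0,1),(1,1),(1,0)], 0, 0, 0, 2⟩
def copy7 : Pat := ⟨maskOf [(1,4),(1,3),(1,2),(1,1),(0,1),(0,0)], 0, 0, 0, 2⟩

theorem forall_snaky {P : Cell → Prop} (h0 : P (0, 0)) (h1 : P (1, 0)) (h2 : P (2, 0))
    (h3 : P (3, 0)) (h4 : P (3, 1)) (h5 : P (4, 1)) : ∀ p ∈ snaky, P p := by
  intro p hp
  simp only [snaky, Finset.mem_insert, Finset.mem_singleton] at hp
  rcases hp with rfl | rfl | rfl | rfl | rfl | rfl <;> assumption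

local macro "mm" : term => `(mem_cs_int _ _ (by decide) (by decide) (by decide) (by decide))

theorem copy0_valid : copy0.Valid :=
  valid_of_copy ⟨(0, 0), 1, 1, Or.inl rfl, Or.inl rfl, Or.inl (forall_snaky mm mm mm mm mm mm)⟩
    (by decide)
theorem copy1_valid : copy1.Valid :=
  valid_of_copy ⟨(4, 0), -1, 1, Or.inr rfl, Or.inl rfl, Or.inl (forall_snaky mm mm mm mm mm mm)⟩
    (by decide)
theorem copy2_valid : copy2.Valid :=
  valid_of_copy ⟨(0, 1), 1, -1, Or.inl rfl, Or.inr rfl, Or.inl (forall_snaky mm mm mm mm mm mm)⟩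
    (by decide)
theorem copy3_valid : copy3.Valid :=
  valid_of_copy ⟨(4, 1), -1, -1, Or.inr rfl, Or.inr rfl, Or.inl (forall_snaky mm mm mm mm mm mm)⟩
    (by decide)
theorem copy4_valid : copy4.Valid :=
  valid_of_copy ⟨(0, 0), 1, 1, Or.inl rfl, Or.inl rfl, Or.inr (forall_snaky mm mm mm mm mm mm)⟩
    (by decide)
theorem copy5_valid : copy5.Valid :=
  valid_of_copy ⟨(1, 0), -1, 1, Or.inr rfl, Or.inl rfl, Or.inr (forall_snaky mm mm mm mm mm mm)⟩
    (by decide)
theorem copy6_valid : copy6.Valid :=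
  valid_of_copy ⟨(0, 4), 1, -1, Or.inl rfl, Or.inr rfl, Or.inr (forall_snaky mm mm mm mm mm mm)⟩
    (by decide)
theorem copy7_valid : copy7.Valid :=
  valid_of_copy ⟨(1, 4), -1, -1, Or.inr rfl, Or.inr rfl, Or.inr (forall_snaky mm mm mm mm mm mm)⟩
    (by decide)

end Crest.Agent.Snaky.Chk
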